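/-
R183 (Lech): interface `AddLen A` = an additive `[0,∞]`-valued length on `A`-modules, and the
null-tolerant calculus of submodules (`N' ⊑ N` iff the image of `N'` in `M/N` has length zero).
helper685
-/
import Mathlib

set_option autoImplicit false

namespace Crest.Agent.R183

open scoped ENNReal

universe u v

/-- An additive length function on `A`-modules (in `Type v`). -/
structure AddLen (A : Type u) [CommRing A] where
  /-- the length -/
  L : ∀ (M : Type v) [AddCommGroup M] [Module A M], ℝ≥0∞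
  zero' : ∀ (M : Type v) [AddCommGroup M] [Module A M], Subsingleton M → L M = 0
  add' : ∀ {M N P : Type v} [AddCommGroup M] [Module A M] [AddCommGroup N] [Module A N]
    [AddCommGroup P] [Module A P] (f : M →ₗ[A] N) (g : N →ₗ[A] P), Function.Injective f →
    Function.Surjective g → Function.Exact f g → L N = L M + L P

namespace AddLen

variable {A : Type u} [CommRing A] (Λ : AddLen.{u, v} A)

section basic

variable {M N P : Type v} [AddCommGroup M] [Module A M] [AddCommGroup N] [Module A N]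
  [AddCommGroup P] [Module A P]

lemma L_subsingleton [Subsingleton M] : Λ.L M = 0 := Λ.zero' M inferInstance

lemma L_eq_add_quotient (N : Submodule A M) : Λ.L M = Λ.L N + Λ.L (M ⧸ N) :=
  Λ.add' N.subtype N.mkQ N.subtype_injective N.mkQ_surjective (LinearMap.exact_subtype_mkQ N)

lemma L_congr (e : M ≃ₗ[A] N) : Λ.L M = Λ.L N := by
  have h := Λ.add' (e : M →ₗ[A] N) (0 : N →ₗ[A] PUnit.{v+1}) e.injective
    (fun _ => ⟨0, Subsingleton.elim _ _⟩) (fun y => ⟨fun _ => ⟨e.symm y, by simp⟩, fun _ => rfl⟩)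
  rw [h, Λ.L_subsingleton (M := PUnit.{v+1}), add_zero]

lemma L_le_of_injective (f : M →ₗ[A] N) (hf : Function.Injective f) : Λ.L M ≤ Λ.L N := by
  have h := Λ.add' f (LinearMap.range f).mkQ hf (Submodule.mkQ_surjective _)
    (LinearMap.exact_map_mkQ_range f)
  rw [h]; exact le_self_add

lemma L_le_of_surjective (f : M →ₗ[A] N) (hf : Function.Surjective f) : Λ.L N ≤ Λ.L M := by
  have h := Λ.add' (LinearMap.ker f).subtype f (Submodule.subtype_injective _) hf
    (LinearMap.exact_subtype_ker_map f)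
  rw [h]; exact le_add_self

lemma L_submodule_le (N : Submodule A M) : Λ.L N ≤ Λ.L M :=
  Λ.L_le_of_injective N.subtype N.subtype_injective

lemma L_quotient_le (N : Submodule A M) : Λ.L (M ⧸ N) ≤ Λ.L M :=
  Λ.L_le_of_surjective N.mkQ N.mkQ_surjective

lemma L_ker_add_range (f : M →ₗ[A] N) :
    Λ.L M = Λ.L (LinearMap.ker f) + Λ.L (LinearMap.range f) :=
  Λ.add' (LinearMap.ker f).subtype f.rangeRestrict (Submodule.subtype_injective _)
    f.surjective_rangeRestrict (by
      intro x
      rw [← LinearMap.mem_ker, LinearMap.ker_rangeRestrict]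
      simp)

lemma L_prod : Λ.L (M × N) = Λ.L M + Λ.L N :=
  Λ.add' (LinearMap.inl A M N) (LinearMap.snd A M N) LinearMap.inl_injective
    LinearMap.snd_surjective (by
      intro x
      constructor
      · intro h
        exact ⟨x.1, Prod.ext rfl (by simpa using h.symm)⟩
      · rintro ⟨y, rfl⟩; simp)

/-- exactness in the middle only -/
lemma L_le_add_of_exact (f : M →ₗ[A] N) (g : N →ₗ[A] P) (h : Function.Exact f g) :
    Λ.L N ≤ Λ.L M + Λ.L P := by
  rw [Λ.L_ker_add_range g, LinearMap.exact_iff.1 h]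
  exact add_le_add (Λ.L_le_of_surjective f.rangeRestrict f.surjective_rangeRestrict)
    (Λ.L_submodule_le _)

lemma null_of_exact (f : M →ₗ[A] N) (g : N →ₗ[A] P) (h : Function.Exact f g)
    (hM : Λ.L M = 0) (hP : Λ.L P = 0) : Λ.L N = 0 := by
  have := Λ.L_le_add_of_exact f g h
  rw [hM, hP, add_zero] at this
  exact le_antisymm this zero_le

lemma L_finset_pi (n : ℕ) : Λ.L (Fin n → M) = n * Λ.L M := by
  induction n with
  | zero => rw [Λ.L_subsingleton]; simp
  | succ n ih =>
    rw [Λ.L_congr (Fin.consLinearEquiv A (fun _ : Fin (n + 1) => M)).symm, Λ.L_prod]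
    rw [ih]
    push_cast
    ring

lemma L_pi_const (ι : Type) [Fintype ι] : Λ.L (ι → M) = Fintype.card ι * Λ.L M := by
  rw [Λ.L_congr (LinearEquiv.funCongrLeft A M (Fintype.equivFin ι).symm), Λ.L_finset_pi]

end basic

section rel

variable {M N P : Type v} [AddCommGroup M] [Module A M] [AddCommGroup N] [Module A N]
  [AddCommGroup P] [Module A P]

/-- `N' ⊑ N` (up to null): the image of `N'` in `M/N` has length zero. -/
def le0 (N' N : Submodule A M) : Prop := Λ.L (N'.map N.mkQ) = 0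

lemma le0_of_le {N' N : Submodule A M} (h : N' ≤ N) : Λ.le0 N' N := by
  unfold le0
  have : N'.map N.mkQ = ⊥ := by
    rw [eq_bot_iff, Submodule.map_le_iff_le_comap]
    intro x hx
    rw [Submodule.mem_comap, Submodule.mem_bot, Submodule.mkQ_apply, Submodule.Quotient.mk_eq_zero]
    exact h hx
  rw [this]
  exact Λ.L_subsingleton

lemma le0_refl (N : Submodule A M) : Λ.le0 N N := Λ.le0_of_le le_rfl

/-- general criterion. -/
lemma null_of_map_le (f : M →ₗ[A] N) (S : Submodule A M) (hS : Λ.L S = 0) (T : Submodule A N)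
    (h : T ≤ S.map f) : Λ.L T = 0 := by
  have h1 : Λ.L (S.map f) ≤ Λ.L S :=
    Λ.L_le_of_surjective (f.submoduleMap S) (f.submoduleMap_surjective S)
  have h2 : Λ.L T ≤ Λ.L (S.map f) :=
    Λ.L_le_of_injective (Submodule.inclusion h) (Submodule.inclusion_injective h)
  exact le_antisymm (h2.trans (h1.trans hS.le)) zero_le

lemma null_of_comap (f : M →ₗ[A] N) (hf : Function.Injective f) (S : Submodule A M)
    (T : Submodule A N) (hT : Λ.L T = 0) (h : S ≤ T.comap f) : Λ.L S = 0 := by
  have h1 : Λ.L S ≤ Λ.L T := by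
    refine Λ.L_le_of_injective (f.restrict (p := S) (q := T) (fun x hx => h hx)) ?_
    intro x y hxy
    have := congrArg Subtype.val hxy
    exact Subtype.ext (hf this)
  exact le_antisymm (h1.trans hT.le) zero_le

lemma null_sup {S T : Submodule A M} (hS : Λ.L S = 0) (hT : Λ.L T = 0) :
    Λ.L (S ⊔ T : Submodule A M) = 0 := by
  have h := Λ.L_prod (M := S) (N := T)
  rw [hS, hT, add_zero] at h
  have h2 : Λ.L (S ⊔ T : Submodule A M) ≤ Λ.L (S × T) := by
    have h3 : LinearMap.range (S.subtype.coprod T.subtype) = S ⊔ T := by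
      rw [LinearMap.range_coprod, Submodule.range_subtype, Submodule.range_subtype]
    rw [← h3]
    exact Λ.L_le_of_surjective _ (LinearMap.surjective_rangeRestrict _)
  exact le_antisymm (h2.trans h.le) zero_le

lemma le0_mono {S S' T T' : Submodule A M} (h : Λ.le0 S T) (hS : S' ≤ S) (hT : T ≤ T') :
    Λ.le0 S' T' := by
  unfold le0 at h ⊢
  refine Λ.null_of_map_le (Submodule.factor hT) _ h _ ?_
  rw [← Submodule.map_comp, Submodule.factor_comp_mk]
  exact Submodule.map_mono hS

lemma le0_map (f : M →ₗ[A] N) {S T : Submodule A M} (h : Λ.le0 S T) :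
    Λ.le0 (S.map f) (T.map f) := by
  unfold le0 at h ⊢
  refine Λ.null_of_map_le (Submodule.mapQ T (T.map f) f (Submodule.le_comap_map _ _)) _ h _ ?_
  rw [← Submodule.map_comp, ← Submodule.map_comp, Submodule.mapQ_mkQ]

lemma le0_comap (f : M →ₗ[A] N) {S T : Submodule A N} (h : Λ.le0 S T) :
    Λ.le0 (S.comap f) (T.comap f) := by
  unfold le0 at h ⊢
  refine Λ.null_of_comap (Submodule.mapQ (T.comap f) T f le_rfl) ?_ _ _ h ?_
  · rw [← LinearMap.ker_eq_bot, Submodule.ker_mapQ]
    simp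
  · rw [← Submodule.map_le_iff_le_comap, ← Submodule.map_comp, Submodule.mapQ_mkQ,
      Submodule.map_comp]
    exact Submodule.map_mono (Submodule.map_comap_le _ _)

lemma le0_trans {S T U : Submodule A M} (h : Λ.le0 S T) (h' : Λ.le0 T U) : Λ.le0 S U := by
  unfold le0 at h h' ⊢
  -- the image of `S` in `M/U`, its quotient by `(T+U)/U`
  set S' := S.map U.mkQ with hS'
  set T' := T.map U.mkQ with hT'
  -- `S' → M/(T+U)`
  have h1 : Λ.L ((S.map (T ⊔ U).mkQ)) = 0 :=
    Λ.le0_mono (S := S) (T := T) h le_rfl le_sup_left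
  let g : S' →ₗ[A] M ⧸ (T ⊔ U) := (Submodule.factor (le_sup_right : U ≤ T ⊔ U)).comp S'.subtype
  have hg : LinearMap.range g ≤ S.map (T ⊔ U).mkQ := by
    rintro _ ⟨⟨x, s, hs, rfl⟩, rfl⟩
    exact ⟨s, hs, rfl⟩
  have hk : Λ.L (LinearMap.ker g) = 0 := by
    refine Λ.null_of_comap (S'.subtype) S'.subtype_injective _ _ h' ?_
    intro x hx
    rw [LinearMap.mem_ker] at hx
    obtain ⟨⟨_, s, hs, rfl⟩, hx'⟩ : ∃ y : S', y = x := ⟨x, rfl⟩
    subst hx'
    change (T ⊔ U).mkQ s = 0 at hx
    rw [← LinearMap.mem_ker, Submodule.ker_mkQ, Submodule.mem_sup] at hx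
    obtain ⟨t, ht, w, hw, hs'⟩ := hx
    change U.mkQ s ∈ T.map U.mkQ
    refine ⟨t, ht, ?_⟩
    rw [← hs', map_add, show U.mkQ w = 0 from by rwa [← LinearMap.mem_ker, Submodule.ker_mkQ],
      add_zero]
  rw [Λ.L_ker_add_range g, hk, zero_add]
  exact le_antisymm ((Λ.L_le_of_injective (Submodule.inclusion hg)
    (Submodule.inclusion_injective hg)).trans h1.le) zero_le

lemma le0_sup_right {S T : Submodule A M} (U : Submodule A M) (h : Λ.le0 S T) :
    Λ.le0 (S ⊔ U) (T ⊔ U) := by
  unfold le0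
  rw [Submodule.map_sup]
  refine Λ.null_sup ?_ ?_
  · exact Λ.le0_mono h le_rfl le_sup_left
  · exact Λ.le0_of_le le_sup_right

lemma le0_sup {S S' T : Submodule A M} (h : Λ.le0 S T) (h' : Λ.le0 S' T) :
    Λ.le0 (S ⊔ S') T := by
  unfold le0
  rw [Submodule.map_sup]
  exact Λ.null_sup h h'

lemma le0_inf_left {S T : Submodule A M} (U : Submodule A M) (h : Λ.le0 S T) :
    Λ.le0 (U ⊓ S) (U ⊓ T) := by
  have h1 := Λ.le0_map U.subtype (Λ.le0_comap U.subtype h)
  rwa [Submodule.map_comap_subtype, Submodule.map_comap_subtype] at h1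

lemma le0_inf {S T T' : Submodule A M} (h : Λ.le0 S T) (h' : Λ.le0 S T') :
    Λ.le0 S (T ⊓ T') := by
  have h1 := Λ.le0_inf_left S h'
  have h2 := Λ.le0_inf_left T' h
  rw [inf_idem] at h1
  refine Λ.le0_trans h1 ?_
  rw [inf_comm S T', inf_comm T T']
  exact h2

lemma le0_finset_sup {ι : Type*} (s : Finset ι) (S : ι → Submodule A M) {T : Submodule A M}
    (h : ∀ i ∈ s, Λ.le0 (S i) T) : Λ.le0 (s.sup S) T := by
  classical
  induction s using Finset.induction_on with
  | empty => rw [Finset.sup_empty]; exact Λ.le0_of_le bot_le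
  | insert a s ha ih =>
    rw [Finset.sup_insert]
    exact Λ.le0_sup (h a (Finset.mem_insert_self a s))
      (ih fun i hi => h i (Finset.mem_insert_of_mem hi))

lemma le0_iSup {ι : Type*} [Finite ι] (S : ι → Submodule A M) {T : Submodule A M}
    (h : ∀ i, Λ.le0 (S i) T) : Λ.le0 (⨆ i, S i) T := by
  have := Fintype.ofFinite ι
  rw [← Finset.sup_univ_eq_iSup]
  exact Λ.le0_finset_sup _ _ fun i _ => h i

lemma le0_bot {S : Submodule A M} : Λ.le0 S ⊥ ↔ Λ.L S = 0 := by
  unfold le0
  have e : S ≃ₗ[A] S.map (⊥ : Submodule A M).mkQ :=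
    Submodule.equivMapOfInjective _ (by rw [← LinearMap.ker_eq_bot, Submodule.ker_mkQ]) S
  rw [Λ.L_congr e]

lemma le0_top {T : Submodule A M} : Λ.le0 ⊤ T ↔ Λ.L (M ⧸ T) = 0 := by
  unfold le0
  rw [Submodule.map_top, Submodule.range_mkQ]
  rw [Λ.L_congr (Submodule.topEquiv (R := A) (M := M ⧸ T))]

/-- a surjection `M → N` with kernel `⊑ T` : lengths. -/
lemma L_quotient_eq_of_le0 {S T : Submodule A M} (hST : T ≤ S) (h : Λ.le0 S T) :
    Λ.L (M ⧸ S) = Λ.L (M ⧸ T) := by
  have h1 := Λ.L_eq_add_quotient (S.map T.mkQ)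
  unfold le0 at h
  rw [h, zero_add] at h1
  rw [h1]
  exact (Λ.L_congr (Submodule.quotientQuotientEquivQuotient T S hST)).symm

lemma L_quotient_add (S T : Submodule A M) (hST : T ≤ S) :
    Λ.L (M ⧸ T) = Λ.L (S.map T.mkQ) + Λ.L (M ⧸ S) := by
  rw [Λ.L_eq_add_quotient (S.map T.mkQ)]
  rw [Λ.L_congr (Submodule.quotientQuotientEquivQuotient T S hST)]

end rel

end AddLen

end Crest.Agent.R183
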