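/-
R183 (Lech): instances of `AddLen`: ordinary length, helper529's normalised length, restriction of
scalars, scaling.   helper685
-/
import Mathlib
import Crest.Agent.R183.AddLen
import Crest.Agent.R183.Lam

set_option autoImplicit false

namespace Crest.Agent.R183

open scoped ENNReal

universe u v

namespace AddLen

/-- the ordinary length. -/
noncomputable def ofLength (A : Type u) [CommRing A] : AddLen.{u, v} A where
  L := fun M _ _ => ((Module.length A M : ℕ∞) : ℝ≥0∞)
  zero' := fun M _ _ h => by rw [Module.length_eq_zero_iff.2 h]; simp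
  add' := fun f g hf hg h => by
    rw [Module.length_eq_add_of_exact f g hf hg h, ENat.toENNReal_add]

@[simp] lemma ofLength_L (A : Type u) [CommRing A] (M : Type v) [AddCommGroup M] [Module A M] :
    (ofLength A).L M = ((Module.length A M : ℕ∞) : ℝ≥0∞) := rfl

/-- helper529's normalised length. -/
noncomputable def ofTower {A : Type u} [CommRing A] (T : Lam.Tower A) : AddLen.{u, v} A where
  L := fun M _ _ => T.lam M
  zero' := fun M _ _ h => by
    refine le_antisymm (iSup_le fun E => (T.lamSet_le 0 _).trans ?_) zero_le
    unfold Lam.Tower.a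
    rw [Module.length_eq_zero_iff.2 inferInstance]
    simp
  add' := fun f g hf hg h => T.lam_eq_add_of_exact f g hf hg h

@[simp] lemma ofTower_L {A : Type u} [CommRing A] (T : Lam.Tower A) (M : Type v) [AddCommGroup M]
    [Module A M] : (ofTower T).L M = T.lam M := rfl

/-- restriction of scalars along `A → B`. -/
noncomputable def restrict {A : Type u} [CommRing A] (Λ : AddLen.{u, v} A) {B : Type*} [CommRing B]
    (f : A →+* B) : AddLen B where
  L := fun M _ _ => @AddLen.L A _ Λ M _ (Module.compHom M f)
  zero' := fun M _ _ h => @AddLen.zero' A _ Λ M _ (Module.compHom M f) h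
  add' := fun {M N P} _ _ _ _ _ _ g h hg hh e => by
    let _ : Module A M := Module.compHom M f
    let _ : Module A N := Module.compHom N f
    let _ : Module A P := Module.compHom P f
    let g' : M →ₗ[A] N := { toFun := g, map_add' := g.map_add, map_smul' := fun a x => g.map_smul (f a) x }
    let h' : N →ₗ[A] P := { toFun := h, map_add' := h.map_add, map_smul' := fun a x => h.map_smul (f a) x }
    exact Λ.add' g' h' hg hh e

/-- `restrict`, when the `A`-module structure is already there. -/
lemma restrict_L {A : Type u} [CommRing A] (Λ : AddLen.{u, v} A) {B : Type*} [CommRing B]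
    (f : A →+* B) (M : Type v) [AddCommGroup M] [Module B M] [inst : Module A M]
    (h : ∀ (a : A) (x : M), a • x = f a • x) : (Λ.restrict f).L M = Λ.L M := by
  have : inst = Module.compHom M f := by
    refine Module.ext' _ _ fun a x => ?_
    exact h a x
  change @AddLen.L A _ Λ M _ (Module.compHom M f) = _
  rw [this]

/-- scaling by a constant. -/
noncomputable def smul {A : Type u} [CommRing A] (c : ℝ≥0∞) (Λ : AddLen.{u, v} A) : AddLen A where
  L := fun M _ _ => c * Λ.L M
  zero' := fun M _ _ h => by rw [Λ.zero' M h, mul_zero]
  add' := fun f g hf hg h => by rw [Λ.add' f g hf hg h, mul_add]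

@[simp] lemma smul_L {A : Type u} [CommRing A] (c : ℝ≥0∞) (Λ : AddLen.{u, v} A) (M : Type v)
    [AddCommGroup M] [Module A M] : (Λ.smul c).L M = c * Λ.L M := rfl

/-- sum of two lengths. -/
noncomputable def sum {A : Type u} [CommRing A] (Λ Λ' : AddLen.{u, v} A) : AddLen A where
  L := fun M _ _ => Λ.L M + Λ'.L M
  zero' := fun M _ _ h => by rw [Λ.zero' M h, Λ'.zero' M h, add_zero]
  add' := fun f g hf hg h => by
    rw [Λ.add' f g hf hg h, Λ'.add' f g hf hg h, add_add_add_comm]

end AddLen

end Crest.Agent.R183
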