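import Mathlib

/-!
R183 / Amp1 : the elementary Witt vector core of the amplifier (block (I) of #5858, see #6201).

`E = p u - [π]` with `u` a unit of `W(P)`.  Over a perfect local domain `D` of characteristic `p`
with `0 ≠ π ∈ m_D` no element `p ^ k * w` with `w₀` a unit lies in `E W(D)`.
-/

set_option autoImplicit false

namespace Crest.Agent.R183.Amp

open WittVector

variable {p : ℕ} [hp : Fact p.Prime]

/-- the distinguished element `p u - [π]`. -/
noncomputable def xi {P : Type*} [CommRing P] (u : WittVector p P) (π : P) : WittVector p P :=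
  (p : WittVector p P) * u - teichmuller p π

lemma map_xi {P Q : Type*} [CommRing P] [CommRing Q] (f : P →+* Q) (u : WittVector p P) (π : P) :
    WittVector.map f (xi u π) = xi (WittVector.map f u) (f π) := by
  simp [xi]

section Core

variable {D : Type*} [CommRing D] [CharP D p]

lemma constCoeff_p : constantCoeff (p : WittVector p D) = 0 := by
  rw [map_natCast]; exact CharP.cast_eq_zero D p

lemma constCoeff_xi (u : WittVector p D) (π : D) : constantCoeff (xi u π) = -π := by
  have h : constantCoeff (teichmuller p π) = π := by simp [constantCoeff]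
  rw [xi, map_sub, map_mul, constCoeff_p, h]; ring

variable [PerfectRing D p]

lemma dvd_p_of_coeff_zero {b : WittVector p D} (h : constantCoeff b = 0) :
    ∃ b', b = (p : WittVector p D) * b' := by
  have := (mem_span_p_iff_coeff_zero_eq_zero b).2 h
  rwa [Ideal.mem_span_singleton, dvd_def] at this

lemma p_cancel {a b : WittVector p D} (h : (p : WittVector p D) * a = p * b) : a = b := by
  have : (a - b) * p = 0 := by
    rw [sub_mul, mul_comm a, mul_comm b, h, sub_self]
  exact sub_eq_zero.1 (eq_zero_of_p_mul_eq_zero _ this)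

variable [IsDomain D]

lemma core1 {u : WittVector p D} {π : D} (hπ : π ≠ 0) {a b : WittVector p D}
    (h : (p : WittVector p D) * a = xi u π * b) : ∃ b', a = xi u π * b' := by
  have h0 := congrArg constantCoeff h
  rw [map_mul, map_mul, constCoeff_p, constCoeff_xi, zero_mul] at h0
  have hb : constantCoeff b = 0 := by
    rcases mul_eq_zero.1 h0.symm with h1 | h1
    · exact absurd (neg_eq_zero.1 h1) hπ
    · exact h1
  obtain ⟨b', rfl⟩ := dvd_p_of_coeff_zero hb
  refine ⟨b', p_cancel ?_⟩
  rw [h]; ring

lemma core2 {u : WittVector p D} {π : D} (hπ : π ≠ 0) (k : ℕ) {a b : WittVector p D}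
    (h : (p : WittVector p D) ^ k * a = xi u π * b) : ∃ b', a = xi u π * b' := by
  induction k generalizing b with
  | zero => exact ⟨b, by simpa using h⟩
  | succ k ih =>
    have h' : (p : WittVector p D) * (p ^ k * a) = xi u π * b := by
      rw [← h]; ring
    obtain ⟨b', hb'⟩ := core1 hπ h'
    exact ih hb'

variable [IsLocalRing D]

open IsLocalRing in
/-- the basic contradiction -/
lemma core3 {u : WittVector p D} {π : D} (hπ : π ≠ 0) (hπm : π ∈ maximalIdeal D) (k : ℕ)
    {w b : WittVector p D} (hw : IsUnit (constantCoeff w))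
    (h : (p : WittVector p D) ^ k * w = xi u π * b) : False := by
  obtain ⟨b', hb'⟩ := core2 hπ k h
  have h0 := congrArg constantCoeff hb'
  rw [map_mul, constCoeff_xi] at h0
  have : constantCoeff w ∈ maximalIdeal D := by
    rw [h0]; exact Ideal.mul_mem_right _ _ (neg_mem hπm)
  exact (IsLocalRing.mem_maximalIdeal _).1 this hw

open IsLocalRing in
/-- if `y ≠ 0` and `π ^ M ∈ y m_D`, then `[y] ^ n * w ∉ E W(D)` for `w₀` a unit. -/
lemma core4 {u : WittVector p D} {π y s : D} (hu : IsUnit u) (hy : y ≠ 0) {M : ℕ}
    (hs : s ∈ maximalIdeal D) (hM : π ^ M = s * y) (n : ℕ)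
    {w b : WittVector p D} (hw : IsUnit (constantCoeff w))
    (h : (teichmuller p y) ^ n * w = xi u π * b) : False := by
  by_cases hπ : π = 0
  · subst hπ
    have h0 := congrArg constantCoeff h
    rw [map_mul, map_mul, map_pow, constCoeff_xi, neg_zero, zero_mul] at h0
    have h1 : constantCoeff (teichmuller p y) = y := by simp [constantCoeff]
    rw [h1] at h0
    rcases mul_eq_zero.1 h0 with h2 | h2
    · exact pow_ne_zero n hy h2
    · rw [h2] at hw; exact not_isUnit_zero hw
  · have hπm : π ∈ maximalIdeal D := by
      have : π ^ M ∈ maximalIdeal D := by rw [hM]; exact Ideal.mul_mem_right _ _ hs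
      exact Ideal.IsPrime.mem_of_pow_mem inferInstance M this
    -- `[π] ^ (M n) w ∈ E`
    have h1 : (teichmuller p π) ^ (M * n) * w = xi u π * (b * (teichmuller p s) ^ n) := by
      have : (teichmuller p π) ^ (M * n) = (teichmuller p s) ^ n * (teichmuller p y) ^ n := by
        rw [pow_mul, ← map_pow, hM, map_mul, mul_pow]
      rw [this]
      calc (teichmuller p s) ^ n * (teichmuller p y) ^ n * w
          = (teichmuller p s) ^ n * ((teichmuller p y) ^ n * w) := by ring
        _ = _ := by rw [h]; ring
    -- replace `[π]` by `p u`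
    have h2 : ∃ c, ((p : WittVector p D) * u) ^ (M * n) - (teichmuller p π) ^ (M * n)
        = xi u π * c := by
      obtain ⟨c, hc⟩ := sub_dvd_pow_sub_pow ((p : WittVector p D) * u) (teichmuller p π) (M * n)
      exact ⟨c, hc⟩
    obtain ⟨c, hc⟩ := h2
    have h3 : (p : WittVector p D) ^ (M * n) * (u ^ (M * n) * w)
        = xi u π * (b * (teichmuller p s) ^ n + c * w) := by
      have : (p : WittVector p D) ^ (M * n) * (u ^ (M * n) * w)
          = (((p : WittVector p D) * u) ^ (M * n) - (teichmuller p π) ^ (M * n)) * w
            + (teichmuller p π) ^ (M * n) * w := by ring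
      rw [this, hc, h1]; ring
    refine core3 hπ hπm (M * n) (w := u ^ (M * n) * w) ?_ h3
    rw [map_mul, map_pow]
    exact ((hu.map constantCoeff).pow _).mul hw

end Core

end Crest.Agent.R183.Amp
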