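import Mathlib

/-!
R183 / Amp2 : valuative criterion for integrality over an ideal, in an arbitrary commutative ring.

If `x` is not integral over `J` (no `x ^ (n+1) ∈ J (J + x) ^ n`) there are an algebraically closed
field `K`, a valuation subring `V` and a ring map `φ : P → V` with `φ x ≠ 0` and
`φ z ∈ m_V φ x` for all `z ∈ J`.
-/

set_option autoImplicit false

namespace Crest.Agent.R183.Amp

universe u

open IsLocalRing

/-- `x` is integral over the ideal `J`. -/
def IntOver {P : Type*} [CommRing P] (J : Ideal P) (x : P) : Prop :=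
  ∃ n : ℕ, x ^ (n + 1) ∈ J * (J ⊔ Ideal.span {x}) ^ n

/-- push a proper ideal of a commutative ring, containing the kernel of a map to a field, into a
valuation subring. -/
lemma exists_valuation {A : Type u} [CommRing A] {K : Type u} [Field K] (f : A →+* K)
    (M : Ideal A) (hM : M.IsMaximal) (hker : RingHom.ker f ≤ M) :
    ∃ (V : ValuationSubring K) (hV : ∀ a, f a ∈ V),
      ∀ a ∈ M, (⟨f a, hV a⟩ : V) ∈ maximalIdeal V := by
  -- image ideal in the range
  have hsurj : Function.Surjective f.rangeRestrict := f.rangeRestrict_surjective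
  have hI : (M.map f.rangeRestrict) ≠ ⊤ := by
    intro h
    have hk : RingHom.ker f.rangeRestrict ≤ M := by
      intro a ha
      apply hker
      rw [RingHom.mem_ker] at ha ⊢
      have := congrArg Subtype.val ha
      simpa using this
    have h1 : Ideal.comap f.rangeRestrict (M.map f.rangeRestrict) = M := by
      rw [Ideal.comap_map_of_surjective _ hsurj]
      rw [sup_eq_left]
      exact hk
    rw [h, Ideal.comap_top] at h1
    exact hM.ne_top h1.symm
  obtain ⟨V, hV, hV2⟩ := Ideal.image_subset_nonunits_valuationSubring _ hI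
  refine ⟨V, fun a => hV ⟨a, rfl⟩, ?_⟩
  intro a ha
  have hmem : (f a) ∈ (V.nonunits : Set K) := by
    apply hV2
    exact ⟨f.rangeRestrict a, Ideal.mem_map_of_mem _ ha, rfl⟩
  rw [← V.image_maximalIdeal] at hmem
  obtain ⟨b, hb, hb2⟩ := hmem
  have : (⟨f a, hV ⟨a, rfl⟩⟩ : V) = b := Subtype.ext hb2.symm
  rw [this]; exact hb

section Crit

variable {P : Type u} [CommRing P] (J : Ideal P) (x : P)

local notation "Px" => Localization.Away x
local notation "al" => algebraMap P (Localization.Away x)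

/-- the affine blow-up algebra `P[J/x]` inside `P_x`. -/
def blowA : Subring (Localization.Away x) where
  carrier := {y | ∃ n : ℕ, ∃ a ∈ (J ⊔ Ideal.span {x}) ^ n, y * (al x) ^ n = al a}
  zero_mem' := ⟨0, 0, zero_mem _, by simp⟩
  one_mem' := ⟨0, 1, by simp, by simp⟩
  add_mem' := by
    rintro y z ⟨n, a, ha, hy⟩ ⟨m, b, hb, hz⟩
    have hx : x ∈ J ⊔ Ideal.span {x} := Ideal.mem_sup_right (Ideal.mem_span_singleton_self x)
    refine ⟨n + m, a * x ^ m + b * x ^ n, ?_, ?_⟩
    · refine add_mem ?_ ?_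
      · rw [pow_add]; exact Ideal.mul_mem_mul ha (Ideal.pow_mem_pow hx m)
      · rw [add_comm, pow_add]; exact Ideal.mul_mem_mul hb (Ideal.pow_mem_pow hx n)
    · rw [map_add, map_mul, map_mul, map_pow, map_pow, ← hy, ← hz]; ring
  mul_mem' := by
    rintro y z ⟨n, a, ha, hy⟩ ⟨m, b, hb, hz⟩
    refine ⟨n + m, a * b, ?_, ?_⟩
    · rw [pow_add]; exact Ideal.mul_mem_mul ha hb
    · rw [map_mul, ← hy, ← hz]; ring
  neg_mem' := by
    rintro y ⟨n, a, ha, hy⟩
    exact ⟨n, -a, neg_mem ha, by rw [map_neg, ← hy]; ring⟩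

/-- the ideal `(J/x)` of `P[J/x]`. -/
def blowI : Ideal (blowA J x) where
  carrier := {y | ∃ n : ℕ, ∃ a ∈ J * (J ⊔ Ideal.span {x}) ^ n,
    (y : Localization.Away x) * (al x) ^ (n + 1) = al a}
  zero_mem' := ⟨0, 0, zero_mem _, by simp⟩
  add_mem' := by
    rintro y z ⟨n, a, ha, hy⟩ ⟨m, b, hb, hz⟩
    have hx : x ∈ J ⊔ Ideal.span {x} := Ideal.mem_sup_right (Ideal.mem_span_singleton_self x)
    refine ⟨n + m + 1, a * x ^ (m + 1) + b * x ^ (n + 1), ?_, ?_⟩
    · refine add_mem ?_ ?_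
      · rw [add_assoc, pow_add, ← mul_assoc]
        exact Ideal.mul_mem_mul ha (Ideal.pow_mem_pow hx (m + 1))
      · rw [show n + m + 1 = m + (n + 1) by ring, pow_add, ← mul_assoc]
        exact Ideal.mul_mem_mul hb (Ideal.pow_mem_pow hx (n + 1))
    · rw [map_add, map_mul, map_mul, map_pow, map_pow, ← hy, ← hz]
      push_cast
      ring
  smul_mem' := by
    rintro c y ⟨n, a, ha, hy⟩
    obtain ⟨m, b, hb, hz⟩ := c.2
    refine ⟨m + n, b * a, ?_, ?_⟩
    · rw [pow_add, mul_left_comm]; exact Ideal.mul_mem_mul hb ha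
    · rw [map_mul, ← hy, ← hz, smul_eq_mul, Subring.coe_mul]
      ring

lemma blowI_ne_top (h : ¬ IntOver J x) : blowI J x ≠ ⊤ := by
  intro htop
  have h1 : (1 : blowA J x) ∈ blowI J x := by rw [htop]; trivial
  obtain ⟨n, a, ha, he⟩ := h1
  rw [Subring.coe_one, one_mul, ← map_pow] at he
  obtain ⟨⟨_, k, rfl⟩, hk⟩ := (IsLocalization.eq_iff_exists (Submonoid.powers x) Px).1 he
  apply h
  have hx : x ∈ J ⊔ Ideal.span {x} := Ideal.mem_sup_right (Ideal.mem_span_singleton_self x)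
  refine ⟨n + k, ?_⟩
  have h2 : x ^ (n + k + 1) = x ^ k * a := by
    rw [← hk]; simp only; ring
  rw [h2, pow_add, ← mul_assoc, mul_comm (x ^ k)]
  exact Ideal.mul_mem_mul ha (Ideal.pow_mem_pow hx k)

/-- the inclusion `P → P[J/x]`. -/
def toBlow : P →+* blowA J x :=
  (al).codRestrict (blowA J x) (fun a => ⟨0, a, by simp, by simp⟩)

lemma toBlow_x_nzd : toBlow J x x ∈ nonZeroDivisors (blowA J x) := by
  rw [mem_nonZeroDivisors_iff_right]
  intro b hb
  have h1 : (b : Localization.Away x) * al x = 0 := by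
    exact congrArg Subtype.val hb
  have hu : IsUnit (al x) := IsLocalization.Away.algebraMap_isUnit x
  apply Subtype.ext
  exact (hu.mul_left_eq_zero).1 h1

lemma div_mem {z : P} (hz : z ∈ J) :
    ∃ w : blowA J x, w ∈ blowI J x ∧ toBlow J x z = w * toBlow J x x := by
  have hu : IsUnit (al x) := IsLocalization.Away.algebraMap_isUnit x
  obtain ⟨v, hv⟩ := hu.exists_left_inv
  have hw : (al z * v) ∈ blowA J x := by
    refine ⟨1, z, by rw [pow_one]; exact Ideal.mem_sup_left hz, ?_⟩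
    rw [pow_one, mul_assoc, hv, mul_one]
  refine ⟨⟨al z * v, hw⟩, ⟨0, z, by simpa using hz, ?_⟩, ?_⟩
  · simp only [zero_add, pow_one]
    rw [mul_assoc, hv, mul_one]
  · apply Subtype.ext
    show al z = al z * v * al x
    rw [mul_assoc, hv, mul_one]

/-- **valuative criterion**. -/
theorem exists_valuation_of_not_intOver (h : ¬ IntOver J x) :
    ∃ (K : Type u) (_ : Field K) (_ : IsAlgClosed K) (V : ValuationSubring K) (φ : P →+* V),
      φ x ≠ 0 ∧ ∀ z ∈ J, ∃ s ∈ maximalIdeal V, φ z = s * φ x := by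
  obtain ⟨M, hM, hle⟩ := Ideal.exists_le_maximal _ (blowI_ne_top J x h)
  have := hM.isPrime
  obtain ⟨𝔮, h𝔮, h𝔮M⟩ := Ideal.exists_minimalPrimes_le (I := (⊥ : Ideal (blowA J x))) (J := M) bot_le
  have : 𝔮.IsPrime := h𝔮.1.1
  have hx𝔮 : toBlow J x x ∉ 𝔮 := by
    intro hx
    exact Set.disjoint_left.mp (Ideal.disjoint_nonZeroDivisors_of_mem_minimalPrimes h𝔮) hx
      (toBlow_x_nzd J x)
  let K := AlgebraicClosure (FractionRing (blowA J x ⧸ 𝔮))
  let f : blowA J x →+* K := ((algebraMap (FractionRing (blowA J x ⧸ 𝔮)) K).comp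
    (algebraMap (blowA J x ⧸ 𝔮) (FractionRing (blowA J x ⧸ 𝔮)))).comp (Ideal.Quotient.mk 𝔮)
  have hfinj : Function.Injective ((algebraMap (FractionRing (blowA J x ⧸ 𝔮)) K).comp
      (algebraMap (blowA J x ⧸ 𝔮) (FractionRing (blowA J x ⧸ 𝔮)))) := by
    rw [RingHom.coe_comp]
    exact (RingHom.injective _).comp (IsFractionRing.injective _ _)
  have hker : RingHom.ker f = 𝔮 := by
    ext a
    rw [RingHom.mem_ker]
    show ((algebraMap (FractionRing (blowA J x ⧸ 𝔮)) K).comp
      (algebraMap (blowA J x ⧸ 𝔮) (FractionRing (blowA J x ⧸ 𝔮)))) (Ideal.Quotient.mk 𝔮 a) = 0 ↔ _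
    rw [map_eq_zero_iff _ hfinj, Ideal.Quotient.eq_zero_iff_mem]
  obtain ⟨V, hV, hV2⟩ := exists_valuation f M hM (by rw [hker]; exact h𝔮M)
  let φ : P →+* V := (f.comp (toBlow J x)).codRestrict V.toSubring (fun a => hV _)
  refine ⟨K, inferInstance, inferInstance, V, φ, ?_, ?_⟩
  · intro h0
    apply hx𝔮
    rw [← hker, RingHom.mem_ker]
    exact congrArg Subtype.val h0
  · intro z hz
    obtain ⟨w, hw, hw2⟩ := div_mem J x hz
    refine ⟨⟨f w, hV w⟩, hV2 w (hle hw), ?_⟩
    apply Subtype.ext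
    show f (toBlow J x z) = f w * f (toBlow J x x)
    rw [hw2, map_mul]

end Crit

/-- the version for primes: a prime `𝔮` and an element of a maximal ideal above it. -/
theorem exists_valuation_of_prime {P : Type u} [CommRing P] (𝔮 : Ideal P) [𝔮.IsPrime] :
    ∃ (K : Type u) (_ : Field K) (_ : IsAlgClosed K) (V : ValuationSubring K) (φ : P →+* V),
      RingHom.ker φ = 𝔮 ∧ ∀ π ∈ Ideal.jacobson (⊥ : Ideal P), φ π ∈ maximalIdeal V := by
  obtain ⟨M, hM, hle⟩ := Ideal.exists_le_maximal 𝔮 (Ideal.IsPrime.ne_top inferInstance)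
  let K := AlgebraicClosure (FractionRing (P ⧸ 𝔮))
  let f : P →+* K := ((algebraMap (FractionRing (P ⧸ 𝔮)) K).comp
    (algebraMap (P ⧸ 𝔮) (FractionRing (P ⧸ 𝔮)))).comp (Ideal.Quotient.mk 𝔮)
  have hfinj : Function.Injective ((algebraMap (FractionRing (P ⧸ 𝔮)) K).comp
      (algebraMap (P ⧸ 𝔮) (FractionRing (P ⧸ 𝔮)))) := by
    rw [RingHom.coe_comp]
    exact (RingHom.injective _).comp (IsFractionRing.injective _ _)
  have hker : RingHom.ker f = 𝔮 := by
    ext a
    rw [RingHom.mem_ker]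
    show ((algebraMap (FractionRing (P ⧸ 𝔮)) K).comp
      (algebraMap (P ⧸ 𝔮) (FractionRing (P ⧸ 𝔮)))) (Ideal.Quotient.mk 𝔮 a) = 0 ↔ _
    rw [map_eq_zero_iff _ hfinj, Ideal.Quotient.eq_zero_iff_mem]
  obtain ⟨V, hV, hV2⟩ := exists_valuation f M hM (by rw [hker]; exact hle)
  let φ : P →+* V := f.codRestrict V.toSubring (fun a => hV _)
  refine ⟨K, inferInstance, inferInstance, V, φ, ?_, ?_⟩
  · refine Eq.trans ?_ hker
    ext a
    rw [RingHom.mem_ker, RingHom.mem_ker]
    constructor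
    · intro h0; exact congrArg Subtype.val h0
    · intro h0; exact Subtype.ext h0
  · intro π hπ
    exact hV2 π (Ideal.mem_sInf.1 hπ ⟨bot_le, hM⟩)

end Crest.Agent.R183.Amp
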