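import Mathlib
import Crest.Agent.R183.Amp1
import Crest.Agent.R183.Amp2

/-!
R183 / Amp3 : Lemma A (integrality is transferred from `Omega = W(P)/(p u - [π])` to the perfect
ring `P`) and Lemma A' (`π` is in the radical of `(z)`).
-/

set_option autoImplicit false

namespace Crest.Agent.R183.Amp

universe u

open IsLocalRing WittVector

variable {p : ℕ} [hp : Fact p.Prime]

/-- A valuation subring of an algebraically closed field of characteristic `p` is perfect. -/
lemma perfect_valuationSubring {K : Type u} [Field K] [IsAlgClosed K] (V : ValuationSubring K)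
    [CharP V p] : PerfectRing V p := by
  refine PerfectRing.ofSurjective V p ?_
  intro a
  obtain ⟨b, hb⟩ := IsAlgClosed.exists_pow_nat_eq (a : K) hp.out.pos
  have hbV : b ∈ V := by
    rw [← V.valuation_le_one_iff]
    have h1 : V.valuation b ^ p ≤ 1 := by
      rw [← map_pow, hb, V.valuation_le_one_iff]; exact a.2
    by_contra hcon
    exact absurd h1 (not_le.2 (one_lt_pow₀ (not_le.1 hcon) hp.out.ne_zero))
  refine ⟨⟨b, hbV⟩, ?_⟩
  apply Subtype.ext
  rw [frobenius_def]
  push_cast
  exact hb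

lemma charP_of_hom {P : Type*} [CommRing P] [CharP P p] {V : Type*} [CommRing V] [Nontrivial V]
    (φ : P →+* V) : CharP V p := by
  rw [CharP.charP_iff_prime_eq_zero hp.out]
  have := congrArg φ (CharP.cast_eq_zero P p)
  rw [map_natCast, map_zero] at this
  exact this

/-- Lemma A. -/
theorem lemmaA {P : Type u} [CommRing P] [CharP P p] {ι κ : Type*} [Finite ι]
    (x : ι → P) (z : κ → P) (u : WittVector p P) (hu : IsUnit u) (π : P) (M : ℕ)
    (hM : π ^ M ∈ Ideal.span (Set.range z)) (c : ℕ)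
    (H : Ideal.span (Set.range fun i => teichmuller p (x i)) ^ (c + 1) ≤
      Ideal.span (Set.range fun i => teichmuller p (z i)) *
        Ideal.span (Set.range fun i => teichmuller p (x i)) ^ c ⊔ Ideal.span {xi u π})
    (j : ι) : IntOver (Ideal.span (Set.range z)) (x j) := by
  by_contra hcon
  obtain ⟨K, _, _, V, φ, hx, hz⟩ := exists_valuation_of_not_intOver _ _ hcon
  have hVp : CharP V p := charP_of_hom φ
  have hPerf : PerfectRing V p := perfect_valuationSubring V
  have : Nonempty ι := ⟨j⟩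
  obtain ⟨j0, hj0⟩ := Finite.exists_max (fun i => V.valuation (φ (x i) : K))
  set y : V := φ (x j0) with hy
  have hy0 : y ≠ 0 := by
    intro h0
    have h1 := hj0 j
    have h2 : V.valuation ((φ (x j0) : V) : K) = 0 := by
      rw [← hy, h0]; simp
    rw [h2, le_zero_iff, map_eq_zero] at h1
    exact hx (Subtype.ext h1)
  have hy0K : ((y : V) : K) ≠ 0 := fun h => hy0 (Subtype.ext h)
  have ht : ∀ i, ∃ t : V, φ (x i) = t * y := by
    intro i
    have h1 : V.valuation (((φ (x i) : V) : K) / ((y : V) : K)) ≤ 1 := by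
      rw [map_div₀]
      exact div_le_one_of_le₀ (hj0 i) zero_le
    rw [V.valuation_le_one_iff] at h1
    refine ⟨⟨_, h1⟩, ?_⟩
    apply Subtype.ext
    show ((φ (x i) : V) : K) = ((φ (x i) : V) : K) / ((y : V) : K) * ((y : V) : K)
    rw [div_mul_cancel₀ _ hy0K]
  have hz' : ∀ a ∈ Ideal.span (Set.range z), ∃ s ∈ maximalIdeal V, φ a = s * y := by
    intro a ha
    obtain ⟨s, hs, hsa⟩ := hz a ha
    obtain ⟨t, ht'⟩ := ht j
    exact ⟨s * t, Ideal.mul_mem_right _ _ hs, by rw [hsa, ht']; ring⟩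
  -- now in the Witt vectors of `V`
  set Φ : WittVector p P →+* WittVector p V := WittVector.map φ with hΦ
  set 𝔟 : Ideal (WittVector p V) := (maximalIdeal V).comap constantCoeff with h𝔟
  have hJ : Ideal.map Φ (Ideal.span (Set.range fun i => teichmuller p (z i)))
      ≤ Ideal.span {teichmuller p y} * 𝔟 := by
    rw [Ideal.map_span, Ideal.span_le]
    rintro _ ⟨_, ⟨i, rfl⟩, rfl⟩
    obtain ⟨s, hs, hsa⟩ := hz' (z i) (Ideal.subset_span ⟨i, rfl⟩)
    show Φ (teichmuller p (z i)) ∈ _
    have h0 : Φ (teichmuller p (z i)) = teichmuller p y * teichmuller p s := by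
      rw [hΦ, map_teichmuller, hsa, map_mul, mul_comm]
    rw [h0]
    refine Ideal.mul_mem_mul (Ideal.mem_span_singleton_self _) ?_
    rw [h𝔟, Ideal.mem_comap]
    have : constantCoeff (teichmuller p s) = s := by simp [constantCoeff]
    rw [this]; exact hs
  have hX : Ideal.map Φ (Ideal.span (Set.range fun i => teichmuller p (x i)))
      ≤ Ideal.span {teichmuller p y} := by
    rw [Ideal.map_span, Ideal.span_le]
    rintro _ ⟨_, ⟨i, rfl⟩, rfl⟩
    obtain ⟨t, ht'⟩ := ht i
    show Φ (teichmuller p (x i)) ∈ Ideal.span {teichmuller p y}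
    rw [hΦ, map_teichmuller, ht', map_mul]
    exact Ideal.mul_mem_left _ _ (Ideal.mem_span_singleton_self _)
  have hmem : (teichmuller p y) ^ (c + 1) ∈
      Ideal.span {teichmuller p y} * 𝔟 * Ideal.span {teichmuller p y} ^ c ⊔
        Ideal.span {xi (Φ u) (φ π)} := by
    have h1 : (teichmuller p y) ^ (c + 1) ∈ Ideal.map Φ
        (Ideal.span (Set.range fun i => teichmuller p (x i)) ^ (c + 1)) := by
      have : (teichmuller p y) ^ (c + 1) = Φ (teichmuller p (x j0) ^ (c + 1)) := by
        rw [map_pow, hΦ, map_teichmuller, hy]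
      rw [this]
      exact Ideal.mem_map_of_mem _ (Ideal.pow_mem_pow
        (Ideal.subset_span (Set.mem_range_self (f := fun i => teichmuller p (x i)) j0)) _)
    have h2 := Ideal.map_mono (f := Φ) H h1
    rw [Ideal.map_sup, Ideal.map_mul, Ideal.map_pow, Ideal.map_span Φ {xi u π},
      Set.image_singleton] at h2
    have h3 : Φ (xi u π) = xi (Φ u) (φ π) := map_xi φ u π
    rw [h3] at h2
    exact sup_le_sup (Ideal.mul_mono hJ (Ideal.pow_right_mono hX c)) le_rfl h2
  obtain ⟨b', hb', e, he, hsum⟩ := Submodule.mem_sup.1 hmem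
  have hb'' : b' ∈ Ideal.span {teichmuller p y ^ (c + 1)} * 𝔟 := by
    have : Ideal.span {teichmuller p y} * 𝔟 * Ideal.span {teichmuller p y} ^ c
        = Ideal.span {teichmuller p y ^ (c + 1)} * 𝔟 := by
      rw [mul_comm (Ideal.span {teichmuller p y} * 𝔟), ← mul_assoc, ← pow_succ,
        Ideal.span_singleton_pow]
    rwa [this] at hb'
  obtain ⟨b, hb, rfl⟩ := Ideal.mem_span_singleton_mul.1 hb''
  obtain ⟨r, rfl⟩ := Ideal.mem_span_singleton'.1 he
  obtain ⟨s, hs, hsM⟩ := hz' _ hM
  rw [map_pow] at hsM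
  refine core4 (u := Φ u) (π := φ π) (y := y) (s := s) (hu.map Φ) hy0 hs hsM (c + 1)
    (w := 1 - b) (b := r) ?_ ?_
  · rw [map_sub, map_one]
    have hb0 : constantCoeff b ∈ maximalIdeal V := hb
    by_contra hnu
    have h1 : (1 : V) - constantCoeff b ∈ maximalIdeal V := (mem_maximalIdeal _).2 hnu
    have h2 : (1 : V) ∈ maximalIdeal V := by
      have h3 := add_mem h1 hb0
      rwa [sub_add_cancel] at h3
    exact (mem_maximalIdeal _).1 h2 isUnit_one
  · linear_combination (-1 : WittVector p V) * hsum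

/-- Lemma A'. -/
theorem lemmaA' {P : Type u} [CommRing P] [CharP P p] {κ : Type*}
    (z : κ → P) (u : WittVector p P) (π : P) (hπ : π ∈ Ideal.jacobson (⊥ : Ideal P)) (M : ℕ)
    (H : (p : WittVector p P) ^ M ∈
      Ideal.span (Set.range fun i => teichmuller p (z i)) ⊔ Ideal.span {xi u π}) :
    ∃ N : ℕ, π ^ N ∈ Ideal.span (Set.range z) := by
  by_contra! hcon
  have h1 : π ∉ (Ideal.span (Set.range z)).radical := by
    rintro ⟨n, hn⟩; exact hcon n hn
  rw [Ideal.radical_eq_sInf, Ideal.mem_sInf] at h1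
  push Not at h1
  obtain ⟨𝔮, ⟨hle, hprime⟩, hπ𝔮⟩ := h1
  have := hprime
  obtain ⟨K, _, _, V, φ, hker, hjac⟩ := exists_valuation_of_prime 𝔮
  have hVp : CharP V p := charP_of_hom φ
  have hPerf : PerfectRing V p := perfect_valuationSubring V
  have hφz : ∀ i, φ (z i) = 0 := by
    intro i
    have : z i ∈ RingHom.ker φ := by rw [hker]; exact hle (Ideal.subset_span ⟨i, rfl⟩)
    exact this
  have hφπ : φ π ≠ 0 := by
    intro h0
    exact hπ𝔮 (by rw [← hker]; exact h0)
  have h2 := Ideal.mem_map_of_mem (WittVector.map φ) H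
  rw [Ideal.map_sup, Ideal.map_span, Ideal.map_span, Set.image_singleton, map_pow, map_natCast,
    map_xi] at h2
  have h3 : Ideal.span ((WittVector.map φ) '' (Set.range fun i => teichmuller p (z i))) = ⊥ := by
    rw [Ideal.span_eq_bot]
    rintro _ ⟨_, ⟨i, rfl⟩, rfl⟩
    rw [map_teichmuller, hφz, teichmuller_zero]
  rw [h3, bot_sup_eq, Ideal.mem_span_singleton'] at h2
  obtain ⟨r, hr⟩ := h2
  refine core3 (u := WittVector.map φ u) (π := φ π) hφπ (hjac π hπ) M (w := 1) (b := r) ?_ ?_
  · rw [map_one]; exact isUnit_one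
  · rw [mul_one, ← hr]; ring

end Crest.Agent.R183.Amp
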