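import Mathlib
import Crest.Agent.R183.Amp3

/-!
R183 / Amp4 : Lemma B (integral over `(z)` implies membership in `(z^{1/q})^{q-n}`), Lemma C
(Teichmueller lifts of elements of `(ζ)^N`), and the assembled amplifier.
-/

set_option autoImplicit false

namespace Crest.Agent.R183.Amp

universe u

open IsLocalRing WittVector

/-! ### powers of an ideal and an element integral over it -/

lemma pow_succ_le {P : Type*} [CommRing P] (J : Ideal P) (x : P) (k : ℕ) :
    (J ⊔ Ideal.span {x}) ^ (k + 1) ≤ J * (J ⊔ Ideal.span {x}) ^ k ⊔ Ideal.span {x ^ (k + 1)} := by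
  induction k with
  | zero => simp
  | succ k ih =>
    have hx : Ideal.span {x} ≤ J ⊔ Ideal.span {x} := le_sup_right
    rw [pow_succ (J ⊔ Ideal.span {x}) (k + 1)]
    calc (J ⊔ Ideal.span {x}) ^ (k + 1) * (J ⊔ Ideal.span {x})
        = (J ⊔ Ideal.span {x}) ^ (k + 1) * J ⊔ (J ⊔ Ideal.span {x}) ^ (k + 1) * Ideal.span {x} :=
          Ideal.mul_sup _ _ _
      _ ≤ J * (J ⊔ Ideal.span {x}) ^ (k + 1) ⊔ Ideal.span {x ^ (k + 1 + 1)} := by
          refine sup_le ?_ ?_
          · rw [mul_comm]; exact le_sup_left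
          · calc (J ⊔ Ideal.span {x}) ^ (k + 1) * Ideal.span {x}
                ≤ (J * (J ⊔ Ideal.span {x}) ^ k ⊔ Ideal.span {x ^ (k + 1)}) * Ideal.span {x} :=
                  Ideal.mul_mono_left ih
              _ = J * (J ⊔ Ideal.span {x}) ^ k * Ideal.span {x} ⊔
                    Ideal.span {x ^ (k + 1)} * Ideal.span {x} := Ideal.sup_mul _ _ _
              _ ≤ _ := by
                  refine sup_le ?_ ?_
                  · refine le_trans ?_ le_sup_left
                    rw [mul_assoc]
                    refine Ideal.mul_mono_right ?_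
                    rw [pow_succ]
                    exact Ideal.mul_mono_right hx
                  · refine le_trans ?_ le_sup_right
                    rw [Ideal.span_singleton_mul_span_singleton, ← pow_succ]

/-- Lemma B1 -/
lemma IntOver.pow_mem {P : Type*} [CommRing P] {J : Ideal P} {x : P} (h : IntOver J x) :
    ∃ n : ℕ, ∀ N : ℕ, x ^ (n + N) ∈ J ^ N := by
  obtain ⟨n, hn⟩ := h
  have h1 : (J ⊔ Ideal.span {x}) ^ (n + 1) ≤ J * (J ⊔ Ideal.span {x}) ^ n := by
    refine (pow_succ_le J x n).trans (sup_le le_rfl ?_)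
    rw [Ideal.span_singleton_le_iff_mem]; exact hn
  have h2 : ∀ N : ℕ, (J ⊔ Ideal.span {x}) ^ (n + N) ≤ J ^ N * (J ⊔ Ideal.span {x}) ^ n := by
    intro N
    induction N with
    | zero => simp
    | succ N ih =>
      calc (J ⊔ Ideal.span {x}) ^ (n + (N + 1))
          = (J ⊔ Ideal.span {x}) ^ (n + N) * (J ⊔ Ideal.span {x}) := by rw [← add_assoc, pow_succ]
        _ ≤ J ^ N * (J ⊔ Ideal.span {x}) ^ n * (J ⊔ Ideal.span {x}) := Ideal.mul_mono_left ih
        _ = J ^ N * (J ⊔ Ideal.span {x}) ^ (n + 1) := by rw [mul_assoc, ← pow_succ]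
        _ ≤ J ^ N * (J * (J ⊔ Ideal.span {x}) ^ n) := Ideal.mul_mono_right h1
        _ = J ^ (N + 1) * (J ⊔ Ideal.span {x}) ^ n := by rw [pow_succ, mul_assoc]
  refine ⟨n, fun N => ?_⟩
  have hx : x ∈ J ⊔ Ideal.span {x} := Ideal.mem_sup_right (Ideal.mem_span_singleton_self x)
  exact Ideal.mul_le_left (h2 N (Ideal.pow_mem_pow hx _))

/-! ### pigeonhole for powers -/

/-- powers of a sum of two ideals. -/
lemma sup_pow_le {R : Type*} [CommRing R] (A B C : Ideal R) (n : ℕ)
    (h : ∀ i j, i + j = n → A ^ i * B ^ j ≤ C) : (A ⊔ B) ^ n ≤ C := by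
  rw [← Submodule.add_eq_sup, add_pow]
  refine Finset.sum_induction _ (fun I => I ≤ C) (fun I J hI hJ => sup_le hI hJ) bot_le ?_
  intro i hi
  refine le_trans Ideal.mul_le_left (h i (n - i) ?_)
  have := Finset.mem_range.1 hi
  omega

lemma span_pow_le_aux {R : Type*} [CommRing R] {κ : Type*} (t : κ → R) (q : ℕ) (hq : 0 < q)
    (s : Finset κ) (m : ℕ) :
    Ideal.span (t '' (s : Set κ)) ^ (q * (m + s.card)) ≤
      Ideal.span ((fun i => t i ^ q) '' (s : Set κ)) ^ m := by
  classical
  induction s using Finset.induction_on generalizing m with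
  | empty =>
    simp only [Finset.coe_empty, Set.image_empty, Ideal.span_empty, Finset.card_empty, add_zero]
    rcases Nat.eq_zero_or_pos m with rfl | hm
    · simp
    · rw [← Ideal.zero_eq_bot, zero_pow (by positivity)]; exact bot_le
  | insert a s ha ih =>
    rw [Finset.coe_insert, Set.image_insert_eq, Set.image_insert_eq, Ideal.span_insert,
      Ideal.span_insert, Finset.card_insert_of_notMem ha]
    refine sup_pow_le _ _ _ _ ?_
    intro i j hij
    have hi : Ideal.span {t a} ^ i ≤ Ideal.span {t a ^ q} ^ (i / q) := by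
      rw [Ideal.span_singleton_pow, Ideal.span_singleton_pow, Ideal.span_singleton_le_span_singleton,
        ← pow_mul]
      exact pow_dvd_pow _ (Nat.mul_div_le i q)
    have hj : Ideal.span (t '' (s : Set κ)) ^ j ≤
        Ideal.span ((fun i => t i ^ q) '' (s : Set κ)) ^ (j / q - s.card) := by
      rcases le_or_gt s.card (j / q) with hle | hlt
      · refine le_trans (Ideal.pow_le_pow_right ?_) (ih (j / q - s.card))
        rw [Nat.sub_add_cancel hle]
        exact Nat.mul_div_le j q
      · rw [Nat.sub_eq_zero_of_le hlt.le, pow_zero, Ideal.one_eq_top]; exact le_top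
    have hsum : m ≤ i / q + (j / q - s.card) := by
      have h1 : (i + j) / q = m + (s.card + 1) := by
        rw [hij, Nat.mul_div_cancel_left _ hq]
      have h2 : (i + j) / q ≤ i / q + j / q + 1 := by
        rw [Nat.div_le_iff_le_mul_add_pred hq]
        have e1 := Nat.div_add_mod i q
        have e2 := Nat.div_add_mod j q
        have e3 := Nat.mod_lt i hq
        have e4 := Nat.mod_lt j hq
        have e5 : q * (i / q + j / q + 1) = q * (i / q) + q * (j / q) + q := by ring
        omega
      omega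
    calc Ideal.span {t a} ^ i * Ideal.span (t '' (s : Set κ)) ^ j
        ≤ Ideal.span {t a ^ q} ^ (i / q) *
          Ideal.span ((fun i => t i ^ q) '' (s : Set κ)) ^ (j / q - s.card) := Ideal.mul_mono hi hj
      _ ≤ (Ideal.span {t a ^ q} ⊔ Ideal.span ((fun i => t i ^ q) '' (s : Set κ))) ^ (i / q) *
          (Ideal.span {t a ^ q} ⊔ Ideal.span ((fun i => t i ^ q) '' (s : Set κ))) ^
            (j / q - s.card) :=
          Ideal.mul_mono (Ideal.pow_right_mono le_sup_left _) (Ideal.pow_right_mono le_sup_right _)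
      _ = (Ideal.span {t a ^ q} ⊔ Ideal.span ((fun i => t i ^ q) '' (s : Set κ))) ^
            (i / q + (j / q - s.card)) := (pow_add _ _ _).symm
      _ ≤ _ := Ideal.pow_le_pow_right hsum

/-- `(t)^{qN} ⊆ (t^q)^{N-d}` for a family of `d` elements (in the form `N = m + d`). -/
lemma span_pow_le {R : Type*} [CommRing R] {κ : Type*} [Fintype κ] (t : κ → R) (q : ℕ)
    (hq : 0 < q) (m : ℕ) :
    Ideal.span (Set.range t) ^ (q * (m + Fintype.card κ)) ≤
      Ideal.span (Set.range fun i => t i ^ q) ^ m := by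
  have := span_pow_le_aux t q hq Finset.univ m
  simpa [Finset.card_univ] using this

/-! ### roots -/

section Roots

variable {p : ℕ} [hp : Fact p.Prime] {P : Type u} [CommRing P] [CharP P p] [PerfectRing P p]

/-- the `p^e`-th root automorphism. -/
noncomputable def rt (e : ℕ) : P ≃+* P := (iterateFrobeniusEquiv P p e).symm

lemma rt_pow (e : ℕ) (a : P) : (rt (p := p) e a) ^ p ^ e = a := by
  have := (iterateFrobeniusEquiv P p e).apply_symm_apply a
  rwa [iterateFrobeniusEquiv_def] at this

lemma rt_of_pow (e : ℕ) (a : P) : rt (p := p) e (a ^ p ^ e) = a := by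
  have := (iterateFrobeniusEquiv P p e).symm_apply_apply a
  rwa [iterateFrobeniusEquiv_def] at this

lemma map_rt_span (e : ℕ) {κ : Type*} (z : κ → P) (m : ℕ) {a : P}
    (h : a ∈ Ideal.span (Set.range z) ^ m) :
    rt (p := p) e a ∈ Ideal.span (Set.range fun i => rt (p := p) e (z i)) ^ m := by
  have := Ideal.mem_map_of_mem ((rt (p := p) e : P ≃+* P) : P →+* P) h
  rw [Ideal.map_pow, Ideal.map_span, ← Set.range_comp] at this
  exact this

/-- Lemma B. -/
lemma IntOver.root_mem {κ : Type*} {z : κ → P} {x : P} (h : IntOver (Ideal.span (Set.range z)) x) :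
    ∃ n : ℕ, ∀ e N : ℕ, n + N ≤ p ^ e →
      x ∈ Ideal.span (Set.range fun i => rt (p := p) e (z i)) ^ N := by
  obtain ⟨n, hn⟩ := h.pow_mem
  refine ⟨n, fun e N hN => ?_⟩
  have h1 : x ^ p ^ e ∈ Ideal.span (Set.range z) ^ N := by
    have := hn (p ^ e - n)
    rw [Nat.add_sub_cancel' (by omega)] at this
    exact Ideal.pow_le_pow_right (by omega) this
  have := map_rt_span (p := p) e z N h1
  rwa [rt_of_pow] at this

/-- Lemma C. -/
lemma teich_mem {κ : Type*} [Fintype κ] (ζ : κ → P) {a : P} {N m : ℕ}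
    (hN : m + Fintype.card κ ≤ N) (ha : a ∈ Ideal.span (Set.range ζ) ^ N) (k : ℕ) :
    teichmuller p a ∈ Ideal.span (Set.range fun i => teichmuller p (ζ i)) ^ m ⊔
      Ideal.span {(p : WittVector p P) ^ (k + 1)} := by
  -- `p^k`-th root
  have ha' : rt (p := p) k a ∈ Ideal.span (Set.range fun i => rt (p := p) k (ζ i)) ^ N :=
    map_rt_span k ζ N ha
  have hsurj : Function.Surjective (constantCoeff : WittVector p P →+* P) :=
    constantCoeff_surjective p
  have hmap : Ideal.map (constantCoeff : WittVector p P →+* P)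
      (Ideal.span (Set.range fun i => teichmuller p (rt (p := p) k (ζ i))) ^ N) =
      Ideal.span (Set.range fun i => rt (p := p) k (ζ i)) ^ N := by
    rw [Ideal.map_pow, Ideal.map_span, ← Set.range_comp]
    have e1 : ((constantCoeff : WittVector p P →+* P) ∘
        fun i => teichmuller p (rt (p := p) k (ζ i))) = fun i => rt (p := p) k (ζ i) := by
      funext i
      simp [constantCoeff]
    rw [e1]
  rw [← hmap] at ha'
  obtain ⟨w, hw, hwa⟩ := (Ideal.mem_map_iff_of_surjective _ hsurj).1 ha'
  have hdvd : (p : WittVector p P) ∣ teichmuller p (rt (p := p) k a) - w := by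
    rw [← Ideal.mem_span_singleton, mem_span_p_iff_coeff_zero_eq_zero]
    show constantCoeff (teichmuller p (rt (p := p) k a) - w) = 0
    rw [map_sub, hwa]
    simp [constantCoeff]
  have hdvd2 := dvd_sub_pow_of_dvd_sub hdvd k
  rw [← map_pow, rt_pow] at hdvd2
  obtain ⟨c, hc⟩ := hdvd2
  have hw2 : w ^ p ^ k ∈ Ideal.span (Set.range fun i => teichmuller p (ζ i)) ^ m := by
    have h1 : w ^ p ^ k ∈ (Ideal.span (Set.range fun i =>
        teichmuller p (rt (p := p) k (ζ i))) ^ N) ^ p ^ k := Ideal.pow_mem_pow hw _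
    rw [← pow_mul] at h1
    have h2 : w ^ p ^ k ∈ Ideal.span (Set.range fun i =>
        teichmuller p (rt (p := p) k (ζ i))) ^ (p ^ k * (m + Fintype.card κ)) := by
      refine Ideal.pow_le_pow_right ?_ h1
      rw [mul_comm]
      exact Nat.mul_le_mul_right _ hN
    have h3 := span_pow_le _ (p ^ k) (pow_pos hp.out.pos k) m h2
    have h4 : (fun i => teichmuller p (rt (p := p) k (ζ i)) ^ p ^ k)
        = fun i => teichmuller p (ζ i) := by
      funext i
      rw [← map_pow, rt_pow]
    rwa [h4] at h3
  have : teichmuller p a = w ^ p ^ k + (p : WittVector p P) ^ (k + 1) * c := by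
    rw [← hc]; ring
  rw [this]
  exact Submodule.add_mem_sup hw2 (Ideal.mul_mem_right _ _ (Ideal.mem_span_singleton_self _))

/-- the prime `p` is in the Jacobson radical of `W(P)`. -/
lemma p_mem_jacobson : (p : WittVector p P) ∈ Ideal.jacobson (⊥ : Ideal (WittVector p P)) :=
  IsAdicComplete.le_jacobson_bot (Ideal.span {(p : WittVector p P)})
    (Ideal.mem_span_singleton_self _)

/-- **The amplifier.**  `x` a finite family of sharps generating an ideal that contains `p` modulo
`E = p u - [π]`, `(x)^{c+1} ⊆ (z)(x)^c` and `p^M ∈ (z)` modulo `E`, `π` in the Jacobson radical of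
`P`.  Then there is a constant `n` with `x_j ∈ (z^{1/q})^N` modulo `E` for all `q = p^e ≥ N + n`. -/
theorem amplifier {ι κ : Type*} [Finite ι] [Fintype κ]
    (x : ι → P) (z : κ → P) (u : WittVector p P) (hu : IsUnit u) (π : P)
    (hπ : π ∈ Ideal.jacobson (⊥ : Ideal P)) (M c : ℕ)
    (H1 : (p : WittVector p P) ^ M ∈
      Ideal.span (Set.range fun i => teichmuller p (z i)) ⊔ Ideal.span {xi u π})
    (H2 : Ideal.span (Set.range fun i => teichmuller p (x i)) ^ (c + 1) ≤
      Ideal.span (Set.range fun i => teichmuller p (z i)) *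
        Ideal.span (Set.range fun i => teichmuller p (x i)) ^ c ⊔ Ideal.span {xi u π})
    (H3 : (p : WittVector p P) ∈
      Ideal.span (Set.range fun i => teichmuller p (x i)) ⊔ Ideal.span {xi u π}) :
    ∃ n : ℕ, ∀ e N : ℕ, n + N ≤ p ^ e →
      Ideal.span (Set.range fun i => teichmuller p (x i)) ≤
        Ideal.span (Set.range fun i => teichmuller p (rt (p := p) e (z i))) ^ N ⊔
          Ideal.span {xi u π} := by
  classical
  have := Fintype.ofFinite ι
  obtain ⟨M', hM'⟩ := lemmaA' z u π hπ M H1
  have hA : ∀ j, IntOver (Ideal.span (Set.range z)) (x j) := fun j =>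
    lemmaA x z u hu π M' hM' c H2 j
  choose n hn using fun j => (hA j).root_mem (p := p)
  refine ⟨(Finset.univ.sup n) + Fintype.card κ, ?_⟩
  intro e N hN
  set 𝔷 := Ideal.span (Set.range fun i => teichmuller p (rt (p := p) e (z i))) ^ N with h𝔷
  have h1 : Ideal.span (Set.range fun i => teichmuller p (x i)) ≤
      𝔷 ⊔ Ideal.span {(p : WittVector p P) ^ 2} := by
    rw [Ideal.span_le]
    rintro _ ⟨j, rfl⟩
    have hj : x j ∈ Ideal.span (Set.range fun i => rt (p := p) e (z i)) ^
        (N + Fintype.card κ) := by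
      refine hn j e (N + Fintype.card κ) ?_
      have := Finset.le_sup (f := n) (Finset.mem_univ j)
      omega
    exact teich_mem _ le_rfl hj 1
  have h2 : (p : WittVector p P) ∈ 𝔷 ⊔ Ideal.span {xi u π} := by
    have h3 : (p : WittVector p P) ∈ (𝔷 ⊔ Ideal.span {xi u π}) ⊔
        Ideal.span {(p : WittVector p P) ^ 2} := by
      have := sup_le_sup_right h1 (Ideal.span {xi u π}) H3
      rw [sup_right_comm] at this
      exact this
    obtain ⟨a, ha, b, hb, hab⟩ := Submodule.mem_sup.1 h3
    obtain ⟨r, rfl⟩ := Ideal.mem_span_singleton'.1 hb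
    have hun : IsUnit (1 - (p : WittVector p P) * r) := by
      have := Ideal.mem_jacobson_bot.1 (p_mem_jacobson (p := p) (P := P)) (-r)
      have e1 : (p : WittVector p P) * -r + 1 = 1 - p * r := by ring
      rwa [e1] at this
    obtain ⟨v, hv⟩ := hun
    have h4 : (p : WittVector p P) * v = a := by
      rw [hv]
      have : (p : WittVector p P) = a + r * (p : WittVector p P) ^ 2 := hab.symm
      linear_combination this
    have h5 : (p : WittVector p P) = a * (v⁻¹ : (WittVector p P)ˣ) := by
      rw [← h4, mul_assoc, Units.mul_inv, mul_one]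
    rw [h5]
    exact Ideal.mul_mem_right _ _ ha
  refine h1.trans (sup_le le_sup_left ?_)
  rw [Ideal.span_singleton_le_iff_mem, sq]
  exact Ideal.mul_mem_left _ _ h2

end Roots

end Crest.Agent.R183.Amp
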