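import Mathlib
import Crest.Agent.R183.Amp4

/-!
R183 / Amp5 : the amplifier read in `Omega`, for a surjection `θ : W(P) → Omega` with kernel
generated by `p u - [π]`.  `♯ a = θ [a]`.
-/

set_option autoImplicit false

namespace Crest.Agent.R183.Amp

universe u

open WittVector

section

variable {p : ℕ} [hp : Fact p.Prime] {P : Type u} [CommRing P] [CharP P p] [PerfectRing P p]

omit [CharP P p] [PerfectRing P p] in
lemma span_theta {Ω : Type*} [CommRing Ω] (θ : WittVector p P →+* Ω) {ι : Type*} (y : ι → P) :
    Ideal.span (Set.range fun i => θ (teichmuller p (y i))) =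
      Ideal.map θ (Ideal.span (Set.range fun i => teichmuller p (y i))) := by
  rw [Ideal.map_span, ← Set.range_comp]
  rfl

/-- The amplifier in `Omega`: `x` a finite family of sharps with `p ∈ (x♯)`, `(x♯)^{c+1} ⊆ (z♯)(x♯)^c`
and `p^M ∈ (z♯)`.  Then there is `n` with `(x♯) ⊆ (♯(z^{1/q}))^N` whenever `n + N ≤ q = p^e`. -/
theorem amplifier_omega {Ω : Type*} [CommRing Ω] (θ : WittVector p P →+* Ω)
    (hθ : Function.Surjective θ) (u : WittVector p P) (hu : IsUnit u) (π : P)
    (hker : RingHom.ker θ = Ideal.span {xi u π})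
    (hπ : π ∈ Ideal.jacobson (⊥ : Ideal P))
    {ι κ : Type*} [Finite ι] [Fintype κ] (x : ι → P) (z : κ → P) (M c : ℕ)
    (H1 : (p : Ω) ^ M ∈ Ideal.span (Set.range fun i => θ (teichmuller p (z i))))
    (H2 : Ideal.span (Set.range fun i => θ (teichmuller p (x i))) ^ (c + 1) ≤
      Ideal.span (Set.range fun i => θ (teichmuller p (z i))) *
        Ideal.span (Set.range fun i => θ (teichmuller p (x i))) ^ c)
    (H3 : (p : Ω) ∈ Ideal.span (Set.range fun i => θ (teichmuller p (x i)))) :
    ∃ n : ℕ, ∀ e N : ℕ, n + N ≤ p ^ e →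
      Ideal.span (Set.range fun i => θ (teichmuller p (x i))) ≤
        Ideal.span (Set.range fun i => θ (teichmuller p (rt (p := p) e (z i)))) ^ N := by
  -- pull back
  have key : ∀ I J : Ideal (WittVector p P), Ideal.map θ I ≤ Ideal.map θ J →
      I ≤ J ⊔ Ideal.span {xi u π} := by
    intro I J h
    have h1 : I ≤ Ideal.comap θ (Ideal.map θ J) := (Ideal.le_comap_map).trans (Ideal.comap_mono h)
    rw [Ideal.comap_map_of_surjective _ hθ] at h1
    have h2 : Ideal.comap θ ⊥ = Ideal.span {xi u π} := by rw [← hker]; rfl
    rwa [h2] at h1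
  have hx := span_theta θ x
  have hz := span_theta θ z
  obtain ⟨n, hn⟩ := amplifier x z u hu π hπ M c
    (by
      have := key (Ideal.span {(p : WittVector p P) ^ M})
        (Ideal.span (Set.range fun i => teichmuller p (z i)))
        (by
          rw [← hz, Ideal.map_span, Set.image_singleton, Ideal.span_singleton_le_iff_mem, map_pow,
            map_natCast]
          exact H1)
      exact this (Ideal.mem_span_singleton_self _))
    (by
      refine key _ _ ?_
      rw [Ideal.map_pow, Ideal.map_mul, Ideal.map_pow, ← hx, ← hz]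
      exact H2)
    (by
      have := key (Ideal.span {(p : WittVector p P)})
        (Ideal.span (Set.range fun i => teichmuller p (x i)))
        (by
          rw [← hx, Ideal.map_span, Set.image_singleton, Ideal.span_singleton_le_iff_mem,
            map_natCast]
          exact H3)
      exact this (Ideal.mem_span_singleton_self _))
  refine ⟨n, fun e N hN => ?_⟩
  have h1 := Ideal.map_mono (f := θ) (hn e N hN)
  rw [Ideal.map_sup, Ideal.map_pow] at h1
  have h2 : Ideal.map θ (Ideal.span {xi u π}) = ⊥ := by
    rw [Ideal.map_span, Set.image_singleton]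
    have : xi u π ∈ RingHom.ker θ := by rw [hker]; exact Ideal.mem_span_singleton_self _
    rw [RingHom.mem_ker.1 this]
    simp
  rw [h2, sup_bot_eq, ← hx, ← span_theta θ (fun i => rt (p := p) e (z i))] at h1
  exact h1

end

end Crest.Agent.R183.Amp
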