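import Mathlib

/-!
# R183 (Lech), block BCM, part 1: flat descent of submodules of free modules
(helper523)
-/

set_option autoImplicit false

namespace Crest.Agent.R183.BCM

open TensorProduct

universe u

section finite

variable {R R₁ : Type u} [CommRing R] [CommRing R₁] [Algebra R R₁]
variable {ι : Type}

/-- The base change map `(ι → R) → (ι → R₁)`. -/
def bc (R : Type u) {R₁ : Type u} [CommRing R] [CommRing R₁] [Algebra R R₁] (ι : Type) :
    (ι → R) →ₗ[R] (ι → R₁) where
  toFun v := fun i => algebraMap R R₁ (v i)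
  map_add' v w := by ext i; simp
  map_smul' r v := by ext i; simp [Algebra.smul_def]

@[simp] theorem bc_apply (v : ι → R) (i : ι) : bc R ι v i = algebraMap R R₁ (v i) := rfl

/-- The submodule of `R`-points of a submodule `S` of `ι → R₁`. -/
def pts (S : Submodule R₁ (ι → R₁)) : Submodule R (ι → R) :=
  (S.restrictScalars R).comap (bc R ι)

@[simp] theorem mem_pts {S : Submodule R₁ (ι → R₁)} {v : ι → R} :
    v ∈ pts (R := R) S ↔ bc R ι v ∈ S := Iff.rfl

/-- The two embeddings of `ι → R₁` into `ι → R₁ ⊗ R₁`. -/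
def incl₂ (R : Type u) {R₁ : Type u} [CommRing R] [CommRing R₁] [Algebra R R₁] {ι : Type}
    (v : ι → R₁) : ι → R₁ ⊗[R] R₁ := fun i => v i ⊗ₜ[R] (1 : R₁)

def incl₁ (R : Type u) {R₁ : Type u} [CommRing R] [CommRing R₁] [Algebra R R₁] {ι : Type}
    (v : ι → R₁) : ι → R₁ ⊗[R] R₁ := fun i => (1 : R₁) ⊗ₜ[R] v i

/-- `R₁ ⊗ (ι → R) → (ι → R₁)`. -/
noncomputable def mulMap (R R₁ : Type u) [CommRing R] [CommRing R₁] [Algebra R R₁] (ι : Type) :
    R₁ ⊗[R] (ι → R) →ₗ[R] (ι → R₁) :=
  TensorProduct.lift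
    { toFun := fun x =>
        { toFun := fun v => x • bc R ι v
          map_add' := by intro v w; rw [map_add, smul_add]
          map_smul' := by intro r v; rw [map_smul, smul_comm, RingHom.id_apply] }
      map_add' := by intro x y; ext v; simp [add_mul]
      map_smul' := by intro r x; ext v; simp }

@[simp] theorem mulMap_tmul (x : R₁) (v : ι → R) :
    mulMap R R₁ ι (x ⊗ₜ v) = x • bc R ι v := rfl

variable [Fintype ι] [DecidableEq ι]

/-- `(ι → R₁ ⊗ R₁) → R₁ ⊗ ((ι → R₁) / S)`. -/
noncomputable def psi (S : Submodule R₁ (ι → R₁)) :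
    (ι → R₁ ⊗[R] R₁) →ₗ[R] R₁ ⊗[R] ((ι → R₁) ⧸ S) :=
  ∑ i, (LinearMap.lTensor R₁ ((S.mkQ.restrictScalars R).comp
    (LinearMap.single R (fun _ : ι => R₁) i))).comp (LinearMap.proj i)

theorem psi_apply (S : Submodule R₁ (ι → R₁)) (w : ι → R₁ ⊗[R] R₁) :
    psi (R := R) S w = ∑ i, (LinearMap.lTensor R₁ ((S.mkQ.restrictScalars R).comp
    (LinearMap.single R (fun _ : ι => R₁) i))) (w i) := by
  simp [psi]

theorem psi_smul_tmul (S : Submodule R₁ (ι → R₁)) (x y : R₁) (w : ι → R₁ ⊗[R] R₁) :
    psi (R := R) S ((x ⊗ₜ[R] y) • w) =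
      TensorProduct.map (LinearMap.mulLeft R x)
        (((LinearMap.lsmul R₁ ((ι → R₁) ⧸ S) y)).restrictScalars R) (psi (R := R) S w) := by
  rw [psi_apply, psi_apply, map_sum]
  refine Finset.sum_congr rfl fun i _ => ?_
  rw [Pi.smul_apply, smul_eq_mul]
  induction w i using TensorProduct.induction_on with
  | zero => simp
  | tmul a b =>
    simp only [Algebra.TensorProduct.tmul_mul_tmul, LinearMap.lTensor_tmul, LinearMap.comp_apply,
      TensorProduct.map_tmul, LinearMap.mulLeft_apply, LinearMap.restrictScalars_apply,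
      LinearMap.lsmul_apply, Submodule.mkQ_apply]
    congr 1
    rw [← Submodule.Quotient.mk_smul]
    congr 1
    ext j
    by_cases h : j = i
    · subst h; simp
    · simp [h]
  | add a b ha hb => rw [mul_add, map_add, ha, hb, map_add, map_add]

theorem psi_incl₁ (S : Submodule R₁ (ι → R₁)) {t : ι → R₁} (ht : t ∈ S) :
    psi (R := R) S (incl₁ R t) = 0 := by
  rw [psi_apply]
  simp only [incl₁, LinearMap.lTensor_tmul]
  rw [← TensorProduct.tmul_sum]
  have : ∑ i, ((S.mkQ.restrictScalars R).comp (LinearMap.single R (fun _ : ι => R₁) i)) (t i)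
      = 0 := by
    simp only [LinearMap.comp_apply, LinearMap.restrictScalars_apply]
    rw [← map_sum]
    have h2 : ∑ i, (LinearMap.single R (fun _ : ι => R₁) i) (t i) = t := by
      ext j
      simp [Finset.sum_apply, Pi.single_apply]
    rw [h2]
    simpa using ht
  rw [this, TensorProduct.tmul_zero]

theorem psi_eq_zero_of_mem_span (S : Submodule R₁ (ι → R₁)) {w : ι → R₁ ⊗[R] R₁}
    (hw : w ∈ Submodule.span (R₁ ⊗[R] R₁) (incl₁ R '' (S : Set (ι → R₁)))) :
    psi (R := R) S w = 0 := by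
  induction hw using Submodule.span_induction with
  | mem x hx =>
    obtain ⟨t, ht, rfl⟩ := hx
    exact psi_incl₁ S ht
  | zero => exact map_zero _
  | add x y _ _ hx hy => rw [map_add, hx, hy, add_zero]
  | smul a x _ hx =>
    induction a using TensorProduct.induction_on with
    | zero => rw [zero_smul, map_zero]
    | tmul a b => rw [psi_smul_tmul, hx, map_zero]
    | add a b ha hb => rw [add_smul, map_add, ha, hb, add_zero]

/-- **Descent lemma.** A submodule `S` of `ι → R₁` with `S ⊗ 1 ⊆ 1 ⊗ S` (inside `ι → R₁ ⊗ R₁`,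
up to scalars) is generated by its `R`-points. -/
theorem span_pts_eq [Module.Flat R R₁] (S : Submodule R₁ (ι → R₁))
    (h : ∀ s ∈ S, incl₂ R s ∈ Submodule.span (R₁ ⊗[R] R₁) (incl₁ R '' (S : Set (ι → R₁)))) :
    Submodule.span R₁ (bc R ι '' (pts (R := R) S : Set (ι → R))) = S := by
  apply le_antisymm
  · rw [Submodule.span_le]
    rintro _ ⟨v, hv, rfl⟩
    exact hv
  intro s hs
  -- the map `φ : (ι → R) → (ι → R₁)/S`
  let φ : (ι → R) →ₗ[R] ((ι → R₁) ⧸ S) := (S.mkQ.restrictScalars R).comp (bc R ι)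
  have hker : LinearMap.ker φ = pts (R := R) S := by
    ext v
    simp [φ]
  let sh : R₁ ⊗[R] (ι → R) := ∑ i, s i ⊗ₜ[R] (Pi.single i (1 : R) : ι → R)
  have h1 : LinearMap.lTensor R₁ φ sh = psi (R := R) S (incl₂ R s) := by
    rw [psi_apply, map_sum]
    refine Finset.sum_congr rfl fun i _ => ?_
    simp only [incl₂, LinearMap.lTensor_tmul, φ, LinearMap.comp_apply,
      LinearMap.restrictScalars_apply]
    congr 2
    ext j
    by_cases hj : j = i
    · subst hj; simp
    · simp [hj]
  have h2 : LinearMap.lTensor R₁ φ sh = 0 := by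
    rw [h1]; exact psi_eq_zero_of_mem_span S (h s hs)
  have h3 : sh ∈ LinearMap.range (LinearMap.lTensor R₁ (LinearMap.ker φ).subtype) := by
    have := Module.Flat.lTensor_exact R₁ (LinearMap.exact_subtype_ker_map φ)
    exact (this sh).1 h2
  obtain ⟨y, hy⟩ := h3
  have h4 : mulMap R R₁ ι sh = s := by
    simp only [sh, map_sum, mulMap_tmul]
    ext j
    simp [Finset.sum_apply, Pi.single_apply, apply_ite (algebraMap R R₁)]
  rw [← h4, ← hy]
  clear hy h4
  induction y using TensorProduct.induction_on with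
  | zero => simp
  | tmul x v =>
    rw [LinearMap.lTensor_tmul, mulMap_tmul]
    apply Submodule.smul_mem
    apply Submodule.subset_span
    refine ⟨v, ?_, rfl⟩
    exact hker.le v.2
  | add a b ha hb => rw [map_add, map_add]; exact Submodule.add_mem _ ha hb

end finite

end Crest.Agent.R183.BCM
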