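import Crest.Agent.R183.BCM1

/-!
# R183 (Lech), block BCM, part 2: descent along a tower, the limit module `X`
(helper523)
-/

set_option autoImplicit false

namespace Crest.Agent.R183.BCM

open TensorProduct

universe u

section tower

variable {A A₁ : Type u} [CommRing A] [CommRing A₁] [Algebra A A₁] {ι : Type}

/-- `b ^ N • M` as a submodule. -/
def P {B : Type u} [CommRing B] (ι : Type) (b : B) (N : ℕ) : Submodule B (ι → B) :=
  LinearMap.range (LinearMap.lsmul B (ι → B) (b ^ N))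

theorem mem_P {B : Type u} [CommRing B] {b : B} {N : ℕ} {v : ι → B} :
    v ∈ P ι b N ↔ ∃ w, b ^ N • w = v := by
  simp [P, LinearMap.mem_range]

theorem P_mono {B : Type u} [CommRing B] {b : B} {N M : ℕ} (h : N ≤ M) :
    P ι b M ≤ P ι b N := by
  intro v hv
  obtain ⟨w, rfl⟩ := mem_P.1 hv
  obtain ⟨k, rfl⟩ := Nat.exists_eq_add_of_le h
  exact mem_P.2 ⟨b ^ k • w, by rw [smul_smul, pow_add]⟩

theorem P_zero {B : Type u} [CommRing B] {b : B} : P ι b 0 = ⊤ := by
  rw [eq_top_iff]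
  intro v _
  exact mem_P.2 ⟨v, by simp⟩

theorem smul_mem_P {B : Type u} [CommRing B] {b : B} {N : ℕ} (w : ι → B) :
    b ^ N • w ∈ P ι b N := mem_P.2 ⟨w, rfl⟩

/-- `x ∈ ι → A` with `x ∈ L` modulo `a ^ N`. -/
def XN (a : A) (L : Submodule A₁ (ι → A₁)) (N : ℕ) : Submodule A (ι → A) :=
  pts (L ⊔ P ι (algebraMap A A₁ a) N)

/-- The limit module. -/
def X (a : A) (L : Submodule A₁ (ι → A₁)) : Submodule A (ι → A) := ⨅ N, XN a L N

theorem mem_X {a : A} {L : Submodule A₁ (ι → A₁)} {x : ι → A} :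
    x ∈ X a L ↔ ∀ N, bc A ι x ∈ L ⊔ P ι (algebraMap A A₁ a) N := by
  simp only [X, XN, Submodule.mem_iInf, mem_pts]

theorem X_le_XN (a : A) (L : Submodule A₁ (ι → A₁)) (N : ℕ) : X a L ≤ XN a L N := iInf_le _ _

/-- The `A₁`-span of a submodule of `ι → A`. -/
def sp (A₁ : Type u) [CommRing A₁] [Algebra A A₁] (T : Submodule A (ι → A)) :
    Submodule A₁ (ι → A₁) := Submodule.span A₁ (bc A ι '' (T : Set (ι → A)))

theorem bc_mem_sp {T : Submodule A (ι → A)} {x : ι → A} (hx : x ∈ T) : bc A ι x ∈ sp A₁ T :=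
  Submodule.subset_span ⟨x, hx, rfl⟩

theorem sp_le {T : Submodule A (ι → A)} {M : Submodule A₁ (ι → A₁)} :
    sp A₁ T ≤ M ↔ ∀ x ∈ T, bc A ι x ∈ M := by
  rw [sp, Submodule.span_le]
  constructor
  · intro h x hx; exact h ⟨x, hx, rfl⟩
  · rintro h _ ⟨x, hx, rfl⟩; exact h x hx

theorem sp_mono {T T' : Submodule A (ι → A)} (h : T ≤ T') : sp A₁ T ≤ sp A₁ T' :=
  sp_le.2 fun x hx => bc_mem_sp (h hx)

theorem sp_sup (T T' : Submodule A (ι → A)) : sp A₁ (T ⊔ T') = sp A₁ T ⊔ sp A₁ T' := by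
  apply le_antisymm
  · rw [sp_le]
    intro x hx
    obtain ⟨t, ht, t', ht', rfl⟩ := Submodule.mem_sup.1 hx
    rw [map_add]
    exact Submodule.add_mem_sup (bc_mem_sp ht) (bc_mem_sp ht')
  · exact sup_le (sp_mono le_sup_left) (sp_mono le_sup_right)

theorem bc_pow_smul (a : A) (N : ℕ) (x : ι → A) :
    (bc A ι (a ^ N • x) : ι → A₁) = (algebraMap A A₁ a) ^ N • bc A ι x := by
  ext i; simp [Algebra.smul_def]

theorem bc_smul (a : A) (x : ι → A) :
    (bc A ι (a • x) : ι → A₁) = (algebraMap A A₁ a) • bc A ι x := by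
  ext i; simp

theorem bc_mem_P {a : A} {N : ℕ} {x : ι → A} (hx : x ∈ P ι a N) :
    bc A ι x ∈ P ι (algebraMap A A₁ a) N := by
  obtain ⟨w, rfl⟩ := mem_P.1 hx
  rw [bc_pow_smul]
  exact smul_mem_P _

theorem sp_P_le (a : A) (N : ℕ) : sp A₁ (P ι a N) ≤ P ι (algebraMap A A₁ a) N :=
  sp_le.2 fun _ hx => bc_mem_P hx

/-- The data for descent along the tower `A/a^N → A₁/a^N`. -/
structure Tower (a : A) (L : Submodule A₁ (ι → A₁)) (c : ℕ) : Prop where
  reg : ∀ x : A, a * x = 0 → x = 0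
  reg₁ : ∀ x : A₁, algebraMap A A₁ a * x = 0 → x = 0
  ar : ∀ (N : ℕ) (w : ι → A₁), (algebraMap A A₁ a) ^ N • w ∈ L → (algebraMap A A₁ a) ^ c • w ∈ L
  fl : ∀ N : ℕ, L ≤ sp A₁ (XN a L N) ⊔ P ι (algebraMap A A₁ a) N
  ff : ∀ (N : ℕ) (T : Submodule A (ι → A)) (x : ι → A),
    bc A ι x ∈ sp A₁ T ⊔ P ι (algebraMap A A₁ a) N → x ∈ T ⊔ P ι a N

namespace Tower

variable {a : A} {L : Submodule A₁ (ι → A₁)} {c : ℕ} (h : Tower a L c)
include h

theorem reg_pow (N : ℕ) (x : ι → A) (hx : a ^ N • x = 0) : x = 0 := by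
  induction N generalizing x with
  | zero => simpa using hx
  | succ N ih =>
    apply ih
    rw [pow_succ', ← smul_smul] at hx
    ext i
    have := congrFun hx i
    simp only [Pi.smul_apply, smul_eq_mul, Pi.zero_apply] at this
    simpa using h.reg _ this

theorem reg₁_pow (N : ℕ) (x : ι → A₁) (hx : (algebraMap A A₁ a) ^ N • x = 0) : x = 0 := by
  induction N generalizing x with
  | zero => simpa using hx
  | succ N ih =>
    apply ih
    rw [pow_succ', ← smul_smul] at hx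
    ext i
    have := congrFun hx i
    simp only [Pi.smul_apply, smul_eq_mul, Pi.zero_apply] at this
    simpa using h.reg₁ _ this

theorem XN_le_succ (N M : ℕ) (hNM : N ≤ M) : XN a L N ≤ XN a L M ⊔ P ι a N := by
  intro x hx
  apply h.ff N
  have h1 : bc A ι x ∈ L ⊔ P ι (algebraMap A A₁ a) N := hx
  have h2 : L ⊔ P ι (algebraMap A A₁ a) N ≤ sp A₁ (XN a L M) ⊔ P ι (algebraMap A A₁ a) N :=
    sup_le ((h.fl M).trans (sup_le le_sup_left ((P_mono hNM).trans le_sup_right))) le_sup_right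
  exact h2 h1

/-- Elements of `X_N` lift to `X` modulo `a ^ N`. -/
theorem XN_le [hA : IsAdicComplete (Ideal.span {a}) A] [Fintype ι] (N : ℕ) :
    XN a L N ≤ X a L ⊔ P ι a N := by
  intro x hx
  -- sequence
  have step : ∀ (k : ℕ) (y : XN a L (N + k)), ∃ z : XN a L (N + (k + 1)),
      ∃ w : ι → A, (z : ι → A) = y + a ^ (N + k) • w := by
    intro k y
    obtain ⟨z, hz, w, hw, hzw⟩ := Submodule.mem_sup.1
      (h.XN_le_succ (N + k) (N + (k + 1)) (by omega) y.2)
    obtain ⟨w', rfl⟩ := mem_P.1 hw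
    refine ⟨⟨z, hz⟩, -w', ?_⟩
    simp only [smul_neg]
    rw [← hzw]
    abel
  choose f g hfg using step
  let s : ∀ k : ℕ, XN a L (N + k) := fun k =>
    Nat.rec (motive := fun k => XN a L (N + k)) ⟨x, hx⟩ (fun k y => f k y) k
  have hs : ∀ k, (s (k + 1) : ι → A) = s k + a ^ (N + k) • g k (s k) := fun k => hfg k (s k)
  have hdiff : ∀ (k m : ℕ), ∃ w : ι → A, (s (k + m) : ι → A) = s k + a ^ (N + k) • w := by
    intro k m
    induction m with
    | zero => exact ⟨0, by simp⟩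
    | succ m ih =>
      obtain ⟨w, hw⟩ := ih
      refine ⟨w + a ^ m • g (k + m) (s (k + m)), ?_⟩
      have := hs (k + m)
      rw [show k + (m + 1) = (k + m) + 1 from rfl, this, hw, smul_add, smul_smul, ← pow_add,
        add_assoc, ← add_assoc N k m]
  -- coordinatewise limit
  have hlim : ∀ i : ι, ∃ y : A, ∀ k, ∃ w, y = (s k : ι → A) i + a ^ (N + k) * w := by
    intro i
    have hc : ∀ {m n : ℕ}, m ≤ n → ((s m : ι → A) i) ≡ ((s n : ι → A) i)
        [SMOD (Ideal.span {a} ^ m • ⊤ : Submodule A A)] := by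
      intro m n hmn
      obtain ⟨k, rfl⟩ := Nat.exists_eq_add_of_le hmn
      obtain ⟨w, hw⟩ := hdiff m k
      rw [SModEq.sub_mem, Ideal.span_singleton_pow, smul_eq_mul, Ideal.mul_top,
        Ideal.mem_span_singleton, hw]
      refine ⟨-(a ^ N * w i), ?_⟩
      simp only [Pi.add_apply, Pi.smul_apply, smul_eq_mul]
      rw [pow_add]
      ring
    obtain ⟨y, hy⟩ := IsPrecomplete.prec (I := Ideal.span {a}) (M := A) hA.toIsPrecomplete hc
    have hy' : ∀ k, a ^ k ∣ (s k : ι → A) i - y := by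
      intro k
      have := hy k
      rw [SModEq.sub_mem, Ideal.span_singleton_pow, smul_eq_mul, Ideal.mul_top,
        Ideal.mem_span_singleton] at this
      exact this
    refine ⟨y, fun k => ?_⟩
    obtain ⟨v, hv⟩ := hy' (N + k)
    obtain ⟨w, hw⟩ := hdiff k N
    rw [show k + N = N + k from Nat.add_comm k N] at hw
    refine ⟨w i - v, ?_⟩
    have h2 := congrFun hw i
    simp only [Pi.add_apply, Pi.smul_apply, smul_eq_mul] at h2
    rw [h2] at hv
    linear_combination -hv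
  choose y hy using hlim
  choose w hw using hy
  have hy' : ∀ k, y = s k + a ^ (N + k) • (fun i => w i k) := by
    intro k
    ext i
    simp only [Pi.add_apply, Pi.smul_apply, smul_eq_mul]
    exact hw i k
  have hyX : y ∈ X a L := by
    rw [mem_X]
    intro k
    rw [hy' k, map_add]
    have h1 : bc A ι (s k : ι → A) ∈ L ⊔ P ι (algebraMap A A₁ a) (N + k) := (s k).2
    refine Submodule.add_mem _ ?_ ?_
    · have h2 : L ⊔ P ι (algebraMap A A₁ a) (N + k) ≤ L ⊔ P ι (algebraMap A A₁ a) k :=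
        sup_le_sup_left (P_mono (by omega)) _
      exact h2 h1
    · rw [bc_pow_smul]
      exact (le_sup_right : _ ≤ L ⊔ _) (P_mono (by omega) (smul_mem_P _))
  have h0 := hy' 0
  have h0' : x = y + a ^ N • (-(fun i => w i 0)) := by
    have : (s 0 : ι → A) = x := rfl
    rw [this] at h0
    rw [h0]
    simp only [smul_neg, Nat.add_zero]
    abel
  rw [h0']
  exact Submodule.add_mem_sup hyX (smul_mem_P _)

theorem L_le [hA : IsAdicComplete (Ideal.span {a}) A] [Fintype ι] (N : ℕ) :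
    L ≤ sp A₁ (X a L) ⊔ P ι (algebraMap A A₁ a) N := by
  refine (h.fl N).trans (sup_le ?_ le_sup_right)
  refine (sp_mono (h.XN_le N)).trans ?_
  rw [sp_sup]
  exact sup_le_sup_left (sp_P_le a N) _

theorem arX (N : ℕ) (x : ι → A) (hx : a ^ N • x ∈ X a L) : a ^ c • x ∈ X a L := by
  rw [mem_X] at hx ⊢
  intro M
  obtain ⟨l, hl, w, hw, hlw⟩ := Submodule.mem_sup.1 (hx (N + M))
  obtain ⟨v, rfl⟩ := mem_P.1 hw
  rw [bc_pow_smul] at hlw ⊢
  have h1 : l = (algebraMap A A₁ a) ^ N • (bc A ι x - (algebraMap A A₁ a) ^ M • v) := by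
    rw [smul_sub, smul_smul, ← pow_add, ← hlw]
    abel
  rw [h1] at hl
  have h2 := h.ar _ _ hl
  have h3 : (algebraMap A A₁ a) ^ c • bc A ι x =
      (algebraMap A A₁ a) ^ c • (bc A ι x - (algebraMap A A₁ a) ^ M • v)
        + (algebraMap A A₁ a) ^ M • ((algebraMap A A₁ a) ^ c • v) := by
    rw [smul_sub, smul_comm ((algebraMap A A₁ a) ^ M)]
    abel
  rw [h3]
  exact Submodule.add_mem_sup h2 (smul_mem_P _)

/-- The basic descent principle. -/
theorem mem_of_bc_mem {J : Submodule A (ι → A)} (hJ : J ≤ X a L) {N : ℕ}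
    (hN : ∀ x ∈ X a L, a ^ N • x ∈ J) {x : ι → A} (hx : x ∈ X a L)
    (hx' : bc A ι x ∈ sp A₁ J ⊔ P ι (algebraMap A A₁ a) (N + c)) : x ∈ J := by
  obtain ⟨j, hj, w, hw, hjw⟩ := Submodule.mem_sup.1 (h.ff _ _ _ hx')
  obtain ⟨v, rfl⟩ := mem_P.1 hw
  have h1 : a ^ (N + c) • v ∈ X a L := by
    have : a ^ (N + c) • v = x - j := by rw [← hjw]; abel
    rw [this]
    exact Submodule.sub_mem _ hx (hJ hj)
  have h2 := h.arX _ _ h1
  rw [← hjw]
  refine Submodule.add_mem _ hj ?_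
  rw [pow_add, ← smul_smul]
  exact hN _ h2

end Tower

end tower

end Crest.Agent.R183.BCM
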