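import Crest.Agent.R183.BCM2

/-!
# R183 (Lech), block BCM, part 3: the hypotheses of `Tower` from (faithfully) flat maps of
quotient rings and from the tensor square
(helper523)
-/

set_option autoImplicit false

namespace Crest.Agent.R183.BCM

open TensorProduct

universe u

section level

variable {R R₁ : Type u} [CommRing R] [CommRing R₁] [Algebra R R₁] {ι : Type}

/-- `v ↦ ∑ v i ⊗ [e i]`. -/
noncomputable def chi [Fintype ι] [DecidableEq ι] (T : Submodule R (ι → R)) :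
    (ι → R₁) →ₗ[R₁] R₁ ⊗[R] ((ι → R) ⧸ T) where
  toFun v := ∑ i, v i ⊗ₜ[R] T.mkQ (Pi.single i (1 : R))
  map_add' v w := by
    simp only [Pi.add_apply, TensorProduct.add_tmul, Finset.sum_add_distrib]
  map_smul' r v := by
    simp only [Pi.smul_apply, smul_eq_mul, RingHom.id_apply, Finset.smul_sum,
      TensorProduct.smul_tmul']

theorem chi_bc [Fintype ι] [DecidableEq ι] (T : Submodule R (ι → R)) (x : ι → R) :
    chi (R₁ := R₁) T (bc R ι x) = 1 ⊗ₜ[R] T.mkQ x := by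
  change ∑ i, (algebraMap R R₁ (x i)) ⊗ₜ[R] T.mkQ (Pi.single i (1 : R)) = _
  have h1 : x = ∑ i, x i • (Pi.single i (1 : R) : ι → R) := by
    ext j
    simp [Finset.sum_apply, Pi.single_apply]
  conv_rhs => rw [h1]
  rw [map_sum, TensorProduct.tmul_sum]
  refine Finset.sum_congr rfl fun i _ => ?_
  rw [map_smul, Algebra.algebraMap_eq_smul_one, TensorProduct.smul_tmul]

/-- Faithfully flat descent of membership. -/
theorem mem_of_bc_mem_sp [Fintype ι] [DecidableEq ι] [Module.FaithfullyFlat R R₁]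
    (T : Submodule R (ι → R)) {x : ι → R} (hx : bc R ι x ∈ sp R₁ T) : x ∈ T := by
  have h1 : chi (R₁ := R₁) T (bc R ι x) = 0 := by
    have h2 : sp R₁ T ≤ LinearMap.ker (chi (R₁ := R₁) T) := by
      rw [sp_le]
      intro t ht
      rw [LinearMap.mem_ker, chi_bc, Submodule.mkQ_apply,
        (Submodule.Quotient.mk_eq_zero T).2 ht, TensorProduct.tmul_zero]
    exact h2 hx
  rw [chi_bc, Module.FaithfullyFlat.one_tmul_eq_zero_iff] at h1
  exact (Submodule.Quotient.mk_eq_zero T).1 h1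

end level

section red

variable {A A₁ : Type u} [CommRing A] [CommRing A₁] [Algebra A A₁] {ι : Type}
variable {R R₁ : Type u} [CommRing R] [CommRing R₁] [Algebra R R₁]

/-- Reduction of a submodule along a surjective ring hom. -/
def red {B S : Type u} [CommRing B] [CommRing S] (q : B →+* S) (hq : Function.Surjective q)
    (L : Submodule B (ι → B)) : Submodule S (ι → S) where
  carrier := {v | ∃ l ∈ L, v = fun i => q (l i)}
  add_mem' := by
    rintro _ _ ⟨l, hl, rfl⟩ ⟨m, hm, rfl⟩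
    exact ⟨l + m, L.add_mem hl hm, by ext i; simp⟩
  zero_mem' := ⟨0, L.zero_mem, by ext i; simp⟩
  smul_mem' := by
    rintro s _ ⟨l, hl, rfl⟩
    obtain ⟨b, rfl⟩ := hq s
    exact ⟨b • l, L.smul_mem b hl, by ext i; simp⟩

theorem mem_red {B S : Type u} [CommRing B] [CommRing S] {q : B →+* S}
    {hq : Function.Surjective q} {L : Submodule B (ι → B)} {v : ι → S} :
    v ∈ red q hq L ↔ ∃ l ∈ L, v = fun i => q (l i) := Iff.rfl

variable (a : A) (N : ℕ) (q : A →+* R) (q₁ : A₁ →+* R₁)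
  (hq : Function.Surjective q) (hq₁ : Function.Surjective q₁)
  (hk : ∀ x, q x = 0 ↔ ∃ y, x = a ^ N * y)
  (hk₁ : ∀ x, q₁ x = 0 ↔ ∃ y, x = (algebraMap A A₁ a) ^ N * y)
  (hc : ∀ x, q₁ (algebraMap A A₁ x) = algebraMap R R₁ (q x))
include hk₁

theorem mem_sup_P_iff {L : Submodule A₁ (ι → A₁)} {v : ι → A₁} :
    v ∈ L ⊔ P ι (algebraMap A A₁ a) N ↔ (fun i => q₁ (v i)) ∈ red q₁ hq₁ L := by
  constructor
  · intro hv
    obtain ⟨l, hl, w, hw, rfl⟩ := Submodule.mem_sup.1 hv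
    obtain ⟨u, rfl⟩ := mem_P.1 hw
    refine ⟨l, hl, ?_⟩
    ext i
    simp only [Pi.add_apply, Pi.smul_apply, smul_eq_mul, map_add]
    rw [(hk₁ _).2 ⟨u i, rfl⟩, add_zero]
  · rintro ⟨l, hl, h⟩
    have h1 : ∀ i, ∃ y, v i - l i = (algebraMap A A₁ a) ^ N * y := by
      intro i
      rw [← hk₁, map_sub, congrFun h i, sub_self]
    choose y hy using h1
    refine Submodule.mem_sup.2 ⟨l, hl, (algebraMap A A₁ a) ^ N • y, smul_mem_P _, ?_⟩
    ext i
    simp only [Pi.add_apply, Pi.smul_apply, smul_eq_mul, ← hy]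
    ring

include hc in
theorem red_sp (T : Submodule A (ι → A)) :
    red q₁ hq₁ (sp A₁ T) = sp R₁ (red q hq T) := by
  apply le_antisymm
  · rintro _ ⟨l, hl, rfl⟩
    induction hl using Submodule.span_induction with
    | mem x hx =>
      obtain ⟨t, ht, rfl⟩ := hx
      have : (fun i => q₁ (bc A ι t i)) = bc R (R₁ := R₁) ι (fun i => q (t i)) := by
        ext i; simp [hc]
      rw [this]
      exact bc_mem_sp ⟨t, ht, rfl⟩
    | zero =>
      have : (fun i => q₁ ((0 : ι → A₁) i)) = 0 := by ext i; simp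
      rw [this]
      exact Submodule.zero_mem _
    | add x y _ _ hx hy =>
      have : (fun i => q₁ ((x + y) i)) = (fun i => q₁ (x i)) + fun i => q₁ (y i) := by
        ext i; simp
      rw [this]
      exact Submodule.add_mem _ hx hy
    | smul r x _ hx =>
      have : (fun i => q₁ ((r • x) i)) = q₁ r • fun i => q₁ (x i) := by
        ext i; simp
      rw [this]
      exact Submodule.smul_mem _ _ hx
  · rw [sp_le]
    rintro _ ⟨t, ht, rfl⟩
    refine ⟨bc A ι t, bc_mem_sp ht, ?_⟩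
    ext i; simp [hc]

include hq hq₁ hk hc in
/-- (ff) from faithful flatness. -/
theorem ff_of_faithfullyFlat [Fintype ι] [DecidableEq ι] [Module.FaithfullyFlat R R₁]
    (T : Submodule A (ι → A)) (x : ι → A)
    (hx : bc A ι x ∈ sp A₁ T ⊔ P ι (algebraMap A A₁ a) N) : x ∈ T ⊔ P ι a N := by
  have h1 := (mem_sup_P_iff a N q₁ hq₁ hk₁).1 hx
  rw [red_sp a N q q₁ hq hq₁ hk₁ hc] at h1
  have h2 : (fun i => q₁ (bc A ι x i)) = bc R (R₁ := R₁) ι (fun i => q (x i)) := by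
    ext i; simp [hc]
  rw [h2] at h1
  have h3 := mem_of_bc_mem_sp _ h1
  obtain ⟨t, ht, h4⟩ := h3
  have h5 : ∀ i, ∃ y, x i - t i = a ^ N * y := by
    intro i
    rw [← hk, map_sub, congrFun h4 i, sub_self]
  choose y hy using h5
  refine Submodule.mem_sup.2 ⟨t, ht, a ^ N • y, smul_mem_P _, ?_⟩
  ext i
  simp only [Pi.add_apply, Pi.smul_apply, smul_eq_mul, ← hy]
  ring

include hq hc in
/-- (fl) from flatness and the descent datum. -/
theorem fl_of_flat [Fintype ι] [DecidableEq ι] [Module.Flat R R₁]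
    (L : Submodule A₁ (ι → A₁))
    (hD : ∀ s ∈ red q₁ hq₁ L, incl₂ R s ∈
      Submodule.span (R₁ ⊗[R] R₁) (incl₁ R '' (red q₁ hq₁ L : Set (ι → R₁)))) :
    L ≤ sp A₁ (XN a L N) ⊔ P ι (algebraMap A A₁ a) N := by
  intro l hl
  rw [mem_sup_P_iff a N q₁ hq₁ hk₁, red_sp a N q q₁ hq hq₁ hk₁ hc]
  have h1 : (fun i => q₁ (l i)) ∈ red q₁ hq₁ L := ⟨l, hl, rfl⟩
  rw [← span_pts_eq (red q₁ hq₁ L) hD] at h1
  have h2 : pts (R := R) (red q₁ hq₁ L) ≤ red q hq (XN a L N) := by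
    intro v hv
    choose x hx using fun i => hq (v i)
    refine ⟨x, ?_, by ext i; exact (hx i).symm⟩
    change bc A ι x ∈ L ⊔ P ι (algebraMap A A₁ a) N
    rw [mem_sup_P_iff a N q₁ hq₁ hk₁]
    have h3 : (fun i => q₁ (bc A ι x i)) = bc R (R₁ := R₁) ι v := by
      ext i; simp [hc, hx]
    rw [h3]
    exact hv
  exact sp_mono h2 h1

omit hk₁ in
/-- The descent datum from the tensor square. -/
theorem datum_of_square {A₂ R₂ : Type u} [CommRing A₂] [CommRing R₂] [Fintype ι]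
    (p₁ p₂ : A₁ →+* A₂) (q₂ : A₂ →+* R₂)
    (Θ : (R₁ ⊗[R] R₁) →+* R₂) (hΘ : Function.Bijective Θ)
    (h1 : ∀ x, Θ (1 ⊗ₜ q₁ x) = q₂ (p₁ x)) (h2 : ∀ x, Θ (q₁ x ⊗ₜ 1) = q₂ (p₂ x))
    (L : Submodule A₁ (ι → A₁))
    (hL : ∀ l ∈ L, (fun i => p₂ (l i)) ∈
      Submodule.span A₂ ((fun (l : ι → A₁) (i : ι) => p₁ (l i)) '' (L : Set (ι → A₁)))) :
    ∀ s ∈ red q₁ hq₁ L, incl₂ R s ∈
      Submodule.span (R₁ ⊗[R] R₁) (incl₁ R '' (red q₁ hq₁ L : Set (ι → R₁))) := by
  rintro _ ⟨l, hl, rfl⟩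
  have key : ∀ v ∈ Submodule.span A₂ ((fun (l : ι → A₁) (i : ι) => p₁ (l i)) ''
      (L : Set (ι → A₁))), ∃ w ∈ Submodule.span (R₁ ⊗[R] R₁)
        (incl₁ R '' (red q₁ hq₁ L : Set (ι → R₁))), ∀ i, Θ (w i) = q₂ (v i) := by
    intro v hv
    induction hv using Submodule.span_induction with
    | mem x hx =>
      obtain ⟨m, hm, rfl⟩ := hx
      refine ⟨incl₁ R (fun i => q₁ (m i)), Submodule.subset_span ⟨_, ⟨m, hm, rfl⟩, rfl⟩, ?_⟩
      intro i
      exact h1 _
    | zero => exact ⟨0, Submodule.zero_mem _, by simp⟩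
    | add x y _ _ hx hy =>
      obtain ⟨w, hw, h3⟩ := hx
      obtain ⟨w', hw', h3'⟩ := hy
      exact ⟨w + w', Submodule.add_mem _ hw hw', by intro i; simp [h3, h3']⟩
    | smul r x _ hx =>
      obtain ⟨w, hw, h3⟩ := hx
      obtain ⟨s, hs⟩ := hΘ.2 (q₂ r)
      exact ⟨s • w, Submodule.smul_mem _ _ hw, by intro i; simp [h3, hs]⟩
  obtain ⟨w, hw, h3⟩ := key _ (hL l hl)
  have : w = incl₂ R (fun i => q₁ (l i)) := by
    ext i
    apply hΘ.1
    rw [h3 i]
    exact (h2 _).symm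
  rw [← this]
  exact hw

end red

end Crest.Agent.R183.BCM
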