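import Crest.Agent.R183.BCM3

/-!
# R183 (Lech), block BCM, part 4: properties which descend from `L` to `X`
(helper523)
-/

set_option autoImplicit false

namespace Crest.Agent.R183.BCM

universe u

section

variable {A A₁ : Type u} [CommRing A] [CommRing A₁] [Algebra A A₁] {ι : Type}

/-- Limits of `a`-adic Cauchy sequences in `ι → A`. -/
theorem exists_lim (a : A) [hA : IsAdicComplete (Ideal.span {a}) A] (s : ℕ → ι → A)
    (hs : ∀ k, ∃ w : ι → A, s (k + 1) = s k + a ^ k • w) :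
    ∃ y : ι → A, ∀ k, ∃ w : ι → A, y = s k + a ^ k • w := by
  have hdiff : ∀ (k m : ℕ), ∃ w : ι → A, s (k + m) = s k + a ^ k • w := by
    intro k m
    induction m with
    | zero => exact ⟨0, by simp⟩
    | succ m ih =>
      obtain ⟨w, hw⟩ := ih
      obtain ⟨w', hw'⟩ := hs (k + m)
      refine ⟨w + a ^ m • w', ?_⟩
      rw [show k + (m + 1) = (k + m) + 1 from rfl, hw', hw, smul_add, smul_smul, ← pow_add,
        add_assoc]
  have hlim : ∀ i : ι, ∃ y : A, ∀ k, ∃ w, y = s k i + a ^ k * w := by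
    intro i
    have hc : ∀ {m n : ℕ}, m ≤ n → (s m i) ≡ (s n i)
        [SMOD (Ideal.span {a} ^ m • ⊤ : Submodule A A)] := by
      intro m n hmn
      obtain ⟨k, rfl⟩ := Nat.exists_eq_add_of_le hmn
      obtain ⟨w, hw⟩ := hdiff m k
      rw [SModEq.sub_mem, Ideal.span_singleton_pow, smul_eq_mul, Ideal.mul_top,
        Ideal.mem_span_singleton, hw]
      refine ⟨-(w i), ?_⟩
      simp only [Pi.add_apply, Pi.smul_apply, smul_eq_mul]
      ring
    obtain ⟨y, hy⟩ := IsPrecomplete.prec (I := Ideal.span {a}) (M := A) hA.toIsPrecomplete hc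
    refine ⟨y, fun k => ?_⟩
    have := hy k
    rw [SModEq.sub_mem, Ideal.span_singleton_pow, smul_eq_mul, Ideal.mul_top,
      Ideal.mem_span_singleton] at this
    obtain ⟨v, hv⟩ := this
    exact ⟨-v, by linear_combination -hv⟩
  choose y hy using hlim
  choose w hw using hy
  exact ⟨y, fun k => ⟨fun i => w i k, by ext i; simpa using hw i k⟩⟩

theorem eq_zero_of_forall (a : A) [hA : IsAdicComplete (Ideal.span {a}) A] {x : ι → A}
    (hx : ∀ N, x ∈ P ι a N) : x = 0 := by
  ext i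
  apply IsHausdorff.haus hA.toIsHausdorff
  intro N
  obtain ⟨w, hw⟩ := mem_P.1 (hx N)
  rw [SModEq.sub_mem, Ideal.span_singleton_pow, smul_eq_mul, Ideal.mul_top,
    Ideal.mem_span_singleton, sub_zero, ← hw]
  exact ⟨w i, by simp⟩

theorem sp_smul (I : Ideal A) (T : Submodule A (ι → A)) :
    sp A₁ (I • T) = I.map (algebraMap A A₁) • sp A₁ T := by
  apply le_antisymm
  · rw [sp_le]
    intro x hx
    refine Submodule.smul_induction_on hx ?_ ?_
    · intro r hr n hn
      rw [bc_smul]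
      exact Submodule.smul_mem_smul (Ideal.mem_map_of_mem _ hr) (bc_mem_sp hn)
    · intro x y hx hy
      rw [map_add]
      exact Submodule.add_mem _ hx hy
  · rw [Submodule.smul_le]
    intro r hr n hn
    -- induction on both
    induction hr using Submodule.span_induction with
    | mem r hr =>
      obtain ⟨r, hr, rfl⟩ := hr
      induction hn using Submodule.span_induction with
      | mem x hx =>
        obtain ⟨t, ht, rfl⟩ := hx
        rw [← bc_smul]
        exact bc_mem_sp (Submodule.smul_mem_smul hr ht)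
      | zero => rw [smul_zero]; exact Submodule.zero_mem _
      | add x y _ _ hx hy => rw [smul_add]; exact Submodule.add_mem _ hx hy
      | smul c x _ hx => rw [smul_comm]; exact Submodule.smul_mem _ _ hx
    | zero => rw [zero_smul]; exact Submodule.zero_mem _
    | add x y _ _ hx hy => rw [add_smul]; exact Submodule.add_mem _ hx hy
    | smul c x _ hx =>
      rw [smul_eq_mul, mul_smul]
      exact Submodule.smul_mem _ _ hx

theorem smul_P_le (I : Ideal A₁) (b : A₁) (N : ℕ) : I • P ι b N ≤ P ι b N :=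
  Submodule.smul_le_right

theorem smul_le_of_le_sup_P {I : Ideal A₁} {b : A₁} {N : ℕ} {M M' : Submodule A₁ (ι → A₁)}
    (h : M ≤ M' ⊔ P ι b N) : I • M ≤ I • M' ⊔ P ι b N := by
  refine (Submodule.smul_mono le_rfl h).trans ?_
  rw [Submodule.smul_sup]
  exact sup_le_sup_left (smul_P_le _ _ _) _

namespace Tower

variable {a : A} {L : Submodule A₁ (ι → A₁)} {c : ℕ} (h : Tower a L c)
include h

theorem bc_mem (N : ℕ) {x : ι → A} (hx : x ∈ X a L) :
    ∃ l ∈ L, ∃ w, bc A ι x = l + (algebraMap A A₁ a) ^ N • w := by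
  obtain ⟨l, hl, w, hw, hlw⟩ := Submodule.mem_sup.1 (mem_X.1 hx N)
  obtain ⟨v, rfl⟩ := mem_P.1 hw
  exact ⟨l, hl, v, hlw.symm⟩

/-- `l = (element of L ∩ a ^ (N + c))` is in `a ^ N • L`. -/
theorem exists_of_mem {N : ℕ} {w : ι → A₁} (hw : (algebraMap A A₁ a) ^ (N + c) • w ∈ L) :
    ∃ l ∈ L, (algebraMap A A₁ a) ^ (N + c) • w = (algebraMap A A₁ a) ^ N • l :=
  ⟨_, h.ar _ _ hw, by rw [smul_smul, pow_add]⟩

theorem sp_X_le (N : ℕ) : sp A₁ (X a L) ≤ L ⊔ P ι (algebraMap A A₁ a) N :=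
  sp_le.2 fun _ hx => mem_X.1 hx N

/-- Regularity descends. -/
theorem descend_reg [hA : IsAdicComplete (Ideal.span {a}) A] [Fintype ι] (I : Ideal A) (t : A)
    (k : ℕ) (hk : a ^ k ∈ I)
    (hL : ∀ l ∈ L, algebraMap A A₁ t • l ∈ I.map (algebraMap A A₁) • L →
      l ∈ I.map (algebraMap A A₁) • L) :
    ∀ x ∈ X a L, t • x ∈ I • X a L → x ∈ I • X a L := by
  intro x hx htx
  have hIX : ∀ x ∈ X a L, a ^ k • x ∈ I • X a L := fun x hx => Submodule.smul_mem_smul hk hx
  refine h.mem_of_bc_mem (N := k) (Submodule.smul_le_right) hIX hx ?_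
  obtain ⟨l, hl, w, hlw⟩ := h.bc_mem (k + c) hx
  have hkm : (algebraMap A A₁ a) ^ k ∈ I.map (algebraMap A A₁) := by
    rw [← map_pow]; exact Ideal.mem_map_of_mem _ hk
  -- `t • l ∈ I L`
  have h1 : algebraMap A A₁ t • l ∈ I.map (algebraMap A A₁) • L := by
    have h2 : (bc A ι (t • x) : ι → A₁) ∈
        I.map (algebraMap A A₁) • L ⊔ P ι (algebraMap A A₁ a) (k + c) := by
      have h3 : (bc A ι (t • x) : ι → A₁) ∈ sp A₁ (I • X a L) := bc_mem_sp htx
      rw [sp_smul] at h3
      exact smul_le_of_le_sup_P (h.sp_X_le (k + c)) h3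
    obtain ⟨y, hy, v, hv, hyv⟩ := Submodule.mem_sup.1 h2
    obtain ⟨v, rfl⟩ := mem_P.1 hv
    have h5 : algebraMap A A₁ t • l
        = y + (algebraMap A A₁ a) ^ (k + c) • (v - algebraMap A A₁ t • w) := by
      rw [bc_smul, hlw] at hyv
      rw [smul_sub, ← add_sub_assoc, hyv, smul_add, smul_comm (algebraMap A A₁ t)]
      abel
    have hyL : y ∈ L := Submodule.smul_le_right hy
    have h6 : (algebraMap A A₁ a) ^ (k + c) • (v - algebraMap A A₁ t • w) ∈ L := by
      have : (algebraMap A A₁ a) ^ (k + c) • (v - algebraMap A A₁ t • w)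
          = algebraMap A A₁ t • l - y := by rw [h5]; abel
      rw [this]
      exact Submodule.sub_mem _ (Submodule.smul_mem _ _ hl) hyL
    obtain ⟨l', hl', h7⟩ := h.exists_of_mem h6
    rw [h5, h7]
    exact Submodule.add_mem _ hy (Submodule.smul_mem_smul hkm hl')
  have h8 := hL l hl h1
  rw [hlw, sp_smul]
  refine Submodule.add_mem _ ?_ ((le_sup_right : _ ≤ _ ⊔ P ι _ _) (smul_mem_P _))
  exact smul_le_of_le_sup_P (h.L_le (k + c)) h8

/-- `d • X` is closed, and membership in it can be tested on `L`. -/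
theorem exists_div [hA : IsAdicComplete (Ideal.span {a}) A] [Fintype ι] (d : A) (m : ℕ)
    (hd : ∀ (N : ℕ) (z w : A), d * z = a ^ (N + m) * w → ∃ w', z = a ^ N * w')
    (u : ι → A) (hu : ∀ N, ∃ l ∈ L, ∃ w, (bc A ι u : ι → A₁) =
      algebraMap A A₁ d • l + (algebraMap A A₁ a) ^ N • w) :
    ∃ x ∈ X a L, u = d • x := by
  -- `u ∈ d X + a ^ N`
  have h1 : ∀ N, ∃ x ∈ X a L, ∃ w, u = d • x + a ^ N • w := by
    intro N
    have h2 : u ∈ Ideal.span {d} • X a L ⊔ P ι a N := by
      apply h.ff N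
      rw [sp_smul]
      obtain ⟨l, hl, w, hlw⟩ := hu N
      rw [hlw]
      refine Submodule.add_mem _ ?_ ((le_sup_right : _ ≤ _ ⊔ P ι _ _) (smul_mem_P _))
      exact smul_le_of_le_sup_P (h.L_le N)
        (Submodule.smul_mem_smul (Ideal.mem_map_of_mem _ (Ideal.mem_span_singleton_self d)) hl)
    obtain ⟨y, hy, w, hw, hyw⟩ := Submodule.mem_sup.1 h2
    obtain ⟨w, rfl⟩ := mem_P.1 hw
    have h4 : ∃ x ∈ X a L, y = d • x := by
      refine Submodule.smul_induction_on hy ?_ ?_
      · intro r hr n hn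
        obtain ⟨s, rfl⟩ := Ideal.mem_span_singleton'.1 hr
        exact ⟨s • n, Submodule.smul_mem _ _ hn, by rw [smul_smul, mul_comm]⟩
      · rintro _ _ ⟨x, hx, rfl⟩ ⟨x', hx', rfl⟩
        exact ⟨x + x', Submodule.add_mem _ hx hx', by rw [smul_add]⟩
    obtain ⟨x, hx, rfl⟩ := h4
    exact ⟨x, hx, w, hyw.symm⟩
  choose x hx w hw using h1
  obtain ⟨y, hy⟩ := exists_lim a (fun k => x (k + m)) (by
    intro k
    have h2 : ∀ i, ∃ w', x (k + 1 + m) i - x (k + m) i = a ^ k * w' := by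
      intro i
      apply hd k _ (w (k + m) i - a * w (k + 1 + m) i)
      have e1 := congrFun (hw (k + m)) i
      have e2 := congrFun (hw (k + 1 + m)) i
      simp only [Pi.add_apply, Pi.smul_apply, smul_eq_mul] at e1 e2
      rw [show k + 1 + m = (k + m) + 1 by omega] at e2 ⊢
      rw [pow_succ] at e2
      linear_combination e1 - e2
    choose w' hw' using h2
    exact ⟨w', by ext i; simpa using (sub_eq_iff_eq_add'.1 (hw' i))⟩)
  refine ⟨y, ?_, ?_⟩
  · rw [mem_X]
    intro N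
    obtain ⟨v, hv⟩ := hy N
    rw [hv, map_add, bc_pow_smul]
    exact Submodule.add_mem _ (mem_X.1 (hx _) N) ((le_sup_right : _ ≤ _ ⊔ P ι _ _) (smul_mem_P _))
  · rw [← sub_eq_zero]
    apply eq_zero_of_forall a
    intro N
    obtain ⟨v, hv⟩ := hy N
    rw [mem_P]
    refine ⟨a ^ m • w (N + m) - d • v, ?_⟩
    have e1 := hw (N + m)
    rw [hv]
    conv_rhs => rw [e1]
    rw [smul_sub, smul_add, smul_smul, ← pow_add, smul_comm d (a ^ N) v]
    abel

end Tower

end

end Crest.Agent.R183.BCM
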