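import Crest.Agent.R183.BCM4

/-!
# R183 (Lech), block BCM, part 5: the module `X` over a ring `C` which only acts on the lattices
up to denominators
(helper523)
-/

set_option autoImplicit false

namespace Crest.Agent.R183.BCM

universe u

section

variable (A A₁ C : Type u) [CommRing A] [CommRing A₁] [CommRing C] [Algebra A A₁] [Algebra A C]
variable (E₀ E₁ : Type u) [AddCommGroup E₀] [Module A E₀] [Module C E₀] [IsScalarTower A C E₀]
variable [AddCommGroup E₁] [Module A E₁] [Module A₁ E₁] [IsScalarTower A A₁ E₁]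
variable [Module C E₁] [IsScalarTower A C E₁] [SMulCommClass A₁ C E₁]
variable (ι : Type)

/-- Coordinates: `A ^ ι → E₀`, `A₁ ^ ι → E₁`; `C` acts on `E₀`, `E₁`, and preserves the lattices
up to the denominator `d`. -/
structure Frame (a d : A) (m : ℕ) (L : Submodule A₁ (ι → A₁)) where
  v₀ : (ι → A) →ₗ[A] E₀
  v₁ : (ι → A₁) →ₗ[A₁] E₁
  j : E₀ →ₗ[C] E₁
  comm : ∀ x, j (v₀ x) = v₁ (bc A ι x)
  inj₀ : Function.Injective v₀
  inj₁ : Function.Injective v₁
  dinj₀ : ∀ x : E₀, d • x = 0 → x = 0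
  hd₀ : ∀ (N : ℕ) (z w : A), d * z = a ^ (N + m) * w → ∃ w', z = a ^ N * w'
  hd₁ : ∀ (N : ℕ) (z w : A₁), algebraMap A A₁ d * z = (algebraMap A A₁ a) ^ (N + m) * w →
    ∃ w', z = (algebraMap A A₁ a) ^ N * w'
  lat₀ : ∀ (c : C) x, ∃ y, d • c • v₀ x = v₀ y
  lat₁ : ∀ (c : C) x, ∃ y, d • c • v₁ x = v₁ y
  stab : ∀ (c : C), ∀ l ∈ L, ∃ l' ∈ L, c • v₁ l = v₁ l'

end

section

variable {A A₁ C : Type u} [CommRing A] [CommRing A₁] [CommRing C] [Algebra A A₁] [Algebra A C]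
variable {E₀ E₁ : Type u} [AddCommGroup E₀] [Module A E₀] [Module C E₀] [IsScalarTower A C E₀]
variable [AddCommGroup E₁] [Module A E₁] [Module A₁ E₁] [IsScalarTower A A₁ E₁]
variable [Module C E₁] [IsScalarTower A C E₁] [SMulCommClass A₁ C E₁]
variable {ι : Type}

namespace Frame

variable {a d : A} {m : ℕ} {L : Submodule A₁ (ι → A₁)}
variable (F : Frame A A₁ C E₀ E₁ ι a d m L)

theorem v₁_smul_alg (b : A) (w : ι → A₁) : F.v₁ (algebraMap A A₁ b • w) = b • F.v₁ w := by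
  rw [map_smul, algebraMap_smul]

theorem v₁_pow_smul (b : A) (N : ℕ) (w : ι → A₁) :
    F.v₁ ((algebraMap A A₁ b) ^ N • w) = b ^ N • F.v₁ w := by
  rw [← map_pow, v₁_smul_alg]

theorem smul_comm_AC (b : A) (c : C) (x : E₁) : b • c • x = c • b • x := by
  rw [← algebraMap_smul C b (c • x), ← algebraMap_smul C b x, smul_smul, smul_smul, mul_comm]

theorem smul_comm_AC₀ (b : A) (c : C) (x : E₀) : b • c • x = c • b • x := by
  rw [← algebraMap_smul C b (c • x), ← algebraMap_smul C b x, smul_smul, smul_smul, mul_comm]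

theorem j_smul_A (b : A) (x : E₀) : F.j (b • x) = b • F.j x := by
  rw [← algebraMap_smul C b x, map_smul, algebraMap_smul]

/-- If `e ∈ v₁ (A₁ ^ ι)` and `d • e ∈ a ^ (N + m) • v₁ (A₁ ^ ι)` then
`e ∈ a ^ N • v₁ (A₁ ^ ι)`. -/
theorem small {N : ℕ} {g w : ι → A₁} (hg : d • F.v₁ g = a ^ (N + m) • F.v₁ w) :
    ∃ w', g = (algebraMap A A₁ a) ^ N • w' := by
  rw [← v₁_smul_alg, ← v₁_pow_smul] at hg
  have h1 := F.inj₁ hg
  have h2 : ∀ i, ∃ w', g i = (algebraMap A A₁ a) ^ N * w' := fun i =>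
    F.hd₁ N (g i) (w i) (by simpa using congrFun h1 i)
  choose w' hw' using h2
  exact ⟨w', by ext i; simpa using hw' i⟩

/-- The additive subgroup `b • L ⊆ E₁`, `b` an ideal of `C`. -/
def idL (b : Ideal C) : Submodule A₁ E₁ :=
  Submodule.span A₁ {e | ∃ c ∈ b, ∃ l ∈ L, e = c • F.v₁ l}

variable {c₀ : ℕ} (h : Tower a L c₀)
include h

/-- `X` is stable under `C`. -/
theorem stable [IsAdicComplete (Ideal.span {a}) A] [Fintype ι] (c : C) {x : ι → A}
    (hx : x ∈ X a L) : ∃ x' ∈ X a L, c • F.v₀ x = F.v₀ x' := by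
  obtain ⟨u, hu⟩ := F.lat₀ c x
  have h1 : ∀ N, ∃ l ∈ L, ∃ w, (bc A ι u : ι → A₁) =
      algebraMap A A₁ d • l + (algebraMap A A₁ a) ^ N • w := by
    intro N
    obtain ⟨l, hl, w, hlw⟩ := h.bc_mem N hx
    obtain ⟨l', hl', hl''⟩ := F.stab c l hl
    obtain ⟨w', hw'⟩ := F.lat₁ c w
    refine ⟨l', hl', w', ?_⟩
    apply F.inj₁
    have e1 : F.v₁ (bc A ι u) = d • c • F.v₁ (bc A ι x) := by
      rw [← F.comm, ← hu, j_smul_A, map_smul, F.comm]
    have e2 : c • F.v₁ (bc A ι x) = F.v₁ l' + a ^ N • c • F.v₁ w := by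
      rw [hlw, map_add, smul_add, hl'', v₁_pow_smul, smul_comm_AC (a ^ N) c]
    rw [e1, e2, smul_add, map_add, v₁_smul_alg, v₁_pow_smul, ← hw', smul_comm d (a ^ N)]
  obtain ⟨x', hx', hux⟩ := h.exists_div d m F.hd₀ u h1
  refine ⟨x', hx', ?_⟩
  rw [← sub_eq_zero]
  apply F.dinj₀
  rw [smul_sub, hu, hux, map_smul, sub_self]

/-- The `C`-module `X`. -/
def mod [IsAdicComplete (Ideal.span {a}) A] [Fintype ι] : Submodule C E₀ where
  carrier := F.v₀ '' (X a L : Set (ι → A))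
  add_mem' := by
    rintro _ _ ⟨x, hx, rfl⟩ ⟨y, hy, rfl⟩
    exact ⟨x + y, Submodule.add_mem _ hx hy, map_add _ _ _⟩
  zero_mem' := ⟨0, Submodule.zero_mem _, map_zero _⟩
  smul_mem' := by
    rintro c _ ⟨x, hx, rfl⟩
    obtain ⟨x', hx', h2⟩ := F.stable h c hx
    exact ⟨x', hx', h2.symm⟩

theorem mem_mod [IsAdicComplete (Ideal.span {a}) A] [Fintype ι] {e : E₀} :
    e ∈ F.mod h ↔ ∃ x ∈ X a L, F.v₀ x = e := Iff.rfl

/-- Elements of `b • L` are, modulo high powers of `a`, combinations of elements of `b • X`. -/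
theorem idL_le [IsAdicComplete (Ideal.span {a}) A] [Fintype ι] (b : Ideal C) (N : ℕ) {e : E₁}
    (he : e ∈ F.idL b) :
    ∃ y ∈ sp A₁ ((b • F.mod h).restrictScalars A |>.comap F.v₀), ∃ e' : E₁,
      (∃ w, d • e' = F.v₁ w) ∧ e = F.v₁ y + a ^ N • e' := by
  unfold idL at he
  induction he using Submodule.span_induction with
  | mem e he =>
    obtain ⟨c, hc, l, hl, rfl⟩ := he
    -- approximate `l`
    have h1 := h.L_le N hl
    obtain ⟨s, hs, t, ht, hst⟩ := Submodule.mem_sup.1 h1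
    obtain ⟨w, rfl⟩ := mem_P.1 ht
    obtain ⟨w', hw'⟩ := F.lat₁ c w
    have h2 : ∃ y ∈ sp A₁ ((b • F.mod h).restrictScalars A |>.comap F.v₀),
        c • F.v₁ s = F.v₁ y := by
      clear hst
      induction hs using Submodule.span_induction with
      | mem s hs =>
        obtain ⟨x, hx, rfl⟩ := hs
        obtain ⟨x', hx', h3⟩ := F.stable h c hx
        refine ⟨bc A ι x', bc_mem_sp ?_, ?_⟩
        · change F.v₀ x' ∈ b • F.mod h
          rw [← h3]
          exact Submodule.smul_mem_smul hc ⟨x, hx, rfl⟩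
        · rw [← F.comm, ← F.comm, ← h3, map_smul]
      | zero => exact ⟨0, Submodule.zero_mem _, by simp⟩
      | add s t _ _ hs ht =>
        obtain ⟨y, hy, h3⟩ := hs
        obtain ⟨y', hy', h3'⟩ := ht
        exact ⟨y + y', Submodule.add_mem _ hy hy', by rw [map_add, map_add, smul_add, h3, h3']⟩
      | smul r s _ hs =>
        obtain ⟨y, hy, h3⟩ := hs
        exact ⟨r • y, Submodule.smul_mem _ _ hy, by
          rw [map_smul, map_smul, ← h3, smul_comm r c]⟩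
    obtain ⟨y, hy, h3⟩ := h2
    refine ⟨y, hy, c • F.v₁ w, ⟨w', hw'⟩, ?_⟩
    rw [← hst, map_add, smul_add, h3, v₁_pow_smul, smul_comm_AC (a ^ N) c]
  | zero => exact ⟨0, Submodule.zero_mem _, 0, ⟨0, by simp⟩, by simp⟩
  | add e f _ _ he hf =>
    obtain ⟨y, hy, e', ⟨w, hw⟩, h3⟩ := he
    obtain ⟨y', hy', f', ⟨w', hw'⟩, h3'⟩ := hf
    refine ⟨y + y', Submodule.add_mem _ hy hy', e' + f', ⟨w + w', ?_⟩, ?_⟩
    · rw [smul_add, hw, hw', map_add]
    · rw [h3, h3', map_add, smul_add]; abel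
  | smul r e _ he =>
    obtain ⟨y, hy, e', ⟨w, hw⟩, h3⟩ := he
    refine ⟨r • y, Submodule.smul_mem _ _ hy, r • e', ⟨r • w, ?_⟩, ?_⟩
    · rw [map_smul, ← hw, smul_comm]
    · rw [h3, map_smul, smul_add, smul_comm (a ^ N) r e']

/-- **Descent of inclusions**: if `r • L ⊆ b • L` and `a ^ k • X ⊆ b • X` then `r • X ⊆ b • X`. -/
theorem smul_mem_of_idL [IsAdicComplete (Ideal.span {a}) A] [Fintype ι] (b : Ideal C) (r : C)
    (k : ℕ) (hk : ∀ e ∈ F.mod h, a ^ k • e ∈ b • F.mod h)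
    (hr : ∀ l ∈ L, r • F.v₁ l ∈ F.idL b) :
    ∀ e ∈ F.mod h, r • e ∈ b • F.mod h := by
  rintro _ ⟨x, hx, rfl⟩
  obtain ⟨x', hx', h2⟩ := F.stable h r hx
  rw [h2]
  let J : Submodule A (ι → A) := (b • F.mod h).restrictScalars A |>.comap F.v₀
  have hJ : J ≤ X a L := by
    intro y hy
    have h3 : F.v₀ y ∈ F.mod h := Submodule.smul_le_right hy
    obtain ⟨y', hy', h4⟩ := h3
    rwa [F.inj₀ h4] at hy'
  have h5 : x' ∈ J := by
    refine h.mem_of_bc_mem hJ (N := k) ?_ hx' ?_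
    · intro y hy
      change F.v₀ (a ^ k • y) ∈ b • F.mod h
      rw [map_smul]
      exact hk _ ⟨y, hy, rfl⟩
    · obtain ⟨l, hl, w, hlw⟩ := h.bc_mem (k + c₀ + m) hx
      obtain ⟨y, hy, e', ⟨w', hw'⟩, h6⟩ := F.idL_le h b (k + c₀ + m) (hr l hl)
      obtain ⟨w'', hw''⟩ := F.lat₁ r w
      have h7 : F.v₁ (bc A ι x' - y) = a ^ (k + c₀ + m) • (e' + r • F.v₁ w) := by
        rw [map_sub, ← F.comm, ← h2, map_smul, F.comm, hlw, map_add, smul_add, h6,
          v₁_pow_smul, ← smul_comm_AC (a ^ (k + c₀ + m)) r, smul_add]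
        abel
      have h8 : d • F.v₁ (bc A ι x' - y) = a ^ (k + c₀ + m) • F.v₁ (w' + w'') := by
        rw [h7, smul_comm d, smul_add, hw', hw'', map_add]
      obtain ⟨g, hg⟩ := F.small h8
      have h9 : (bc A ι x' : ι → A₁) = y + (algebraMap A A₁ a) ^ (k + c₀) • g := by
        rw [← hg]; abel
      rw [h9]
      exact Submodule.add_mem_sup hy (smul_mem_P _)
  exact h5

end Frame

end

end Crest.Agent.R183.BCM
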