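/-
R183 (Lech): limit forms of the growth estimates of `WGrowth.lean`.
helper811
-/
import Crest.Agent.R183.WGrowth
import Crest.Agent.R183.M0

set_option autoImplicit false

namespace Crest.Agent.R183.WG

open scoped ENNReal
open Crest.Agent.R183 Filter

universe u

variable {A : Type u} [CommRing A] (Λ : AddLen.{u, u} A)
variable {V X : Type u} [AddCommGroup V] [Module A V] [AddCommGroup X] [Module A X]

/-- continuity of an additive length: it is determined by finitely generated submodules. -/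
def Cont : Prop :=
  ∀ (M : Type u) [AddCommGroup M] [Module A M] (c : ℝ≥0∞),
    (∀ E : Submodule A M, E.FG → Λ.L E ≤ c) → Λ.L M ≤ c

/-- elementary: if `n^d x ≤ n^d y + C n^(d-1)` for all large `n`, `C < ∞`, then `x ≤ y`. -/
lemma le_of_growth {d : ℕ} (hd : 0 < d) {x y C : ℝ≥0∞} (hC : C ≠ ⊤)
    (h : ∀ n : ℕ, 0 < n → (n : ℝ≥0∞) ^ d * x ≤ (n : ℝ≥0∞) ^ d * y + C * (n : ℝ≥0∞) ^ (d - 1)) :
    x ≤ y := by
  by_cases hy : y = ⊤
  · rw [hy]; exact le_top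
  have h1 : ∀ n : ℕ, 0 < n → x ≤ y + C / n := by
    intro n hn
    have hn0 : (n : ℝ≥0∞) ≠ 0 := by exact_mod_cast hn.ne'
    have hnt : (n : ℝ≥0∞) ≠ ⊤ := ENNReal.natCast_ne_top n
    have h2 := h n hn
    have h3 : (n : ℝ≥0∞) ^ d * y + C * (n : ℝ≥0∞) ^ (d - 1) = (n : ℝ≥0∞) ^ d * (y + C / n) := by
      rw [mul_add]
      congr 1
      obtain ⟨k, rfl⟩ : ∃ k, d = k + 1 := ⟨d - 1, by omega⟩
      rw [Nat.add_sub_cancel, pow_succ, mul_assoc, ENNReal.mul_div_cancel hn0 hnt, mul_comm]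
    rw [h3] at h2
    exact (ENNReal.mul_le_mul_iff_right (pow_ne_zero _ hn0) (ENNReal.pow_ne_top hnt)).1 h2
  have h2 : Tendsto (fun n : ℕ => y + C / n) atTop (nhds (y + 0)) := by
    refine Tendsto.const_add _ ?_
    have := ENNReal.Tendsto.const_div (a := C) ENNReal.tendsto_nat_nhds_top (Or.inr hC)
    simpa using this
  rw [add_zero] at h2
  refine ge_of_tendsto h2 ?_
  filter_upwards [eventually_gt_atTop 0] with n hn using h1 n hn

/-- finitely generated submodules of `V / U` lift. -/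
lemma exists_lift_span {U : Submodule A V} {E : Submodule A (V ⧸ U)} (hE : E.FG) :
    ∃ (m : ℕ) (s : Fin m → V), (Submodule.span A (Set.range s)).map U.mkQ = E := by
  obtain ⟨m, t, ht⟩ := Submodule.fg_iff_exists_fin_generating_family.1 hE
  choose s hs using fun i => U.mkQ_surjective (t i)
  refine ⟨m, s, ?_⟩
  rw [Submodule.map_span, ← Set.range_comp, ← ht]
  congr 2
  funext i
  exact hs i

/-- **Upper bound, limit form.** `L(V/zV) ≤ r`. -/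
theorem L_quot_le {d : ℕ} (hd : 0 < d) (hcont : Cont Λ) (z : Fin d → A) (hz : NullReg Λ z V)
    (f : X →ₗ[A] V) (Δ : A) (hΔ : ∀ v : V, Δ • v ∈ LinearMap.range f)
    (I : Ideal A) (hI : ∀ a ∈ I, ∀ v : V, a • v = 0) (r C C' : ℝ≥0∞) (hC : C ≠ ⊤) (hC' : C' ≠ ⊤)
    (hX : ∀ n : ℕ, 0 < n → Λ.L (X ⧸ (powIdeal z (fun _ => n) • (⊤ : Submodule A X)))
      ≤ r * (n : ℝ≥0∞) ^ d + C * (n : ℝ≥0∞) ^ (d - 1))
    (hA : ∀ n : ℕ, 0 < n → Λ.L (A ⧸ (I ⊔ Ideal.span {Δ} ⊔ powIdeal z (fun _ => n)))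
      ≤ C' * (n : ℝ≥0∞) ^ (d - 1)) :
    Λ.L (V ⧸ (Ideal.span (Set.range z) • (⊤ : Submodule A V))) ≤ r := by
  refine hcont _ _ fun E hE => ?_
  obtain ⟨m, s, rfl⟩ := exists_lift_span hE
  rw [← ell_eq_map]
  refine le_of_growth hd (C := C + m * C')
    (ENNReal.add_ne_top.2 ⟨hC, ENNReal.mul_ne_top (ENNReal.natCast_ne_top m) hC'⟩) ?_
  intro n hn
  obtain ⟨k, rfl⟩ : ∃ k, n = k + 1 := ⟨n - 1, by omega⟩
  refine (pow_mul_ell_le Λ z hz (Submodule.span A (Set.range s)) k).trans ?_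
  refine (ell_le_of_bounded Λ f Δ hΔ I hI (powIdeal z fun _ => k + 1) s).trans ?_
  refine (add_le_add (hX (k + 1) hn) (mul_le_mul_right (hA (k + 1) hn) _)).trans ?_
  apply le_of_eq
  ring

/-- **Lower bound, limit form.** If `r n^d ≤ L(X/w^(n)X)` and the torsion part is small, then
`r ≤ L(V/wV)`. -/
theorem le_L_quot {d : ℕ} (hd : 0 < d) (w : Fin d → A)
    (g : X →ₗ[A] V) (Δ : A) (hΔ : ∀ v : V, Δ • v ∈ LinearMap.range g)
    (hker : ∀ x, g x = 0 → Δ • x = 0) (r C : ℝ≥0∞) (hC : C ≠ ⊤)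
    (hfin : ∀ n : ℕ, 0 < n → Λ.L (X ⧸ (powIdeal w (fun _ => n) • (⊤ : Submodule A X))) ≠ ⊤)
    (hX : ∀ n : ℕ, 0 < n → r * (n : ℝ≥0∞) ^ d ≤
      Λ.L (X ⧸ (powIdeal w (fun _ => n) • (⊤ : Submodule A X))))
    (hT : ∀ n : ℕ, 0 < n →
      Λ.L (X ⧸ ((Ideal.span {Δ ^ 2} ⊔ powIdeal w (fun _ => n)) • (⊤ : Submodule A X)))
      ≤ C * (n : ℝ≥0∞) ^ (d - 1)) :
    r ≤ Λ.L (V ⧸ (Ideal.span (Set.range w) • (⊤ : Submodule A V))) := by
  refine le_of_growth hd hC fun n hn => ?_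
  rw [mul_comm]
  refine (hX n hn).trans ((L_le_of_bounded Λ g Δ hΔ hker _ (hfin n hn)).trans ?_)
  exact add_le_add (L_quot_powIdeal_le Λ w n) (hT n hn)

end Crest.Agent.R183.WG
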