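/-
R183 (Lech): the core inequality, from the stages `X_q` (helper523's exact module, or any
`NullReg` module) and the output of Theorem K to `r_T ≤ r_S`.
helper811
-/
import Crest.Agent.R183.WBound
import Crest.Agent.R183.AddLenInst

set_option autoImplicit false

namespace Crest.Agent.R183.Core

open scoped ENNReal
open Crest.Agent.R183 Crest.Agent.R183.WG Filter

universe u

section free

variable {A : Type u} [CommRing A] (Λ : AddLen.{u, u} A)

/-- `L (A^c / K A^c) = c L (A / K)`. -/
lemma L_pi_quot (c : ℕ) (K : Ideal A) :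
    Λ.L ((Fin c → A) ⧸ (K • (⊤ : Submodule A (Fin c → A)))) = c * Λ.L (A ⧸ K) := by
  let π : (Fin c → A) →ₗ[A] (Fin c → A ⧸ K) :=
    LinearMap.pi fun i => (Submodule.mkQ K).comp (LinearMap.proj i)
  have hπ : Function.Surjective π := by
    intro v
    choose u hu using fun i => Submodule.mkQ_surjective K (v i)
    exact ⟨u, funext hu⟩
  have hk : LinearMap.ker π = K • (⊤ : Submodule A (Fin c → A)) := by
    ext v
    constructor
    · intro hv
      rw [LinearMap.mem_ker] at hv
      have h1 : ∀ i, v i ∈ K := by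
        intro i
        have := congrFun hv i
        exact (Submodule.Quotient.mk_eq_zero K).1 this
      have h2 : v = ∑ i, v i • (Pi.single i (1 : A) : Fin c → A) := by
        conv_lhs => rw [← Finset.univ_sum_single v]
        refine Finset.sum_congr rfl fun i _ => ?_
        rw [← Pi.single_smul, smul_eq_mul, mul_one]
      rw [h2]
      exact Submodule.sum_mem _ fun i _ => Submodule.smul_mem_smul (h1 i) trivial
    · intro hv
      refine Submodule.smul_induction_on hv ?_ ?_
      · intro a ha v _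
        rw [LinearMap.mem_ker]
        funext i
        change (Submodule.Quotient.mk (a • v i) : A ⧸ K) = 0
        rw [Submodule.Quotient.mk_eq_zero]
        exact K.mul_mem_right _ ha
      · intro x y hx hy
        exact Submodule.add_mem _ hx hy
  have e : ((Fin c → A) ⧸ (K • (⊤ : Submodule A (Fin c → A)))) ≃ₗ[A] (Fin c → A ⧸ K) :=
    (Submodule.quotEquivOfEq _ _ hk.symm).trans (π.quotKerEquivOfSurjective hπ)
  rw [Λ.L_congr e, Λ.L_finset_pi]

/-- `(M / I M) / K (M / I M) = M / (I + K) M`. -/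
lemma L_quot_quot {M : Type u} [AddCommGroup M] [Module A M] (I K : Ideal A) :
    Λ.L ((M ⧸ (I • (⊤ : Submodule A M))) ⧸
        (K • (⊤ : Submodule A (M ⧸ (I • (⊤ : Submodule A M))))))
      = Λ.L (M ⧸ ((I ⊔ K) • (⊤ : Submodule A M))) := by
  let π : M →ₗ[A] ((M ⧸ (I • (⊤ : Submodule A M))) ⧸
      (K • (⊤ : Submodule A (M ⧸ (I • (⊤ : Submodule A M)))))) :=
    (Submodule.mkQ _).comp (Submodule.mkQ _)
  have hπ : Function.Surjective π := (Submodule.mkQ_surjective _).comp (Submodule.mkQ_surjective _)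
  have hk : LinearMap.ker π = (I ⊔ K) • (⊤ : Submodule A M) := by
    rw [LinearMap.ker_comp, Submodule.ker_mkQ]
    have h1 : (K • (⊤ : Submodule A (M ⧸ (I • (⊤ : Submodule A M))))) =
        (K • (⊤ : Submodule A M)).map (I • (⊤ : Submodule A M)).mkQ := by
      rw [Submodule.map_smul'', Submodule.map_top, Submodule.range_mkQ]
    rw [h1, Submodule.comap_map_mkQ, Submodule.sup_smul]
  exact Λ.L_congr ((Submodule.quotEquivOfEq _ _ hk.symm).trans
    (π.quotKerEquivOfSurjective hπ)).symm

end free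

section stage

variable {T To C X : Type u} [CommRing T] [CommRing To] [Algebra T To] (Λ : AddLen.{u, u} To)
  [CommRing C] [Algebra To C] [AddCommGroup X] [Module To X] [Module C X] [IsScalarTower To C X]

lemma powIdeal_map {d : ℕ} (z : Fin d → T) (a : Fin d → ℕ) :
    (powIdeal z a).map (algebraMap T To) = powIdeal (fun i => algebraMap T To (z i)) a := by
  unfold powIdeal
  rw [Ideal.map_span, ← Set.range_comp]
  congr 2
  funext i
  simp

/-- the step `L(X/wX) ≤ q^D L(X/YX)`. -/
lemma L_quot_root_le {D : ℕ} (w : Fin D → To) (Y : Fin D → C) (q : ℕ)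
    (hY : ∀ i, Y i ^ q = algebraMap To C (w i)) :
    Λ.L (X ⧸ (Ideal.span (Set.range w) • (⊤ : Submodule To X)))
      ≤ (q : ℝ≥0∞) ^ D * (Λ.restrict (algebraMap To C)).L
          (X ⧸ (Ideal.span (Set.range Y) • (⊤ : Submodule C X))) := by
  refine le_trans ?_ (L_quot_powIdeal_le (Λ.restrict (algebraMap To C)) Y q)
  rw [Λ.restrict_L (algebraMap To C) _ (fun a x => (algebraMap_smul C a x).symm)]
  -- surjection `X/(Y^q)X → X/wX`
  have hle : ((powIdeal Y (fun _ => q) • (⊤ : Submodule C X)).restrictScalars To) ≤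
      Ideal.span (Set.range w) • (⊤ : Submodule To X) := by
    intro x hx
    rw [Submodule.restrictScalars_mem] at hx
    refine Submodule.smul_induction_on hx ?_ ?_
    · intro a ha v _
      refine Submodule.span_induction (p := fun a _ => ∀ v : X, a • v ∈
        Ideal.span (Set.range w) • (⊤ : Submodule To X)) ?_ ?_ ?_ ?_ ha v
      · rintro _ ⟨i, rfl⟩ v
        dsimp only
        rw [hY i, algebraMap_smul]
        exact Submodule.smul_mem_smul (Ideal.subset_span ⟨i, rfl⟩) trivial
      · intro v; rw [zero_smul]; exact Submodule.zero_mem _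
      · intro a b _ _ ha hb v
        rw [add_smul]; exact Submodule.add_mem _ (ha v) (hb v)
      · intro a b _ hb v
        rw [smul_eq_mul, mul_comm, mul_smul]
        exact hb _
    · intro x y hx hy
      exact Submodule.add_mem _ hx hy
  let φ : (X ⧸ (powIdeal Y (fun _ => q) • (⊤ : Submodule C X))) →ₗ[To]
      (X ⧸ (Ideal.span (Set.range w) • (⊤ : Submodule To X))) :=
    { toFun := fun x => Quotient.liftOn' x
        (fun y => (Submodule.Quotient.mk y : X ⧸ (Ideal.span (Set.range w) • (⊤ : Submodule To X))))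
        (by
          intro y y' h
          rw [Submodule.quotientRel_def] at h
          exact (Submodule.Quotient.eq _).2 (hle h))
      map_add' := by
        intro x y
        induction x using Quotient.inductionOn'
        induction y using Quotient.inductionOn'
        rfl
      map_smul' := by
        intro a x
        induction x using Quotient.inductionOn'
        rfl }
  have hφ : Function.Surjective φ := by
    intro y
    obtain ⟨y, rfl⟩ := Submodule.Quotient.mk_surjective _ y
    exact ⟨Submodule.Quotient.mk y, rfl⟩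
  exact Λ.L_le_of_surjective φ hφ

variable (J0 : Ideal T) {D d : ℕ} (w : Fin D → T) (z : Fin d → T) (Δ : T)

/-- **Core inequality at one stage.** -/
theorem core_stage (hD : 0 < D) (hd : 0 < d) (hcont : Cont Λ)
    (hΛ : ∀ I : Ideal T, Module.length T (T ⧸ I) ≠ ⊤ →
      Λ.L (To ⧸ I.map (algebraMap T To)) = ((Module.length T (T ⧸ I) : ℕ∞) : ℝ≥0∞))
    -- multiplicities
    (rT rS CS CT : ℕ)
    (hrS : ∀ n : ℕ, 0 < n → Module.length T (T ⧸ (J0 ⊔ powIdeal z (fun _ => n)))
      ≤ ((rS * n ^ d + CS * n ^ (d - 1) : ℕ) : ℕ∞))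
    (hrT : ∀ n : ℕ, 0 < n → ((rT * n ^ D : ℕ) : ℕ∞) ≤
      Module.length T (T ⧸ powIdeal w (fun _ => n)))
    (hfin : ∀ n : ℕ, 0 < n → Module.length T (T ⧸ powIdeal w (fun _ => n)) ≠ ⊤)
    -- growth of the junk
    (hgT : ∀ n : ℕ, 0 < n → Module.length T (T ⧸ (Ideal.span {Δ ^ 2} ⊔ powIdeal w (fun _ => n)))
      ≤ ((CT * n ^ (D - 1) : ℕ) : ℕ∞))
    (hgS : ∀ n : ℕ, 0 < n → Module.length T (T ⧸ (J0 ⊔ Ideal.span {Δ} ⊔ powIdeal z (fun _ => n)))
      ≤ ((CS * n ^ (d - 1) : ℕ) : ℕ∞))
    -- the stage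
    (Y : Fin D → C) (q : ℕ) (hY : ∀ i, Y i ^ q = algebraMap To C (algebraMap T To (w i)))
    (c : ℕ) (hc : 0 < c) (f : (Fin c → To) →ₗ[To] X)
    (hΔ : ∀ x : X, algebraMap T To Δ • x ∈ LinearMap.range f)
    (hker : ∀ v, f v = 0 → algebraMap T To Δ • v = 0)
    (hnull : NullReg Λ (fun i => algebraMap T To (z i))
      (X ⧸ (J0.map (algebraMap T To) • (⊤ : Submodule To X))))
    -- output of Theorem K
    (κ : ℝ≥0∞)
    (hK : κ * (Λ.restrict (algebraMap To C)).L
          (X ⧸ (Ideal.span (Set.range Y) • (⊤ : Submodule C X)))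
      ≤ Λ.L (X ⧸ ((J0.map (algebraMap T To) ⊔
          Ideal.span (Set.range fun i => algebraMap T To (z i))) • (⊤ : Submodule To X)))) :
    κ * rT ≤ (q : ℝ≥0∞) ^ D * rS := by
  set J := J0.map (algebraMap T To) with hJ
  set z' := fun i => algebraMap T To (z i) with hz'
  set w' := fun i => algebraMap T To (w i) with hw'
  set δ := algebraMap T To Δ with hδ
  have hc0 : (c : ℝ≥0∞) ≠ 0 := by exact_mod_cast hc.ne'
  have hct : (c : ℝ≥0∞) ≠ ⊤ := ENNReal.natCast_ne_top c
  -- (1) `L(X/(J,z)X) ≤ c rS`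
  have h1 : Λ.L (X ⧸ ((J ⊔ Ideal.span (Set.range z')) • (⊤ : Submodule To X))) ≤ c * rS := by
    rw [← L_quot_quot]
    have hfJ : (J • (⊤ : Submodule To (Fin c → To))) ≤ (J • (⊤ : Submodule To X)).comap f := by
      rw [← Submodule.map_le_iff_le_comap, Submodule.map_smul'']
      exact Submodule.smul_mono le_rfl le_top
    let F := Submodule.mapQ (J • (⊤ : Submodule To (Fin c → To))) (J • (⊤ : Submodule To X)) f hfJ
    refine L_quot_le Λ hd hcont z' hnull F δ ?_ J ?_ (c * rS) (c * CS) CS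
      (ENNReal.mul_ne_top hct (ENNReal.natCast_ne_top _)) (ENNReal.natCast_ne_top _) ?_ ?_
    · intro v
      obtain ⟨x, rfl⟩ := Submodule.Quotient.mk_surjective _ v
      obtain ⟨y, hy⟩ := hΔ x
      refine ⟨Submodule.Quotient.mk y, ?_⟩
      change Submodule.Quotient.mk (f y) = _
      rw [hy]
      rfl
    · intro a ha v
      obtain ⟨x, rfl⟩ := Submodule.Quotient.mk_surjective _ v
      rw [← Submodule.Quotient.mk_smul, Submodule.Quotient.mk_eq_zero]
      exact Submodule.smul_mem_smul ha trivial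
    · intro n hn
      rw [L_quot_quot, L_pi_quot, hJ, hz', ← powIdeal_map, ← Ideal.map_sup, hΛ]
      · have h := hrS n hn
        have h' : ((Module.length T (T ⧸ (J0 ⊔ powIdeal z (fun _ => n))) : ℕ∞) : ℝ≥0∞) ≤
            ((rS * n ^ d + CS * n ^ (d - 1) : ℕ) : ℝ≥0∞) := by
          have := ENat.toENNReal_mono h
          simpa using this
        refine (mul_le_mul_right h' _).trans ?_
        push_cast
        apply le_of_eq
        ring
      · intro htop
        have h := hrS n hn
        rw [htop, top_le_iff] at h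
        exact ENat.natCast_ne_top _ h
    · intro n hn
      have e : J ⊔ Ideal.span {δ} ⊔ powIdeal z' (fun _ => n) =
          (J0 ⊔ Ideal.span {Δ} ⊔ powIdeal z (fun _ => n)).map (algebraMap T To) := by
        rw [Ideal.map_sup, Ideal.map_sup, powIdeal_map, Ideal.map_span, Set.image_singleton]
      rw [e, hΛ]
      · have := ENat.toENNReal_mono (hgS n hn)
        simpa using this
      · intro htop
        have h := hgS n hn
        rw [htop, top_le_iff] at h
        exact ENat.natCast_ne_top _ h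
  -- (2) `c rT ≤ L(X/wX)`
  have h2 : c * rT ≤ Λ.L (X ⧸ (Ideal.span (Set.range w') • (⊤ : Submodule To X))) := by
    refine le_L_quot Λ hD w' f δ hΔ hker (c * rT) (c * CT)
      (ENNReal.mul_ne_top hct (ENNReal.natCast_ne_top _)) ?_ ?_ ?_
    · intro n hn
      rw [L_pi_quot, hw', ← powIdeal_map, hΛ _ (hfin n hn)]
      refine ENNReal.mul_ne_top hct ?_
      rw [Ne, ENat.toENNReal_eq_top]
      exact hfin n hn
    · intro n hn
      rw [L_pi_quot, hw', ← powIdeal_map, hΛ _ (hfin n hn), mul_assoc]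
      refine mul_le_mul_right ?_ _
      have := ENat.toENNReal_mono (hrT n hn)
      simpa using this
    · intro n hn
      have e : Ideal.span {δ ^ 2} ⊔ powIdeal w' (fun _ => n) =
          (Ideal.span {Δ ^ 2} ⊔ powIdeal w (fun _ => n)).map (algebraMap T To) := by
        rw [Ideal.map_sup, powIdeal_map, Ideal.map_span, Set.image_singleton, map_pow]
      rw [L_pi_quot, e, hΛ]
      · rw [mul_assoc]
        refine mul_le_mul_right ?_ _
        have := ENat.toENNReal_mono (hgT n hn)
        simpa using this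
      · intro htop
        have h := hgT n hn
        rw [htop, top_le_iff] at h
        exact ENat.natCast_ne_top _ h
  -- (3) combine
  have h3 := L_quot_root_le (X := X) Λ w' Y q hY
  have h4 : c * (κ * rT) ≤ c * ((q : ℝ≥0∞) ^ D * rS) := by
    calc c * (κ * rT) = κ * (c * rT) := by ring
      _ ≤ κ * ((q : ℝ≥0∞) ^ D * (Λ.restrict (algebraMap To C)).L
          (X ⧸ (Ideal.span (Set.range Y) • (⊤ : Submodule C X)))) :=
          mul_le_mul_right (h2.trans h3) _
      _ = (q : ℝ≥0∞) ^ D * (κ * (Λ.restrict (algebraMap To C)).L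
          (X ⧸ (Ideal.span (Set.range Y) • (⊤ : Submodule C X)))) := by ring
      _ ≤ (q : ℝ≥0∞) ^ D * (c * rS) := mul_le_mul_right (hK.trans h1) _
      _ = _ := by ring
  exact (ENNReal.mul_le_mul_iff_right hc0 hct).1 h4

end stage

/-- **Core inequality, limit.** -/
theorem core_limit {D : ℕ} (rT rS : ℕ) (C : ℝ) (c' : ℕ) (p : ℕ) (hp : 1 < p)
    (h : ∀ e : ℕ, c' < p ^ e → ENNReal.ofReal (((p ^ e - c' : ℕ) : ℝ) ^ D
      - C * ((p ^ e - c' : ℕ) : ℝ) ^ (D - 1)) * rT ≤ ((p ^ e : ℕ) : ℝ≥0∞) ^ D * rS) (hD : 0 < D) :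
    rT ≤ rS := by
  have hR : ∀ e : ℕ, c' < p ^ e →
      (((p ^ e - c' : ℕ) : ℝ) ^ D - C * ((p ^ e - c' : ℕ) : ℝ) ^ (D - 1)) * rT
        ≤ ((p ^ e : ℕ) : ℝ) ^ D * rS := by
    intro e he
    have h1 := h e he
    have h2 : ENNReal.ofReal ((((p ^ e - c' : ℕ) : ℝ) ^ D
      - C * ((p ^ e - c' : ℕ) : ℝ) ^ (D - 1)) * rT) ≤
        ENNReal.ofReal (((p ^ e : ℕ) : ℝ) ^ D * rS) := by
      rw [ENNReal.ofReal_mul' (by positivity), ENNReal.ofReal_mul (by positivity),
        ENNReal.ofReal_pow (by positivity), ENNReal.ofReal_natCast, ENNReal.ofReal_natCast,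
        ENNReal.ofReal_natCast]
      exact h1
    exact (ENNReal.ofReal_le_ofReal_iff (by positivity)).1 h2
  -- with `N = p^e - c'`, `p^e = N + c'`
  have hN : Tendsto (fun e : ℕ => p ^ e - c') atTop atTop :=
    (tendsto_sub_atTop_nat c').comp (tendsto_pow_atTop_atTop_of_one_lt hp)
  have hlim : Tendsto (fun N : ℕ => (1 - C / (N : ℝ)) * (rT : ℝ)) atTop (nhds ((1 - 0) * (rT : ℝ))) := by
    refine Tendsto.mul_const _ (Tendsto.const_sub _ ?_)
    exact tendsto_const_div_atTop_nhds_zero_nat C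
  have hlim2 : Tendsto (fun N : ℕ => (1 + (c' : ℝ) / (N : ℝ)) ^ D * (rS : ℝ)) atTop
      (nhds ((1 + 0) ^ D * (rS : ℝ))) := by
    refine Tendsto.mul_const _ (Tendsto.pow (Tendsto.const_add _ ?_) _)
    exact tendsto_const_div_atTop_nhds_zero_nat (c' : ℝ)
  have key : ((1 - 0) * (rT : ℝ)) ≤ ((1 + 0) ^ D * (rS : ℝ)) := by
    refine le_of_tendsto_of_tendsto (hlim.comp hN) (hlim2.comp hN) ?_
    have hev : ∀ᶠ e : ℕ in atTop, c' < p ^ e :=
      (tendsto_pow_atTop_atTop_of_one_lt hp).eventually_gt_atTop c'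
    filter_upwards [hev] with e he
    have h1 := hR e he
    set N := p ^ e - c' with hNdef
    have hNpos : 0 < N := Nat.sub_pos_of_lt he
    have hpe : ((p ^ e : ℕ) : ℝ) = (N : ℝ) + c' := by
      rw [hNdef, ← Nat.cast_add, Nat.sub_add_cancel he.le]
    have hN0 : (0 : ℝ) < N := by exact_mod_cast hNpos
    rw [hpe] at h1
    simp only [Function.comp_apply]
    rw [← hNdef]
    obtain ⟨k, rfl⟩ : ∃ k, D = k + 1 := ⟨D - 1, by omega⟩
    rw [Nat.add_sub_cancel] at h1
    have h2 : (1 - C / (N : ℝ)) * (rT : ℝ) = (((N : ℝ) ^ (k + 1) - C * (N : ℝ) ^ k) * rT) / (N : ℝ) ^ (k + 1) := by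
      field_simp
      ring
    have h3 : (1 + (c' : ℝ) / (N : ℝ)) ^ (k + 1) * (rS : ℝ) =
        (((N : ℝ) + c') ^ (k + 1) * rS) / (N : ℝ) ^ (k + 1) := by
      rw [show (1 + (c' : ℝ) / (N : ℝ)) = ((N : ℝ) + c') / N by field_simp, div_pow]
      ring
    rw [h2, h3]
    exact div_le_div_of_nonneg_right h1 (by positivity)
  rw [sub_zero, one_mul, add_zero, one_pow, one_mul] at key
  exact_mod_cast key

end Crest.Agent.R183.Core
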