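/-
R183 (Lech): glue between helper969's acyclicity lemma and `Core.core_stage`, for an abstract
exact stage module `X`.
helper811
-/
import Crest.Agent.R183.Res5
import Crest.Agent.R183.Core

set_option autoImplicit false

namespace Crest.Agent.R183.Glue

open scoped ENNReal
open Crest.Agent.R183 Crest.Agent.R183.Res Crest.Agent.R183.WG

universe u v w

section kos

variable {A : Type u} [CommRing A] {M : Type v} [AddCommGroup M] [Module A M]

lemma sat_triv (B : Submodule A M) : (NullF.triv A).sat B = B := by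
  ext m
  rw [NullF.mem_sat]
  change col B m = ⊤ ↔ _
  rw [Ideal.eq_top_iff_one, mem_col, one_smul]

/-- exactness of a cone, concrete version. -/
lemma cone_exact (C : MCx A) (x : A)
    (hC : ∀ j, 1 ≤ j → C.cycM M j ≤ C.bdyM M j)
    (hx : ∀ v : C.ι 0 → M, x • v ∈ C.bdyM M 0 → v ∈ C.bdyM M 0) :
    ∀ j, 1 ≤ j → (C.cone x).cycM M j ≤ (C.cone x).bdyM M j := by
  intro j hj
  match j, hj with
  | 1, _ =>
    intro w hw
    have hw0 : (C.cone x).dM M 0 w = 0 := hw
    set u : C.ι 1 → M := fun b => w (Sum.inl b) with hu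
    set v : C.ι 0 → M := fun b => w (Sum.inr b) with hv
    have h1 : C.dM M 0 u + x • v = 0 := by
      funext i
      have := congrFun hw0 i
      exact (sum_fromCols (C.d 0) x w i).symm.trans this
    obtain ⟨v', hv'⟩ := hx v ⟨-u, by
      rw [map_neg]; exact (eq_neg_of_add_eq_zero_right h1).symm⟩
    have hv'' : C.dM M 0 v' = v := hv'
    have h2 : u + x • v' ∈ C.cycM M 1 := by
      show C.dM M 0 (u + x • v') = 0
      rw [map_add, map_smul, hv'', h1]
    obtain ⟨u', hu'⟩ := hC 1 le_rfl h2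
    have hu'' : C.dM M 1 u' = u + x • v' := hu'
    refine ⟨(Sum.elim u' (-v') : C.ι 2 ⊕ C.ι 1 → M), ?_⟩
    funext i
    match i with
    | Sum.inl i =>
      have e1 : ∑ b : C.ι 2 ⊕ C.ι 1, (Matrix.fromBlocks (C.d 1)
          (x • (1 : Matrix (C.ι 1) (C.ι 1) A)) 0 (- C.d 0)) (Sum.inl i) b •
          (Sum.elim u' (-v') : C.ι 2 ⊕ C.ι 1 → M) b = C.dM M 1 u' i + x • (-v') i :=
        sum_fromCols (C.d 1) x (Sum.elim u' (-v') : C.ι 2 ⊕ C.ι 1 → M) i
      refine e1.trans ?_
      rw [hu'']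
      simp only [Pi.add_apply, Pi.smul_apply, Pi.neg_apply, smul_neg, add_neg_cancel_right]
      rfl
    | Sum.inr i =>
      refine (sum_fromBlocks' (C.d 1) (x • (1 : Matrix (C.ι 1) (C.ι 1) A)) (- C.d 0)
        (Sum.elim u' (-v') : C.ι 2 ⊕ C.ι 1 → M) i).trans ?_
      have : ∑ b : C.ι 1, (- C.d 0) i b • (Sum.elim u' (-v') : C.ι 2 ⊕ C.ι 1 → M) (Sum.inr b)
          = C.dM M 0 v' i := by
        refine Finset.sum_congr rfl fun b _ => ?_
        show (- C.d 0 i b) • (-v') b = C.d 0 i b • v' b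
        rw [Pi.neg_apply, smul_neg, neg_smul, neg_neg]
      rw [this, hv'']
  | (n + 2), _ =>
    intro w hw
    have hw0 : (C.cone x).dM M (n + 1) w = 0 := hw
    set u : C.ι (n + 2) → M := fun b => w (Sum.inl b) with hu
    set v : C.ι (n + 1) → M := fun b => w (Sum.inr b) with hv
    have h1 : C.dM M (n + 1) u + x • v = 0 := by
      funext i
      have := congrFun hw0 (Sum.inl i)
      exact (sum_fromCols (C.d (n + 1)) x w i).symm.trans this
    have h1' : C.dM M n v = 0 := by
      funext i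
      have h2 := congrFun hw0 (Sum.inr i)
      have h3 := (sum_fromBlocks' (C.d (n + 1)) (x • (1 : Matrix (C.ι (n + 1)) (C.ι (n + 1)) A))
        (- C.d n) w i).symm.trans h2
      have h4 : ∑ b : C.ι (n + 1), (- C.d n) i b • w (Sum.inr b) = - C.dM M n v i := by
        show _ = - ∑ b, C.d n i b • w (Sum.inr b)
        rw [← Finset.sum_neg_distrib]
        refine Finset.sum_congr rfl fun b _ => ?_
        show (- C.d n i b) • _ = _
        rw [neg_smul]
      rw [h4] at h3
      exact neg_eq_zero.1 h3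
    obtain ⟨v', hv'⟩ := hC (n + 1) (by omega) (show v ∈ C.cycM M (n + 1) from h1')
    have hv'' : C.dM M (n + 1) v' = v := hv'
    have h2 : u + x • v' ∈ C.cycM M (n + 2) := by
      show C.dM M (n + 1) (u + x • v') = 0
      rw [map_add, map_smul, hv'', h1]
    obtain ⟨u', hu'⟩ := hC (n + 2) (by omega) h2
    have hu'' : C.dM M (n + 2) u' = u + x • v' := hu'
    refine ⟨(Sum.elim u' (-v') : C.ι (n + 3) ⊕ C.ι (n + 2) → M), ?_⟩
    funext i
    match i with
    | Sum.inl i =>
      have e1 : ∑ b : C.ι (n + 3) ⊕ C.ι (n + 2), (Matrix.fromBlocks (C.d (n + 2))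
          (x • (1 : Matrix (C.ι (n + 2)) (C.ι (n + 2)) A)) 0 (- C.d (n + 1))) (Sum.inl i) b •
          (Sum.elim u' (-v') : C.ι (n + 3) ⊕ C.ι (n + 2) → M) b =
            C.dM M (n + 2) u' i + x • (-v') i :=
        sum_fromCols (C.d (n + 2)) x (Sum.elim u' (-v') : C.ι (n + 3) ⊕ C.ι (n + 2) → M) i
      refine e1.trans ?_
      rw [hu'']
      simp only [Pi.add_apply, Pi.smul_apply, Pi.neg_apply, smul_neg, add_neg_cancel_right]
      rfl
    | Sum.inr i =>
      refine (sum_fromBlocks' (C.d (n + 2)) (x • (1 : Matrix (C.ι (n + 2)) (C.ι (n + 2)) A))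
        (- C.d (n + 1)) (Sum.elim u' (-v') : C.ι (n + 3) ⊕ C.ι (n + 2) → M) i).trans ?_
      have : ∑ b : C.ι (n + 2), (- C.d (n + 1)) i b •
          (Sum.elim u' (-v') : C.ι (n + 3) ⊕ C.ι (n + 2) → M) (Sum.inr b)
          = C.dM M (n + 1) v' i := by
        refine Finset.sum_congr rfl fun b _ => ?_
        show (- C.d (n + 1) i b) • (-v') b = C.d (n + 1) i b • v' b
        rw [Pi.neg_apply, smul_neg, neg_smul, neg_neg]
      rw [this, hv'']

/-- `l` is a (weakly) regular sequence on `M`, read from the last entry to the first. -/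
def RegL (M : Type v) [AddCommGroup M] [Module A M] : List A → Prop
  | [] => True
  | (x :: l) => RegL M l ∧ ∀ m : M, x • m ∈ (Ideal.span {y | y ∈ l} • (⊤ : Submodule A M)) →
      m ∈ (Ideal.span {y | y ∈ l} • (⊤ : Submodule A M))

lemma one_H0 : (MCx.one A).H0 M ⊥ := by
  refine ⟨?_, ?_⟩
  · exact (inferInstanceAs (Unique Unit))
  · intro v
    rw [Submodule.bot_smul, Submodule.mem_bot]
    constructor
    · rintro ⟨w, hw⟩
      rw [← hw]
      have : IsEmpty ((MCx.one A).ι 1) := MCx.one_len 1 Nat.zero_lt_one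
      show ∑ b : (MCx.one A).ι 1, (MCx.one A).d 0 (show (MCx.one A).ι 0 from ()) b • w b = 0
      rw [Finset.univ_eq_empty, Finset.sum_empty]
    · intro h
      refine ⟨0, ?_⟩
      rw [map_zero]
      funext i
      have : i = (default : Unit) := rfl
      rw [Pi.zero_apply, ← h]
      rfl

/-- Koszul exactness from regularity. -/
theorem kos_exact (l : List A) (h : RegL M l) : ∀ j, 1 ≤ j → (kos l).cycM M j ≤ (kos l).bdyM M j := by
  induction l with
  | nil =>
    intro j hj v _
    have : IsEmpty ((kos ([] : List A)).ι j) := kos_len [] j hj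
    refine ⟨0, ?_⟩
    rw [map_zero]
    funext i
    exact isEmptyElim i
  | cons x l ih =>
    refine cone_exact (kos l) x (ih h.1) ?_
    intro v hv
    have h0 : (kos l).H0 M (⊥ ⊔ Ideal.span {y | y ∈ l}) := MCx.H0.cones one_H0 l
    obtain ⟨u, hu⟩ := h0
    rw [bot_sup_eq] at hu
    rw [hu] at hv ⊢
    exact h.2 _ hv

lemma kos_nullM (l : List A) (h : RegL M l) (j : ℕ) (hj : 1 ≤ j) :
    (kos l).NullM (NullF.triv A) M j := by
  unfold MCx.NullM
  rw [sat_triv]
  exact kos_exact l h j hj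

end kos

section stage

variable {T : Type u} [CommRing T] {X : Type v} [AddCommGroup X] [Module T X]

/-- **(i)** acyclicity of any matrix complex `Q` over `T` of length `≤ D` whose null-homotopy ideal
contains powers of the `t i`. -/
theorem acyclic_of_regL {D : ℕ} (t : Fin D → T)
    (hreg : ∀ N : ℕ, 0 < N → RegL X ((List.ofFn t).map (· ^ N)))
    (Q : MCx T) (hQ : Q.Len D) (hkill : ∀ i, ∃ N : ℕ, t i ^ N ∈ Q.nhI) :
    ∀ n, 1 ≤ n → Q.cycM X n ≤ Q.bdyM X n := by
  choose N hN using hkill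
  obtain ⟨M, hM0, hM⟩ : ∃ M : ℕ, 0 < M ∧ ∀ i, t i ^ M ∈ Q.nhI := by
    refine ⟨(Finset.univ.sup N) + 1, Nat.succ_pos _, fun i => ?_⟩
    have h1 : N i ≤ Finset.univ.sup N + 1 :=
      (Finset.le_sup (f := N) (Finset.mem_univ i)).trans (Nat.le_succ _)
    obtain ⟨k, hk⟩ := Nat.exists_eq_add_of_le h1
    rw [hk, pow_add]
    exact Ideal.mul_mem_right _ _ (hN i)
  have h := MCx.acyclic_app (NullF.triv T) (W := X) Q ((List.ofFn t).map (· ^ M))
    (by simpa using hQ) (fun j hj => kos_nullM _ (hreg M hM0) j hj) (by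
      intro x hx
      rw [List.mem_map] at hx
      obtain ⟨y, hy, rfl⟩ := hx
      rw [List.mem_ofFn] at hy
      obtain ⟨i, rfl⟩ := hy
      exact ⟨t i ^ M, hM i, fun w => rfl⟩)
  intro n hn v hv
  have h1 := h n hn
  unfold MCx.NullA NullAt at h1
  rw [sat_triv] at h1
  have h2 := h1 ((MCx.mem_cyc_dA (A := T) Q n v).2 hv)
  exact (MCx.mem_bdy_dA (A := T) Q n v).1 h2

/-- **(ii)** the same for a complex over a `T`-algebra `C` acting on `X`. -/
theorem acyclic_of_regL' {C : Type w} [CommRing C] [Algebra T C] [Module C X] [IsScalarTower T C X]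
    {D : ℕ} (t : Fin D → T)
    (hreg : ∀ N : ℕ, 0 < N → RegL X ((List.ofFn t).map (· ^ N)))
    (Q : MCx C) (hQ : Q.Len D) (hkill : ∀ i, ∃ N : ℕ, algebraMap T C (t i) ^ N ∈ Q.nhI) :
    ∀ n, 1 ≤ n → Q.cycM X n ≤ Q.bdyM X n := by
  have : SMulCommClass C T X := by
    refine ⟨fun c t x => ?_⟩
    rw [← algebraMap_smul C t x, ← algebraMap_smul C t (c • x), smul_smul, smul_smul, mul_comm]
  choose N hN using hkill
  obtain ⟨M, hM0, hM⟩ : ∃ M : ℕ, 0 < M ∧ ∀ i, algebraMap T C (t i) ^ M ∈ Q.nhI := by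
    refine ⟨(Finset.univ.sup N) + 1, Nat.succ_pos _, fun i => ?_⟩
    have h1 : N i ≤ Finset.univ.sup N + 1 :=
      (Finset.le_sup (f := N) (Finset.mem_univ i)).trans (Nat.le_succ _)
    obtain ⟨k, hk⟩ := Nat.exists_eq_add_of_le h1
    rw [hk, pow_add]
    exact Ideal.mul_mem_right _ _ (hN i)
  have h := MCx.acyclic_app (NullF.triv T) (W := X) Q ((List.ofFn t).map (· ^ M))
    (by simpa using hQ) (fun j hj => kos_nullM _ (hreg M hM0) j hj) (by
      intro x hx
      rw [List.mem_map] at hx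
      obtain ⟨y, hy, rfl⟩ := hx
      rw [List.mem_ofFn] at hy
      obtain ⟨i, rfl⟩ := hy
      exact ⟨algebraMap T C (t i) ^ M, hM i, fun w => by
        rw [← map_pow, algebraMap_smul]⟩)
  intro n hn v hv
  have h1 := h n hn
  unfold MCx.NullA NullAt at h1
  rw [sat_triv] at h1
  have h2 := h1 ((MCx.mem_cyc_dA (A := T) Q n v).2 hv)
  exact (MCx.mem_bdy_dA (A := T) Q n v).1 h2

/-- **(ii)** Koszul exactness of `Y` on `X`. -/
theorem kosY_exact {C : Type w} [CommRing C] [Algebra T C] [Module C X] [IsScalarTower T C X]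
    {D : ℕ} (t : Fin D → T)
    (hreg : ∀ N : ℕ, 0 < N → RegL X ((List.ofFn t).map (· ^ N)))
    (Y : Fin D → C) (hY : ∀ i, ∃ N : ℕ, algebraMap T C (t i) ^ N ∈ Ideal.span (Set.range Y)) :
    ∀ n, 1 ≤ n → (kos (List.ofFn Y)).cycM X n ≤ (kos (List.ofFn Y)).bdyM X n := by
  refine acyclic_of_regL' t hreg _ ?_ ?_
  · simpa using kos_len (List.ofFn Y)
  · intro i
    obtain ⟨N, hN⟩ := hY i
    refine ⟨N, ?_⟩
    refine (le_sup_right.trans (MCx.nhI_cones (MCx.one C) (List.ofFn Y))) ?_
    convert hN using 2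
    ext x
    simp [List.mem_ofFn]

/-- **(iii)** regularity of `y` on `X / I X` for `I = J0 + (l)`. -/
theorem regular_of_acyclic (F : MCx T) (J0 : Ideal T) (h0 : F.H0 X J0) (l : List T) (y : T)
    (hac : ((F.cones l).cone y).cycM X 1 ≤ ((F.cones l).cone y).bdyM X 1) {x : X}
    (hx : y • x ∈ ((J0 ⊔ Ideal.span {a | a ∈ l}) • (⊤ : Submodule T X))) :
    x ∈ ((J0 ⊔ Ideal.span {a | a ∈ l}) • (⊤ : Submodule T X)) := by
  have h1 : ((F.cones l).cone y).NullA (NullF.triv T) X 1 := by
    unfold MCx.NullA NullAt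
    rw [sat_triv]
    intro v hv
    rw [MCx.mem_cyc_dA] at hv
    rw [MCx.mem_bdy_dA]
    exact hac hv
  have h2 := MCx.H0.null_regular (NullF.triv T) (MCx.H0.cones h0 l) y h1
    (B := ((J0 ⊔ Ideal.span {a | a ∈ l}) • (⊤ : Submodule T X))) (fun w hw => hw) hx
  rwa [sat_triv] at h2

variable {To : Type u} [CommRing To] [Algebra T To] (Λ : AddLen.{u, v} To) [Module To X]
  [IsScalarTower T To X]

lemma mem_map_smul_iff (I : Ideal T) (x : X) :
    x ∈ (I.map (algebraMap T To) • (⊤ : Submodule To X)) ↔ x ∈ (I • (⊤ : Submodule T X)) := by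
  have h := Ideal.smul_restrictScalars I (⊤ : Submodule To X)
  rw [Submodule.restrictScalars_top] at h
  rw [← h, Submodule.restrictScalars_mem]

/-- `NullReg` for `X / J0 X` from acyclicity. -/
theorem nullReg_of_regL {D g d : ℕ} (hgd : g + d = D) (t : Fin D → T)
    (hreg : ∀ N : ℕ, 0 < N → RegL X ((List.ofFn t).map (· ^ N)))
    (F : MCx T) (hF : F.Len g) (J0 : Ideal T) (h0 : F.H0 X J0) (hnh : J0 ≤ F.nhI)
    (z : Fin d → T)
    (hz : ∀ i, ∃ N : ℕ, t i ^ N ∈ J0 ⊔ Ideal.span (Set.range z)) :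
    NullReg Λ (fun i => algebraMap T To (z i))
      (X ⧸ (J0.map (algebraMap T To) • (⊤ : Submodule To X))) := by
  intro i a b ha hb
  refine Λ.le0_of_le ?_
  -- the list of the `z_j^{a_j}`, `j ≠ i`
  set l : List T := ((Finset.univ.erase i).toList).map fun j => z j ^ a j with hl
  have hlen : l.length + 1 = d := by
    rw [hl, List.length_map, Finset.length_toList, Finset.card_erase_of_mem (Finset.mem_univ i),
      Finset.card_univ, Fintype.card_fin]
    have : 0 < d := i.pos
    omega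
  have hmeml : ∀ x, x ∈ l ↔ ∃ j, j ≠ i ∧ z j ^ a j = x := by
    intro x
    rw [hl, List.mem_map]
    constructor
    · rintro ⟨j, hj, rfl⟩
      rw [Finset.mem_toList, Finset.mem_erase] at hj
      exact ⟨j, hj.1, rfl⟩
    · rintro ⟨j, hj, rfl⟩
      exact ⟨j, by rw [Finset.mem_toList, Finset.mem_erase]; exact ⟨hj, Finset.mem_univ j⟩, rfl⟩
  have hspan : Ideal.span {x | x ∈ l} = powIdealNe z a i := by
    unfold powIdealNe
    congr 1
    ext x
    rw [Set.mem_ofPred_eq, hmeml]
    rfl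
  -- acyclicity
  have hQlen : ((F.cones l).cone (z i ^ b)).Len D := by
    have h1 := (MCx.Len.cones hF l).cone (z i ^ b)
    have h2 : g + l.length + 1 = D := by omega
    rw [← h2]
    exact h1
  have hkill : ∀ k, ∃ N : ℕ, t k ^ N ∈ ((F.cones l).cone (z i ^ b)).nhI := by
    intro k
    obtain ⟨N, hN⟩ := hz k
    -- a power of `J0 + (z)` lies in `J0 + (l) + (z_i^b)`
    have hle : J0 ⊔ Ideal.span {x | x ∈ z i ^ b :: l} ≤ ((F.cones l).cone (z i ^ b)).nhI := by
      have h1 := MCx.nhI_cones F (z i ^ b :: l)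
      exact (sup_le_sup_right hnh _).trans h1
    have hrad : t k ∈ (J0 ⊔ Ideal.span {x | x ∈ z i ^ b :: l}).radical := by
      have h2 : J0 ⊔ Ideal.span (Set.range z) ≤
          (J0 ⊔ Ideal.span {x | x ∈ z i ^ b :: l}).radical := by
        refine sup_le (le_sup_left.trans Ideal.le_radical) ?_
        rw [Ideal.span_le]
        rintro _ ⟨j, rfl⟩
        by_cases hj : j = i
        · refine ⟨b, Ideal.mem_sup_right (Ideal.subset_span ?_)⟩
          rw [hj]
          exact List.mem_cons_self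
        · refine ⟨a j, Ideal.mem_sup_right (Ideal.subset_span ?_)⟩
          exact List.mem_cons_of_mem _ ((hmeml _).2 ⟨j, hj, rfl⟩)
      have h3 : t k ^ N ∈ (J0 ⊔ Ideal.span {x | x ∈ z i ^ b :: l}).radical := h2 hN
      exact (Ideal.radical_isRadical _) ⟨N, h3⟩
    obtain ⟨N', hN'⟩ := hrad
    exact ⟨N', hle hN'⟩
  have hac := acyclic_of_regL t hreg _ hQlen hkill 1 le_rfl
  -- the membership statement
  have key : ∀ x : X, z i ^ b • x ∈ ((J0 ⊔ powIdealNe z a i) • (⊤ : Submodule T X)) →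
      x ∈ ((J0 ⊔ powIdealNe z a i) • (⊤ : Submodule T X)) := by
    intro x hx
    have := regular_of_acyclic F J0 h0 l (z i ^ b) hac (x := x)
    rw [hspan] at this
    exact this hx
  -- translate to `V = X / J0 X` over `To`
  have hmap : powIdealNe (fun i => algebraMap T To (z i)) a i =
      (powIdealNe z a i).map (algebraMap T To) := by
    unfold powIdealNe
    rw [Ideal.map_span, ← Set.image_comp]
    congr 1
    refine Set.image_congr fun j _ => ?_
    simp
  have hmem : ∀ x : X, (Submodule.Quotient.mk x :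
      X ⧸ (J0.map (algebraMap T To) • (⊤ : Submodule To X))) ∈
        (powIdealNe (fun i => algebraMap T To (z i)) a i • (⊤ : Submodule To
          (X ⧸ (J0.map (algebraMap T To) • (⊤ : Submodule To X))))) ↔
      x ∈ ((J0 ⊔ powIdealNe z a i) • (⊤ : Submodule T X)) := by
    intro x
    rw [hmap, ← mem_map_smul_iff (To := To) (J0 ⊔ powIdealNe z a i) x, Ideal.map_sup]
    have h1 : ((powIdealNe z a i).map (algebraMap T To) • (⊤ : Submodule To
          (X ⧸ (J0.map (algebraMap T To) • (⊤ : Submodule To X))))) =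
        ((powIdealNe z a i).map (algebraMap T To) • (⊤ : Submodule To X)).map
          (J0.map (algebraMap T To) • (⊤ : Submodule To X)).mkQ := by
      rw [Submodule.map_smul'', Submodule.map_top, Submodule.range_mkQ]
    rw [h1, Submodule.sup_smul, ← Submodule.comap_map_mkQ]
    rfl
  intro v hv
  obtain ⟨x, rfl⟩ := Submodule.Quotient.mk_surjective _ v
  rw [Submodule.mem_comap, LinearMap.lsmul_apply, ← Submodule.Quotient.mk_smul] at hv
  have hv' : (Submodule.Quotient.mk (z i ^ b • x) :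
      X ⧸ (J0.map (algebraMap T To) • (⊤ : Submodule To X))) ∈
        (powIdealNe (fun i => algebraMap T To (z i)) a i • (⊤ : Submodule To
          (X ⧸ (J0.map (algebraMap T To) • (⊤ : Submodule To X))))) := by
    convert hv using 2
    rw [← map_pow, algebraMap_smul]
  rw [hmem] at hv' ⊢
  exact key x hv'

end stage

end Crest.Agent.R183.Glue
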