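import Crest.Agent.R183.BCM5
import Crest.Agent.R183.StageGlue

/-!
# R183 (Lech), block BCM, part 6: regular sequences on `X`
(helper523)
-/

set_option autoImplicit false

namespace Crest.Agent.R183.BCM

open Crest.Agent.R183.Glue

universe u v w

section regl

variable {A : Type u} [CommRing A] {M : Type v} [AddCommGroup M] [Module A M]
variable {M' : Type w} [AddCommGroup M'] [Module A M']

theorem mem_smul_top_congr (e : M ≃ₗ[A] M') (I : Ideal A) (m : M) :
    e m ∈ (I • ⊤ : Submodule A M') ↔ m ∈ (I • ⊤ : Submodule A M) := by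
  have h1 : (I • ⊤ : Submodule A M') = (I • ⊤ : Submodule A M).map e.toLinearMap := by
    rw [Submodule.map_smul'', Submodule.map_top, LinearEquiv.range]
  rw [h1]
  constructor
  · rintro ⟨x, hx, hxm⟩
    have : x = m := e.injective hxm
    rwa [← this]
  · intro hm
    exact ⟨m, hm, rfl⟩

theorem RegL_congr (e : M ≃ₗ[A] M') (l : List A) (h : RegL M l) : RegL M' l := by
  induction l with
  | nil => trivial
  | cons x l ih =>
    refine ⟨ih h.1, fun m hm => ?_⟩
    obtain ⟨m, rfl⟩ := e.surjective m
    rw [← map_smul, mem_smul_top_congr] at hm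
    rw [mem_smul_top_congr]
    exact h.2 _ hm

theorem mem_map_smul_top {C : Type*} [CommRing C] [Algebra A C] [Module C M] [IsScalarTower A C M]
    (I : Ideal A) (x : M) :
    x ∈ (I.map (algebraMap A C) • (⊤ : Submodule C M)) ↔ x ∈ (I • (⊤ : Submodule A M)) := by
  have h := Ideal.smul_restrictScalars I (⊤ : Submodule C M)
  rw [Submodule.restrictScalars_top] at h
  rw [← h, Submodule.restrictScalars_mem]

theorem span_map_list {C : Type*} [CommRing C] (f : A →+* C) (l : List A) :
    Ideal.span {y | y ∈ l.map f} = (Ideal.span {y | y ∈ l}).map f := by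
  rw [Ideal.map_span]
  congr 1
  ext y
  simp

theorem RegL_map_iff {C : Type*} [CommRing C] [Algebra A C] [Module C M] [IsScalarTower A C M]
    (l : List A) : RegL M (l.map (algebraMap A C)) ↔ RegL M l := by
  induction l with
  | nil => exact Iff.rfl
  | cons x l ih =>
    rw [List.map_cons]
    unfold RegL
    rw [ih]
    refine and_congr_right fun _ => forall_congr' fun m => ?_
    rw [span_map_list, algebraMap_smul, mem_map_smul_top, mem_map_smul_top]

theorem mem_smul_top_coe {N : Submodule A M} (I : Ideal A) (x : N) :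
    x ∈ (I • ⊤ : Submodule A N) ↔ (x : M) ∈ I • N := by
  have h1 : I • N = (I • ⊤ : Submodule A N).map N.subtype := by
    rw [Submodule.map_smul'', Submodule.map_top, Submodule.range_subtype]
  rw [h1]
  constructor
  · intro hx; exact ⟨x, hx, rfl⟩
  · rintro ⟨y, hy, hyx⟩
    have : y = x := Subtype.ext hyx
    rwa [← this]

end regl

section

variable {A A₁ : Type u} [CommRing A] [CommRing A₁] [Algebra A A₁] {ι : Type}
variable {a : A} {L : Submodule A₁ (ι → A₁)} {c : ℕ}

/-- Regularity of `l ++ [a ^ N]` descends from `L` to `X`. -/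
theorem Tower.regL (h : Tower a L c) [IsAdicComplete (Ideal.span {a}) A] [Fintype ι] (N : ℕ)
    (l : List A) (hL : RegL L ((l ++ [a ^ N]).map (algebraMap A A₁))) :
    RegL (X a L) (l ++ [a ^ N]) := by
  induction l with
  | nil =>
    refine ⟨trivial, fun m hm => ?_⟩
    have h1 : Ideal.span {y | y ∈ ([] : List A)} = ⊥ := by simp
    rw [h1, Submodule.bot_smul, Submodule.mem_bot] at hm ⊢
    apply Subtype.ext
    have h2 : a ^ N • (m : ι → A) = 0 := congrArg Subtype.val hm
    exact h.reg_pow N _ h2
  | cons x l ih =>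
    rw [List.cons_append] at hL ⊢
    rw [List.map_cons] at hL
    refine ⟨ih hL.1, fun m hm => ?_⟩
    rw [mem_smul_top_coe] at hm ⊢
    refine h.descend_reg (Ideal.span {y | y ∈ l ++ [a ^ N]}) x N
      (Ideal.subset_span (by simp)) ?_ m m.2 hm
    intro s hs hs'
    have h3 := hL.2 ⟨s, hs⟩
    rw [span_map_list, mem_smul_top_coe, mem_smul_top_coe] at h3
    exact h3 hs'

end

section

variable {A A₁ C : Type u} [CommRing A] [CommRing A₁] [CommRing C] [Algebra A A₁] [Algebra A C]
variable {E₀ E₁ : Type u} [AddCommGroup E₀] [Module A E₀] [Module C E₀] [IsScalarTower A C E₀]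
variable [AddCommGroup E₁] [Module A E₁] [Module A₁ E₁] [IsScalarTower A A₁ E₁]
variable [Module C E₁] [IsScalarTower A C E₁] [SMulCommClass A₁ C E₁]
variable {ι : Type}
variable {a d : A} {m : ℕ} {L : Submodule A₁ (ι → A₁)} {c₀ : ℕ}

namespace Frame

variable (F : Frame A A₁ C E₀ E₁ ι a d m L) (h : Tower a L c₀)

/-- `X → mod`. -/
noncomputable def toMod [IsAdicComplete (Ideal.span {a}) A] [Fintype ι] :
    X a L →ₗ[A] F.mod h where
  toFun x := ⟨F.v₀ x.1, x.1, x.2, rfl⟩
  map_add' x y := Subtype.ext (map_add F.v₀ _ _)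
  map_smul' r x := Subtype.ext (map_smul F.v₀ _ _)

theorem toMod_bijective [IsAdicComplete (Ideal.span {a}) A] [Fintype ι] :
    Function.Bijective (F.toMod h) := by
  constructor
  · intro x y hxy
    exact Subtype.ext (F.inj₀ (congrArg Subtype.val hxy))
  · intro y
    obtain ⟨x, hx, hxy⟩ := y.2
    exact ⟨⟨x, hx⟩, Subtype.ext hxy⟩

/-- `X ≃ mod`. -/
noncomputable def equiv [IsAdicComplete (Ideal.span {a}) A] [Fintype ι] :
    X a L ≃ₗ[A] F.mod h :=
  LinearEquiv.ofBijective (F.toMod h) (F.toMod_bijective h)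

theorem regL_mod [IsAdicComplete (Ideal.span {a}) A] [Fintype ι] (N : ℕ) (l : List A)
    (hL : RegL L ((l ++ [a ^ N]).map (algebraMap A A₁))) :
    RegL (F.mod h) (l ++ [a ^ N]) :=
  RegL_congr (F.equiv h) _ (h.regL N l hL)

end Frame

end

end Crest.Agent.R183.BCM
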