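/-
R183 (Lech): the core theorem in terms of stages.

`core_main`: data over a local ring `T` (`J0`, resolution `F`, parameter systems `w`, `z`), a family
of stages (helper523/helper499) and Theorem K (`KHyp`) give `rT ≤ rS`.
helper811
-/
import Crest.Agent.R183.StageGlue

set_option autoImplicit false

namespace Crest.Agent.R183.Core

open scoped ENNReal
open Crest.Agent.R183 Crest.Agent.R183.Res Crest.Agent.R183.WG Crest.Agent.R183.Glue

universe u

/-- A stage: the module `X_q` over `C_q`. -/
structure Stage (T To : Type u) [CommRing T] [CommRing To] [Algebra T To] {D : ℕ}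
    (w t : Fin D → T) (Δ : T) (𝔞 : Ideal T) (q N : ℕ) : Type (u + 1) where
  C : Type u
  [cring : CommRing C]
  [alg : Algebra To C]
  X : Type u
  [acg : AddCommGroup X]
  [mod : Module C X]
  Y : Fin D → C
  hY : ∀ i, Y i ^ q = algebraMap To C (algebraMap T To (w i))
  c : ℕ
  hc : 0 < c
  x : Fin c → X
  hΔ : ∀ y : X, ∃ v : Fin c → To,
    algebraMap To C (algebraMap T To Δ) • y = ∑ i, algebraMap To C (v i) • x i
  hker : ∀ v : Fin c → To, ∑ i, algebraMap To C (v i) • x i = 0 →
    ∀ i, algebraMap T To Δ * v i = 0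
  reg : ∀ n : ℕ, 0 < n →
    RegL X ((List.ofFn fun i => algebraMap To C (algebraMap T To (t i))).map (· ^ n))
  amp : ∀ a ∈ 𝔞, ∀ y : X, algebraMap To C (algebraMap T To a) • y ∈
    (Ideal.span (Set.range Y)) ^ N • (⊤ : Submodule C X)

attribute [instance] Stage.cring Stage.alg Stage.acg Stage.mod

/-- **Theorem K**, as a proposition (ranks `β`, length `D`). -/
def KHyp (D : ℕ) (β : ℕ → ℕ) : Prop :=
  ∃ K : ℝ, 0 ≤ K ∧ ∀ (C : Type u) [CommRing C] (Λ : AddLen.{u, u} C) (X : Type u)
    [AddCommGroup X] [Module C X] (Y : Fin D → C) (N : ℕ) (Q : MCx C),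
    0 < N → (∀ n, Fintype.card (Q.ι n) = β n) → Q.Len D →
    (∑ i ∈ Finset.range (D + 1), (-1 : ℝ) ^ i * β i = 0) →
    ((kos (List.ofFn Y)).cycM X 1 ≤ (kos (List.ofFn Y)).bdyM X 1) →
    (∀ n a b (x : X), Q.d n a b • x ∈ (Ideal.span (Set.range Y)) ^ N • (⊤ : Submodule C X)) →
    (∀ i, ∃ M : ℕ, Q.NHom (Y i ^ M)) →
    Λ.L (X ⧸ (Ideal.span (Set.range Y) • (⊤ : Submodule C X))) ≠ ⊤ →
    ENNReal.ofReal (β 0 * (N : ℝ) ^ D - K * (N : ℝ) ^ (D - 1)) *
        Λ.L (X ⧸ (Ideal.span (Set.range Y) • (⊤ : Submodule C X)))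
      ≤ Λ.L ((Q.ι 0 → X) ⧸ Q.bdyM X 0)

/-- transfer of `RegL` along a ring map. -/
lemma regL_map {A B : Type*} [CommRing A] [CommRing B] [Algebra A B] {X : Type*} [AddCommGroup X]
    [Module A X] [Module B X] [IsScalarTower A B X] (l : List A)
    (h : RegL X (l.map (algebraMap A B))) : RegL X l := by
  induction l with
  | nil => trivial
  | cons x l ih =>
    refine ⟨ih h.1, ?_⟩
    intro m hm
    have e : Ideal.span {y | y ∈ l.map (algebraMap A B)} =
        (Ideal.span {y | y ∈ l}).map (algebraMap A B) := by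
      rw [Ideal.map_span]
      congr 1
      ext y
      simp [List.mem_map]
    have key : ∀ m : X, m ∈ (Ideal.span {y | y ∈ l.map (algebraMap A B)} • (⊤ : Submodule B X)) ↔
        m ∈ (Ideal.span {y | y ∈ l} • (⊤ : Submodule A X)) := by
      intro m
      rw [e]
      have h := Ideal.smul_restrictScalars (Ideal.span {y | y ∈ l}) (⊤ : Submodule B X)
      rw [Submodule.restrictScalars_top] at h
      rw [← h, Submodule.restrictScalars_mem]
    rw [← key] at hm ⊢
    refine h.2 m ?_
    rw [algebraMap_smul]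
    exact hm

lemma alt_sum_cone (b : ℕ → ℕ) (D : ℕ) (hb : b (D + 1) = 0) :
    ∑ i ∈ Finset.range (D + 2), (-1 : ℝ) ^ i * ((Nat.rec (b 0) (fun n _ => b (n + 1) + b n) i : ℕ) : ℝ)
      = 0 := by
  have key : ∀ n : ℕ, ∑ i ∈ Finset.range (n + 1), (-1 : ℝ) ^ i *
      ((Nat.rec (b 0) (fun n _ => b (n + 1) + b n) i : ℕ) : ℝ) = (-1 : ℝ) ^ n * b n := by
    intro n
    induction n with
    | zero => simp
    | succ n ih =>
      rw [Finset.sum_range_succ, ih]
      push_cast
      ring
  rw [key (D + 1), hb]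
  simp

/-- the alternating sum of the ranks of a cone vanishes. -/
lemma alt_sum_card_cone {A : Type*} [CommRing A] (C : MCx A) (x : A) (D : ℕ)
    (hC : C.Len D) :
    ∑ i ∈ Finset.range (D + 2), (-1 : ℝ) ^ i * (Fintype.card ((C.cone x).ι i) : ℝ) = 0 := by
  have h0 : Fintype.card (C.ι (D + 1)) = 0 := by
    have := hC (D + 1) (Nat.lt_succ_self D)
    exact Fintype.card_eq_zero
  rw [← alt_sum_cone (fun n => Fintype.card (C.ι n)) D h0]
  refine Finset.sum_congr rfl fun i _ => ?_
  congr 2
  cases i with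
  | zero => rfl
  | succ n =>
    show Fintype.card (C.ι (n + 1) ⊕ C.ι n) = _
    rw [Fintype.card_sum]

section main

variable {T To : Type u} [CommRing T] [CommRing To] [Algebra T To] (Λ : AddLen.{u, u} To)
variable (J0 : Ideal T) {D d : ℕ} (w t : Fin D → T) (z : Fin d → T)

theorem core_main (hD : 0 < D) (hd : 0 < d) (hcont : Cont Λ)
    (hΛ : ∀ I : Ideal T, Module.length T (T ⧸ I) ≠ ⊤ →
      Λ.L (To ⧸ I.map (algebraMap T To)) = ((Module.length T (T ⧸ I) : ℕ∞) : ℝ≥0∞))
    -- multiplicities
    (rT rT' CT rS CS : ℕ)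
    (hrS : ∀ n : ℕ, 0 < n → Module.length T (T ⧸ (J0 ⊔ powIdeal z (fun _ => n)))
      ≤ ((rS * n ^ d + CS * n ^ (d - 1) : ℕ) : ℕ∞))
    (hrT : ∀ n : ℕ, 0 < n → ((rT * n ^ D : ℕ) : ℕ∞) ≤
      Module.length T (T ⧸ powIdeal w (fun _ => n)))
    (hrT' : ∀ n : ℕ, 0 < n → Module.length T (T ⧸ powIdeal w (fun _ => n))
      ≤ ((rT' * n ^ D + CT * n ^ (D - 1) : ℕ) : ℕ∞))
    -- the resolution
    {g : ℕ} (hgd : g + d = D) (F : MCx T) (hF : F.Len g) (𝔞 : Ideal T) (hF𝔞 : F.EntriesIn 𝔞)
    (hz𝔞 : ∀ i, z i ∈ 𝔞) (hnh : J0 ≤ F.nhI)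
    (u0 : Unique (F.ι 0)) (hu0 : ∀ (M : Type u) [AddCommGroup M] [Module T M] (v : F.ι 0 → M),
        v ∈ F.bdyM M 0 ↔ v u0.default ∈ (J0 • ⊤ : Submodule T M))
    -- the parameter systems are parameter systems
    (htz : ∀ i, ∃ N : ℕ, t i ^ N ∈ J0 ⊔ Ideal.span (Set.range z))
    (hwz : ∀ i, ∃ N : ℕ, w i ^ N ∈ J0 ⊔ Ideal.span (Set.range z))
    (htw : ∀ i, ∃ N : ℕ, t i ^ N ∈ Ideal.span (Set.range w))
    -- Theorem K
    (hK : KHyp.{u} D (fun n => Fintype.card ((F.cones (List.ofFn z)).ι n)))
    -- the stages, and the growth of the junk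
    (p : ℕ) (hp : 1 < p) (c' : ℕ)
    (hst : ∀ e : ℕ, c' < p ^ e → ∃ (Δ : T) (C' : ℕ),
      (∀ n : ℕ, 0 < n → Module.length T (T ⧸ (Ideal.span {Δ ^ 2} ⊔ powIdeal w (fun _ => n)))
        ≤ ((C' * n ^ (D - 1) : ℕ) : ℕ∞)) ∧
      (∀ n : ℕ, 0 < n → Module.length T (T ⧸ (J0 ⊔ Ideal.span {Δ} ⊔ powIdeal z (fun _ => n)))
        ≤ ((C' * n ^ (d - 1) : ℕ) : ℕ∞)) ∧
      Nonempty (Stage T To w t Δ 𝔞 (p ^ e) (p ^ e - c'))) :
    rT ≤ rS := by
  obtain ⟨K, hK0, hK⟩ := hK
  refine core_limit rT rS K c' p hp ?_ hD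
  intro e he
  obtain ⟨Δ, C', hgT, hgS, ⟨st⟩⟩ := hst e he
  replace hrS : ∀ n : ℕ, 0 < n → Module.length T (T ⧸ (J0 ⊔ powIdeal z (fun _ => n)))
      ≤ ((rS * n ^ d + (max CS C') * n ^ (d - 1) : ℕ) : ℕ∞) := by
    intro n hn
    refine (hrS n hn).trans ?_
    gcongr
    exact le_max_left _ _
  replace hrT' : ∀ n : ℕ, 0 < n → Module.length T (T ⧸ powIdeal w (fun _ => n))
      ≤ ((rT' * n ^ D + (max CT C') * n ^ (D - 1) : ℕ) : ℕ∞) := by
    intro n hn
    refine (hrT' n hn).trans ?_
    gcongr
    exact le_max_left _ _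
  replace hgT : ∀ n : ℕ, 0 < n → Module.length T
      (T ⧸ (Ideal.span {Δ ^ 2} ⊔ powIdeal w (fun _ => n)))
      ≤ (((max CT C') * n ^ (D - 1) : ℕ) : ℕ∞) := by
    intro n hn
    refine (hgT n hn).trans ?_
    gcongr
    exact le_max_right _ _
  replace hgS : ∀ n : ℕ, 0 < n → Module.length T
      (T ⧸ (J0 ⊔ Ideal.span {Δ} ⊔ powIdeal z (fun _ => n)))
      ≤ (((max CS C') * n ^ (d - 1) : ℕ) : ℕ∞) := by
    intro n hn
    refine (hgS n hn).trans ?_
    gcongr
    exact le_max_right _ _
  generalize max CT C' = CT at hrT' hgT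
  generalize max CS C' = CS at hrS hgS
  -- instances
  let _ : Algebra T st.C := ((algebraMap To st.C).comp (algebraMap T To)).toAlgebra
  have _ : IsScalarTower T To st.C := IsScalarTower.of_algebraMap_eq fun x => rfl
  let _ : Module To st.X := Module.compHom st.X (algebraMap To st.C)
  have _ : IsScalarTower To st.C st.X := ⟨fun a c y => by
    rw [Algebra.smul_def, mul_smul]; rfl⟩
  let _ : Module T st.X := Module.compHom st.X (algebraMap T st.C)
  have _ : IsScalarTower T st.C st.X := ⟨fun a c y => by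
    rw [Algebra.smul_def, mul_smul]; rfl⟩
  have _ : IsScalarTower T To st.X := ⟨fun a b y => by
    show algebraMap To st.C (a • b) • y = algebraMap T st.C a • (algebraMap To st.C b • y)
    rw [Algebra.smul_def, map_mul, mul_smul]; rfl⟩
  have hNpos : 0 < p ^ e - c' := Nat.sub_pos_of_lt he
  -- regularity over `T`
  have hreg : ∀ n : ℕ, 0 < n → RegL st.X ((List.ofFn t).map (· ^ n)) := by
    intro n hn
    refine regL_map (B := st.C) _ ?_
    have h1 := st.reg n hn
    have e1 : ((List.ofFn fun i => algebraMap To st.C (algebraMap T To (t i))).map (· ^ n)) =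
        ((List.ofFn t).map (· ^ n)).map (algebraMap T st.C) := by
      rw [List.map_ofFn, List.map_ofFn, List.map_ofFn]
      congr 1
      funext i
      simp only [Function.comp_apply, map_pow]
      rfl
    rw [← e1]
    exact h1
  -- the map `f`
  let f : (Fin st.c → To) →ₗ[To] st.X :=
    { toFun := fun v => ∑ i, algebraMap To st.C (v i) • st.x i
      map_add' := fun v v' => by
        simp only [Pi.add_apply, map_add, add_smul, Finset.sum_add_distrib]
      map_smul' := fun a v => by
        simp only [Pi.smul_apply, smul_eq_mul, map_mul, mul_smul, RingHom.id_apply]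
        rw [Finset.smul_sum]
        rfl }
  have hΔ : ∀ x : st.X, algebraMap T To Δ • x ∈ LinearMap.range f := by
    intro x
    obtain ⟨v, hv⟩ := st.hΔ x
    exact ⟨v, hv.symm⟩
  have hker : ∀ v, f v = 0 → algebraMap T To Δ • v = 0 := by
    intro v hv
    funext i
    exact st.hker v hv i
  -- Theorem K
  let Q : MCx st.C := (F.cones (List.ofFn z)).map (algebraMap T st.C)
  have hQlen : Q.Len D := by
    have h1 := MCx.Len.cones hF (List.ofFn z)
    rw [List.length_ofFn, hgd] at h1
    exact h1.map _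
  have hwY : ∀ i, algebraMap T st.C (w i) ∈ Ideal.span (Set.range st.Y) := by
    intro i
    have h1 : algebraMap T st.C (w i) = st.Y i ^ (p ^ e) := (st.hY i).symm
    rw [h1]
    have h2 : st.Y i ∈ Ideal.span (Set.range st.Y) := Ideal.subset_span ⟨i, rfl⟩
    exact Ideal.pow_mem_of_mem _ h2 _ (Nat.pow_pos (by omega))
  have hkosY := kosY_exact (C := st.C) t hreg st.Y (by
    intro i
    obtain ⟨n, hn⟩ := htw i
    refine ⟨n, ?_⟩
    rw [← map_pow]
    have h1 : algebraMap T st.C (t i ^ n) ∈ (Ideal.span (Set.range w)).map (algebraMap T st.C) :=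
      Ideal.mem_map_of_mem _ hn
    refine (Ideal.map_le_iff_le_comap.2 ?_) h1
    rw [Ideal.span_le]
    rintro _ ⟨j, rfl⟩
    exact hwY j) 1 le_rfl
  have hnh' : J0 ⊔ Ideal.span (Set.range z) ≤ (F.cones (List.ofFn z)).nhI := by
    have h1 := MCx.nhI_cones F (List.ofFn z)
    refine (sup_le_sup hnh (le_of_eq ?_)).trans h1
    congr 1
    ext x
    simp [List.mem_ofFn]
  -- finiteness of `L(X/YX)`
  have hfinY : (Λ.restrict (algebraMap To st.C)).L
      (st.X ⧸ (Ideal.span (Set.range st.Y) • (⊤ : Submodule st.C st.X))) ≠ ⊤ := by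
    -- `L(X/wX) ≤ c rT'`
    have hnull := nullReg_of_regL (To := To) Λ (X := st.X) (g := 0) (d := D) (zero_add D) t hreg (MCx.one T)
      MCx.one_len ⊥ one_H0 bot_le w (by
        intro i
        obtain ⟨n, hn⟩ := htw i
        exact ⟨n, Ideal.mem_sup_right hn⟩)
    rw [Ideal.map_bot] at hnull
    let π := ((⊥ : Ideal To) • (⊤ : Submodule To st.X)).mkQ
    have h1 := L_quot_le Λ hD hcont (fun i => algebraMap T To (w i)) hnull (π.comp f)
      (algebraMap T To Δ) (by
        intro v
        obtain ⟨x, rfl⟩ := Submodule.Quotient.mk_surjective _ v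
        obtain ⟨y, hy⟩ := hΔ x
        refine ⟨y, ?_⟩
        rw [LinearMap.comp_apply, hy]
        rfl) ⊥ (by
        intro a ha v
        rw [Ideal.mem_bot] at ha
        rw [ha, zero_smul]) (st.c * rT') (st.c * CT) CT
      (ENNReal.mul_ne_top (ENNReal.natCast_ne_top _) (ENNReal.natCast_ne_top _))
      (ENNReal.natCast_ne_top _) (by
        intro n hn
        have hne : Module.length T (T ⧸ powIdeal w (fun _ => n)) ≠ ⊤ := by
          intro htop
          have h := hrT' n hn
          rw [htop, top_le_iff] at h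
          exact ENat.natCast_ne_top _ h
        rw [L_pi_quot, ← powIdeal_map, hΛ _ hne]
        have h' : ((Module.length T (T ⧸ powIdeal w (fun _ => n)) : ℕ∞) : ℝ≥0∞) ≤
            ((rT' * n ^ D + CT * n ^ (D - 1) : ℕ) : ℝ≥0∞) := by
          have := ENat.toENNReal_mono (hrT' n hn)
          simpa using this
        refine (mul_le_mul_right h' _).trans ?_
        push_cast
        apply le_of_eq
        ring) (by
        intro n hn
        rw [bot_sup_eq]
        -- `T/(Δ, w^n)` is a quotient of ... : use the bound for `Δ²`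
        have e1 : Ideal.span {algebraMap T To Δ} ⊔ powIdeal (fun i => algebraMap T To (w i))
            (fun _ => n) = (Ideal.span {Δ} ⊔ powIdeal w (fun _ => n)).map (algebraMap T To) := by
          rw [Ideal.map_sup, powIdeal_map, Ideal.map_span, Set.image_singleton]
        have h2 : Module.length T (T ⧸ (Ideal.span {Δ} ⊔ powIdeal w (fun _ => n))) ≤
            Module.length T (T ⧸ (Ideal.span {Δ ^ 2} ⊔ powIdeal w (fun _ => n))) := by
          refine Module.length_le_of_surjective (Submodule.factor ?_) (Submodule.factor_surjective ?_)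
          all_goals
          · refine sup_le_sup_right ?_ _
            rw [Ideal.span_singleton_le_span_singleton]
            exact dvd_pow_self Δ two_ne_zero
        have h3 := h2.trans (hgT n hn)
        rw [e1, hΛ]
        · have := ENat.toENNReal_mono h3
          simpa using this
        · intro htop
          rw [htop, top_le_iff] at h3
          exact ENat.natCast_ne_top _ h3)
    -- compare
    have h4 : Λ.L (st.X ⧸ (Ideal.span (Set.range fun i => algebraMap T To (w i)) •
        (⊤ : Submodule To st.X))) ≤ st.c * rT' := by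
      have h5 := L_quot_quot Λ (M := st.X) ⊥
        (Ideal.span (Set.range fun i => algebraMap T To (w i)))
      rw [bot_sup_eq] at h5
      rw [← h5]
      exact h1
    have h6 : (Λ.restrict (algebraMap To st.C)).L
      (st.X ⧸ (Ideal.span (Set.range st.Y) • (⊤ : Submodule st.C st.X))) ≤
        Λ.L (st.X ⧸ (Ideal.span (Set.range fun i => algebraMap T To (w i)) •
        (⊤ : Submodule To st.X))) := by
      rw [Λ.restrict_L (algebraMap To st.C) _ (fun a x => (algebraMap_smul st.C a x).symm)]
      have hle : (Ideal.span (Set.range fun i => algebraMap T To (w i)) •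
        (⊤ : Submodule To st.X)) ≤
          (Ideal.span (Set.range st.Y) • (⊤ : Submodule st.C st.X)).restrictScalars To := by
        rw [Submodule.smul_le]
        intro a ha x _
        rw [Submodule.restrictScalars_mem, ← algebraMap_smul st.C a x]
        refine Submodule.smul_mem_smul ?_ trivial
        have h7 : algebraMap To st.C a ∈ (Ideal.span (Set.range fun i =>
          algebraMap T To (w i))).map (algebraMap To st.C) := Ideal.mem_map_of_mem _ ha
        refine (Ideal.map_le_iff_le_comap.2 ?_) h7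
        rw [Ideal.span_le]
        rintro _ ⟨j, rfl⟩
        exact hwY j
      let φ : (st.X ⧸ (Ideal.span (Set.range fun i => algebraMap T To (w i)) •
        (⊤ : Submodule To st.X))) →ₗ[To]
          (st.X ⧸ (Ideal.span (Set.range st.Y) • (⊤ : Submodule st.C st.X))) :=
        { toFun := fun x => Quotient.liftOn' x
            (fun y => (Submodule.Quotient.mk y :
              st.X ⧸ (Ideal.span (Set.range st.Y) • (⊤ : Submodule st.C st.X))))
            (by
              intro y y' h
              rw [Submodule.quotientRel_def] at h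
              exact (Submodule.Quotient.eq _).2 (hle h))
          map_add' := by
            intro x y
            induction x using Quotient.inductionOn'
            induction y using Quotient.inductionOn'
            rfl
          map_smul' := by
            intro a x
            induction x using Quotient.inductionOn'
            rfl }
      have hφ : Function.Surjective φ := by
        intro y
        obtain ⟨y, rfl⟩ := Submodule.Quotient.mk_surjective _ y
        exact ⟨Submodule.Quotient.mk y, rfl⟩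
      exact Λ.L_le_of_surjective φ hφ
    exact ne_top_of_le_ne_top
      (ENNReal.mul_ne_top (ENNReal.natCast_ne_top _) (ENNReal.natCast_ne_top _)) (h6.trans h4)
  have hsum : ∑ i ∈ Finset.range (D + 1), (-1 : ℝ) ^ i *
      ((Fintype.card ((F.cones (List.ofFn z)).ι i) : ℕ) : ℝ) = 0 := by
    obtain ⟨d0, rfl⟩ : ∃ d0, d = d0 + 1 := ⟨d - 1, by omega⟩
    have e1 : F.cones (List.ofFn z) = (F.cones (List.ofFn fun i : Fin d0 => z i.succ)).cone (z 0) := by
      rw [List.ofFn_succ]; rfl
    have hl : (F.cones (List.ofFn fun i : Fin d0 => z i.succ)).Len (g + d0) := by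
      have := MCx.Len.cones hF (List.ofFn fun i : Fin d0 => z i.succ)
      rwa [List.length_ofFn] at this
    have h1 := alt_sum_card_cone (F.cones (List.ofFn fun i : Fin d0 => z i.succ)) (z 0) (g + d0) hl
    have hD' : D + 1 = g + d0 + 2 := by omega
    rw [hD', e1]
    exact h1
  have hKe := hK st.C (Λ.restrict (algebraMap To st.C)) st.X st.Y (p ^ e - c') Q hNpos (fun n => rfl) hQlen
    hsum hkosY (by
      intro n a b x
      have h1 : (F.cones (List.ofFn z)).EntriesIn 𝔞 := by
        have h2 := MCx.EntriesIn.cones hF𝔞 (l := List.ofFn z) (by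
          intro x hx
          rw [List.mem_ofFn] at hx
          obtain ⟨i, rfl⟩ := hx
          exact hz𝔞 i)
        exact h2
      have h3 := st.amp _ (h1 n a b) x
      exact h3) (by
      intro i
      obtain ⟨n, hn⟩ := hwz i
      refine ⟨p ^ e * n, ?_⟩
      have h1 : (F.cones (List.ofFn z)).NHom (w i ^ n) := hnh' hn
      have h2 := MCx.NHom.map h1 (algebraMap T st.C)
      have h3 : algebraMap T st.C (w i ^ n) = st.Y i ^ (p ^ e * n) := by
        rw [map_pow, pow_mul, st.hY i]
        rfl
      rw [← h3]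
      exact h2) hfinY
  -- translate `H_0`
  obtain ⟨u1, hu1⟩ := MCx.H0.cones (C := F) (I := J0) (W := st.X) ⟨u0, fun v => hu0 st.X v⟩ (List.ofFn z)
  have hspan : Ideal.span {x | x ∈ List.ofFn z} = Ideal.span (Set.range z) := by
    congr 1
    ext x
    simp [List.mem_ofFn]
  have hH0 : (Λ.restrict (algebraMap To st.C)).L ((Q.ι 0 → st.X) ⧸ Q.bdyM st.X 0) ≤
      Λ.L (st.X ⧸ ((J0.map (algebraMap T To) ⊔
          Ideal.span (Set.range fun i => algebraMap T To (z i))) • (⊤ : Submodule To st.X))) := by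
    rw [Λ.restrict_L (algebraMap To st.C) _ (fun a x => (algebraMap_smul st.C a x).symm)]
    let g : st.X →ₗ[To] ((Q.ι 0 → st.X) ⧸ Q.bdyM st.X 0) :=
      { toFun := fun x => Submodule.Quotient.mk (fun _ => x)
        map_add' := fun x y => rfl
        map_smul' := fun a x => rfl }
    have hg : Function.Surjective g := by
      intro y
      obtain ⟨y, rfl⟩ := Submodule.Quotient.mk_surjective _ y
      refine ⟨y u1.default, ?_⟩
      show Submodule.Quotient.mk _ = _
      congr 1
      funext i
      exact congrArg y (u1.uniq i).symm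
    have hker' : ((J0.map (algebraMap T To) ⊔
          Ideal.span (Set.range fun i => algebraMap T To (z i))) • (⊤ : Submodule To st.X)) ≤
          LinearMap.ker g := by
      intro x hx
      have e1 : (J0.map (algebraMap T To) ⊔
          Ideal.span (Set.range fun i => algebraMap T To (z i))) =
          (J0 ⊔ Ideal.span {x | x ∈ List.ofFn z}).map (algebraMap T To) := by
        rw [hspan, Ideal.map_sup, Ideal.map_span, ← Set.range_comp]
        rfl
      rw [e1, mem_map_smul_iff] at hx
      have h1 := (hu1 (fun _ => x)).2 hx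
      rw [LinearMap.mem_ker]
      show Submodule.Quotient.mk _ = _
      rw [Submodule.Quotient.mk_eq_zero]
      obtain ⟨v, hv⟩ := h1
      refine ⟨v, Eq.trans ?_ hv⟩
      funext a
      show ∑ b, (algebraMap T st.C ((F.cones (List.ofFn z)).d 0 a b)) • v b =
        ∑ b, (F.cones (List.ofFn z)).d 0 a b • v b
      refine Finset.sum_congr rfl fun b _ => ?_
      rw [algebraMap_smul]
    refine Λ.L_le_of_surjective (Submodule.liftQ _ g hker') ?_
    intro y
    obtain ⟨x, hx⟩ := hg y
    exact ⟨Submodule.Quotient.mk x, hx⟩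
  have hcard : Fintype.card ((F.cones (List.ofFn z)).ι 0) = 1 := by
    rw [Fintype.card_eq_one_iff]
    exact ⟨u1.default, u1.uniq⟩
  have hKe := hKe.trans hH0
  beta_reduce at hKe
  rw [hcard, Nat.cast_one, one_mul] at hKe
  have hnull := nullReg_of_regL (To := To) Λ (X := st.X) hgd t hreg F hF J0 ⟨u0, fun v => hu0 st.X v⟩ hnh z htz
  exact core_stage Λ J0 w z Δ hD hd hcont hΛ rT rS CS CT hrS hrT (by
      intro n hn htop
      have h := hrT' n hn
      rw [htop, top_le_iff] at h
      exact ENat.natCast_ne_top _ h) hgT hgS st.Y (p ^ e) st.hY st.c st.hc f hΔ hker hnull _ hKe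

end main

end Crest.Agent.R183.Core
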