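import Crest.Agent.R183.BCM6
import Crest.Agent.R183.CoreMain

/-!
# R183 (Lech), block BCM, part 7: the stage (`Core.Stage`) from `Frame` and `Tower`
(helper523)
-/

set_option autoImplicit false

namespace Crest.Agent.R183.BCM

open Crest.Agent.R183.Glue Crest.Agent.R183.Core

universe u

section

variable {A A₁ C : Type u} [CommRing A] [CommRing A₁] [CommRing C] [Algebra A A₁] [Algebra A C]
variable {E₀ E₁ : Type u} [AddCommGroup E₀] [Module A E₀] [Module C E₀] [IsScalarTower A C E₀]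
variable [AddCommGroup E₁] [Module A E₁] [Module A₁ E₁] [IsScalarTower A A₁ E₁]
variable [Module C E₁] [IsScalarTower A C E₁] [SMulCommClass A₁ C E₁]
variable {ι : Type}
variable {a d : A} {m : ℕ} {L : Submodule A₁ (ι → A₁)} {c₀ : ℕ}
variable {T To : Type u} [CommRing T] [CommRing To] [Algebra T To] [Algebra To C]

/-- The data which produce a stage. -/
structure StageData (F : Frame A A₁ C E₀ E₁ ι a d m L) (T To : Type u) [CommRing T] [CommRing To]
    [Algebra T To] [Algebra To C] {D : ℕ} (w t : Fin D → T) (Δ : T) (𝔞 : Ideal T) (q N : ℕ) where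
  Y : Fin D → C
  hY : ∀ i, Y i ^ q = algebraMap To C (algebraMap T To (w i))
  c : ℕ
  hc : 0 < c
  x' : Fin c → C
  span : ∀ y : C, ∃ v : Fin c → To, y = ∑ i, algebraMap To C (v i) * x' i
  indep : ∀ v : Fin c → To, ∑ i, algebraMap To C (v i) * x' i = 0 → ∀ i, v i = 0
  e₀ : E₀
  g1 : ∀ x : ι → A, ∃ y : C, F.v₀ x = y • e₀
  g2 : ∀ y : C, ∃ x : ι → A, d • y • e₀ = F.v₀ x
  δ₁ : A
  g3 : ∀ v : ι → A₁, algebraMap A A₁ δ₁ • v ∈ L
  δ₀ : A
  g4 : ∀ y : C, y • e₀ = 0 → algebraMap A C δ₀ * y = 0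
  hΔ : algebraMap To C (algebraMap T To Δ) = algebraMap A C (δ₀ * d * δ₁)
  τ : List A
  hτ : ∀ n : ℕ, 0 < n → (List.ofFn fun i => algebraMap To C (algebraMap T To (t i))).map (· ^ n)
    = (τ.map (· ^ n) ++ [a ^ n]).map (algebraMap A C)
  reg : ∀ n : ℕ, 0 < n → RegL L ((τ.map (· ^ n) ++ [a ^ n]).map (algebraMap A A₁))
  k : ℕ
  hk : (algebraMap A C a) ^ k ∈ (Ideal.span (Set.range Y)) ^ N
  amp : ∀ r ∈ 𝔞, ∀ l ∈ L, algebraMap To C (algebraMap T To r) • F.v₁ l ∈
    F.idL ((Ideal.span (Set.range Y)) ^ N)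

namespace StageData

variable {F : Frame A A₁ C E₀ E₁ ι a d m L} {D : ℕ} {w t : Fin D → T} {Δ : T} {𝔞 : Ideal T}
variable {q N : ℕ} (S : StageData F T To w t Δ 𝔞 q N) (h : Tower a L c₀)

theorem mem_X_of (v : ι → A) : S.δ₁ • v ∈ X a L := by
  rw [mem_X]
  intro n
  rw [bc_smul]
  exact (le_sup_left : L ≤ _) (S.g3 _)

theorem x_mem [IsAdicComplete (Ideal.span {a}) A] [Fintype ι] (y : C) :
    (S.δ₁ • d • y • S.e₀ : E₀) ∈ F.mod h := by
  obtain ⟨x, hx⟩ := S.g2 y
  rw [hx, ← map_smul]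
  exact ⟨_, S.mem_X_of x, rfl⟩

theorem term_eq (i : Fin S.c) (y : C) :
    (y • S.δ₁ • d • S.x' i • S.e₀ : E₀) = (S.δ₁ * d) • (y * S.x' i) • S.e₀ := by
  rw [mul_smul S.δ₁ d, mul_smul y, Frame.smul_comm_AC₀ d y, Frame.smul_comm_AC₀ S.δ₁ y]

/-- The stage. -/
noncomputable def stage [IsAdicComplete (Ideal.span {a}) A] [Fintype ι] :
    Stage T To w t Δ 𝔞 q N where
  C := C
  X := F.mod h
  Y := S.Y
  hY := S.hY
  c := S.c
  hc := S.hc
  x := fun i => ⟨S.δ₁ • d • S.x' i • S.e₀, S.x_mem h _⟩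
  hΔ := by
    rintro ⟨y, hy⟩
    obtain ⟨x, hx, hxy⟩ := (F.mem_mod h).1 hy
    obtain ⟨y', hy'⟩ := S.g1 x
    obtain ⟨v, hv⟩ := S.span (algebraMap A C S.δ₀ * y')
    refine ⟨v, ?_⟩
    apply Subtype.ext
    rw [S.hΔ]
    have e1 : ((∑ i, algebraMap To C (v i) •
        (⟨S.δ₁ • d • S.x' i • S.e₀, S.x_mem h _⟩ : F.mod h) : F.mod h) : E₀)
        = (S.δ₁ * d) • (∑ i, algebraMap To C (v i) * S.x' i) • S.e₀ := by
      rw [AddSubmonoidClass.coe_finsetSum, Finset.sum_smul, Finset.smul_sum]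
      refine Finset.sum_congr rfl fun i _ => ?_
      exact S.term_eq i _
    rw [e1, ← hv, Submodule.coe_smul]
    simp only
    rw [← hxy, hy', algebraMap_smul, mul_smul (algebraMap A C S.δ₀) y', algebraMap_smul,
      ← mul_smul]
    congr 1
    ring
  hker := by
    intro v hv
    have h1 : (S.δ₁ * d) • (∑ i, algebraMap To C (v i) * S.x' i) • S.e₀ = 0 := by
      have h2 := congrArg Subtype.val hv
      rw [AddSubmonoidClass.coe_finsetSum] at h2
      rw [Finset.sum_smul, Finset.smul_sum]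
      refine Eq.trans ?_ h2
      refine Finset.sum_congr rfl fun i _ => ?_
      exact (S.term_eq i _).symm
    have h3 : (algebraMap A C (S.δ₁ * d) * ∑ i, algebraMap To C (v i) * S.x' i) • S.e₀ = 0 := by
      rw [mul_smul, algebraMap_smul]
      exact h1
    have h4 := S.g4 _ h3
    have h5 : ∑ i, algebraMap To C (algebraMap T To Δ * v i) * S.x' i = 0 := by
      rw [← h4, ← mul_assoc, ← map_mul, show S.δ₀ * (S.δ₁ * d) = S.δ₀ * d * S.δ₁ by ring,
        ← S.hΔ, Finset.mul_sum]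
      refine Finset.sum_congr rfl fun i _ => ?_
      rw [map_mul, mul_assoc]
    exact S.indep _ h5
  reg := by
    intro n hn
    rw [S.hτ n hn]
    rw [RegL_map_iff]
    exact F.regL_mod h n _ (S.reg n hn)
  amp := by
    intro r hr y
    rw [mem_smul_top_coe]
    have hk : ∀ e ∈ F.mod h, a ^ S.k • e ∈ (Ideal.span (Set.range S.Y)) ^ N • F.mod h := by
      intro e he
      have h1 := Submodule.smul_mem_smul S.hk he
      rwa [← map_pow, algebraMap_smul] at h1
    exact F.smul_mem_of_idL h _ _ S.k hk (S.amp r hr) _ y.2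

end StageData

end

end Crest.Agent.R183.BCM
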