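import Crest.Agent.R183.Om1
import Crest.Agent.R183.Amp4

/-!
R183 / Om2 : `Ω = W(P)/(p - [π])`: compatible roots of sharps, the Hebbarkeits-datum `Heb.Data`,
functoriality in `P`, the reduction `Ω → P/π`, the canonical model.
-/

set_option autoImplicit false
set_option linter.unusedSectionVars false

namespace Crest.Agent.R183.Om

open WittVector Crest.Agent.R183.Amp

section

variable {p : ℕ} [hp : Fact p.Prime]
variable {P : Type*} [CommRing P] [CharP P p] [PerfectRing P p]

/-- `rt` is functorial and compatible with itself -/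
lemma rt_succ_pow (e : ℕ) (a : P) : (rt (p := p) (e + 1) a) ^ p = rt (p := p) e a := by
  apply (iterateFrobeniusEquiv P p e).injective
  rw [iterateFrobeniusEquiv_apply, iterateFrobeniusEquiv_apply, iterateFrobenius_def,
    iterateFrobenius_def, rt_pow, ← pow_mul, ← pow_succ', rt_pow]

lemma rt_zero (a : P) : rt (p := p) 0 a = a := by
  have := rt_pow (p := p) 0 a
  simpa using this

lemma rt_map {Q : Type*} [CommRing Q] [CharP Q p] [PerfectRing Q p] (φ : P →+* Q) (e : ℕ) (a : P) :
    φ (rt (p := p) e a) = rt (p := p) e (φ a) := by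
  apply (iterateFrobeniusEquiv Q p e).injective
  rw [iterateFrobeniusEquiv_apply, iterateFrobeniusEquiv_apply, iterateFrobenius_def,
    iterateFrobenius_def, rt_pow, ← map_pow, rt_pow]

lemma rt_add (e f : ℕ) (a : P) : (rt (p := p) (e + f) a) ^ p ^ f = rt (p := p) e a := by
  apply (iterateFrobeniusEquiv P p e).injective
  rw [iterateFrobeniusEquiv_apply, iterateFrobeniusEquiv_apply, iterateFrobenius_def,
    iterateFrobenius_def, rt_pow, ← pow_mul, ← pow_add, add_comm, rt_pow]

end

section Omega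

variable {p : ℕ} [hp : Fact p.Prime]
variable {P : Type*} [CommRing P] [CharP P p] [PerfectRing P p]
variable {π : P} {Ω : Type*} [CommRing Ω]

/-- the sharp of `a`, for a given `θ`. -/
noncomputable def sh (θ : WittVector p P →+* Ω) (a : P) : Ω := θ (teichmuller p a)

lemma sh_mul (θ : WittVector p P →+* Ω) (a b : P) : sh θ (a * b) = sh θ a * sh θ b := by
  simp [sh]

lemma sh_pow (θ : WittVector p P →+* Ω) (a : P) (n : ℕ) : sh θ (a ^ n) = sh θ a ^ n := by
  simp [sh]

lemma sh_one (θ : WittVector p P →+* Ω) : sh θ 1 = 1 := by simp [sh]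

lemma sh_zero (θ : WittVector p P →+* Ω) : sh θ 0 = 0 := by simp [sh]

lemma isRoots_sh (θ : WittVector p P →+* Ω) (a : P) :
    Heb.IsRoots p (fun e => sh θ (rt (p := p) e a)) := by
  intro e
  show sh θ _ ^ p = sh θ _
  rw [← sh_pow, rt_succ_pow]

variable (θ : WittVector p P →+* Ω) (hθ : Function.Surjective θ)
  (hker : RingHom.ker θ = Ideal.span {xi 1 π})

include hker in
lemma sh_pi : sh θ π = p := by
  rw [sh, theta_teich_pi θ hker, map_one, mul_one]

/-- The datum of helper817's theorem H for `Ω` and `D♯`. -/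
noncomputable def hebData {K : Type*} [CommRing K] [Algebra Ω K]
    (inj : Function.Injective (algebraMap Ω K)) (unit_p : IsUnit (algebraMap Ω K (p : Ω)))
    (D : P) (unit_D : IsUnit (algebraMap Ω K (sh θ D)))
    (hθ : Function.Surjective θ) (hker : RingHom.ker θ = Ideal.span {xi 1 π})
    (hπ : Reg π) (hD : RegMod D π) : Heb.Data p Ω K where
  ϖ e := sh θ (rt (p := p) e π)
  δ e := sh θ (rt (p := p) e D)
  ϖ0 := by rw [rt_zero, sh_pi θ hker]
  hϖ := isRoots_sh θ π
  hδ := isRoots_sh θ D
  inj := inj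
  unit_p := unit_p
  unit_D := by rw [rt_zero]; exact unit_D
  reg_p := p_regular θ hθ hker hπ
  reg_D := by
    intro x hx
    rw [rt_zero] at hx
    exact reg_sharp θ hθ hker hD x hx
  fsurj := frob_surj θ hθ
  finj := by
    intro x hx
    refine frob_inj θ hθ hker (ϖ := rt (p := p) 1 π) ?_ hx isUnit_one
    rw [rt_succ_pow, rt_zero]

include hθ hker in
lemma p_nonunit (h : ¬ IsUnit π) : (p : Ω) ∈ nonunits Ω := by
  intro hu
  have h1 : (p : Ω) ∣ θ 1 := hu.dvd
  rw [dvd_p_iff θ hθ hker, map_one] at h1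
  exact h (isUnit_of_dvd_one h1)

/-- `Ω → P/π` -/
noncomputable def toMod (hker : RingHom.ker θ = Ideal.span {xi 1 π})
    (hθ : Function.Surjective θ) : Ω →+* P ⧸ Ideal.span {π} :=
  (RingHom.liftOfSurjective θ hθ) ⟨(Ideal.Quotient.mk _).comp constantCoeff, by
    rw [hker, Ideal.span_singleton_le_iff_mem, RingHom.mem_ker, RingHom.comp_apply, constCoeff_xi,
      Ideal.Quotient.eq_zero_iff_mem]
    exact neg_mem (Ideal.mem_span_singleton_self _)⟩

lemma toMod_apply (w : WittVector p P) :
    toMod θ hker hθ (θ w) = Ideal.Quotient.mk _ (constantCoeff w) := by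
  rw [toMod, RingHom.liftOfSurjective]
  exact RingHom.liftOfRightInverse_comp_apply _ _ _ _ _

lemma toMod_sh (a : P) : toMod θ hker hθ (sh θ a) = Ideal.Quotient.mk _ a := by
  rw [sh, toMod_apply, constCoeff_teich]

lemma toMod_surjective : Function.Surjective (toMod θ hker hθ) := by
  intro x
  obtain ⟨a, rfl⟩ := Ideal.Quotient.mk_surjective x
  exact ⟨sh θ a, toMod_sh θ hθ hker a⟩

lemma ker_toMod : RingHom.ker (toMod θ hker hθ) = Ideal.span {(p : Ω)} := by
  ext x
  obtain ⟨w, rfl⟩ := hθ x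
  rw [RingHom.mem_ker, toMod_apply, Ideal.Quotient.eq_zero_iff_mem, Ideal.mem_span_singleton,
    Ideal.mem_span_singleton, dvd_p_iff θ hθ hker]

/-- functoriality of `Ω`. -/
noncomputable def omMap {Q Ω' : Type*} [CommRing Q] [CharP Q p] [PerfectRing Q p]
    [CommRing Ω'] {π' : Q} (φ : P →+* Q) (hφ : φ π = π')
    (θ : WittVector p P →+* Ω) (hθ : Function.Surjective θ)
    (hker : RingHom.ker θ = Ideal.span {xi 1 π})
    (θ' : WittVector p Q →+* Ω') (hker' : RingHom.ker θ' = Ideal.span {xi 1 π'}) : Ω →+* Ω' :=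
  (RingHom.liftOfSurjective θ hθ) ⟨θ'.comp (WittVector.map φ), by
    rw [hker, Ideal.span_singleton_le_iff_mem, RingHom.mem_ker, RingHom.comp_apply, map_xi,
      map_one, hφ]
    exact theta_xi θ' hker'⟩

lemma omMap_theta {Q Ω' : Type*} [CommRing Q] [CharP Q p] [PerfectRing Q p]
    [CommRing Ω'] {π' : Q} (φ : P →+* Q) (hφ : φ π = π')
    (θ' : WittVector p Q →+* Ω') (hker' : RingHom.ker θ' = Ideal.span {xi 1 π'})
    (w : WittVector p P) :
    omMap φ hφ θ hθ hker θ' hker' (θ w) = θ' (WittVector.map φ w) := by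
  rw [omMap, RingHom.liftOfSurjective]
  exact RingHom.liftOfRightInverse_comp_apply _ _ _ _ _

lemma omMap_sh {Q Ω' : Type*} [CommRing Q] [CharP Q p] [PerfectRing Q p]
    [CommRing Ω'] {π' : Q} (φ : P →+* Q) (hφ : φ π = π')
    (θ' : WittVector p Q →+* Ω') (hker' : RingHom.ker θ' = Ideal.span {xi 1 π'})
    (a : P) :
    omMap φ hφ θ hθ hker θ' hker' (sh θ a) = sh θ' (φ a) := by
  rw [sh, omMap_theta, WittVector.map_teichmuller, sh]

end Omega

section Model

variable (p : ℕ) [hp : Fact p.Prime]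
variable {P : Type*} [CommRing P] [CharP P p] [PerfectRing P p]

/-- the canonical model `W(P)/(p - [π])` -/
abbrev Omega (π : P) : Type _ := WittVector p P ⧸ Ideal.span {xi (1 : WittVector p P) π}

/-- `θ : W(P) → Ω` -/
noncomputable abbrev th (π : P) : WittVector p P →+* Omega p π := Ideal.Quotient.mk _

lemma th_surjective (π : P) : Function.Surjective (th p π) := Ideal.Quotient.mk_surjective

lemma ker_th (π : P) : RingHom.ker (th p π) = Ideal.span {xi 1 π} := Ideal.mk_ker

end Model

end Crest.Agent.R183.Om
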