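import Mathlib

/-!
# R183, block D1 (root adjunction), part 1: equational flatness modulo an element
-/

namespace Crest.Agent.R183.W

universe u v w

open Finset

/-- `B/aB` is flat over `A/aA`, in equational form (index types are arbitrary finite types). -/
def FlatAt {A : Type u} {B : Type v} [CommRing A] [CommRing B] (φ : A →+* B) (a : A) : Prop :=
  ∀ (ι : Type) [Fintype ι] (r : ι → A) (x : ι → B) (w : B), ∑ i, φ (r i) * x i = φ a * w →
    ∃ (κ : Type) (_ : Fintype κ) (c : ι → κ → A) (y : κ → B) (x' : ι → B) (s : κ → A),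
      (∀ i, x i = ∑ j, φ (c i j) * y j + φ a * x' i) ∧ ∀ j, ∑ i, r i * c i j = a * s j

/-- `φ a` is a nonzerodivisor, elementwise. -/
def RegAt {A : Type u} {B : Type v} [CommRing A] [CommRing B] (φ : A →+* B) (a : A) : Prop :=
  ∀ b : B, φ a * b = 0 → b = 0

/-- properness: an ideal `J ∋ a` of `A` generating the unit ideal of `B` is the unit ideal. -/
def PropAt {A : Type u} {B : Type v} [CommRing A] [CommRing B] (φ : A →+* B) (a : A) : Prop :=
  ∀ J : Ideal A, a ∈ J → (1 : B) ∈ J.map φ → (1 : A) ∈ J

section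
variable {A : Type u} {B : Type v} {C : Type w} [CommRing A] [CommRing B] [CommRing C]

theorem FlatAt.one (φ : A →+* B) : FlatAt φ 1 := by
  intro ι _ r x w h
  refine ⟨Empty, inferInstance, fun _ e => e.elim, fun e => e.elim, x, fun e => e.elim, ?_, ?_⟩
  · intro i; simp
  · intro j; exact j.elim

theorem FlatAt.mul_of {φ : A →+* B} {a b : A} (ha : FlatAt φ a) (hb : FlatAt φ b)
    (hr : RegAt φ a) : FlatAt φ (a * b) := by
  classical
  intro ι _ r x w h
  have h0 : ∑ i, φ (r i) * x i = φ a * (φ b * w) := by rw [h, map_mul, mul_assoc]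
  obtain ⟨κ, _, c, y, x', s, h1, h2⟩ := ha ι r x _ h0
  have h3 : ∑ j, φ (s j) * y j + ∑ i, φ (r i) * x' i = φ b * w := by
    have h4 : φ a * ((∑ j, φ (s j) * y j + ∑ i, φ (r i) * x' i) - φ b * w) = 0 := by
      have h5 : ∑ i, φ (r i) * x i
          = ∑ j, φ (a * s j) * y j + φ a * ∑ i, φ (r i) * x' i := by
        calc ∑ i, φ (r i) * x i
            = ∑ i, (∑ j, φ (r i * c i j) * y j + φ a * (φ (r i) * x' i)) := by
              refine Finset.sum_congr rfl fun i _ => ?_
              rw [h1 i, mul_add, Finset.mul_sum]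
              congr 1
              · refine Finset.sum_congr rfl fun j _ => ?_
                rw [map_mul]; ring
              · ring
          _ = ∑ j, φ (a * s j) * y j + φ a * ∑ i, φ (r i) * x' i := by
              rw [Finset.sum_add_distrib, Finset.sum_comm, Finset.mul_sum]
              congr 1
              refine Finset.sum_congr rfl fun j _ => ?_
              rw [← h2 j, map_sum, Finset.sum_mul]
      have h6 : ∑ j, φ (a * s j) * y j = φ a * ∑ j, φ (s j) * y j := by
        rw [Finset.mul_sum]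
        refine Finset.sum_congr rfl fun j _ => ?_
        rw [map_mul]; ring
      rw [mul_sub, mul_add, ← h6, ← h5, h0, sub_self]
    exact sub_eq_zero.mp (hr _ h4)
  have h7 : ∑ i : κ ⊕ ι, φ (Sum.elim s r i) * (Sum.elim y x' i) = φ b * w := by
    rw [Fintype.sum_sum_type]; simpa using h3
  obtain ⟨κ', _, c', y', x'', s', h8, h9⟩ := hb (κ ⊕ ι) _ _ _ h7
  refine ⟨κ' ⊕ κ, inferInstance,
    fun i => Sum.elim (fun k => ∑ j, c i j * c' (Sum.inl j) k + a * c' (Sum.inr i) k)
      (fun j => c i j * b),
    Sum.elim y' (fun j => x'' (Sum.inl j)), fun i => x'' (Sum.inr i), Sum.elim s' s, ?_, ?_⟩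
  · intro i
    rw [Fintype.sum_sum_type]
    simp only [Sum.elim_inl, Sum.elim_inr]
    have e1 : ∀ j, y j = ∑ k, φ (c' (Sum.inl j) k) * y' k + φ b * x'' (Sum.inl j) := by
      intro j; simpa using h8 (Sum.inl j)
    have e2 : x' i = ∑ k, φ (c' (Sum.inr i) k) * y' k + φ b * x'' (Sum.inr i) := by
      simpa using h8 (Sum.inr i)
    rw [h1 i]
    have e3 : ∑ j, φ (c i j) * y j
        = ∑ k, φ (∑ j, c i j * c' (Sum.inl j) k) * y' k + ∑ j, φ (c i j * b) * x'' (Sum.inl j) := by
      calc ∑ j, φ (c i j) * y j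
          = ∑ j, (∑ k, φ (c i j * c' (Sum.inl j) k) * y' k + φ (c i j * b) * x'' (Sum.inl j)) := by
            refine Finset.sum_congr rfl fun j _ => ?_
            rw [e1 j, mul_add, Finset.mul_sum]
            congr 1
            · refine Finset.sum_congr rfl fun k _ => ?_
              rw [map_mul]; ring
            · rw [map_mul]; ring
        _ = _ := by
            rw [Finset.sum_add_distrib, Finset.sum_comm]
            congr 1
            refine Finset.sum_congr rfl fun k _ => ?_
            rw [map_sum, Finset.sum_mul]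
    have e4 : φ a * x' i = ∑ k, φ (a * c' (Sum.inr i) k) * y' k + φ (a * b) * x'' (Sum.inr i) := by
      rw [e2, mul_add, Finset.mul_sum]
      congr 1
      · refine Finset.sum_congr rfl fun k _ => ?_
        rw [map_mul]; ring
      · rw [map_mul]; ring
    rw [e3, e4]
    have e5 : ∑ k, φ (∑ j, c i j * c' (Sum.inl j) k + a * c' (Sum.inr i) k) * y' k
        = ∑ k, φ (∑ j, c i j * c' (Sum.inl j) k) * y' k + ∑ k, φ (a * c' (Sum.inr i) k) * y' k := by
      rw [← Finset.sum_add_distrib]
      refine Finset.sum_congr rfl fun k _ => ?_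
      rw [map_add]; ring
    rw [e5]; ring
  · rintro (k | j)
    · simp only [Sum.elim_inl]
      have e6 : ∑ j, s j * c' (Sum.inl j) k + ∑ i, r i * c' (Sum.inr i) k = b * s' k := by
        have := h9 k
        rw [Fintype.sum_sum_type] at this
        simpa using this
      have e7 : ∑ i, r i * (∑ j, c i j * c' (Sum.inl j) k + a * c' (Sum.inr i) k)
          = ∑ j, (∑ i, r i * c i j) * c' (Sum.inl j) k + a * ∑ i, r i * c' (Sum.inr i) k := by
        simp only [mul_add, Finset.sum_add_distrib, Finset.mul_sum, Finset.sum_mul]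
        rw [Finset.sum_comm]
        congr 1
        · refine Finset.sum_congr rfl fun j _ => Finset.sum_congr rfl fun i _ => ?_
          ring
        · refine Finset.sum_congr rfl fun i _ => ?_
          ring
      rw [e7]
      simp only [h2]
      have e8 : ∑ j, a * s j * c' (Sum.inl j) k = a * ∑ j, s j * c' (Sum.inl j) k := by
        rw [Finset.mul_sum]
        refine Finset.sum_congr rfl fun j _ => ?_
        ring
      rw [e8, ← mul_add, e6]; ring
    · simp only [Sum.elim_inr]
      have e9 : ∑ i, r i * (c i j * b) = (∑ i, r i * c i j) * b := by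
        rw [Finset.sum_mul]
        refine Finset.sum_congr rfl fun i _ => ?_
        ring
      rw [e9, h2]; ring

/-- Devissage: flat modulo `a` and `a` regular on `B` give flat modulo all powers of `a`. -/
theorem FlatAt.pow {φ : A →+* B} {a : A} (ha : FlatAt φ a) (hr : RegAt φ a) (m : ℕ) :
    FlatAt φ (a ^ m) := by
  induction m with
  | zero => rw [pow_zero]; exact FlatAt.one φ
  | succ m ih => rw [pow_succ']; exact ha.mul_of ih hr

theorem RegAt.pow {φ : A →+* B} {a : A} (hr : RegAt φ a) (m : ℕ) : RegAt φ (a ^ m) := by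
  induction m with
  | zero => intro b hb; simpa using hb
  | succ m ih =>
    intro b hb
    refine ih b (hr _ ?_)
    rw [← hb, pow_succ', map_mul, mul_assoc]

theorem FlatAt.comp {φ : A →+* B} {ψ : B →+* C} {a : A} (h1 : FlatAt φ a) (h2 : FlatAt ψ (φ a)) :
    FlatAt (ψ.comp φ) a := by
  classical
  intro ι _ r x w h
  obtain ⟨κ, _, c, y, x', s, h3, h4⟩ := h2 ι (fun i => φ (r i)) x w (by simpa using h)
  choose K fK d z c' s' h5 h6 using fun j => h1 ι r (fun i => c i j) (s j) (h4 j)
  refine ⟨Σ j, K j, inferInstance, fun i jk => d jk.1 i jk.2, fun jk => ψ (z jk.1 jk.2) * y jk.1,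
    fun i => ∑ j, ψ (c' j i) * y j + x' i, fun jk => s' jk.1 jk.2, ?_, ?_⟩
  · intro i
    rw [Fintype.sum_sigma, h3 i]
    have e1 : ∑ j, ψ (c i j) * y j = ∑ j, (∑ k, (ψ.comp φ) (d j i k) * (ψ (z j k) * y j)
        + (ψ.comp φ) a * (ψ (c' j i) * y j)) := by
      refine Finset.sum_congr rfl fun j _ => ?_
      have := h5 j i
      rw [this, map_add, map_sum, add_mul, Finset.sum_mul, map_mul]
      congr 1
      · refine Finset.sum_congr rfl fun k _ => ?_
        rw [map_mul]; simp only [RingHom.comp_apply]; ring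
      · simp only [RingHom.comp_apply]; ring
    rw [e1, Finset.sum_add_distrib, mul_add, Finset.mul_sum]
    simp only [RingHom.comp_apply]
    ring
  · rintro ⟨j, k⟩
    exact h6 j k

theorem PropAt.comp {φ : A →+* B} {ψ : B →+* C} {a : A} (h1 : PropAt φ a) (h2 : PropAt ψ (φ a)) :
    PropAt (ψ.comp φ) a := by
  intro J hJ h
  refine h1 J hJ (h2 _ (Ideal.mem_map_of_mem φ hJ) ?_)
  rwa [Ideal.map_map]

theorem FlatAt.id (a : A) : FlatAt (RingHom.id A) a := by
  classical
  intro ι _ r x w h
  refine ⟨Unit, inferInstance, fun i _ => x i, fun _ => 1, fun _ => 0, fun _ => w, ?_, ?_⟩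
  · intro i; simp
  · intro j; simpa using h

theorem PropAt.id (a : A) : PropAt (RingHom.id A) a := by
  intro J _ h
  simpa using h

/-- the general form for an ideal containing a power of `a`. -/
theorem PropAt.of_pow_mem {φ : A →+* B} {a : A} (h1 : PropAt φ a) {J : Ideal A} {m : ℕ}
    (hJ : a ^ m ∈ J) (h : (1 : B) ∈ J.map φ) : (1 : A) ∈ J := by
  have h2 : (1 : A) ∈ J ⊔ Ideal.span {a} := by
    refine h1 _ (Ideal.mem_sup_right (Ideal.mem_span_singleton_self a)) ?_
    exact Ideal.map_mono le_sup_left h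
  obtain ⟨j, hj, b, hb, h3⟩ := Submodule.mem_sup.mp h2
  obtain ⟨c, rfl⟩ := Ideal.mem_span_singleton'.mp hb
  have h4 : (1 - j) ^ m ∈ J := by
    have : 1 - j = c * a := by rw [← h3]; ring
    rw [this, mul_pow]
    exact J.mul_mem_left _ hJ
  have h5 : (Ideal.Quotient.mk J) 1 = 0 := by
    have h6 : (Ideal.Quotient.mk J) ((1 - j) ^ m) = 0 := Ideal.Quotient.eq_zero_iff_mem.mpr h4
    rw [map_pow, map_sub, Ideal.Quotient.eq_zero_iff_mem.mpr hj, sub_zero, map_one, one_pow] at h6
    rw [map_one]; exact h6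
  exact Ideal.Quotient.eq_zero_iff_mem.mp h5

end

end Crest.Agent.R183.W
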