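import Mathlib
import Crest.Agent.R183.W1

/-!
# R183, block D1 (root adjunction), part 2: passing to the perfection
-/

namespace Crest.Agent.R183.W

universe u v w

open Finset

section
variable {P : Type u} {E : Type v} {L : Type w} [CommRing P] [CommRing E] [CommRing L]
variable (p : ℕ) [ExpChar P p] [ExpChar E p] [ExpChar L p] [PerfectRing P p] [PerfectRing L p]

omit [ExpChar E p] [ExpChar L p] [PerfectRing L p] in
theorem exists_common_pow (i : E →+* L) [IsPRadical i p] {ι : Type} [Finite ι] (x : ι → L) :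
    ∃ (n : ℕ) (e : ι → E), ∀ j, i (e j) = x j ^ p ^ n := by
  classical
  cases nonempty_fintype ι
  choose n e h using fun j => IsPRadical.pow_mem i p (x j)
  refine ⟨∑ j, n j, fun j => e j ^ p ^ (∑ k ∈ univ.erase j, n k), fun j => ?_⟩
  rw [map_pow, h, ← pow_mul, ← pow_add, add_comm, Finset.sum_erase_add _ _ (mem_univ j)]

omit [ExpChar P p] [PerfectRing P p] in
theorem RegAt.perfection {φ : P →+* E} {a : P} (i : E →+* L) [IsPRadical i p]
    (hr : RegAt φ a) : RegAt (i.comp φ) a := by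
  intro b hb
  obtain ⟨n, e, he⟩ := IsPRadical.pow_mem i p b
  have h1 : i (φ (a ^ p ^ n) * e) = 0 := by
    rw [map_mul, he]
    have : i (φ (a ^ p ^ n)) = ((i.comp φ) a) ^ p ^ n := by simp
    rw [this, ← mul_pow, hb, zero_pow (pow_pos (expChar_pos E p) n).ne']
  obtain ⟨k, hk⟩ := mem_pNilradical.mp (IsPRadical.ker_le i p (RingHom.mem_ker.mpr h1))
  have h2 : e ^ p ^ k = 0 := by
    have h3 : φ ((a ^ p ^ n) ^ p ^ k) * e ^ p ^ k = 0 := by
      rw [map_pow, ← mul_pow]; exact hk
    rw [← pow_mul] at h3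
    exact hr.pow _ _ h3
  have h4 : b ^ p ^ (n + k) = 0 := by
    rw [pow_add, pow_mul, ← he, ← map_pow, h2, map_zero]
  have h5 : iterateFrobeniusEquiv L p (n + k) b = 0 := h4
  exact (map_eq_zero_iff _ (iterateFrobeniusEquiv L p (n + k)).injective).mp h5

omit [ExpChar P p] [PerfectRing P p] [PerfectRing L p] in
theorem PropAt.perfection {φ : P →+* E} {a : P} (i : E →+* L) [IsPRadical i p]
    (hr : PropAt φ a) : PropAt (i.comp φ) a := by
  intro J hJ h
  have h1 : ∀ x ∈ J.map (i.comp φ), ∃ (n : ℕ) (e : E), e ∈ J.map φ ∧ i e = x ^ p ^ n := by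
    intro x hx
    induction hx using Submodule.span_induction with
    | mem x hx =>
      obtain ⟨j, hj, rfl⟩ := hx
      exact ⟨0, φ j, Ideal.mem_map_of_mem φ hj, by simp⟩
    | zero => exact ⟨0, 0, Ideal.zero_mem _, by simp⟩
    | add x y _ _ ihx ihy =>
      obtain ⟨n, e, he, h2⟩ := ihx
      obtain ⟨m, f, hf, h3⟩ := ihy
      refine ⟨n + m, e ^ p ^ m + f ^ p ^ n, Ideal.add_mem _ ?_ ?_, ?_⟩
      · exact Ideal.pow_mem_of_mem _ he _ (pow_pos (expChar_pos E p) m)
      · exact Ideal.pow_mem_of_mem _ hf _ (pow_pos (expChar_pos E p) n)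
      · rw [map_add, map_pow, map_pow, h2, h3, add_pow_expChar_pow, ← pow_mul, ← pow_mul,
          ← pow_add, ← pow_add, add_comm m n]
    | smul c x _ ihx =>
      obtain ⟨n, e, he, h2⟩ := ihx
      obtain ⟨m, f, h3⟩ := IsPRadical.pow_mem i p c
      refine ⟨n + m, f ^ p ^ n * e ^ p ^ m, Ideal.mul_mem_left _ _
        (Ideal.pow_mem_of_mem _ he _ (pow_pos (expChar_pos E p) m)), ?_⟩
      rw [map_mul, map_pow, map_pow, h2, h3, smul_eq_mul, mul_pow, ← pow_mul, ← pow_mul,
          ← pow_add, ← pow_add, add_comm m n]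
  obtain ⟨n, e, he, h2⟩ := h1 1 h
  rw [one_pow] at h2
  have h3 : i (e - 1) = 0 := by rw [map_sub, h2, map_one, sub_self]
  obtain ⟨k, hk⟩ := mem_pNilradical.mp (IsPRadical.ker_le i p (RingHom.mem_ker.mpr h3))
  rw [sub_pow_expChar_pow, one_pow, sub_eq_zero] at hk
  refine hr J hJ ?_
  rw [← hk]
  exact Ideal.pow_mem_of_mem _ he _ (pow_pos (expChar_pos E p) k)

theorem FlatAt.perfection {φ : P →+* E} {a : P} (i : E →+* L) [IsPRadical i p]
    (hf : ∀ n : ℕ, FlatAt φ (a ^ p ^ n)) : FlatAt (i.comp φ) a := by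
  classical
  intro ι _ r x w h
  obtain ⟨n, e, he⟩ := exists_common_pow p i (Option.elim · w x : Option ι → L)
  have h1 : i (∑ j, φ (r j ^ p ^ n) * e (some j) - φ (a ^ p ^ n) * e none) = 0 := by
    have h2 := congrArg (iterateFrobenius L p n) h
    simp only [map_sum, map_mul] at h2
    simp only [iterateFrobenius_def] at h2
    rw [map_sub, map_sum, sub_eq_zero]
    have h3 : ∀ j, i (e (some j)) = x j ^ p ^ n := fun j => he (some j)
    have h4 : i (e none) = w ^ p ^ n := he none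
    simp only [map_mul, map_pow, h3, h4]
    simpa using h2
  obtain ⟨k, hk⟩ := mem_pNilradical.mp (IsPRadical.ker_le i p (RingHom.mem_ker.mpr h1))
  rw [sub_pow_expChar_pow, sum_pow_char_pow, sub_eq_zero] at hk
  have h5 : ∑ j, φ (r j ^ p ^ (n + k)) * (e (some j)) ^ p ^ k
      = φ (a ^ p ^ (n + k)) * (e none) ^ p ^ k := by
    simpa [mul_pow, ← pow_mul, pow_add] using hk
  obtain ⟨κ, _, c, y, x', s, h6, h7⟩ := hf (n + k) ι _ _ _ h5
  set N := n + k with hN
  let ρ : P ≃+* P := (iterateFrobeniusEquiv P p N).symm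
  let σ : L ≃+* L := (iterateFrobeniusEquiv L p N).symm
  have hρ : ∀ b, ρ (b ^ p ^ N) = b := fun b => (iterateFrobeniusEquiv P p N).symm_apply_apply b
  have hσ : ∀ b, σ (b ^ p ^ N) = b := fun b => (iterateFrobeniusEquiv L p N).symm_apply_apply b
  have hnat : ∀ b, σ (i (φ b)) = i (φ (ρ b)) := by
    intro b
    have h8 : b = (ρ b) ^ p ^ N := ((iterateFrobeniusEquiv P p N).apply_symm_apply b).symm
    conv_lhs => rw [h8]
    rw [map_pow, map_pow, hσ]
  refine ⟨κ, inferInstance, fun j l => ρ (c j l), fun l => σ (i (y l)), fun j => σ (i (x' j)),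
    fun l => ρ (s l), ?_, ?_⟩
  · intro j
    have h9 : x j ^ p ^ N = i (e (some j) ^ p ^ k) := by
      have : i (e (some j)) = x j ^ p ^ n := he (some j)
      rw [map_pow, this, ← pow_mul, ← pow_add]
    rw [← hσ (x j), h9, h6 j, map_add, map_add, map_sum, map_sum, map_mul, map_mul, hnat]
    congr 1
    · refine Finset.sum_congr rfl fun l _ => ?_
      rw [map_mul, map_mul, hnat]; rfl
    · rw [hρ]; rfl
  · intro l
    have h10 := congrArg ρ (h7 l)
    rw [map_sum, map_mul, hρ] at h10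
    simpa [hρ] using h10

end

end Crest.Agent.R183.W
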