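import Mathlib
import Crest.Agent.R183.W2

/-!
# R183, block D1 (root adjunction), part 3: the triangular system
`s_0 = -b mod π`, `s_{i+1} = X_i^p mod π` over `P[S][X_0, X_1, ...]`
-/

namespace Crest.Agent.R183.W

universe u v w

open Finset MvPolynomial

set_option linter.unusedSectionVars false

section NIdeal
variable {Q : Type u} [CommRing Q]

/-- polynomials all of whose coefficients at exponents `e` with `e j < p` (`j ∈ K`) lie in `T`. -/
def NIdeal (p : ℕ) (T : Ideal Q) (K : Set ℕ) : Ideal (MvPolynomial ℕ Q) where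
  carrier := {x | ∀ e : ℕ →₀ ℕ, (∀ j ∈ K, e j < p) → coeff e x ∈ T}
  add_mem' := by
    intro x y hx hy e he
    rw [coeff_add]
    exact T.add_mem (hx e he) (hy e he)
  zero_mem' := by
    intro e _
    rw [coeff_zero]; exact T.zero_mem
  smul_mem' := by
    classical
    intro c x hx e he
    rw [smul_eq_mul, coeff_mul]
    refine T.sum_mem fun a ha => T.mul_mem_left _ (hx _ fun j hj => ?_)
    have h1 : a.1 + a.2 = e := by simpa using ha
    have h2 : a.1 j + a.2 j = e j := by rw [← h1]; rfl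
    have := he j hj
    omega

theorem mem_NIdeal {p : ℕ} {T : Ideal Q} {K : Set ℕ} {x : MvPolynomial ℕ Q} :
    x ∈ NIdeal p T K ↔ ∀ e : ℕ →₀ ℕ, (∀ j ∈ K, e j < p) → coeff e x ∈ T := Iff.rfl

theorem C_mem_NIdeal {p : ℕ} {T : Ideal Q} {K : Set ℕ} {c : Q} (hc : c ∈ T) :
    C c ∈ NIdeal p T K := by
  classical
  intro e _
  rw [coeff_C]
  split_ifs
  · exact hc
  · exact T.zero_mem

theorem X_pow_mem_NIdeal {p : ℕ} {T : Ideal Q} {K : Set ℕ} {k : ℕ} (hk : k ∈ K) :
    (X k : MvPolynomial ℕ Q) ^ p ∈ NIdeal p T K := by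
  classical
  intro e he
  rw [X_pow_eq_monomial, coeff_monomial]
  split_ifs with h
  · exfalso
    have := he k hk
    rw [← h, Finsupp.single_eq_same] at this
    exact lt_irrefl _ this
  · exact T.zero_mem

/-- `NIdeal` is contained in any ideal containing `C T` and the `X_j ^ p`, `j ∈ K`. -/
theorem NIdeal_le {p : ℕ} {T : Ideal Q} {K : Set ℕ} {J : Ideal (MvPolynomial ℕ Q)}
    (h1 : ∀ c ∈ T, C c ∈ J) (h2 : ∀ j ∈ K, (X j : MvPolynomial ℕ Q) ^ p ∈ J) :
    NIdeal p T K ≤ J := by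
  classical
  intro x hx
  rw [x.as_sum]
  refine J.sum_mem fun e _ => ?_
  by_cases he : ∀ j ∈ K, e j < p
  · have h3 : monomial e (coeff e x) = C (coeff e x) * monomial e 1 := by
      rw [C_mul_monomial, mul_one]
    rw [h3]
    exact J.mul_mem_right _ (h1 _ (hx e he))
  · push Not at he
    obtain ⟨j, hj, hle⟩ := he
    have h4 : monomial e (coeff e x)
        = (X j : MvPolynomial ℕ Q) ^ p * monomial (e - Finsupp.single j p) (coeff e x) := by
      rw [X_pow_eq_monomial, monomial_mul, one_mul]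
      have h5 : e = Finsupp.single j p + (e - Finsupp.single j p) := by
        ext i
        simp only [Finsupp.coe_add, Finsupp.coe_tsub, Pi.add_apply, Pi.sub_apply]
        by_cases hij : i = j
        · subst hij; simp only [Finsupp.single_eq_same]; omega
        · rw [Finsupp.single_eq_of_ne hij]; omega
      rw [← h5]
    rw [h4]
    exact J.mul_mem_right _ (h2 j hj)

theorem of_X_pow_mul_mem_NIdeal {p : ℕ} {T : Ideal Q} {K : Set ℕ} {k : ℕ} (hk : k ∉ K)
    {x : MvPolynomial ℕ Q} (hx : X k ^ p * x ∈ NIdeal p T K) : x ∈ NIdeal p T K := by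
  classical
  intro e he
  have h1 := hx (Finsupp.single k p + e) (fun j hj => ?_)
  · rw [X_pow_eq_monomial, coeff_monomial_mul, one_mul] at h1
    exact h1
  · have : j ≠ k := fun h => hk (h ▸ hj)
    simp only [Finsupp.coe_add, Pi.add_apply, Finsupp.single_eq_of_ne this, zero_add]
    exact he j hj

end NIdeal

/-- the data of the triangular system. -/
structure Tri (p : ℕ) (P : Type u) [CommRing P] where
  π : P
  b : Polynomial P
  s : ℕ → MvPolynomial ℕ (Polynomial P)
  reg : ∀ x : P, π * x = 0 → x = 0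
  monic : b.Monic
  deg : 0 < b.natDegree
  s_zero : ∃ u, s 0 = C (Polynomial.C π) * u - C b
  s_succ : ∀ i, ∃ u, s (i + 1) = X i ^ p + C (Polynomial.C π) * u

namespace Tri

variable {p : ℕ} [hp : Fact p.Prime] {P : Type u} [CommRing P] (D : Tri p P)

/-- `(π, b)` in `P[S]`. -/
noncomputable def T : Ideal (Polynomial P) := Ideal.span {Polynomial.C D.π, D.b}

/-- the ideal of all relations. -/
noncomputable def I : Ideal (MvPolynomial ℕ (Polynomial P)) := Ideal.span (Set.range D.s)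

/-- the ideal of the relations of index `< k`. -/
noncomputable def Ik (k : ℕ) : Ideal (MvPolynomial ℕ (Polynomial P)) :=
  Ideal.span (D.s '' Set.Iio k)

/-- `π` as a polynomial. -/
noncomputable def pp : MvPolynomial ℕ (Polynomial P) := C (Polynomial.C D.π)

theorem C_T_mem {J : Ideal (MvPolynomial ℕ (Polynomial P))} (h1 : D.pp ∈ J) (h2 : D.s 0 ∈ J)
    {c : Polynomial P} (hc : c ∈ D.T) : C c ∈ J := by
  have h3 : C D.b ∈ J := by
    obtain ⟨u, hu⟩ := D.s_zero
    have : C D.b = D.pp * u - D.s 0 := by rw [hu, pp]; ring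
    rw [this]
    exact J.sub_mem (J.mul_mem_right _ h1) h2
  obtain ⟨x, y, rfl⟩ := Ideal.mem_span_pair.mp hc
  rw [C_add, C_mul, C_mul]
  exact J.add_mem (J.mul_mem_left _ h1) (J.mul_mem_left _ h3)

theorem N_eq (k : ℕ) :
    NIdeal p D.T (Set.Iio k) = D.Ik (k + 1) ⊔ Ideal.span {D.pp} := by
  apply le_antisymm
  · have hpp : D.pp ∈ D.Ik (k + 1) ⊔ Ideal.span {D.pp} :=
      Ideal.mem_sup_right (Ideal.mem_span_singleton_self _)
    have hs : ∀ i < k + 1, D.s i ∈ D.Ik (k + 1) ⊔ Ideal.span {D.pp} := fun i hi =>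
      Ideal.mem_sup_left (Ideal.subset_span ⟨i, hi, rfl⟩)
    refine NIdeal_le (fun c hc => D.C_T_mem hpp (hs 0 (by omega)) hc) fun j hj => ?_
    obtain ⟨u, hu⟩ := D.s_succ j
    have h1 : (X j : MvPolynomial ℕ (Polynomial P)) ^ p = D.s (j + 1) - D.pp * u := by
      rw [hu, pp]; ring
    rw [h1]
    have hj' : j < k := hj
    exact Ideal.sub_mem _ (hs _ (by omega)) (Ideal.mul_mem_right _ _ hpp)
  · have hpp : D.pp ∈ NIdeal p D.T (Set.Iio k) :=
      C_mem_NIdeal (Ideal.subset_span (by simp))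
    refine sup_le (Ideal.span_le.mpr ?_) ((Ideal.span_singleton_le_iff_mem _).mpr hpp)
    rintro _ ⟨i, hi, rfl⟩
    have hi' : i < k + 1 := hi
    rcases i with _ | i
    · obtain ⟨u, hu⟩ := D.s_zero
      rw [hu]
      exact Ideal.sub_mem _ (Ideal.mul_mem_right _ _ hpp)
        (C_mem_NIdeal (Ideal.subset_span (by simp)))
    · obtain ⟨u, hu⟩ := D.s_succ i
      rw [hu]
      exact Ideal.add_mem _ (X_pow_mem_NIdeal (by simp; omega)) (Ideal.mul_mem_right _ _ hpp)

theorem N_univ_le : NIdeal p D.T Set.univ ≤ D.I ⊔ Ideal.span {D.pp} := by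
  have hpp : D.pp ∈ D.I ⊔ Ideal.span {D.pp} :=
    Ideal.mem_sup_right (Ideal.mem_span_singleton_self _)
  have hs : ∀ i, D.s i ∈ D.I ⊔ Ideal.span {D.pp} := fun i =>
    Ideal.mem_sup_left (Ideal.subset_span ⟨i, rfl⟩)
  refine NIdeal_le (fun c hc => D.C_T_mem hpp (hs 0) hc) fun j _ => ?_
  obtain ⟨u, hu⟩ := D.s_succ j
  have h1 : (X j : MvPolynomial ℕ (Polynomial P)) ^ p = D.s (j + 1) - D.pp * u := by
    rw [hu, pp]; ring
  rw [h1]
  exact Ideal.sub_mem _ (hs _) (Ideal.mul_mem_right _ _ hpp)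

theorem pp_mem_N (K : Set ℕ) : D.pp ∈ NIdeal p D.T K :=
  C_mem_NIdeal (Ideal.subset_span (by simp))

theorem I_le_N : D.I ≤ NIdeal p D.T Set.univ := by
  have hpp := D.pp_mem_N Set.univ
  refine Ideal.span_le.mpr ?_
  rintro _ ⟨i, rfl⟩
  rcases i with _ | i
  · obtain ⟨u, hu⟩ := D.s_zero
    rw [hu]
    exact Ideal.sub_mem _ (Ideal.mul_mem_right _ _ hpp)
      (C_mem_NIdeal (Ideal.subset_span (by simp)))
  · obtain ⟨u, hu⟩ := D.s_succ i
    rw [hu]
    exact Ideal.add_mem _ (X_pow_mem_NIdeal (Set.mem_univ _)) (Ideal.mul_mem_right _ _ hpp)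

theorem Ik_mono {k l : ℕ} (h : k ≤ l) : D.Ik k ≤ D.Ik l :=
  Ideal.span_mono (Set.image_mono (Set.Iio_subset_Iio h))

theorem exists_mem_Ik {x : MvPolynomial ℕ (Polynomial P)} (hx : x ∈ D.I) : ∃ k, x ∈ D.Ik k := by
  induction hx using Submodule.span_induction with
  | mem x hx =>
    obtain ⟨i, rfl⟩ := hx
    exact ⟨i + 1, Ideal.subset_span ⟨i, Nat.lt_succ_self i, rfl⟩⟩
  | zero => exact ⟨0, Ideal.zero_mem _⟩
  | add x y _ _ ihx ihy =>
    obtain ⟨k, hk⟩ := ihx
    obtain ⟨l, hl⟩ := ihy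
    exact ⟨max k l, Ideal.add_mem _ (D.Ik_mono (le_max_left _ _) hk)
      (D.Ik_mono (le_max_right _ _) hl)⟩
  | smul c x _ ihx =>
    obtain ⟨k, hk⟩ := ihx
    exact ⟨k, Ideal.mul_mem_left _ _ hk⟩

theorem pp_reg (x : MvPolynomial ℕ (Polynomial P)) (hx : D.pp * x = 0) : x = 0 := by
  ext e n
  have h1 := congrArg (fun z => (coeff e z).coeff n) hx
  simp only [pp, coeff_C_mul, Polynomial.coeff_C_mul, coeff_zero, Polynomial.coeff_zero] at h1
  simpa using D.reg _ h1

theorem mem_span_pp {x : MvPolynomial ℕ (Polynomial P)} :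
    x ∈ Ideal.span {D.pp} ↔ ∀ e, Polynomial.C D.π ∣ coeff e x := by
  rw [Ideal.mem_span_singleton, pp, C_dvd_iff_dvd_coeff]

theorem C_dvd_iff_map (x : Polynomial P) : Polynomial.C D.π ∣ x ↔
    x.map (Ideal.Quotient.mk (Ideal.span {D.π})) = 0 := by
  rw [Polynomial.C_dvd_iff_dvd_coeff]
  constructor
  · intro hx
    ext n
    rw [Polynomial.coeff_map, Polynomial.coeff_zero, Ideal.Quotient.eq_zero_iff_mem,
      Ideal.mem_span_singleton]
    exact hx n
  · intro hx n
    rw [← Ideal.mem_span_singleton, ← Ideal.Quotient.eq_zero_iff_mem, ← Polynomial.coeff_map, hx,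
      Polynomial.coeff_zero]

/-- `b` is regular modulo `π` in `P[S]`. -/
theorem b_reg {c : Polynomial P} (h : Polynomial.C D.π ∣ D.b * c) : Polynomial.C D.π ∣ c := by
  rw [C_dvd_iff_map] at h ⊢
  rw [Polynomial.map_mul] at h
  exact (D.monic.map _).mul_right_eq_zero_iff.mp h

theorem step (k : ℕ) (r : MvPolynomial ℕ (Polynomial P))
    (h : D.s k * r ∈ D.Ik k ⊔ Ideal.span {D.pp}) : r ∈ D.Ik k ⊔ Ideal.span {D.pp} := by
  rcases k with _ | k
  · have h0 : D.Ik 0 = ⊥ := by simp [Ik]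
    rw [h0, bot_sup_eq] at h ⊢
    obtain ⟨u, hu⟩ := D.s_zero
    have h1 : C D.b * r ∈ Ideal.span {D.pp} := by
      have : C D.b * r = D.pp * (u * r) - D.s 0 * r := by rw [hu, pp]; ring
      rw [this]
      exact Ideal.sub_mem _ (Ideal.mul_mem_right _ _ (Ideal.mem_span_singleton_self _)) h
    rw [mem_span_pp] at h1 ⊢
    intro e
    have := h1 e
    rw [coeff_C_mul] at this
    exact D.b_reg this
  · rw [← N_eq] at h ⊢
    obtain ⟨u, hu⟩ := D.s_succ k
    refine of_X_pow_mul_mem_NIdeal (k := k) (by simp) ?_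
    have : X k ^ p * r = D.s (k + 1) * r - D.pp * (u * r) := by rw [hu, pp]; ring
    rw [this]
    exact Ideal.sub_mem _ h (Ideal.mul_mem_right _ _ (D.pp_mem_N _))

theorem reg_Ik (k : ℕ) (x : MvPolynomial ℕ (Polynomial P)) (hx : D.pp * x ∈ D.Ik k) :
    x ∈ D.Ik k := by
  induction k generalizing x with
  | zero =>
    have h0 : D.Ik 0 = ⊥ := by simp [Ik]
    rw [h0] at hx ⊢
    rw [Ideal.mem_bot] at hx ⊢
    exact D.pp_reg x hx
  | succ k ih =>
    have h1 : D.Ik (k + 1) = D.Ik k ⊔ Ideal.span {D.s k} := by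
      rw [Ik, Ik, ← Ideal.span_union]
      congr 1
      ext y
      simp only [Set.mem_image, Set.mem_Iio, Set.mem_union, Set.mem_singleton_iff]
      constructor
      · rintro ⟨i, hi, rfl⟩
        rcases Nat.lt_succ_iff_lt_or_eq.mp hi with h | h
        · exact Or.inl ⟨i, h, rfl⟩
        · exact Or.inr (by rw [h])
      · rintro (⟨i, hi, rfl⟩ | rfl)
        · exact ⟨i, by omega, rfl⟩
        · exact ⟨k, by omega, rfl⟩
    rw [h1] at hx ⊢
    obtain ⟨y, hy, z, hz, h2⟩ := Submodule.mem_sup.mp hx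
    obtain ⟨r, rfl⟩ := Ideal.mem_span_singleton'.mp hz
    have h3 : D.s k * r ∈ D.Ik k ⊔ Ideal.span {D.pp} := by
      have : D.s k * r = D.pp * x - y := by rw [← h2]; ring
      rw [this]
      exact Ideal.sub_mem _ (Ideal.mul_mem_right _ _
        (Ideal.mem_sup_right (Ideal.mem_span_singleton_self _))) (Ideal.mem_sup_left hy)
    obtain ⟨y', hy', z', hz', h4⟩ := Submodule.mem_sup.mp (D.step k r h3)
    obtain ⟨r', rfl⟩ := Ideal.mem_span_singleton'.mp hz'
    have h5 : D.pp * (x - D.s k * r') ∈ D.Ik k := by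
      have : D.pp * (x - D.s k * r') = y + D.s k * y' := by
        rw [mul_sub, ← h2, ← h4]; ring
      rw [this]
      exact Ideal.add_mem _ hy (Ideal.mul_mem_left _ _ hy')
    have h6 := ih _ h5
    have h7 : x = (x - D.s k * r') + D.s k * r' := by ring
    rw [h7]
    exact Ideal.add_mem _ (Ideal.mem_sup_left h6) (Ideal.mul_mem_right _ _
      (Ideal.mem_sup_right (Ideal.mem_span_singleton_self _)))

theorem reg_I (x : MvPolynomial ℕ (Polynomial P)) (hx : D.pp * x ∈ D.I) : x ∈ D.I := by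
  obtain ⟨k, hk⟩ := D.exists_mem_Ik hx
  have h := D.reg_Ik k x hk
  exact Ideal.span_mono (Set.image_subset_range _ _) h

/-- the ring `E = P[S][X_0, X_1, ...]/(s_0, s_1, ...)`. -/
def E : Type u := MvPolynomial ℕ (Polynomial P) ⧸ D.I

noncomputable instance : CommRing D.E := Ideal.Quotient.commRing D.I

/-- the quotient map. -/
noncomputable def qm : MvPolynomial ℕ (Polynomial P) →+* D.E := Ideal.Quotient.mk D.I

theorem qm_surjective : Function.Surjective D.qm := Ideal.Quotient.mk_surjective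

theorem qm_eq_zero {x : MvPolynomial ℕ (Polynomial P)} : D.qm x = 0 ↔ x ∈ D.I :=
  Ideal.Quotient.eq_zero_iff_mem

/-- the structure map `P → E`. -/
noncomputable def φ : P →+* D.E := D.qm.comp ((C (σ := ℕ)).comp (Polynomial.C (R := P)))

theorem φ_apply (x : P) : D.φ x = D.qm (C (Polynomial.C x)) := rfl

theorem regAt : RegAt D.φ D.π := by
  intro z hz
  obtain ⟨x, rfl⟩ := D.qm_surjective z
  rw [φ_apply, ← map_mul, qm_eq_zero] at hz
  exact D.qm_eq_zero.mpr (D.reg_I x hz)

/-- membership in `(π, b)`. -/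
theorem mem_T_iff {c : Polynomial P} : c ∈ D.T ↔ ∀ n, D.π ∣ (c %ₘ D.b).coeff n := by
  rw [← Polynomial.C_dvd_iff_dvd_coeff]
  constructor
  · intro hc
    obtain ⟨x, y, rfl⟩ := Ideal.mem_span_pair.mp hc
    rw [C_dvd_iff_map, Polynomial.map_modByMonic _ D.monic,
      Polynomial.modByMonic_eq_zero_iff_dvd (D.monic.map _), Polynomial.map_add,
      Polynomial.map_mul, Polynomial.map_mul, Polynomial.map_C,
      Ideal.Quotient.eq_zero_iff_mem.mpr (Ideal.mem_span_singleton_self D.π)]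
    simp
  · intro hc
    obtain ⟨d, hd⟩ := hc
    have h2 := Polynomial.modByMonic_add_div c D.b
    rw [← h2, hd]
    exact Ideal.add_mem _ (Ideal.mul_mem_right _ _ (Ideal.subset_span (by simp)))
      (Ideal.mul_mem_right _ _ (Ideal.subset_span (by simp)))

theorem one_notMem_aux (J : Ideal P) (hJ : D.π ∈ J)
    (h : (1 : Polynomial P) ∈ J.map Polynomial.C ⊔ D.T) : (1 : P) ∈ J := by
  by_contra h1
  have hne : J ≠ ⊤ := fun h2 => h1 ((Ideal.eq_top_iff_one J).mp h2)
  have : Nontrivial (P ⧸ J) := Ideal.Quotient.nontrivial_iff.mpr hne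
  set f : Polynomial P →+* Polynomial (P ⧸ J) := Polynomial.mapRingHom (Ideal.Quotient.mk J)
  have h3 : (J.map Polynomial.C ⊔ D.T).map f ≤ Ideal.span {D.b.map (Ideal.Quotient.mk J)} := by
    rw [Ideal.map_sup, Ideal.map_map]
    refine sup_le ?_ ?_
    · rw [Ideal.map_le_iff_le_comap]
      intro x hx
      rw [Ideal.mem_comap]
      have : f (Polynomial.C x) = 0 := by
        simp [f, Ideal.Quotient.eq_zero_iff_mem.mpr hx]
      rw [RingHom.comp_apply, this]
      exact Ideal.zero_mem _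
    · rw [T, Ideal.map_span, Ideal.span_le]
      rintro _ ⟨x, hx, rfl⟩
      rcases hx with rfl | rfl
      · have : f (Polynomial.C D.π) = 0 := by
          simp [f, Ideal.Quotient.eq_zero_iff_mem.mpr hJ]
        rw [this]
        exact Ideal.zero_mem _
      · exact Ideal.subset_span (by simp [f])
  have h4 : (1 : Polynomial (P ⧸ J)) ∈ Ideal.span {D.b.map (Ideal.Quotient.mk J)} := by
    have := h3 (Ideal.mem_map_of_mem f h)
    simpa using this
  have h5 : IsUnit (D.b.map (Ideal.Quotient.mk J)) := by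
    rw [← Ideal.span_singleton_eq_top, Ideal.eq_top_iff_one]; exact h4
  have h6 := (D.monic.map (Ideal.Quotient.mk J)).eq_one_of_isUnit h5
  have h7 : (D.b.map (Ideal.Quotient.mk J)).natDegree = D.b.natDegree :=
    D.monic.natDegree_map _
  rw [h6, Polynomial.natDegree_one] at h7
  have := D.deg
  omega

theorem propAt : PropAt D.φ D.π := by
  classical
  intro J hJ h
  refine D.one_notMem_aux J hJ ?_
  -- lift to `A`
  have h1 : (1 : MvPolynomial ℕ (Polynomial P)) ∈
      J.map ((C (σ := ℕ)).comp (Polynomial.C (R := P))) ⊔ D.I := by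
    have h2 : J.map D.φ = (J.map ((C (σ := ℕ)).comp (Polynomial.C (R := P)))).map D.qm := by
      rw [Ideal.map_map]; rfl
    rw [h2] at h
    have h3 := (Ideal.mem_map_iff_of_surjective D.qm D.qm_surjective).mp h
    obtain ⟨x, hx, h4⟩ := h3
    have h5 : 1 - x ∈ D.I := by
      rw [← D.qm_eq_zero, map_sub, map_one, h4, sub_self]
    have h6 : (1 : MvPolynomial ℕ (Polynomial P)) = x + (1 - x) := by ring
    rw [h6]
    exact Ideal.add_mem _ (Ideal.mem_sup_left hx) (Ideal.mem_sup_right h5)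
  have h2 : J.map ((C (σ := ℕ)).comp (Polynomial.C (R := P))) ⊔ D.I ≤
      NIdeal p (J.map Polynomial.C ⊔ D.T) Set.univ := by
    refine sup_le ?_ (D.I_le_N.trans ?_)
    · rw [Ideal.map_le_iff_le_comap]
      intro x hx
      exact C_mem_NIdeal (Ideal.mem_sup_left (Ideal.mem_map_of_mem _ hx))
    · intro x hx e he
      exact Ideal.mem_sup_right (hx e he)
  have h3 := h2 h1 0 (fun j _ => hp.out.pos)
  rwa [coeff_zero_one] at h3

theorem aux_eq {R : Type*} [CommRing R] {x S y z q : R} (h : y + z * q = x - S) :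
    x = S + q * z + y := by
  have h1 : x = (x - S) + S := by ring
  rw [h1, ← h]; ring

/-- picking out a coefficient. -/
theorem coeff_sum_aux {Q : Type*} [CommRing Q] (G : Finset (ℕ →₀ ℕ)) (d : ℕ)
    (c : G × Fin d → Q) (y : Fin d → Q) (e : ℕ →₀ ℕ) :
    ∑ k : G × Fin d, coeff e (C (c k) * monomial k.1.1 (y k.2))
      = if h : e ∈ G then ∑ k : Fin d, c (⟨e, h⟩, k) * y k else 0 := by
  classical
  rw [Fintype.sum_prod_type]
  simp only [coeff_C_mul, coeff_monomial]
  split_ifs with h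
  · rw [Finset.sum_eq_single (⟨e, h⟩ : G)]
    · simp
    · intro b _ hb
      have : (b : ℕ →₀ ℕ) ≠ e := fun h' => hb (Subtype.ext h')
      simp [this]
    · intro h'; exact absurd (Finset.mem_univ _) h'
  · refine Finset.sum_eq_zero fun b _ => Finset.sum_eq_zero fun k _ => ?_
    have : (b : ℕ →₀ ℕ) ≠ e := fun h' => h (h' ▸ b.2)
    simp [this]

theorem flatAt : FlatAt D.φ D.π := by
  classical
  intro ι _ r x w h
  choose x' hx' using fun i => D.qm_surjective (x i)
  obtain ⟨w', hw'⟩ := D.qm_surjective w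
  -- the relation in `A`
  have h1 : ∑ i, C (Polynomial.C (r i)) * x' i - D.pp * w' ∈ D.I := by
    rw [← D.qm_eq_zero, map_sub, map_sum, map_mul, hw', sub_eq_zero]
    simp only [map_mul, hx']
    exact h
  have h2 : ∑ i, C (Polynomial.C (r i)) * x' i ∈ NIdeal p D.T Set.univ := by
    have : ∑ i, C (Polynomial.C (r i)) * x' i
      = (∑ i, C (Polynomial.C (r i)) * x' i - D.pp * w') + D.pp * w' := by ring
    rw [this]
    exact Ideal.add_mem _ (D.I_le_N h1) (Ideal.mul_mem_right _ _ (D.pp_mem_N _))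
  set S : Finset (ℕ →₀ ℕ) := univ.biUnion fun i => (x' i).support with hS
  set G : Finset (ℕ →₀ ℕ) := S.filter fun e => ∀ j, e j < p with hG
  set d := D.b.natDegree with hd
  -- coefficients
  let c : ι → (G × Fin d) → P := fun i k => (coeff k.1.1 (x' i) %ₘ D.b).coeff k.2
  have h3 : ∀ k : G × Fin d, D.π ∣ ∑ i, r i * c i k := by
    rintro ⟨⟨e, he⟩, k⟩
    have h4 := h2 e (fun j _ => (Finset.mem_filter.mp he).2 j)
    rw [D.mem_T_iff] at h4
    have h5 := h4 k
    have h6 : coeff e (∑ i, C (Polynomial.C (r i)) * x' i) %ₘ D.b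
        = ∑ i, Polynomial.C (r i) * (coeff e (x' i) %ₘ D.b) := by
      rw [coeff_sum]
      simp only [coeff_C_mul]
      have h7 : ∀ y : Polynomial P, y %ₘ D.b = Polynomial.modByMonicHom D.b y := fun y => rfl
      rw [h7, map_sum]
      refine Finset.sum_congr rfl fun i _ => ?_
      rw [← Polynomial.smul_eq_C_mul, map_smul, Polynomial.smul_eq_C_mul]
      rfl
    rw [h6, Polynomial.finsetSum_coeff] at h5
    simpa [Polynomial.coeff_C_mul, c] using h5
  choose s hs using h3
  let Y : (G × Fin d) → MvPolynomial ℕ (Polynomial P) :=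
    fun k => monomial k.1.1 ((Polynomial.X : Polynomial P) ^ (k.2 : ℕ))
  have h8 : ∀ i, x' i - ∑ k, C (Polynomial.C (c i k)) * Y k ∈ D.I ⊔ Ideal.span {D.pp} := by
    intro i
    refine D.N_univ_le ?_
    intro e he
    rw [coeff_sub, coeff_sum]
    have h9 : ∑ k : G × Fin d, coeff e (C (Polynomial.C (c i k)) * Y k) = coeff e (x' i) %ₘ D.b := by
      rw [coeff_sum_aux G d (fun k => Polynomial.C (c i k))
        (fun k => (Polynomial.X : Polynomial P) ^ (k : ℕ)) e]
      split_ifs with h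
      · have h14 := Polynomial.sum_modByMonic_coeff (p := coeff e (x' i)) D.monic
          (n := d) Polynomial.degree_le_natDegree
        rw [← h14]
        refine Finset.sum_congr rfl fun k _ => ?_
        rw [Polynomial.C_mul_X_pow_eq_monomial]
      · have h15 : coeff e (x' i) = 0 := by
          by_contra h16
          refine h (Finset.mem_filter.mpr ⟨?_, fun j => he j (Set.mem_univ _)⟩)
          exact Finset.mem_biUnion.mpr ⟨i, Finset.mem_univ _, mem_support_iff.mpr h16⟩
        rw [h15, Polynomial.zero_modByMonic]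
    rw [h9]
    have h10 : coeff e (x' i) - coeff e (x' i) %ₘ D.b = D.b * (coeff e (x' i) /ₘ D.b) := by
      rw [sub_eq_iff_eq_add, add_comm, Polynomial.modByMonic_add_div]
    rw [h10]
    exact Ideal.mul_mem_right _ _ (Ideal.subset_span (by simp))
  have h11 : ∀ i, ∃ z : D.E, x i = ∑ k, D.φ (c i k) * D.qm (Y k) + D.φ D.π * z := by
    intro i
    obtain ⟨y, hy, z, hz, h12⟩ := Submodule.mem_sup.mp (h8 i)
    obtain ⟨z', rfl⟩ := Ideal.mem_span_singleton'.mp hz
    refine ⟨D.qm z', ?_⟩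
    have h13 : x' i = ∑ k, C (Polynomial.C (c i k)) * Y k + D.pp * z' + y := aux_eq h12
    rw [← hx' i, h13, map_add, map_add, map_sum, D.qm_eq_zero.mpr hy, add_zero, map_mul]
    congr 1
  choose z hz using h11
  exact ⟨G × Fin d, inferInstance, c, fun k => D.qm (Y k), z, s, hz, hs⟩

end Tri

end Crest.Agent.R183.W
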