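import Mathlib
import Crest.Agent.R183.W3

/-!
# R183, block D1 (root adjunction), part 4: adjoining a Teichmueller root
-/

namespace Crest.Agent.R183.W

universe u v w

open Finset

set_option linter.unusedSectionVars false

section witt

variable {p : ℕ} [hp : Fact p.Prime]

/-- the tail `(x_1, x_2, ...)` of a Witt vector. -/
def wtail {R : Type u} (x : WittVector p R) : WittVector p R :=
  WittVector.mk p fun n => x.coeff (n + 1)

theorem wtail_coeff {R : Type u} (x : WittVector p R) (n : ℕ) :
    (wtail x).coeff n = x.coeff (n + 1) := rfl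

theorem map_frobenius_eq {R : Type u} [CommRing R] [CharP R p] (x : WittVector p R) :
    WittVector.map (frobenius R p) x = WittVector.teichmuller p (x.coeff 0 ^ p) + wtail x * p := by
  ext n
  rw [WittVector.map_coeff, frobenius_def, WittVector.coeff_add_of_disjoint]
  · rcases n with _ | n
    · rw [WittVector.teichmuller_coeff_zero, WittVector.mul_charP_coeff_zero, add_zero]
    · rw [WittVector.teichmuller_coeff_pos _ _ _ (Nat.succ_pos n),
        WittVector.mul_charP_coeff_succ, zero_add, wtail_coeff]
  · intro n
    rcases n with _ | n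
    · right; rw [WittVector.mul_charP_coeff_zero]
    · left; rw [WittVector.teichmuller_coeff_pos _ _ _ (Nat.succ_pos n)]

theorem map_comp_apply {R S T : Type*} [CommRing R] [CommRing S] [CommRing T] (f : R →+* S)
    (g : S →+* T) (x : WittVector p R) :
    WittVector.map g (WittVector.map f x) = WittVector.map (g.comp f) x := by
  ext n; simp [WittVector.map_coeff]

theorem coeff_succ_eq_zero {A : Type*} {B : Type*} [CommRing A] [CommRing B] (q : A →+* B) (a b : A)
    (ha : q a = 0) (x : WittVector p A) (i : ℕ) :
    q ((WittVector.teichmuller p a * x + WittVector.teichmuller p b).coeff (i + 1)) = 0 := by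
  rw [← WittVector.map_coeff q, map_add, map_mul, WittVector.map_teichmuller,
    WittVector.map_teichmuller, ha, WittVector.teichmuller_zero, zero_mul, zero_add,
    WittVector.teichmuller_coeff_pos _ _ _ (Nat.succ_pos i)]

end witt

section main

variable (p : ℕ) [hp : Fact p.Prime] {P : Type u} [CommRing P] [CharP P p] [PerfectRing P p]
  (F : Polynomial (WittVector p P))

/-- the polynomial `F` with the coefficients untwisted by Frobenius. -/
noncomputable def untw : Polynomial (WittVector p P) :=
  F.map (WittVector.map (p := p) ((frobeniusEquiv P p).symm : P →+* P))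

/-- `g = F^{(1/p)}([S])` in `W(P[S])`. -/
noncomputable def gg : WittVector p (Polynomial P) :=
  (untw p F).eval₂ (WittVector.map (p := p) Polynomial.C) (WittVector.teichmuller p Polynomial.X)

theorem map_frob_untw : (untw p F).map (WittVector.map (p := p) (frobenius P p)) = F := by
  rw [untw, Polynomial.map_map]
  have : (WittVector.map (p := p) (frobenius P p)).comp
      (WittVector.map (p := p) ((frobeniusEquiv P p).symm : P →+* P)) = RingHom.id _ := by
    ext x n
    simp [WittVector.map_coeff]
  rw [this, Polynomial.map_id]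

theorem frob_gg : WittVector.map (frobenius (Polynomial P) p) (gg p F)
    = F.eval₂ (WittVector.map (p := p) Polynomial.C)
        (WittVector.teichmuller p ((Polynomial.X : Polynomial P) ^ p)) := by
  rw [gg, Polynomial.hom_eval₂]
  conv_rhs => rw [← map_frob_untw p F, Polynomial.eval₂_map]
  congr 1
  · ext x n
    simp [WittVector.map_coeff, frobenius_def]
  · rw [WittVector.map_teichmuller, frobenius_def]

theorem gg_coeff_zero : (gg p F).coeff 0
    = (untw p F).map (WittVector.constantCoeff : WittVector p P →+* P) := by
  have h : (gg p F).coeff 0 = (WittVector.constantCoeff : WittVector p (Polynomial P) →+* _)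
    (gg p F) := rfl
  rw [h, gg, Polynomial.hom_eval₂]
  have h2 : (WittVector.constantCoeff : WittVector p (Polynomial P) →+* _)
      (WittVector.teichmuller p Polynomial.X) = Polynomial.X :=
    WittVector.teichmuller_coeff_zero p _
  rw [h2]
  have h3 : (WittVector.constantCoeff : WittVector p (Polynomial P) →+* _).comp
      (WittVector.map (p := p) Polynomial.C)
      = (Polynomial.C).comp (WittVector.constantCoeff : WittVector p P →+* P) := by
    ext x n
    rfl
  rw [h3, ← Polynomial.eval₂_map, Polynomial.eval₂_C_X]

/-- `b = g_0 ^ p`. -/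
noncomputable def bb : Polynomial P := (gg p F).coeff 0 ^ p

theorem bb_monic (hF : F.Monic) : (bb p F).Monic := by
  rw [bb, gg_coeff_zero, untw]
  exact ((hF.map _).map _).pow p

theorem bb_natDegree (hF : F.Monic) : (bb p F).natDegree = p * F.natDegree := by
  have : Nontrivial P := CharP.nontrivial_of_char_ne_one (v := p) hp.out.one_lt.ne'
  rw [bb, gg_coeff_zero, untw]
  rw [((hF.map _).map _).natDegree_pow, (hF.map _).natDegree_map, hF.natDegree_map]

/-- the Witt vector of the variables. -/
noncomputable def UU : WittVector p (MvPolynomial ℕ (Polynomial P)) :=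
  WittVector.mk p fun i => MvPolynomial.X i

variable (π : P)

/-- right-hand side of the relations. -/
noncomputable def rhs : WittVector p (MvPolynomial ℕ (Polynomial P)) :=
  WittVector.teichmuller p (MvPolynomial.C (Polynomial.C π)) *
    (UU p + WittVector.map MvPolynomial.C (wtail (gg p F)))
  + WittVector.teichmuller p (MvPolynomial.C (bb p F))

/-- the relations. -/
noncomputable def ss (i : ℕ) : MvPolynomial ℕ (Polynomial P) :=
  (UU p * (p : WittVector p (MvPolynomial ℕ (Polynomial P)))).coeff i - (rhs p F π).coeff i

theorem ss_zero : ∃ u, ss p F π 0 = MvPolynomial.C (Polynomial.C π) * u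
    - MvPolynomial.C (bb p F) := by
  refine ⟨-(UU p + WittVector.map MvPolynomial.C (wtail (gg p F))).coeff 0, ?_⟩
  have h1 : (rhs p F π).coeff 0 = WittVector.constantCoeff (rhs p F π) := rfl
  rw [ss, WittVector.mul_charP_coeff_zero, h1, rhs, map_add, map_mul]
  have h2 : ∀ y : MvPolynomial ℕ (Polynomial P),
    WittVector.constantCoeff (WittVector.teichmuller p y) = y :=
    fun y => WittVector.teichmuller_coeff_zero p _
  rw [h2, h2]
  have h3 : ∀ y : WittVector p (MvPolynomial ℕ (Polynomial P)),
    WittVector.constantCoeff y = y.coeff 0 := fun _ => rfl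
  rw [h3]
  ring

theorem ss_succ (i : ℕ) : ∃ u, ss p F π (i + 1)
    = MvPolynomial.X i ^ p + MvPolynomial.C (Polynomial.C π) * u := by
  set a : MvPolynomial ℕ (Polynomial P) := MvPolynomial.C (Polynomial.C π) with ha
  have h1 : (rhs p F π).coeff (i + 1) ∈ Ideal.span {a} := by
    rw [← Ideal.Quotient.eq_zero_iff_mem]
    exact coeff_succ_eq_zero (p := p) (B := MvPolynomial ℕ (Polynomial P) ⧸ Ideal.span {a})
      (Ideal.Quotient.mk (Ideal.span {a})) a (MvPolynomial.C (bb p F))
      (Ideal.Quotient.eq_zero_iff_mem.mpr (Ideal.mem_span_singleton_self a)) _ i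
  obtain ⟨u, hu⟩ := Ideal.mem_span_singleton'.mp h1
  refine ⟨-u, ?_⟩
  rw [ss, WittVector.mul_charP_coeff_succ, ← hu]
  have : (UU p : WittVector p (MvPolynomial ℕ (Polynomial P))).coeff i = MvPolynomial.X i := rfl
  rw [this]
  ring

/-- the triangular system of the root adjunction. -/
noncomputable def tri (hπ : ∀ x : P, π * x = 0 → x = 0) (hF : F.Monic) (hd : 0 < F.natDegree) :
    Tri p P where
  π := π
  b := bb p F
  s := ss p F π
  reg := hπ
  monic := bb_monic p F hF
  deg := by rw [bb_natDegree p F hF]; exact Nat.mul_pos hp.out.pos hd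
  s_zero := ss_zero p F π
  s_succ := ss_succ p F π

section root

variable (hπ : ∀ x : P, π * x = 0 → x = 0) (hF : F.Monic) (hd : 0 < F.natDegree)

/-- the equation in `W(E)`. -/
theorem eq_in_E : WittVector.map (tri p F π hπ hF hd).qm
      (UU p * (p : WittVector p (MvPolynomial ℕ (Polynomial P))))
    = WittVector.map (tri p F π hπ hF hd).qm (rhs p F π) := by
  ext i
  rw [WittVector.map_coeff, WittVector.map_coeff, ← sub_eq_zero, ← map_sub]
  rw [(tri p F π hπ hF hd).qm_eq_zero]
  exact Ideal.subset_span ⟨i, rfl⟩

/-- the root, in `P[S][X_0, ...]`: `T = S^p`. -/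
noncomputable def tt : MvPolynomial ℕ (Polynomial P) :=
  MvPolynomial.C ((Polynomial.X : Polynomial P) ^ p)

theorem eval_aux {L : Type v} [CommRing L] (χ : MvPolynomial ℕ (Polynomial P) →+* L)
    (h2 : WittVector.map χ (UU p * (p : WittVector p (MvPolynomial ℕ (Polynomial P))))
      = WittVector.map χ (rhs p F π)) :
    F.eval₂ (WittVector.map (χ.comp (MvPolynomial.C.comp Polynomial.C)))
      (WittVector.teichmuller p (χ (tt p)))
    ∈ Ideal.span {(p : WittVector p L) -
        WittVector.teichmuller p (χ (MvPolynomial.C (Polynomial.C π)))} := by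
  have h1 : F.eval₂ (WittVector.map (χ.comp (MvPolynomial.C.comp Polynomial.C)))
      (WittVector.teichmuller p (χ (tt p)))
      = WittVector.map (χ.comp MvPolynomial.C)
        (WittVector.map (frobenius (Polynomial P) p) (gg p F)) := by
    rw [frob_gg, Polynomial.hom_eval₂]
    congr 1
    rw [WittVector.map_teichmuller]
    rfl
  rw [h1, map_frobenius_eq, map_add, map_mul, WittVector.map_teichmuller, map_natCast]
  rw [rhs, map_mul, map_natCast, map_add, map_mul, map_add, WittVector.map_teichmuller,
    WittVector.map_teichmuller, map_comp_apply] at h2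
  have h4 : (χ.comp MvPolynomial.C) ((gg p F).coeff 0 ^ p) = χ (MvPolynomial.C (bb p F)) := rfl
  rw [h4]
  set U := WittVector.map χ (UU p)
  set H := WittVector.map (χ.comp MvPolynomial.C) (wtail (gg p F))
  set t := WittVector.teichmuller p (χ (MvPolynomial.C (Polynomial.C π)))
  set B := WittVector.teichmuller p (χ (MvPolynomial.C (bb p F)))
  refine Ideal.mem_span_singleton'.mpr ⟨U + H, ?_⟩
  linear_combination h2

theorem eval_in_E {L : Type v} [CommRing L] (ψ : (tri p F π hπ hF hd).E →+* L) :
    F.eval₂ (WittVector.map (ψ.comp (tri p F π hπ hF hd).φ))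
      (WittVector.teichmuller p (ψ ((tri p F π hπ hF hd).qm (tt p))))
    ∈ Ideal.span {(p : WittVector p L) -
        WittVector.teichmuller p (ψ ((tri p F π hπ hF hd).φ π))} := by
  refine eval_aux p F π (ψ.comp (tri p F π hπ hF hd).qm) ?_
  rw [← map_comp_apply, ← map_comp_apply, eq_in_E p F π hπ hF hd]

theorem charP_E (hu : ¬ IsUnit π) : CharP (tri p F π hπ hF hd).E p := by
  have hnt : Nontrivial (tri p F π hπ hF hd).E := by
    by_contra h
    rw [not_nontrivial_iff_subsingleton] at h
    have h1 := (tri p F π hπ hF hd).propAt (Ideal.span {π}) (Ideal.mem_span_singleton_self π)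
      (by rw [Subsingleton.elim (1 : (tri p F π hπ hF hd).E) 0]; exact Ideal.zero_mem _)
    apply hu
    rw [← Ideal.span_singleton_eq_top, Ideal.eq_top_iff_one]
    exact h1
  rw [CharP.charP_iff_prime_eq_zero hp.out]
  have : ((p : P) : P) = 0 := CharP.cast_eq_zero P p
  rw [← map_natCast (tri p F π hπ hF hd).φ, this, map_zero]

end root

/-- **Adjunction of a Teichmueller root.** `P` perfect of characteristic `p`, `π` a nonzerodivisor,
not a unit, `F` monic of positive degree over `W(P)`. There is a perfect `P`-algebra `P'`, on which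
`π` is regular, faithfully flat modulo all powers of `π`, and `t ∈ P'` with
`F([t]) ∈ (p - [π]) W(P')`. -/
theorem adjoin_root (hπ : ∀ x : P, π * x = 0 → x = 0) (hu : ¬ IsUnit π)
    (hF : F.Monic) (hd : 0 < F.natDegree) :
    ∃ (P' : Type u) (_ : CommRing P') (_ : CharP P' p) (_ : PerfectRing P' p) (φ : P →+* P')
      (t : P'), RegAt φ π ∧ (∀ m, FlatAt φ (π ^ m)) ∧ PropAt φ π ∧
      F.eval₂ (WittVector.map φ) (WittVector.teichmuller p t)
        ∈ Ideal.span {(p : WittVector p P') - WittVector.teichmuller p (φ π)} := by
  set D := tri p F π hπ hF hd with hD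
  have : CharP D.E p := charP_E p F π hπ hF hd hu
  refine ⟨PerfectClosure D.E p, inferInstance, inferInstance, inferInstance,
    (PerfectClosure.of D.E p).comp D.φ, PerfectClosure.of D.E p (D.qm (tt p)), ?_, ?_, ?_, ?_⟩
  · exact D.regAt.perfection p (PerfectClosure.of D.E p)
  · intro m
    refine FlatAt.perfection p (PerfectClosure.of D.E p) fun n => ?_
    rw [← pow_mul]
    exact D.flatAt.pow D.regAt _
  · exact D.propAt.perfection p (PerfectClosure.of D.E p)
  · exact eval_in_E p F π hπ hF hd (PerfectClosure.of D.E p)

end main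

end Crest.Agent.R183.W
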