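import Mathlib
import Crest.Agent.R183.W4

/-!
# R183, block D1 (root adjunction), part 5: finite iteration, complete splitting, sharps
-/

namespace Crest.Agent.R183.W

universe u v w

open Finset

set_option linter.unusedSectionVars false

/-- A good extension `φ : P → P'` with respect to `π`: `π` is regular on `P'`,
`P'/π^m` is flat over `P/π^m` for all `m`, and faithfully so. -/
structure Good {P : Type u} {P' : Type v} [CommRing P] [CommRing P'] (π : P) (φ : P →+* P') :
    Prop where
  reg : RegAt φ π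
  flat : ∀ m, FlatAt φ (π ^ m)
  prop : PropAt φ π

section
variable {P : Type u} {P' : Type v} {P'' : Type w} [CommRing P] [CommRing P'] [CommRing P'']

theorem Good.id {π : P} (hπ : ∀ x : P, π * x = 0 → x = 0) : Good π (RingHom.id P) where
  reg := fun b hb => hπ b hb
  flat := fun _ => FlatAt.id _
  prop := PropAt.id π

theorem Good.comp {π : P} {φ : P →+* P'} {ψ : P' →+* P''} (h1 : Good π φ) (h2 : Good (φ π) ψ) :
    Good π (ψ.comp φ) where
  reg := h2.reg
  flat := fun m => (h1.flat m).comp (by rw [map_pow]; exact h2.flat m)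
  prop := h1.prop.comp h2.prop

theorem Good.not_isUnit {π : P} {φ : P →+* P'} (h : Good π φ) (hu : ¬ IsUnit π) :
    ¬ IsUnit (φ π) := by
  intro h1
  apply hu
  rw [← Ideal.span_singleton_eq_top, Ideal.eq_top_iff_one]
  refine h.prop _ (Ideal.mem_span_singleton_self π) ?_
  rw [Ideal.map_span, Set.image_singleton, Ideal.span_singleton_eq_top.mpr h1]
  exact Submodule.mem_top

theorem Good.reg' {π : P} {φ : P →+* P'} (h : Good π φ) (x : P') (hx : φ π * x = 0) : x = 0 :=
  h.reg x hx

/-- elements regular modulo `π^m` stay regular modulo `π^m`. -/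
theorem Good.reg_mod {π : P} {φ : P →+* P'} (h : Good π φ) {δ : P} {m : ℕ}
    (hδ : ∀ x, π ^ m ∣ δ * x → π ^ m ∣ x) (x : P') (hx : φ (π ^ m) ∣ φ δ * x) : φ (π ^ m) ∣ x := by
  obtain ⟨w, hw⟩ := hx
  obtain ⟨κ, _, c, y, x', s, h1, h2⟩ := h.flat m Unit (fun _ => δ) (fun _ => x) w
    (by simpa using hw)
  have h3 : ∀ j, π ^ m ∣ c () j := fun j => hδ _ ⟨s j, by simpa using h2 j⟩
  choose d hd using h3
  rw [h1 ()]
  refine dvd_add (Finset.dvd_sum fun j _ => ?_) (dvd_mul_right _ _)
  rw [hd j, map_mul, mul_assoc]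
  exact dvd_mul_right _ _

/-- general regularity: if `δ x ∈ I + π^m` implies `x ∈ I + π^m` in `P`, the same on `P'`
(with the ideal generated by `I`, `I` finitely generated by a family). -/
theorem Good.reg_mod_ideal {π : P} {φ : P →+* P'} (h : Good π φ) {δ : P} {m : ℕ} {ι : Type}
    [Fintype ι] (f : ι → P)
    (hδ : ∀ x, δ * x ∈ Ideal.span (Set.range f) ⊔ Ideal.span {π ^ m} →
      x ∈ Ideal.span (Set.range f) ⊔ Ideal.span {π ^ m})
    (x : P') (hx : φ δ * x ∈ Ideal.span (Set.range fun i => φ (f i)) ⊔ Ideal.span {φ (π ^ m)}) :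
    x ∈ Ideal.span (Set.range fun i => φ (f i)) ⊔ Ideal.span {φ (π ^ m)} := by
  classical
  obtain ⟨y, hy, z, hz, h1⟩ := Submodule.mem_sup.mp hx
  obtain ⟨a, ha⟩ := (Ideal.mem_span_range_iff_exists_fun).mp hy
  obtain ⟨w, rfl⟩ := Ideal.mem_span_singleton'.mp hz
  obtain ⟨κ, _, c, u, x', s, h2, h3⟩ := h.flat m (Option ι) (fun o => o.elim δ f)
    (fun o => o.elim x (fun i => - a i)) w (by
      rw [Fintype.sum_option]
      simp only [Option.elim_none, Option.elim_some]
      rw [← h1, ← ha]
      have : ∑ i, φ (f i) * -a i = - ∑ i, a i * φ (f i) := by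
        rw [← Finset.sum_neg_distrib]
        exact Finset.sum_congr rfl fun i _ => by ring
      rw [this]; ring)
  have h4 : ∀ j, c none j ∈ Ideal.span (Set.range f) ⊔ Ideal.span {π ^ m} := by
    intro j
    apply hδ
    have h5 := h3 j
    rw [Fintype.sum_option] at h5
    simp only [Option.elim_none, Option.elim_some] at h5
    have h6 : δ * c none j = π ^ m * s j - ∑ i, f i * c (some i) j := by rw [← h5]; ring
    rw [h6]
    refine Ideal.sub_mem _ (Ideal.mul_mem_right _ _
      (Ideal.mem_sup_right (Ideal.mem_span_singleton_self _))) (Ideal.sum_mem _ fun i _ =>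
      Ideal.mul_mem_right _ _ (Ideal.mem_sup_left (Ideal.subset_span ⟨i, rfl⟩)))
  have h7 : (Ideal.span (Set.range f) ⊔ Ideal.span {π ^ m}).map φ
      = Ideal.span (Set.range fun i => φ (f i)) ⊔ Ideal.span {φ (π ^ m)} := by
    rw [Ideal.map_sup, Ideal.map_span, Ideal.map_span, ← Set.range_comp, Set.image_singleton]
    rfl
  have h8 := h2 none
  simp only [Option.elim_none] at h8
  rw [h8]
  refine Ideal.add_mem _ (Ideal.sum_mem _ fun j _ => Ideal.mul_mem_right _ _ ?_)
    (Ideal.mul_mem_right _ _ (Ideal.mem_sup_right (Ideal.mem_span_singleton_self _)))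
  rw [← h7]
  exact Ideal.mem_map_of_mem φ (h4 j)

end

section main

variable (p : ℕ) [hp : Fact p.Prime]

/-- `ξ = p - [π]`. -/
noncomputable def xi {P : Type u} [CommRing P] (π : P) : WittVector p P :=
  (p : WittVector p P) - WittVector.teichmuller p π

theorem map_xi {P : Type u} {P' : Type v} [CommRing P] [CommRing P'] (φ : P →+* P') (π : P) :
    WittVector.map φ (xi p π) = xi p (φ π) := by
  rw [xi, map_sub, map_natCast, WittVector.map_teichmuller, xi]

/-- one root, `Good` form. -/
theorem exists_root {P : Type u} [CommRing P] [CharP P p] [PerfectRing P p] (π : P)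
    (hπ : ∀ x : P, π * x = 0 → x = 0) (hu : ¬ IsUnit π)
    (F : Polynomial (WittVector p P)) (hF : F.Monic) (hd : 0 < F.natDegree) :
    ∃ (P' : Type u) (_ : CommRing P') (_ : CharP P' p) (_ : PerfectRing P' p) (φ : P →+* P')
      (t : P'), Good π φ ∧
      xi p (φ π) ∣ F.eval₂ (WittVector.map φ) (WittVector.teichmuller p t) := by
  obtain ⟨P', _, _, _, φ, t, h1, h2, h3, h4⟩ := adjoin_root p F π hπ hu hF hd
  exact ⟨P', _, ‹_›, ‹_›, φ, t, ⟨h1, h2, h3⟩, Ideal.mem_span_singleton.mp h4⟩

/-- roots of finitely many monic polynomials. -/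
theorem exists_roots (n : ℕ) {P : Type u} [CommRing P] [CharP P p] [PerfectRing P p] (π : P)
    (hπ : ∀ x : P, π * x = 0 → x = 0) (hu : ¬ IsUnit π)
    (F : Fin n → Polynomial (WittVector p P)) (hF : ∀ i, (F i).Monic)
    (hd : ∀ i, 0 < (F i).natDegree) :
    ∃ (P' : Type u) (_ : CommRing P') (_ : CharP P' p) (_ : PerfectRing P' p) (φ : P →+* P')
      (t : Fin n → P'), Good π φ ∧
      ∀ i, xi p (φ π) ∣ (F i).eval₂ (WittVector.map φ) (WittVector.teichmuller p (t i)) := by
  induction n with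
  | zero =>
    exact ⟨P, _, ‹_›, ‹_›, RingHom.id P, Fin.elim0, Good.id hπ, fun i => i.elim0⟩
  | succ n ih =>
    obtain ⟨P₁, _, _, _, φ₁, t₁, hg₁, h₁⟩ := ih (fun i => F i.castSucc) (fun i => hF _)
      (fun i => hd _)
    have : Nontrivial P₁ := CharP.nontrivial_of_char_ne_one (v := p) hp.out.one_lt.ne'
    obtain ⟨P₂, _, _, _, φ₂, t₂, hg₂, h₂⟩ := exists_root p (φ₁ π) hg₁.reg' (hg₁.not_isUnit hu)
      ((F (Fin.last n)).map (WittVector.map φ₁)) ((hF _).map _)
      (by rw [(hF _).natDegree_map]; exact hd _)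
    refine ⟨P₂, _, ‹_›, ‹_›, φ₂.comp φ₁, Fin.snoc (fun i => φ₂ (t₁ i)) t₂, hg₁.comp hg₂, ?_⟩
    have hcomp : (WittVector.map (p := p) (φ₂.comp φ₁)) = (WittVector.map φ₂).comp
        (WittVector.map φ₁) := by
      ext x n; simp [WittVector.map_coeff]
    intro i
    refine Fin.lastCases ?_ (fun i => ?_) i
    · rw [Fin.snoc_last, hcomp, ← Polynomial.eval₂_map]
      exact h₂
    · rw [Fin.snoc_castSucc, hcomp, ← WittVector.map_teichmuller, ← Polynomial.hom_eval₂]
      have := map_dvd (WittVector.map (p := p) φ₂) (h₁ i)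
      rwa [map_xi] at this

/-- finitely many elements become sharps. -/
theorem exists_sharps (n : ℕ) {P : Type u} [CommRing P] [CharP P p] [PerfectRing P p] (π : P)
    (hπ : ∀ x : P, π * x = 0 → x = 0) (hu : ¬ IsUnit π) (a : Fin n → WittVector p P) :
    ∃ (P' : Type u) (_ : CommRing P') (_ : CharP P' p) (_ : PerfectRing P' p) (φ : P →+* P')
      (t : Fin n → P'), Good π φ ∧
      ∀ i, xi p (φ π) ∣ WittVector.teichmuller p (t i) - WittVector.map φ (a i) := by
  have : Nontrivial P := CharP.nontrivial_of_char_ne_one (v := p) hp.out.one_lt.ne'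
  obtain ⟨P', _, _, _, φ, t, h1, h2⟩ := exists_roots p n π hπ hu
    (fun i => Polynomial.X - Polynomial.C (a i)) (fun i => Polynomial.monic_X_sub_C _)
    (fun i => by rw [Polynomial.natDegree_X_sub_C]; exact one_pos)
  refine ⟨P', _, ‹_›, ‹_›, φ, t, h1, fun i => ?_⟩
  have := h2 i
  simpa using this

/-- complete splitting of a monic polynomial into linear factors with sharp roots. -/
theorem exists_split (n : ℕ) {P : Type u} [CommRing P] [CharP P p] [PerfectRing P p] (π : P)
    (hπ : ∀ x : P, π * x = 0 → x = 0) (hu : ¬ IsUnit π)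
    (F : Polynomial (WittVector p P)) (hF : F.Monic) (hd : F.natDegree = n) :
    ∃ (P' : Type u) (_ : CommRing P') (_ : CharP P' p) (_ : PerfectRing P' p) (φ : P →+* P')
      (t : Fin n → P') (G : Polynomial (WittVector p P')), Good π φ ∧
      F.map (WittVector.map φ) = ∏ i, (Polynomial.X - Polynomial.C (WittVector.teichmuller p (t i)))
        + Polynomial.C (xi p (φ π)) * G := by
  induction n generalizing P with
  | zero =>
    refine ⟨P, _, ‹_›, ‹_›, RingHom.id P, Fin.elim0, 0, Good.id hπ, ?_⟩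
    rw [Polynomial.eq_one_of_monic_natDegree_zero hF hd]
    simp
  | succ n ih =>
    obtain ⟨P₁, _, _, _, φ₁, t₁, hg₁, h₁⟩ := exists_root p π hπ hu F hF (by omega)
    have : Nontrivial P₁ := CharP.nontrivial_of_char_ne_one (v := p) hp.out.one_lt.ne'
    set F₁ := F.map (WittVector.map (p := p) φ₁) with hF₁
    have hm₁ : F₁.Monic := hF.map _
    have hd₁ : F₁.natDegree = n + 1 := by rw [hF₁, hF.natDegree_map, hd]
    set L := (Polynomial.X - Polynomial.C (WittVector.teichmuller p t₁)) with hL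
    set F₂ := F₁ /ₘ L with hF₂
    have hmL : L.Monic := Polynomial.monic_X_sub_C _
    have hdiv : F₁ = L * F₂ + Polynomial.C (F₁.eval (WittVector.teichmuller p t₁)) := by
      have := Polynomial.modByMonic_add_div F₁ L
      rw [hL, Polynomial.modByMonic_X_sub_C_eq_C_eval, ← hL] at this
      rw [hF₂, add_comm]
      exact this.symm
    have hdeg : L.natDegree = 1 := Polynomial.natDegree_X_sub_C _
    have hm₂ : F₂.Monic := by
      have := Polynomial.leadingCoeff_divByMonic_of_monic (p := F₁) hmL (by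
        rw [Polynomial.degree_eq_natDegree hm₁.ne_zero, Polynomial.degree_eq_natDegree hmL.ne_zero,
          hd₁, hdeg]; exact_mod_cast Nat.succ_le_succ (Nat.zero_le n))
      rw [Polynomial.Monic, hF₂, this]; exact hm₁
    have hd₂ : F₂.natDegree = n := by
      rw [hF₂, Polynomial.natDegree_divByMonic _ hmL, hd₁, hdeg]; rfl
    obtain ⟨c, hc⟩ := h₁
    have hev : F₁.eval (WittVector.teichmuller p t₁) = xi p (φ₁ π) * c := by
      rw [← hc, hF₁, Polynomial.eval_map]
    obtain ⟨P₂, _, _, _, φ₂, t₂, G, hg₂, h₂⟩ := ih (φ₁ π) hg₁.reg' (hg₁.not_isUnit hu) F₂ hm₂ hd₂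
    have hcomp : (WittVector.map (p := p) (φ₂.comp φ₁)) = (WittVector.map φ₂).comp
        (WittVector.map φ₁) := by
      ext x n; simp [WittVector.map_coeff]
    refine ⟨P₂, _, ‹_›, ‹_›, φ₂.comp φ₁, Fin.cons (φ₂ t₁) t₂,
      (Polynomial.X - Polynomial.C (WittVector.teichmuller p (φ₂ t₁))) * G
        + Polynomial.C (WittVector.map φ₂ c), hg₁.comp hg₂, ?_⟩
    rw [hcomp, ← Polynomial.map_map, ← hF₁, hdiv, hev, Fin.prod_univ_succ]
    simp only [Fin.cons_zero, Fin.cons_succ]
    rw [Polynomial.map_add, Polynomial.map_mul, h₂, Polynomial.map_C, map_mul, map_xi, hL,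
      Polynomial.map_sub, Polynomial.map_X, Polynomial.map_C, WittVector.map_teichmuller,
      RingHom.comp_apply, Polynomial.C_mul]
    ring

end main

end Crest.Agent.R183.W
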