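import Mathlib
import Crest.Agent.R183.W5
import Crest.Agent.R183.Om2

/-!
# R183, block D1, part 6: from `P` to `Ω = W(P)/(p - [π])`; bridge to Mathlib's flatness
-/

namespace Crest.Agent.R183.W

universe u v w u' v'

open Finset

set_option linter.unusedSectionVars false

section bridge

variable {A : Type u} {B : Type v} {A' : Type u'} {B' : Type v'} [CommRing A] [CommRing B]
  [CommRing A'] [CommRing B']

/-- the bridge: `B/aB` is flat over `A/aA`, for arbitrary models of the two quotients. -/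
theorem FlatAt.ringHom_flat {f : A →+* B} {a : A} (h : FlatAt f a)
    {qa : A →+* A'} (hqa : Function.Surjective qa) (ha : qa a = 0)
    {qb : B →+* B'} (hqb : Function.Surjective qb) (hb : ∀ x, qb x = 0 → f a ∣ x)
    (g : A' →+* B') (hg : ∀ x, g (qa x) = qb (f x)) : g.Flat := by
  let _ := g.toAlgebra
  show Module.Flat A' B'
  refine Module.Flat.of_forall_isTrivialRelation fun {n r x} hx => ?_
  choose r' hr' using fun i => hqa (r i)
  choose x' hx' using fun i => hqb (x i)
  have h1 : qb (∑ i, f (r' i) * x' i) = 0 := by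
    rw [map_sum, ← hx]
    refine Finset.sum_congr rfl fun i _ => ?_
    rw [map_mul, ← hg, hr', hx', Algebra.smul_def]; rfl
  obtain ⟨w, hw⟩ := hb _ h1
  obtain ⟨κ, _, c, y, z, s, h2, h3⟩ := h (Fin n) r' x' w hw
  let e := (Fintype.equivFin κ).symm
  refine ⟨Fintype.card κ, fun i j => qa (c i (e j)), fun j => qb (y (e j)), ?_, ?_⟩
  · intro i
    rw [← hx' i, h2 i, map_add, map_sum, map_mul, ← hg, ha, map_zero, zero_mul, add_zero]
    rw [← Equiv.sum_comp e]
    refine Finset.sum_congr rfl fun j _ => ?_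
    rw [map_mul, ← hg, Algebra.smul_def]; rfl
  · intro j
    have := congrArg qa (h3 (e j))
    rw [map_sum, map_mul, ha, zero_mul] at this
    rw [← this]
    refine Finset.sum_congr rfl fun i _ => ?_
    rw [map_mul, hr']

theorem FlatAt.ringHom_faithfullyFlat {f : A →+* B} {a b : A} (h : FlatAt f a) {m : ℕ}
    (hp : PropAt f b) (hab : a = b ^ m)
    {qa : A →+* A'} (hqa : Function.Surjective qa) (ha : qa a = 0)
    {qb : B →+* B'} (hqb : Function.Surjective qb) (hb : ∀ x, qb x = 0 → f a ∣ x)
    (g : A' →+* B') (hg : ∀ x, g (qa x) = qb (f x)) : g.FaithfullyFlat := by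
  let _ := g.toAlgebra
  have hfl : Module.Flat A' B' := h.ringHom_flat hqa ha hqb hb g hg
  show Module.FaithfullyFlat A' B'
  refine { hfl with submodule_ne_top := fun 𝔪 h𝔪 htop => ?_ }
  -- `J` = preimage of `𝔪`
  have h1 : (1 : B') ∈ 𝔪.map g := by
    have h2 : (1 : B') ∈ 𝔪 • (⊤ : Submodule A' B') := by rw [htop]; exact Submodule.mem_top
    refine Submodule.smul_induction_on h2 (fun r hr n _ => ?_) (fun x y hx hy => ?_)
    · have h9 : r • n = g r * n := Algebra.smul_def r n
      rw [h9]
      exact Ideal.mul_mem_right _ _ (Ideal.mem_map_of_mem g hr)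
    · exact Ideal.add_mem _ hx hy
  have h3 : (1 : B) ∈ (𝔪.comap qa).map f := by
    have h4 : 𝔪.map g = ((𝔪.comap qa).map f).map qb := by
      have h5 : qb.comp f = g.comp qa := by ext x; exact (hg x).symm
      rw [Ideal.map_map, h5, ← Ideal.map_map, Ideal.map_comap_of_surjective qa hqa]
    rw [h4] at h1
    obtain ⟨y, hy, h6⟩ := (Ideal.mem_map_iff_of_surjective qb hqb).mp h1
    obtain ⟨z, hz⟩ := hb (1 - y) (by rw [map_sub, h6, map_one, sub_self])
    have h7 : (1 : B) = y + f a * z := by rw [← hz]; ring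
    rw [h7]
    refine Ideal.add_mem _ hy (Ideal.mul_mem_right _ _ (Ideal.mem_map_of_mem f ?_))
    rw [Ideal.mem_comap, ha]; exact Ideal.zero_mem _
  have h8 : (1 : A) ∈ 𝔪.comap qa := by
    refine hp.of_pow_mem (m := m) ?_ h3
    rw [← hab, Ideal.mem_comap, ha]; exact Ideal.zero_mem _
  rw [Ideal.mem_comap, map_one] at h8
  exact h𝔪.ne_top ((Ideal.eq_top_iff_one _).mpr h8)

theorem FlatAt.quotientMap_flat {f : A →+* B} {a : A} (h : FlatAt f a) :
    (Ideal.quotientMap (I := Ideal.span {a}) (Ideal.span {f a}) f (by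
      rw [Ideal.span_singleton_le_iff_mem, Ideal.mem_comap]
      exact Ideal.mem_span_singleton_self _)).Flat :=
  h.ringHom_flat Ideal.Quotient.mk_surjective
    (Ideal.Quotient.eq_zero_iff_mem.mpr (Ideal.mem_span_singleton_self a))
    Ideal.Quotient.mk_surjective
    (fun _ hx => Ideal.mem_span_singleton.mp (Ideal.Quotient.eq_zero_iff_mem.mp hx))
    _ (fun _ => Ideal.quotientMap_mk)

theorem FlatAt.quotientMap_faithfullyFlat {f : A →+* B} {a : A} {m : ℕ} (h : FlatAt f (a ^ m))
    (hp : PropAt f a) :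
    (Ideal.quotientMap (I := Ideal.span {a ^ m}) (Ideal.span {f (a ^ m)}) f (by
      rw [Ideal.span_singleton_le_iff_mem, Ideal.mem_comap]
      exact Ideal.mem_span_singleton_self _)).FaithfullyFlat :=
  h.ringHom_faithfullyFlat hp rfl Ideal.Quotient.mk_surjective
    (Ideal.Quotient.eq_zero_iff_mem.mpr (Ideal.mem_span_singleton_self _))
    Ideal.Quotient.mk_surjective
    (fun _ hx => Ideal.mem_span_singleton.mp (Ideal.Quotient.eq_zero_iff_mem.mp hx))
    _ (fun _ => Ideal.quotientMap_mk)

end bridge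

section omega

variable {p : ℕ} [hp : Fact p.Prime]
variable {P : Type u} {Q : Type v} [CommRing P] [CharP P p] [PerfectRing P p]
  [CommRing Q] [CharP Q p] [PerfectRing Q p]
variable {Ω : Type u'} {Ω' : Type v'} [CommRing Ω] [CommRing Ω'] {π : P} (φ : P →+* Q)
  (θ : WittVector p P →+* Ω) (hθ : Function.Surjective θ)
  (hker : RingHom.ker θ = Ideal.span {Amp.xi 1 π})
  (θ' : WittVector p Q →+* Ω') (hθ' : Function.Surjective θ')
  (hker' : RingHom.ker θ' = Ideal.span {Amp.xi 1 (φ π)})

/-- the constant coefficient of a representative, `mod π`. -/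
theorem p_dvd_sub_sh {P : Type u} [CommRing P] [CharP P p] [PerfectRing P p]
    {Ω : Type u'} [CommRing Ω] {π : P} (θ : WittVector p P →+* Ω) (hθ : Function.Surjective θ)
    (hker : RingHom.ker θ = Ideal.span {Amp.xi 1 π}) (w : WittVector p P) :
    (p : Ω) ∣ θ w - Om.sh θ (WittVector.constantCoeff w) := by
  rw [Om.sh, ← map_sub, Om.dvd_p_iff θ hθ hker, map_sub]
  have : (WittVector.constantCoeff : WittVector p P →+* P)
      (WittVector.teichmuller p (WittVector.constantCoeff w)) = WittVector.constantCoeff w :=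
    WittVector.teichmuller_coeff_zero p _
  rw [this, sub_self]
  exact dvd_zero _

theorem cc_map {P : Type u} {Q : Type v} [CommRing P] [CommRing Q] (φ : P →+* Q)
    (z : WittVector p P) : WittVector.constantCoeff (WittVector.map φ z)
      = φ (WittVector.constantCoeff z) := rfl

theorem cc_teich {P : Type u} [CommRing P] (a : P) :
    (WittVector.constantCoeff : WittVector p P →+* P) (WittVector.teichmuller p a) = a :=
  WittVector.teichmuller_coeff_zero p a

include hθ hker hθ' hker' in
theorem omega_flatAt_p (h : Ω →+* Ω') (hh : ∀ w, h (θ w) = θ' (WittVector.map φ w))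
    (hf : FlatAt φ π) : FlatAt h (p : Ω) := by
  intro ι _ r x w hr
  choose ρ hρ using fun i => hθ (r i)
  choose χ hχ using fun i => hθ' (x i)
  have h1 : φ π ∣ ∑ i, φ (WittVector.constantCoeff (ρ i)) * WittVector.constantCoeff (χ i) := by
    have h2 : (p : Ω') ∣ θ' (∑ i, WittVector.map φ (ρ i) * χ i) := by
      refine ⟨w, ?_⟩
      rw [map_sum, ← map_natCast h, ← hr]
      refine Finset.sum_congr rfl fun i _ => ?_
      rw [map_mul, ← hh, hρ, hχ]
    rw [Om.dvd_p_iff θ' hθ' hker', map_sum] at h2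
    simpa only [map_mul, cc_map] using h2
  obtain ⟨w', hw'⟩ := h1
  obtain ⟨κ, _, c, y, x', s, h3, h4⟩ := hf ι _ _ w' hw'
  have h5 : ∀ i, (p : Ω') ∣ x i - ∑ j, h (Om.sh θ (c i j)) * Om.sh θ' (y j) := by
    intro i
    have h6 : x i - ∑ j, h (Om.sh θ (c i j)) * Om.sh θ' (y j)
        = θ' (χ i - ∑ j, WittVector.map φ (WittVector.teichmuller p (c i j)) *
          WittVector.teichmuller p (y j)) := by
      rw [map_sub, hχ, map_sum]
      congr 1
      refine Finset.sum_congr rfl fun j _ => ?_
      rw [map_mul, ← hh]; rfl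
    rw [h6, Om.dvd_p_iff θ' hθ' hker', map_sub, map_sum, h3 i]
    simp only [map_mul, cc_map, cc_teich]
    rw [add_sub_cancel_left]
    exact dvd_mul_right _ _
  choose z hz using h5
  have h6 : ∀ j, (p : Ω) ∣ ∑ i, r i * Om.sh θ (c i j) := by
    intro j
    have h7 : ∑ i, r i * Om.sh θ (c i j)
        = θ (∑ i, ρ i * WittVector.teichmuller p (c i j)) := by
      rw [map_sum]
      refine Finset.sum_congr rfl fun i _ => ?_
      rw [map_mul, hρ]; rfl
    rw [h7, Om.dvd_p_iff θ hθ hker, map_sum]
    simp only [map_mul, cc_teich]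
    rw [h4 j]
    exact dvd_mul_right _ _
  choose s' hs' using h6
  refine ⟨κ, inferInstance, fun i j => Om.sh θ (c i j), fun j => Om.sh θ' (y j), z, s', ?_, hs'⟩
  intro i
  rw [map_natCast, ← hz i]; ring

include hθ hker hθ' hker' in
theorem omega_propAt_p (h : Ω →+* Ω') (hh : ∀ w, h (θ w) = θ' (WittVector.map φ w))
    (hf : PropAt φ π) : PropAt h (p : Ω) := by
  intro J hJ h1
  -- the ideal of constant coefficients
  let J' : Ideal P := J.comap θ |>.map WittVector.constantCoeff
  have hJ' : ∀ a ∈ J', Om.sh θ a ∈ J := by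
    intro a ha
    obtain ⟨w, hw, rfl⟩ := (Ideal.mem_map_iff_of_surjective _ (fun a =>
      ⟨WittVector.teichmuller p a, cc_teich a⟩)).mp ha
    have h2 : Om.sh θ (WittVector.constantCoeff w)
        = θ w - (θ w - Om.sh θ (WittVector.constantCoeff w)) := by ring
    rw [h2]
    refine J.sub_mem hw ?_
    obtain ⟨c, hc⟩ := p_dvd_sub_sh θ hθ hker w
    rw [hc]
    exact J.mul_mem_right _ hJ
  have hπ : π ∈ J' := by
    refine (Ideal.mem_map_iff_of_surjective _ (fun a =>
      ⟨WittVector.teichmuller p a, cc_teich a⟩)).mpr ⟨WittVector.teichmuller p π, ?_, cc_teich π⟩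
    rw [Ideal.mem_comap]
    have : θ (WittVector.teichmuller p π) = (p : Ω) := Om.sh_pi θ hker
    rw [this]; exact hJ
  have h2 : ∀ x ∈ J.map h, ∀ w, θ' w = x → WittVector.constantCoeff w ∈ J'.map φ := by
    -- generated ideal
    have h3 : J.map h ≤ ((J'.map φ).comap WittVector.constantCoeff).map θ' := by
      rw [Ideal.map_le_iff_le_comap]
      intro a ha
      obtain ⟨w, rfl⟩ := hθ a
      rw [Ideal.mem_comap, hh]
      refine Ideal.mem_map_of_mem θ' ?_
      rw [Ideal.mem_comap, cc_map]
      exact Ideal.mem_map_of_mem φ ((Ideal.mem_map_iff_of_surjective _ (fun a =>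
        ⟨WittVector.teichmuller p a, cc_teich a⟩)).mpr ⟨w, ha, rfl⟩)
    intro x hx w hw
    obtain ⟨w', hw', h4⟩ := (Ideal.mem_map_iff_of_surjective θ' hθ').mp (h3 hx)
    have h5 : w - w' ∈ RingHom.ker θ' := by rw [RingHom.mem_ker, map_sub, hw, h4, sub_self]
    rw [hker'] at h5
    obtain ⟨c, hc⟩ := Ideal.mem_span_singleton.mp h5
    have h6 : WittVector.constantCoeff w = WittVector.constantCoeff w'
        + WittVector.constantCoeff (w - w') := by rw [map_sub]; ring
    rw [h6, hc, map_mul]
    refine Ideal.add_mem _ hw' (Ideal.mul_mem_right _ _ ?_)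
    have h7 : WittVector.constantCoeff (Amp.xi (1 : WittVector p Q) (φ π)) = - φ π := by
      rw [Amp.constCoeff_xi]
    rw [h7]
    exact neg_mem (Ideal.mem_map_of_mem φ hπ)
  have h3 := h2 1 h1 1 (map_one θ')
  rw [map_one] at h3
  have h4 := hJ' 1 (hf J' hπ h3)
  rwa [Om.sh_one] at h4

include hθ hker hθ' hker' in
/-- `Ω/p^N → Ω'/p^N` is flat for all `N` (equational form), `p` is regular on `Ω'`, properness. -/
theorem Good.omega (h : Ω →+* Ω') (hh : ∀ w, h (θ w) = θ' (WittVector.map φ w))
    (hg : Good π φ) : Good (p : Ω) h := by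
  have h1 : RegAt h (p : Ω) := by
    intro b hb
    rw [map_natCast] at hb
    exact Om.p_regular θ' hθ' hker' hg.reg' b hb
  have h2 := omega_flatAt_p φ θ hθ hker θ' hθ' hker' h hh (by simpa using hg.flat 1)
  exact ⟨h1, fun m => h2.pow h1 m, omega_propAt_p φ θ hθ hker θ' hθ' hker' h hh hg.prop⟩

end omega

section goodbridge

variable {A : Type u} {B : Type v} {A' : Type u'} {B' : Type v'} [CommRing A] [CommRing B]
  [CommRing A'] [CommRing B']

/-- For a good map `f` with respect to `a`, `B/a^m` is faithfully flat over `A/a^m`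
(arbitrary models of the quotients). -/
theorem Good.faithfullyFlat {f : A →+* B} {a : A} (h : Good a f) (m : ℕ)
    {qa : A →+* A'} (hqa : Function.Surjective qa) (ha : qa (a ^ m) = 0)
    {qb : B →+* B'} (hqb : Function.Surjective qb) (hb : ∀ x, qb x = 0 → f a ^ m ∣ x)
    (g : A' →+* B') (hg : ∀ x, g (qa x) = qb (f x)) : g.FaithfullyFlat :=
  (h.flat m).ringHom_faithfullyFlat h.prop rfl hqa ha hqb
    (fun x hx => by rw [map_pow]; exact hb x hx) g hg

/-- the `Ideal.Quotient` model. -/
theorem Good.quotientMap_faithfullyFlat {f : A →+* B} {a : A} (h : Good a f) (m : ℕ) :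
    (Ideal.quotientMap (I := Ideal.span {a ^ m}) (Ideal.span {f (a ^ m)}) f (by
      rw [Ideal.span_singleton_le_iff_mem, Ideal.mem_comap]
      exact Ideal.mem_span_singleton_self _)).FaithfullyFlat :=
  (h.flat m).quotientMap_faithfullyFlat h.prop

end goodbridge

end Crest.Agent.R183.W
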