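import Mathlib
import Crest.Agent.R183.W6

/-!
# R183, block D1, part 7: the packaged cover `Ω₀ → Ω`
-/

namespace Crest.Agent.R183.W

universe u v w u' v'

open Finset

set_option linter.unusedSectionVars false

section main

variable (p : ℕ) [hp : Fact p.Prime]

theorem map_comp_eq {P P' P'' : Type*} [CommRing P] [CommRing P'] [CommRing P'']
    (φ₁ : P →+* P') (φ₂ : P' →+* P'') :
    (WittVector.map (p := p) (φ₂.comp φ₁)) = (WittVector.map φ₂).comp (WittVector.map φ₁) := by
  ext x n; simp [WittVector.map_coeff]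

/-- simultaneous complete splitting of finitely many monic polynomials. -/
theorem exists_split_family (N : ℕ) {P : Type u} [CommRing P] [CharP P p] [PerfectRing P p] (π : P)
    (hπ : ∀ x : P, π * x = 0 → x = 0) (hu : ¬ IsUnit π)
    (F : Fin N → Polynomial (WittVector p P)) (hF : ∀ i, (F i).Monic) :
    ∃ (P' : Type u) (_ : CommRing P') (_ : CharP P' p) (_ : PerfectRing P' p) (φ : P →+* P'),
      Good π φ ∧ ∀ i, ∃ (t : Fin (F i).natDegree → P') (G : Polynomial (WittVector p P')),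
      (F i).map (WittVector.map φ)
        = ∏ i, (Polynomial.X - Polynomial.C (WittVector.teichmuller p (t i)))
        + Polynomial.C (xi p (φ π)) * G := by
  induction N with
  | zero => exact ⟨P, _, ‹_›, ‹_›, RingHom.id P, Good.id hπ, fun i => i.elim0⟩
  | succ n ih =>
    obtain ⟨P₁, _, _, _, φ₁, hg₁, h₁⟩ := ih (fun i => F i.castSucc) (fun i => hF _)
    have : Nontrivial P₁ := CharP.nontrivial_of_char_ne_one (v := p) hp.out.one_lt.ne'
    obtain ⟨P₂, _, _, _, φ₂, t₂, G₂, hg₂, h₂⟩ := exists_split p (F (Fin.last n)).natDegree (φ₁ π)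
      hg₁.reg' (hg₁.not_isUnit hu) ((F (Fin.last n)).map (WittVector.map φ₁)) ((hF _).map _)
      ((hF _).natDegree_map _)
    refine ⟨P₂, _, ‹_›, ‹_›, φ₂.comp φ₁, hg₁.comp hg₂, ?_⟩
    intro i
    refine Fin.lastCases ?_ (fun i => ?_) i
    · refine ⟨t₂, G₂, ?_⟩
      rw [map_comp_eq, ← Polynomial.map_map, h₂]; rfl
    · obtain ⟨t, G, h⟩ := h₁ i
      refine ⟨fun j => φ₂ (t j), G.map (WittVector.map φ₂), ?_⟩
      rw [map_comp_eq, ← Polynomial.map_map, h, Polynomial.map_add, Polynomial.map_mul,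
        Polynomial.map_prod, Polynomial.map_C, map_xi]
      simp only [Polynomial.map_sub, Polynomial.map_X, Polynomial.map_C, WittVector.map_teichmuller]
      rfl

/-- **The cover.** `Ω₀ = W(P₀)/(p - [π])` (any model), `f_i` finitely many monic polynomials over
`Ω₀`, `a_k` finitely many elements of `Ω₀`. There is a good extension `P` of `P₀` such that over
`Ω = W(P)/(p - [π])` all `f_i` split completely with all roots sharps and all `a_k` are sharps. -/
theorem exists_cover {P₀ : Type u} [CommRing P₀] [CharP P₀ p] [PerfectRing P₀ p] {Ω₀ : Type v}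
    [CommRing Ω₀] (π : P₀) (hπ : ∀ x : P₀, π * x = 0 → x = 0) (hu : ¬ IsUnit π)
    (θ₀ : WittVector p P₀ →+* Ω₀) (hθ₀ : Function.Surjective θ₀)
    (hker₀ : RingHom.ker θ₀ = Ideal.span {Amp.xi 1 π})
    (N : ℕ) (f : Fin N → Polynomial Ω₀) (hf : ∀ i, (f i).Monic) (M : ℕ) (a : Fin M → Ω₀) :
    ∃ (P : Type u) (_ : CommRing P) (_ : CharP P p) (_ : PerfectRing P p) (φ : P₀ →+* P)
      (h : Ω₀ →+* Om.Omega p (φ π)), Good π φ ∧
      (∀ w, h (θ₀ w) = Om.th p (φ π) (WittVector.map φ w)) ∧ Good (p : Ω₀) h ∧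
      (∀ i, ∃ t : Fin (f i).natDegree → P, (f i).map h
        = ∏ j, (Polynomial.X - Polynomial.C (Om.sh (Om.th p (φ π)) (t j)))) ∧
      ∀ k, ∃ s : P, h (a k) = Om.sh (Om.th p (φ π)) s := by
  have hnt : Nontrivial P₀ := CharP.nontrivial_of_char_ne_one (v := p) hp.out.one_lt.ne'
  have hlift : ∀ i, ∃ F : Polynomial (WittVector p P₀), F.map θ₀ = f i ∧
      F.natDegree = (f i).natDegree ∧ F.Monic := fun i =>
    Polynomial.lifts_and_natDegree_eq_and_monic
      ((Polynomial.map_surjective θ₀ hθ₀) (f i)) (hf i)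
  choose F hF1 hF2 hF3 using hlift
  choose α hα using fun k => hθ₀ (a k)
  obtain ⟨P₁, _, _, _, φ₁, hg₁, h₁⟩ := exists_split_family p N π hπ hu F hF3
  obtain ⟨P₂, _, _, _, φ₂, s, hg₂, h₂⟩ := exists_sharps p M (φ₁ π) hg₁.reg' (hg₁.not_isUnit hu)
    (fun k => WittVector.map φ₁ (α k))
  have hg := hg₁.comp hg₂
  set φ := φ₂.comp φ₁ with hφ
  have hxi : ∀ z : P₂, xi p z = Amp.xi (1 : WittVector p P₂) z := by
    intro z; simp [xi, Amp.xi]
  set θ := Om.th p (φ π) with hθdef
  have hθ : Function.Surjective θ := Om.th_surjective p (φ π)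
  have hker : RingHom.ker θ = Ideal.span {Amp.xi 1 (φ π)} := Om.ker_th p (φ π)
  let h : Ω₀ →+* Om.Omega p (φ π) := Om.omMap φ rfl θ₀ hθ₀ hker₀ θ hker
  have hh : ∀ w, h (θ₀ w) = θ (WittVector.map φ w) := fun w =>
    Om.omMap_theta (π' := φ π) θ₀ hθ₀ hker₀ φ rfl θ hker w
  have hθxi : θ (xi p (φ π)) = 0 := by
    rw [hxi, ← RingHom.mem_ker, hker]; exact Ideal.mem_span_singleton_self _
  refine ⟨P₂, _, ‹_›, ‹_›, φ, h, hg, hh, hg.omega φ θ₀ hθ₀ hker₀ θ hθ hker h hh, ?_, ?_⟩
  · intro i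
    obtain ⟨t, G, h3⟩ := h₁ i
    have h4 : (f i).map h = ((F i).map (WittVector.map φ)).map θ := by
      rw [← hF1 i, Polynomial.map_map, Polynomial.map_map]
      congr 1
      ext1 w
      exact hh w
    have h5 : (f i).map h = ∏ j, (Polynomial.X - Polynomial.C (Om.sh θ (φ₂ (t j)))) := by
      have h10 : (F i).map (WittVector.map φ)
          = ((F i).map (WittVector.map φ₁)).map (WittVector.map φ₂) := by
        rw [Polynomial.map_map, ← map_comp_eq]
      rw [h4, h10, h3, Polynomial.map_add, Polynomial.map_mul,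
        Polynomial.map_prod, Polynomial.map_C, map_xi, Polynomial.map_add, Polynomial.map_mul,
        Polynomial.map_prod, Polynomial.map_C]
      have h6 : θ (xi p (φ₂ (φ₁ π))) = 0 := hθxi
      rw [h6, Polynomial.C_0, zero_mul, add_zero]
      simp only [Polynomial.map_sub, Polynomial.map_X, Polynomial.map_C,
        WittVector.map_teichmuller]
      rfl
    rw [← hF2 i]
    exact ⟨fun j => φ₂ (t j), h5⟩
  · intro k
    refine ⟨s k, ?_⟩
    obtain ⟨c, hc⟩ := h₂ k
    have h7 : WittVector.map φ (α k) = WittVector.teichmuller p (s k) - xi p (φ π) * c := by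
      have h8 : WittVector.map φ (α k) = WittVector.map φ₂ (WittVector.map φ₁ (α k)) :=
        (map_comp_apply φ₁ φ₂ (α k)).symm
      rw [h8]
      have h9 : xi p (φ π) * c = WittVector.teichmuller p (s k)
          - WittVector.map φ₂ (WittVector.map φ₁ (α k)) := hc.symm
      rw [h9]; ring
    rw [← hα k, hh, h7, map_sub, map_mul, hθxi, zero_mul, sub_zero]
    rfl

end main

end Crest.Agent.R183.W
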