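import Crest.Agent.R183.Om6
import Crest.Agent.R183.W7

/-!
R183 / Env1 : the environment of the mixed characteristic stage:
`A₀ → Ω₀ → Ω ⇉ Ω''`.
-/

set_option autoImplicit false
set_option linter.unusedSectionVars false

namespace Crest.Agent.R183.Env

open WittVector TensorProduct Om

universe u

/-- `Good` gives faithful flatness of the quotients (instance form). -/
theorem faithfullyFlat_of_good {A B : Type*} [CommRing A] [CommRing B] [Algebra A B] {a : A}
    (h : W.Good a (algebraMap A B)) (m : ℕ) :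
    Module.FaithfullyFlat (A ⧸ Ideal.span {a ^ m})
      (B ⧸ (Ideal.span {a ^ m}).map (algebraMap A B)) := by
  have h1 := h.faithfullyFlat m (qa := Ideal.Quotient.mk (Ideal.span {a ^ m}))
    Ideal.Quotient.mk_surjective
    (Ideal.Quotient.eq_zero_iff_mem.mpr (Ideal.mem_span_singleton_self _))
    (qb := Ideal.Quotient.mk ((Ideal.span {a ^ m}).map (algebraMap A B)))
    Ideal.Quotient.mk_surjective
    (fun x hx => by
      rw [Ideal.Quotient.eq_zero_iff_mem, Ideal.map_span, Set.image_singleton,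
        Ideal.mem_span_singleton, map_pow] at hx
      exact hx)
    (algebraMap (A ⧸ Ideal.span {a ^ m}) (B ⧸ (Ideal.span {a ^ m}).map (algebraMap A B)))
    (fun x => rfl)
  exact RingHom.faithfullyFlat_algebraMap_iff.1 h1

theorem flatQ_of_good {A B : Type*} [CommRing A] [CommRing B] [Algebra A B] {p : ℕ}
    (h : W.Good (p : A) (algebraMap A B)) (m : ℕ) :
    FlatQ A (B := B) (Ideal.span {(p : A) ^ m}) := by
  exact (faithfullyFlat_of_good h m).toFlat

/-- `Ω''` is the completed tensor square of `A` over `A₀` (maps `p₁ : a ↦ 1 ⊗ a`,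
`p₂ : a ↦ a ⊗ 1`). -/
structure IsSquare (p : ℕ) {A₀ A A₂ : Type u} [CommRing A₀] [CommRing A] [CommRing A₂]
    [Algebra A₀ A] (p₁ p₂ : A →+* A₂) : Prop where
  comm : p₁.comp (algebraMap A₀ A) = p₂.comp (algebraMap A₀ A)
  complete : IsAdicComplete (Ideal.span {(p : A₂)}) A₂
  bij : ∀ N : ℕ, ∃ Θ : ((A ⧸ (Ideal.span {(p : A₀) ^ N}).map (algebraMap A₀ A))
      ⊗[A₀ ⧸ Ideal.span {(p : A₀) ^ N}] (A ⧸ (Ideal.span {(p : A₀) ^ N}).map (algebraMap A₀ A)))
        →+* A₂ ⧸ Ideal.span {(p : A₂) ^ N},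
      Function.Bijective Θ ∧
      (∀ x : A, Θ (1 ⊗ₜ Ideal.Quotient.mk _ x) = Ideal.Quotient.mk _ (p₁ x)) ∧
      (∀ x : A, Θ (Ideal.Quotient.mk _ x ⊗ₜ 1) = Ideal.Quotient.mk _ (p₂ x))

/-- existence of the completed tensor square -/
theorem exists_square {p : ℕ} [hp : Fact p.Prime]
    {A₀ A : Type u} [CommRing A₀] [CommRing A] [Algebra A₀ A]
    {ϖ : ℕ → A₀} (d0 : PData p A₀ ϖ) (dA : PData p A (fun e => algebraMap A₀ A (ϖ e)))
    (hA : ∀ n : ℕ, FlatQ A₀ (B := A) (Ideal.span {(p : A₀) ^ n})) :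
    ∃ (A₂ : Type u) (_ : CommRing A₂) (p₁ p₂ : A →+* A₂), IsSquare p (A₀ := A₀) p₁ p₂ ∧
      PData p A₂ (fun e => p₁ (algebraMap A₀ A (ϖ e))) ∧ Reg (p : A₂) ∧
      (∀ D : A, RegMod D (p : A) → RegMod (p₁ D) (p : A₂) ∧ RegMod (p₂ D) (p : A₂)) := by
  obtain ⟨C, _, ι, hι, hd, hr, hc, hsat, hden, hl, hri⟩ := exists_tensor_completion d0 dA dA hA hA
  let p₂ : A →+* C := ι.comp Algebra.TensorProduct.includeLeftRingHom
  let p₁ : A →+* C := ι.comp
    (Algebra.TensorProduct.includeRight : A →ₐ[A₀] A ⊗[A₀] A).toRingHom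
  have hcomm : p₁.comp (algebraMap A₀ A) = p₂.comp (algebraMap A₀ A) := by
    ext x
    show ι ((1 : A) ⊗ₜ[A₀] (algebraMap A₀ A x)) = ι ((algebraMap A₀ A x) ⊗ₜ[A₀] (1 : A))
    congr 1
    rw [Algebra.algebraMap_eq_smul_one, TensorProduct.smul_tmul]
  refine ⟨C, inferInstance, p₁, p₂, ⟨hcomm, hc, ?_⟩, ?_, hr, fun D hD => ⟨hri D hD, hl D hD⟩⟩
  · intro N
    obtain ⟨q, hq, hqs, hqk⟩ := exists_red A₀ A A (Ideal.span {(p : A₀) ^ N})
    let f : A ⊗[A₀] A →+* C ⧸ Ideal.span {(p : C) ^ N} := (Ideal.Quotient.mk _).comp ι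
    have hf : Function.Surjective f := by
      intro x
      obtain ⟨c, rfl⟩ := Ideal.Quotient.mk_surjective x
      obtain ⟨t, ht⟩ := hden N c
      refine ⟨t, ?_⟩
      show Ideal.Quotient.mk _ (ι t) = _
      rw [Ideal.Quotient.mk_eq_mk_iff_sub_mem, Ideal.mem_span_singleton, ← dvd_neg, neg_sub]
      exact ht
    have hfk : RingHom.ker f = RingHom.ker q := by
      rw [hqk]
      ext t
      rw [mem_map_span_iff, ← hsat, RingHom.mem_ker]
      show (Ideal.Quotient.mk _ (ι t)) = 0 ↔ _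
      rw [Ideal.Quotient.eq_zero_iff_mem, Ideal.mem_span_singleton]
    refine ⟨(RingHom.liftOfSurjective q hqs) ⟨f, le_of_eq hfk.symm⟩, ?_, ?_, ?_⟩
    · have key : ∀ t, (RingHom.liftOfSurjective q hqs) ⟨f, le_of_eq hfk.symm⟩ (q t) = f t := by
        intro t
        rw [RingHom.liftOfSurjective]
        exact RingHom.liftOfRightInverse_comp_apply _ _ _ _ _
      constructor
      · rw [injective_iff_map_eq_zero]
        intro x hx
        obtain ⟨t, rfl⟩ := hqs x
        rw [key, ← RingHom.mem_ker, hfk] at hx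
        exact hx
      · intro y
        obtain ⟨t, rfl⟩ := hf y
        exact ⟨q t, key t⟩
    · intro x
      have h1 : (1 : A ⧸ (Ideal.span {(p : A₀) ^ N}).map (algebraMap A₀ A)) ⊗ₜ
          Ideal.Quotient.mk _ x = q ((1 : A) ⊗ₜ x) := by rw [hq, map_one]
      rw [h1, RingHom.liftOfSurjective]
      exact RingHom.liftOfRightInverse_comp_apply _ _ _ _ _
    · intro x
      have h1 : Ideal.Quotient.mk _ x ⊗ₜ
          (1 : A ⧸ (Ideal.span {(p : A₀) ^ N}).map (algebraMap A₀ A)) = q (x ⊗ₜ (1 : A)) := by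
        rw [hq, map_one]
      rw [h1, RingHom.liftOfSurjective]
      exact RingHom.liftOfRightInverse_comp_apply _ _ _ _ _
  · have h1 : (fun e => ι (algebraMap A₀ (A ⊗[A₀] A) (ϖ e))) =
        fun e => p₁ (algebraMap A₀ A (ϖ e)) := by
      funext e
      have : p₁ (algebraMap A₀ A (ϖ e)) = p₂ (algebraMap A₀ A (ϖ e)) :=
        RingHom.congr_fun hcomm (ϖ e)
      rw [this]
      rfl
    rwa [h1] at hd

/-- `p`-completion of the base together with its tilt. -/
theorem exists_base {p : ℕ} [hp : Fact p.Prime] {B : Type u} [CommRing B] {ϖ : ℕ → B}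
    (d : PData p B ϖ) (hu : ¬ IsUnit (p : B)) :
    ∃ (A₀ : Type u) (_ : CommRing A₀) (_ : Algebra B A₀)
      (P₀ : Type u) (_ : CommRing P₀) (_ : CharP P₀ p) (_ : PerfectRing P₀ p)
      (θ₀ : WittVector p P₀ →+* A₀) (π : P₀),
      IsCompl (p : B) (algebraMap B A₀) ∧
      PData p A₀ (fun e => algebraMap B A₀ (ϖ e)) ∧ Reg (p : A₀) ∧
      IsAdicComplete (Ideal.span {(p : A₀)}) A₀ ∧ ¬ IsUnit (p : A₀) ∧
      Function.Surjective θ₀ ∧ RingHom.ker θ₀ = Ideal.span {Amp.xi 1 π} ∧ Reg π ∧ ¬ IsUnit π ∧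
      IsAdicComplete (Ideal.span {π}) P₀ ∧
      (∀ e, sh θ₀ (Amp.rt (p := p) e π) = algebraMap B A₀ (ϖ e)) ∧
      (∀ r : ℕ → A₀, (∀ n, r (n + 1) ^ p = r n) → ∃ a : P₀, ∀ e, sh θ₀ (Amp.rt (p := p) e a) = r e) ∧
      (∀ D : B, RegMod D (p : B) → RegMod (algebraMap B A₀ D) (p : A₀)) := by
  obtain ⟨A₀, _, ι, hι⟩ := exists_isCompl (p : B)
  let _ : Algebra B A₀ := ι.toAlgebra
  have hp0 : ι (p : B) = (p : A₀) := map_natCast ι p
  obtain ⟨hd, hr⟩ := d.completion hι
  have hc : IsAdicComplete (Ideal.span {(p : A₀)}) A₀ := by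
    have := hι.complete
    rwa [hp0] at this
  have hu' : ¬ IsUnit (p : A₀) := by
    rw [← hp0, hι.isUnit_iff]; exact hu
  obtain ⟨P₀, _, _, _, θ₀, π, h1, h2, h3, h4, h5, h6, h7⟩ := exists_tilt hd hr hu'
  refine ⟨A₀, inferInstance, inferInstance, P₀, inferInstance, ‹_›, ‹_›, θ₀, π, hι, hd, hr, hc, hu',
    h1, h2, h3, h4, h5, h6, h7, ?_⟩
  intro D hD
  have := hι.regMod hD
  rwa [hp0] at this

/-- A perfectoid model of a ring `A`: `A = W(P)/(p - [π])`, compatible with `ϖ`. -/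
structure Model (p : ℕ) [Fact p.Prime] (A : Type u) [CommRing A] (ϖ : ℕ → A) : Type (u + 1) where
  P : Type u
  [ring : CommRing P]
  [charP : CharP P p]
  [perf : PerfectRing P p]
  θ : WittVector p P →+* A
  π : P
  surj : Function.Surjective θ
  ker : RingHom.ker θ = Ideal.span {Amp.xi 1 π}
  reg : Reg π
  nonunit : ¬ IsUnit π
  roots : ∀ e, sh θ (Amp.rt (p := p) e π) = ϖ e

attribute [instance] Model.ring Model.charP Model.perf

/-- the ring underlying a model is `p`-complete, `p`-torsion free, perfectoid. -/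
theorem Model.props {p : ℕ} [Fact p.Prime] {A : Type u} [CommRing A] {ϖ : ℕ → A}
    (M : Model p A ϖ) :
    PData p A ϖ ∧ Reg (p : A) ∧ IsAdicComplete (Ideal.span {(p : A)}) A ∧ ¬ IsUnit (p : A) := by
  have h := pdata_omega M.θ M.surj M.ker M.reg
  have h1 : (fun e => sh M.θ (Amp.rt (p := p) e M.π)) = ϖ := funext M.roots
  rw [h1] at h
  refine ⟨h, p_regular M.θ M.surj M.ker M.reg, omega_isAdicComplete M.θ M.surj M.ker M.reg, ?_⟩
  exact p_nonunit M.θ M.surj M.ker M.nonunit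

/-- **Cover**: finitely many monic polynomials split and finitely many elements become sharps in a
good extension (which again has a model). -/
theorem exists_cover {p : ℕ} [Fact p.Prime] {A₀ : Type u} [CommRing A₀] {ϖ : ℕ → A₀}
    (M₀ : Model p A₀ ϖ) {N : ℕ} (f : Fin N → Polynomial A₀) (hf : ∀ i, (f i).Monic) {k : ℕ}
    (a : Fin k → A₀) :
    ∃ (A : Type u) (_ : CommRing A) (_ : Algebra A₀ A)
      (M : Model p A (fun e => algebraMap A₀ A (ϖ e))) (φ : M₀.P →+* M.P),
      W.Good M₀.π φ ∧ φ M₀.π = M.π ∧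
      (∀ w, algebraMap A₀ A (M₀.θ w) = M.θ (WittVector.map φ w)) ∧
      W.Good (p : A₀) (algebraMap A₀ A) ∧
      (∀ i, ∃ t : Fin (f i).natDegree → M.P, (f i).map (algebraMap A₀ A) =
        ∏ j, (Polynomial.X - Polynomial.C (sh M.θ (t j)))) ∧
      ∀ i, ∃ s : M.P, algebraMap A₀ A (a i) = sh M.θ s := by
  obtain ⟨P, _, _, _, φ, h, h1, h2, h3, h4, h5⟩ := W.exists_cover p M₀.π M₀.reg M₀.nonunit M₀.θ
    M₀.surj M₀.ker N f hf k a
  have hnu := h1.not_isUnit M₀.nonunit
  let _ : Algebra A₀ (Omega p (φ M₀.π)) := h.toAlgebra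
  let M : Model p (Omega p (φ M₀.π)) (fun e => algebraMap A₀ (Omega p (φ M₀.π)) (ϖ e)) :=
    { P := P
      θ := th p (φ M₀.π)
      π := φ M₀.π
      surj := th_surjective p _
      ker := ker_th p _
      reg := fun x hx => h1.reg' x hx
      nonunit := hnu
      roots := by
        intro e
        show sh (th p (φ M₀.π)) (Amp.rt (p := p) e (φ M₀.π)) = h (ϖ e)
        rw [← M₀.roots e, sh, sh, h2, WittVector.map_teichmuller, rt_map φ e M₀.π] }
  exact ⟨Omega p (φ M₀.π), inferInstance, inferInstance, M, φ, h1, rfl, h2, h3, h4, h5⟩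

/-- regularity modulo `p` along a good extension -/
theorem regMod_of_good {p : ℕ} {A B : Type*} [CommRing A] [CommRing B] [Algebra A B]
    (h : W.Good (p : A) (algebraMap A B)) {D : A} (hD : RegMod D (p : A)) :
    RegMod (algebraMap A B D) (p : B) := by
  intro x hx
  have := h.reg_mod (δ := D) (m := 1) (by
    intro y hy; rw [pow_one] at hy ⊢; exact hD y hy) x (by simpa using hx)
  simpa using this

/-- composition of covers -/
theorem good_trans {p : ℕ} {A B C : Type*} [CommRing A] [CommRing B] [CommRing C]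
    [Algebra A B] [Algebra B C] (h1 : W.Good (p : A) (algebraMap A B))
    (h2 : W.Good (p : B) (algebraMap B C)) :
    W.Good (p : A) ((algebraMap B C).comp (algebraMap A B)) :=
  h1.comp (by rwa [map_natCast])

end Crest.Agent.R183.Env
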