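import Crest.Agent.R183.BCM8
import Crest.Agent.R183.Env1

/-!
# R183 (Lech), block BCM, part 9: `Tower` from the environment (`Env1`)
(helper523)
-/

set_option autoImplicit false

namespace Crest.Agent.R183.BCM

open TensorProduct Crest.Agent.R183.Om

universe u

theorem tower_of_env {p : ℕ} {A₀ A A₂ : Type u} [CommRing A₀] [CommRing A] [CommRing A₂]
    [Algebra A₀ A] (hG : W.Good (p : A₀) (algebraMap A₀ A)) (hr : Reg (p : A₀))
    {p₁ p₂ : A →+* A₂} (hsq : Env.IsSquare p (A₀ := A₀) p₁ p₂)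
    {ι : Type} [Fintype ι] [DecidableEq ι] (L : Submodule A (ι → A)) (c : ℕ)
    (ar : ∀ (N : ℕ) (w : ι → A), (p : A) ^ N • w ∈ L → (p : A) ^ c • w ∈ L)
    (hL : ∀ l ∈ L, (fun i => p₂ (l i)) ∈
      Submodule.span A₂ ((fun (l : ι → A) (i : ι) => p₁ (l i)) '' (L : Set (ι → A)))) :
    Tower (p : A₀) L c := by
  have hpa : algebraMap A₀ A (p : A₀) = (p : A) := map_natCast _ _
  have hk : ∀ (N : ℕ) (x : A₀), Ideal.Quotient.mk (Ideal.span {(p : A₀) ^ N}) x = 0 ↔
      ∃ y, x = (p : A₀) ^ N * y := by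
    intro N x
    rw [Ideal.Quotient.eq_zero_iff_mem, Ideal.mem_span_singleton]
    rfl
  have hk₁ : ∀ (N : ℕ) (x : A),
      Ideal.Quotient.mk ((Ideal.span {(p : A₀) ^ N}).map (algebraMap A₀ A)) x = 0 ↔
      ∃ y, x = (algebraMap A₀ A (p : A₀)) ^ N * y := by
    intro N x
    rw [Ideal.Quotient.eq_zero_iff_mem, Ideal.map_span, Set.image_singleton,
      Ideal.mem_span_singleton, map_pow]
    rfl
  refine ⟨hr, ?_, ?_, ?_, ?_⟩
  · intro x hx
    exact hG.reg x hx
  · intro N w hw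
    rw [hpa] at hw ⊢
    exact ar N w hw
  · intro N
    have := Env.faithfullyFlat_of_good hG N
    obtain ⟨Θ, hΘ, h1, h2⟩ := hsq.bij N
    refine fl_of_flat (p : A₀) N (Ideal.Quotient.mk (Ideal.span {(p : A₀) ^ N}))
      (Ideal.Quotient.mk ((Ideal.span {(p : A₀) ^ N}).map (algebraMap A₀ A)))
      Ideal.Quotient.mk_surjective Ideal.Quotient.mk_surjective (hk₁ N) (fun x => rfl) L ?_
    exact datum_of_square (Ideal.Quotient.mk ((Ideal.span {(p : A₀) ^ N}).map (algebraMap A₀ A)))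
      Ideal.Quotient.mk_surjective p₁ p₂ (Ideal.Quotient.mk _) Θ hΘ h1 h2 L hL
  · intro N T x hx
    have := Env.faithfullyFlat_of_good hG N
    exact ff_of_faithfullyFlat (p : A₀) N (Ideal.Quotient.mk (Ideal.span {(p : A₀) ^ N}))
      (Ideal.Quotient.mk ((Ideal.span {(p : A₀) ^ N}).map (algebraMap A₀ A)))
      Ideal.Quotient.mk_surjective Ideal.Quotient.mk_surjective (hk N) (hk₁ N) (fun x => rfl) T x hx

end Crest.Agent.R183.BCM
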