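/-
R183 (Lech's conjecture), block [2]: normalised length, further properties.  Author: helper529.
-/
import Crest.Agent.R183.Lam
import Mathlib.LinearAlgebra.Isomorphisms
import Mathlib.RingTheory.Flat.Basic
import Mathlib.RingTheory.LocalRing.ResidueField.Defs
import Mathlib.RingTheory.LocalRing.MaximalIdeal.Basic

set_option autoImplicit false

namespace Crest.Agent.R183.Lam

open scoped ENNReal TensorProduct
open Submodule

namespace Tower

universe u
variable {A : Type u} [CommRing A] (T : Tower A)

section Basic

variable {M : Type*} [AddCommGroup M] [Module A M] {N : Type*} [AddCommGroup N] [Module A N]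

theorem lam_of_subsingleton [Subsingleton M] : T.lam M = 0 := by
  rw [← le_zero_iff]
  refine iSup_le fun E => ?_
  refine (T.lamSet_le 0 _).trans ?_
  unfold a
  have : Subsingleton (Submodule.span (T.S 0) (E : Set M)) := inferInstance
  rw [Module.length_eq_zero_iff.mpr this]
  simp

theorem lam_submodule_mono {N N' : Submodule A M} (h : N ≤ N') : T.lam N ≤ T.lam N' :=
  T.lam_le_of_injective (Submodule.inclusion h) (Submodule.inclusion_injective h)

theorem lam_submodule_le (N : Submodule A M) : T.lam N ≤ T.lam M :=
  T.lam_le_of_injective N.subtype N.subtype_injective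

theorem lam_quotient_le (N : Submodule A M) : T.lam (M ⧸ N) ≤ T.lam M :=
  T.lam_le_of_surjective N.mkQ N.mkQ_surjective

@[simp] theorem lam_top : T.lam (⊤ : Submodule A M) = T.lam M :=
  T.lam_congr Submodule.topEquiv

@[simp] theorem lam_bot : T.lam (⊥ : Submodule A M) = 0 := T.lam_of_subsingleton

/-- additivity, kernel/range form -/
theorem lam_eq_ker_add_range (f : M →ₗ[A] N) :
    T.lam M = T.lam (LinearMap.ker f) + T.lam (LinearMap.range f) := by
  rw [T.lam_eq_add_quotient (LinearMap.ker f)]
  congr 1
  exact T.lam_congr f.quotKerEquivRange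

/-- subadditivity in the middle of an exact sequence -/
theorem lam_le_add_of_exact' {P : Type*} [AddCommGroup P] [Module A P] (f : P →ₗ[A] M)
    (g : M →ₗ[A] N) (H : LinearMap.ker g ≤ LinearMap.range f) :
    T.lam M ≤ T.lam P + T.lam N := by
  rw [T.lam_eq_ker_add_range g]
  refine add_le_add ((T.lam_submodule_mono H).trans ?_) (T.lam_submodule_le _)
  exact T.lam_le_of_surjective f.rangeRestrict f.surjective_rangeRestrict

theorem lam_sup_le (N N' : Submodule A M) :
    T.lam (N ⊔ N' : Submodule A M) ≤ T.lam N + T.lam N' := by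
  rw [T.lam_eq_add_quotient (N.submoduleOf (N ⊔ N'))]
  refine add_le_add (T.lam_le_of_injective
    ((N ⊔ N').subtype.restrict (p := N.submoduleOf (N ⊔ N')) (q := N) (fun x hx => hx)) ?_) ?_
  · intro x y h
    have h' : ((x : (N ⊔ N' : Submodule A M)) : M) = ((y : (N ⊔ N' : Submodule A M)) : M) :=
      congrArg (fun z : N => (z : M)) h
    exact Subtype.ext (Subtype.ext h')
  · refine T.lam_le_of_surjective
      ((N.submoduleOf (N ⊔ N')).mkQ ∘ₗ Submodule.inclusion (le_sup_right : N' ≤ N ⊔ N')) ?_
    intro y
    obtain ⟨⟨y, hy⟩, rfl⟩ := (N.submoduleOf (N ⊔ N')).mkQ_surjective y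
    obtain ⟨n, hn, n', hn', rfl⟩ := Submodule.mem_sup.mp hy
    refine ⟨⟨n', hn'⟩, ?_⟩
    rw [LinearMap.comp_apply, ← sub_eq_zero, ← map_sub, Submodule.mkQ_apply,
      Submodule.Quotient.mk_eq_zero]
    change n' - (n + n') ∈ N
    simpa using hn

theorem lam_span_singleton_eq_zero_iff_mem (x : M) (h : T.lam M = 0) :
    T.lam (Submodule.span A {x}) = 0 :=
  le_zero_iff.mp ((T.lam_submodule_le _).trans h.le)

theorem lam_span_finset_eq_zero (E : Finset M)
    (h : ∀ x ∈ E, T.lam (Submodule.span A {x}) = 0) : T.lam (Submodule.span A (E : Set M)) = 0 := by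
  classical
  induction E using Finset.induction_on with
  | empty =>
    rw [Finset.coe_empty, Submodule.span_empty]
    exact T.lam_bot
  | insert x E hx ih =>
    rw [Finset.coe_insert, Submodule.span_insert, ← le_zero_iff]
    refine (T.lam_sup_le _ _).trans ?_
    rw [h x (Finset.mem_insert_self x E),
      ih (fun y hy => h y (Finset.mem_insert_of_mem hy)), add_zero]

theorem lamSet_le_lam_span (E : Finset M) :
    T.lamSet (E : Set M) ≤ T.lam (Submodule.span A (E : Set M)) := by
  classical
  let E' : Finset (Submodule.span A (E : Set M)) :=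
    E.attach.image (fun x => ⟨x.1, Submodule.subset_span x.2⟩)
  have : (E : Set M) = (Submodule.span A (E : Set M)).subtype '' (E' : Set _) := by
    ext x
    constructor
    · intro hx
      exact ⟨⟨x, Submodule.subset_span hx⟩, by simpa [E'] using hx, rfl⟩
    · rintro ⟨y, hy, rfl⟩
      simp only [E', Finset.coe_image, Set.mem_image, Finset.mem_coe, Finset.mem_attach,
        true_and, Subtype.exists] at hy
      obtain ⟨z, hz, rfl⟩ := hy
      exact hz
  conv_lhs => rw [this]
  rw [T.lamSet_image_of_injective _ (Submodule.subtype_injective _)]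
  exact T.lamSet_le_lam _

theorem lam_eq_iSup_span : T.lam M = ⨆ E : Finset M, T.lam (Submodule.span A (E : Set M)) :=
  le_antisymm (iSup_mono fun E => T.lamSet_le_lam_span E)
    (iSup_le fun E => T.lam_submodule_le _)

/-- the null modules are detected on cyclic submodules -/
theorem lam_eq_zero_iff : T.lam M = 0 ↔ ∀ x : M, T.lam (Submodule.span A {x}) = 0 := by
  refine ⟨fun h x => T.lam_span_singleton_eq_zero_iff_mem x h, fun h => ?_⟩
  rw [T.lam_eq_iSup_span, ← le_zero_iff]
  exact iSup_le fun E => (T.lam_span_finset_eq_zero E (fun x _ => h x)).le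

/-- continuity for directed unions of submodules -/
theorem lam_iSup_directed {ι : Type*} [Nonempty ι] (N : ι → Submodule A M)
    (hN : Directed (· ≤ ·) N) :
    T.lam (⨆ i, N i : Submodule A M) = ⨆ i, T.lam (N i) := by
  apply le_antisymm
  · refine iSup_le fun E => ?_
    classical
    have : ∃ i, ∀ x ∈ E, (x : M) ∈ N i := by
      induction E using Finset.induction_on with
      | empty => exact ⟨Classical.arbitrary ι, by simp⟩
      | insert x E hx ih =>
        obtain ⟨i, hi⟩ := ih
        obtain ⟨j, hj⟩ := (Submodule.mem_iSup_of_directed N hN).mp x.2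
        obtain ⟨k, hik, hjk⟩ := hN i j
        refine ⟨k, fun y hy => ?_⟩
        rcases Finset.mem_insert.mp hy with rfl | hy
        · exact hjk hj
        · exact hik (hi y hy)
    obtain ⟨i, hi⟩ := this
    refine le_trans ?_ (le_iSup _ i)
    let E' : Finset (N i) := E.attach.image (fun x => ⟨(x.1 : M), hi x.1 x.2⟩)
    have h1 : (⨆ i, N i : Submodule A M).subtype '' (E : Set _) =
        (N i).subtype '' (E' : Set _) := by
      ext x
      constructor
      · rintro ⟨y, hy, rfl⟩
        exact ⟨⟨y, hi y hy⟩, by
          simp only [E', Finset.coe_image, Set.mem_image, Finset.mem_coe, Finset.mem_attach,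
            true_and, Subtype.exists]
          exact ⟨y, y.2, hy, rfl⟩, rfl⟩
      · rintro ⟨y, hy, rfl⟩
        simp only [E', Finset.coe_image, Set.mem_image, Finset.mem_coe, Finset.mem_attach,
          true_and, Subtype.exists] at hy
        obtain ⟨z, hz, hz', rfl⟩ := hy
        exact ⟨⟨z, hz⟩, hz', rfl⟩
    have h2 := T.lamSet_image_of_injective (⨆ i, N i : Submodule A M).subtype
      (Submodule.subtype_injective _) (E : Set (⨆ i, N i : Submodule A M))
    have h3 := T.lamSet_image_of_injective (N i).subtype
      (Submodule.subtype_injective _) (E' : Set (N i))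
    rw [← h2, h1, h3]
    exact T.lamSet_le_lam _
  · exact iSup_le fun i => T.lam_submodule_mono (le_iSup N i)

theorem lam_prod : T.lam (M × N) = T.lam M + T.lam N :=
  T.lam_eq_add_of_exact (LinearMap.inl A M N) (LinearMap.snd A M N) LinearMap.inl_injective
    LinearMap.snd_surjective .inl_snd

theorem lam_pi_fin (n : ℕ) : T.lam (Fin n → M) = n * T.lam M := by
  induction n with
  | zero => rw [T.lam_of_subsingleton]; simp
  | succ n ih =>
    rw [← T.lam_congr (Fin.consLinearEquiv A (fun _ : Fin (n + 1) => M)), T.lam_prod, ih]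
    push_cast
    rw [add_mul, one_mul, add_comm]

theorem lam_pi {ι : Type*} [Fintype ι] : T.lam (ι → M) = Fintype.card ι * T.lam M := by
  rw [← T.lam_pi_fin, T.lam_congr (LinearEquiv.funCongrLeft A M (Fintype.equivFin ι))]

theorem lam_finsupp {ι : Type*} [Fintype ι] : T.lam (ι →₀ M) = Fintype.card ι * T.lam M := by
  rw [T.lam_congr (Finsupp.linearEquivFunOnFinite A M ι), T.lam_pi]

end Basic

end Tower

end Crest.Agent.R183.Lam
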