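/-
R183 (Lech's conjecture), block [2b]: the ring `B_∞ = B[t_1^{1/p^∞}, …, t_d^{1/p^∞}]` as a free
`B`-module with monomial basis, its finite levels and the `Tower` structure.  Author: helper529.
-/
import Crest.Agent.R183.Lam3
import Mathlib.Algebra.MonoidAlgebra.Basic
import Mathlib.Algebra.MonoidAlgebra.Module
import Mathlib.Data.NNRat.Floor
import Mathlib.RingTheory.Polynomial.Basic
import Mathlib.RingTheory.Ideal.Quotient.Operations
import Mathlib.LinearAlgebra.Basis.Basic
import Mathlib.LinearAlgebra.FreeModule.Basic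

set_option autoImplicit false
set_option linter.dupNamespace false

namespace Crest.Agent.R183.BInf

open scoped NNRat
open AddMonoidAlgebra (single)

/-- nonnegative rationals whose denominator is a power of `p` -/
def NP (p : ℕ) : AddSubmonoid ℚ≥0 where
  carrier := {q | ∃ e n : ℕ, q * (p : ℚ≥0) ^ e = n}
  zero_mem' := ⟨0, 0, by simp⟩
  add_mem' := by
    rintro a b ⟨e, n, h⟩ ⟨e', n', h'⟩
    refine ⟨e + e', n * p ^ e' + n' * p ^ e, ?_⟩
    push_cast
    rw [← h, ← h', pow_add]
    ring

theorem nat_mem_NP (p n : ℕ) : (n : ℚ≥0) ∈ NP p := ⟨0, n, by simp⟩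

/-- integer part -/
def fl {p : ℕ} (x : NP p) : ℕ := ⌊(x : ℚ≥0)⌋₊

theorem fl_le {p : ℕ} (x : NP p) : ((fl x : ℕ) : ℚ≥0) ≤ x := Nat.floor_le zero_le

/-- fractional part -/
def fr {p : ℕ} (x : NP p) : NP p := ⟨(x : ℚ≥0) - (fl x : ℕ), by
  obtain ⟨e, n, h⟩ := x.2
  refine ⟨e, n - fl x * p ^ e, ?_⟩
  rw [tsub_mul, h]
  push_cast
  rfl⟩

theorem fr_add_fl {p : ℕ} (x : NP p) : ((fr x : NP p) : ℚ≥0) + (fl x : ℕ) = x :=
  tsub_add_cancel_of_le (fl_le x)

theorem fr_lt_one {p : ℕ} (x : NP p) : ((fr x : NP p) : ℚ≥0) < 1 := by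
  have h1 := fr_add_fl x
  have h2 : (x : ℚ≥0) < (fl x : ℕ) + 1 := Nat.lt_floor_add_one (x : ℚ≥0)
  rw [← h1, add_comm] at h2
  exact lt_of_add_lt_add_left h2

theorem fl_of_lt_one {p : ℕ} (x : NP p) (h : (x : ℚ≥0) < 1) : fl x = 0 :=
  Nat.floor_eq_zero.mpr h

theorem fr_of_lt_one {p : ℕ} (x : NP p) (h : (x : ℚ≥0) < 1) : fr x = x := by
  apply Subtype.ext
  change (x : ℚ≥0) - (fl x : ℕ) = x
  rw [fl_of_lt_one x h]; simp

theorem fl_add_nat {p : ℕ} (x y : NP p) (n : ℕ) (hy : (y : ℚ≥0) = n) : fl (x + y) = fl x + n := by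
  unfold fl
  rw [AddSubmonoid.coe_add, hy]
  exact Nat.floor_add_natCast zero_le n

theorem fr_add_nat {p : ℕ} (x y : NP p) (n : ℕ) (hy : (y : ℚ≥0) = n) : fr (x + y) = fr x := by
  apply Subtype.ext
  change ((x + y : NP p) : ℚ≥0) - (fl (x + y) : ℕ) = (x : ℚ≥0) - (fl x : ℕ)
  rw [fl_add_nat x y n hy, AddSubmonoid.coe_add, hy]
  push_cast
  exact add_tsub_add_eq_tsub_right _ _ _

variable (d p : ℕ)

/-- exponents -/
abbrev Gam := Fin d → NP p

/-- exponents `< 1` -/
abbrev Gam1 := {α : Gam d p // ∀ i, (α i : ℚ≥0) < 1}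

variable {d p}

/-- fractional part of an exponent -/
def frG (α : Gam d p) : Gam1 d p := ⟨fun i => fr (α i), fun i => fr_lt_one (α i)⟩

/-- natural exponents -/
def natG (n : Fin d → ℕ) : Gam d p := fun i => ⟨n i, nat_mem_NP p (n i)⟩

theorem natG_add (m n : Fin d → ℕ) : (natG (m + n) : Gam d p) = natG m + natG n := by
  funext i
  apply Subtype.ext
  change (((m + n) i : ℕ) : ℚ≥0) = (m i : ℚ≥0) + (n i : ℚ≥0)
  simp

theorem natG_zero : (natG 0 : Gam d p) = 0 := by
  funext i
  apply Subtype.ext
  change (((0 : Fin d → ℕ) i : ℕ) : ℚ≥0) = 0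
  simp

theorem frG_add_natG (α : Gam d p) : (frG α : Gam d p) + natG (fun i => fl (α i)) = α := by
  funext i
  apply Subtype.ext
  exact fr_add_fl (α i)

theorem fl_add_natG (α : Gam d p) (n : Fin d → ℕ) (i : Fin d) :
    fl ((α + natG n : Gam d p) i) = fl (α i) + n i :=
  fl_add_nat (α i) (natG n i) (n i) rfl

theorem frG_add_natG' (α : Gam d p) (n : Fin d → ℕ) : frG (α + natG n) = frG α := by
  apply Subtype.ext
  funext i
  exact fr_add_nat (α i) (natG n i) (n i) rfl

section Ring

variable {B : Type*} [CommRing B] (t : Fin d → B) (p)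

/-- the relation `T^{e_i} - t_i` -/
noncomputable def rel (i : Fin d) : AddMonoidAlgebra B (Gam d p) :=
  single (natG (Pi.single i 1)) 1 - algebraMap B _ (t i)

/-- the ideal of relations -/
noncomputable def relI : Ideal (AddMonoidAlgebra B (Gam d p)) := Ideal.span (Set.range (rel p t))

/-- the ring `B_∞` -/
abbrev BInf := AddMonoidAlgebra B (Gam d p) ⧸ relI p t

/-- the monomial `T^α` in `B_∞` -/
noncomputable def mon (α : Gam d p) : BInf p t := Ideal.Quotient.mk _ (single α 1)

theorem mon_zero : mon p t 0 = 1 := rfl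

theorem mon_add (α β : Gam d p) : mon p t (α + β) = mon p t α * mon p t β := by
  unfold mon
  rw [← map_mul, AddMonoidAlgebra.single_mul_single, one_mul]

theorem mon_e (i : Fin d) : mon p t (natG (Pi.single i 1)) = algebraMap B _ (t i) := by
  unfold mon
  have : (Ideal.Quotient.mk (relI p t)) (rel p t i) = 0 :=
    Ideal.Quotient.eq_zero_iff_mem.mpr (Ideal.subset_span ⟨i, rfl⟩)
  rw [rel, map_sub, sub_eq_zero] at this
  exact this

theorem mon_nsmul (k : ℕ) (α : Gam d p) : mon p t (k • α) = mon p t α ^ k := by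
  induction k with
  | zero => rw [zero_smul, mon_zero, pow_zero]
  | succ k ih => rw [succ_nsmul, mon_add, ih, pow_succ]

theorem mon_sum {ι : Type*} (s : Finset ι) (f : ι → Gam d p) :
    mon p t (∑ i ∈ s, f i) = ∏ i ∈ s, mon p t (f i) := by
  classical
  induction s using Finset.induction_on with
  | empty => rw [Finset.sum_empty, Finset.prod_empty, mon_zero]
  | insert a s ha ih => rw [Finset.sum_insert ha, Finset.prod_insert ha, mon_add, ih]

theorem natG_eq_sum (n : Fin d → ℕ) :
    (natG n : Gam d p) = ∑ i, n i • natG (Pi.single i 1) := by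
  funext j
  apply Subtype.ext
  rw [Finset.sum_apply, AddSubmonoid.coe_finsetSum]
  change (n j : ℚ≥0) = ∑ i, ((n i • (natG (Pi.single i 1) : Gam d p) j : NP p) : ℚ≥0)
  have : ∀ i, (((n i • (natG (Pi.single i 1) : Gam d p) j : NP p)) : ℚ≥0) =
      if i = j then (n i : ℚ≥0) else 0 := by
    intro i
    rw [AddSubmonoidClass.coe_nsmul]
    change n i • ((Pi.single i 1 : Fin d → ℕ) j : ℚ≥0) = _
    rcases eq_or_ne i j with rfl | h
    · simp
    · rw [Pi.single_eq_of_ne (Ne.symm h)]; simp [h]
  simp only [this, Finset.sum_ite_eq', Finset.mem_univ, if_true]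

theorem mon_natG (n : Fin d → ℕ) : mon p t (natG n) = algebraMap B _ (∏ i, t i ^ n i) := by
  rw [natG_eq_sum, mon_sum, map_prod]
  refine Finset.prod_congr rfl fun i _ => ?_
  rw [mon_nsmul, mon_e, map_pow]

/-- normal form of a monomial -/
theorem mon_eq (α : Gam d p) :
    mon p t α = (∏ i, t i ^ fl (α i)) • mon p t (frG α : Gam d p) := by
  conv_lhs => rw [← frG_add_natG α, mon_add, mon_natG]
  rw [mul_comm]
  exact (Algebra.smul_def (∏ i, t i ^ fl (α i)) (mon p t (frG α : Gam d p))).symm

/-- coordinates -/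
noncomputable def rho0 : AddMonoidAlgebra B (Gam d p) →ₗ[B] (Gam1 d p →₀ B) :=
  (Finsupp.lsum B (fun α : Gam d p =>
    (∏ i, t i ^ fl (α i)) • Finsupp.lsingle (frG α))) ∘ₗ
      (AddMonoidAlgebra.coeffLinearEquiv B).toLinearMap

theorem rho0_single (α : Gam d p) (b : B) :
    rho0 p t (single α b) = (∏ i, t i ^ fl (α i)) • Finsupp.single (frG α) b := by
  unfold rho0
  rw [LinearMap.comp_apply]
  change (Finsupp.lsum B _) (Finsupp.single α b) = _
  rw [Finsupp.lsum_single]
  rfl

theorem rho0_mul_rel (x : AddMonoidAlgebra B (Gam d p)) (i : Fin d) :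
    rho0 p t (x * rel p t i) = 0 := by
  induction x using AddMonoidAlgebra.induction_linear with
  | zero => rw [zero_mul, map_zero]
  | add x y hx hy => rw [add_mul, map_add, hx, hy, add_zero]
  | single α b =>
    have h1 : single α b * rel p t i =
        single (α + natG (Pi.single i 1)) b - t i • single α b := by
      rw [rel, mul_sub, AddMonoidAlgebra.single_mul_single, mul_one, mul_comm _ (algebraMap B _ _),
        ← Algebra.smul_def]
    rw [h1, map_sub, map_smul, rho0_single, rho0_single, frG_add_natG', sub_eq_zero, smul_smul]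
    congr 1
    simp only [fl_add_natG, pow_add, Finset.prod_mul_distrib]
    rw [mul_comm]
    congr 1
    rw [Finset.prod_eq_single i]
    · rw [Pi.single_eq_same, pow_one]
    · intro j _ hj
      rw [Pi.single_eq_of_ne hj, pow_zero]
    · intro h; exact absurd (Finset.mem_univ i) h

theorem rho0_relI (y : AddMonoidAlgebra B (Gam d p)) (hy : y ∈ relI p t) :
    rho0 p t y = 0 := by
  have key : ∀ y ∈ relI p t, ∀ a, rho0 p t (a * y) = 0 := by
    intro y hy
    induction hy using Submodule.span_induction with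
    | mem x hx =>
      obtain ⟨i, rfl⟩ := hx
      exact fun a => rho0_mul_rel p t a i
    | zero => intro a; rw [mul_zero, map_zero]
    | add x y _ _ hx hy => intro a; rw [mul_add, map_add, hx, hy, add_zero]
    | smul b y _ hy => intro a; rw [smul_eq_mul, ← mul_assoc]; exact hy _
  simpa using key y hy 1

/-- coordinates on `B_∞` -/
noncomputable def rho : BInf p t →ₗ[B] (Gam1 d p →₀ B) :=
  (Submodule.liftQ ((relI p t).restrictScalars B) (rho0 p t)
    (fun y hy => rho0_relI p t y hy)) ∘ₗ
    (Submodule.Quotient.restrictScalarsEquiv B (relI p t)).symm.toLinearMap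

theorem rho_mk (x : AddMonoidAlgebra B (Gam d p)) :
    rho p t (Ideal.Quotient.mk _ x) = rho0 p t x := rfl

theorem rho_mon (γ : Gam1 d p) : rho p t (mon p t γ) = Finsupp.single γ 1 := by
  unfold mon
  rw [rho_mk, rho0_single]
  have h1 : frG (γ : Gam d p) = γ := by
    apply Subtype.ext
    funext i
    exact fr_of_lt_one _ (γ.2 i)
  have h2 : ∀ i, fl ((γ : Gam d p) i) = 0 := fun i => fl_of_lt_one _ (γ.2 i)
  simp only [h1, h2, pow_zero, Finset.prod_const_one, one_smul]

/-- the inverse map -/
noncomputable def sig : (Gam1 d p →₀ B) →ₗ[B] BInf p t :=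
  Finsupp.linearCombination B (fun γ : Gam1 d p => mon p t (γ : Gam d p))

theorem sig_rho0 (x : AddMonoidAlgebra B (Gam d p)) :
    sig p t (rho0 p t x) = Ideal.Quotient.mk _ x := by
  induction x using AddMonoidAlgebra.induction_linear with
  | zero => rw [map_zero, map_zero, map_zero]
  | add x y hx hy => rw [map_add, map_add, map_add, hx, hy]
  | single α b =>
    rw [rho0_single, map_smul]
    unfold sig
    rw [Finsupp.linearCombination_single, smul_comm, ← mon_eq]
    unfold mon
    have : single α b = b • (single α 1 : AddMonoidAlgebra B (Gam d p)) := by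
      rw [AddMonoidAlgebra.smul_single, smul_eq_mul, mul_one]
    rw [this]
    rfl

/-- `B_∞` is free over `B` with basis the monomials with exponents `< 1` -/
noncomputable def equiv : BInf p t ≃ₗ[B] (Gam1 d p →₀ B) :=
  LinearEquiv.ofLinearMap (rho p t) (sig p t)
    (by
      refine Finsupp.lhom_ext' fun γ => LinearMap.ext_ring ?_
      change rho p t (sig p t (Finsupp.single γ 1)) = Finsupp.single γ 1
      unfold sig
      rw [Finsupp.linearCombination_single, one_smul, rho_mon])
    (by
      refine LinearMap.ext fun x => ?_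
      obtain ⟨x, rfl⟩ := Ideal.Quotient.mk_surjective x
      change sig p t (rho p t (Ideal.Quotient.mk _ x)) = _
      rw [rho_mk, sig_rho0]
      rfl)

/-- the monomial basis -/
noncomputable def basis : Module.Basis (Gam1 d p) B (BInf p t) := ⟨equiv p t⟩

theorem basis_apply (γ : Gam1 d p) : basis p t γ = mon p t (γ : Gam d p) := by
  unfold basis
  change (equiv p t).symm (Finsupp.single γ 1) = _
  change sig p t (Finsupp.single γ 1) = _
  unfold sig
  rw [Finsupp.linearCombination_single, one_smul]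

instance : Module.Free B (BInf p t) := Module.Free.of_basis (basis p t)

end Ring

end Crest.Agent.R183.BInf
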