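/-
R183 (Lech's conjecture), block [2b]: `λ(B_∞ ⊗_B N) = ℓ_B(N)`.  Author: helper529.
-/
import Crest.Agent.R183.BInf2
import Mathlib.RingTheory.TensorProduct.Quotient
import Mathlib.RingTheory.Flat.Basic

set_option autoImplicit false
set_option linter.dupNamespace false

namespace Crest.Agent.R183.Lam

open scoped ENNReal TensorProduct

section Residue

variable {R R' : Type*} [CommRing R] [CommRing R'] [Algebra R R']

theorem length_le_restrict (M : Type*) [AddCommGroup M] [Module R M] [Module R' M]
    [IsScalarTower R R' M] : Module.length R' M ≤ Module.length R M := by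
  rw [← WithBot.coe_le_coe, Module.coe_length, Module.coe_length]
  exact Order.krullDim_le_of_orderEmbedding (Submodule.restrictScalarsEmbedding R R' _)

/-- if every scalar of `R'` acts as a scalar of `R`, the lengths agree -/
theorem length_eq_of_same {M : Type*} [AddCommGroup M] [Module R M] [Module R' M]
    [IsScalarTower R R' M] (h : ∀ x : R', ∃ a : R, ∀ m : M, x • m = a • m) :
    Module.length R M = Module.length R' M := by
  refine le_antisymm ?_ (length_le_restrict M)
  rw [← WithBot.coe_le_coe, Module.coe_length, Module.coe_length]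
  let F : Submodule R M → Submodule R' M := fun N =>
    { carrier := N
      add_mem' := fun hx hy => N.add_mem hx hy
      zero_mem' := N.zero_mem
      smul_mem' := by
        intro c x hx
        obtain ⟨a, ha⟩ := h c
        change c • x ∈ N
        rw [ha]; exact N.smul_mem a hx }
  let E : Submodule R M ↪o Submodule R' M :=
    { toFun := F
      inj' := by
        intro N N' hN
        ext x
        have : x ∈ F N ↔ x ∈ F N' := by rw [hN]
        exact this
      map_rel_iff' := Iff.rfl }
  exact Order.krullDim_le_of_orderEmbedding E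

theorem length_eq_of_residue_aux (J : Ideal R')
    (h : ∀ n : Ideal R', n.IsMaximal → J ≤ n → ∀ x : R', ∃ a : R, x - algebraMap R R' a ∈ n)
    {M : Type*} [AddCommGroup M] [Module R' M] (H : IsFiniteLength R' M) :
    ∀ [Module R M] [IsScalarTower R R' M], (∀ a ∈ J, ∀ x : M, a • x = 0) →
    Module.length R M = Module.length R' M := by
  induction H with
  | of_subsingleton =>
    intro _ _ _
    rw [Module.length_eq_zero, Module.length_eq_zero]
  | @of_simple_quotient M _ _ N hs hN ih =>
    intro _ _ hJ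
    have h1 : Module.length R M = Module.length R N + Module.length R (M ⧸ N) :=
      Module.length_eq_add_of_exact (N.subtype.restrictScalars R) (N.mkQ.restrictScalars R)
        N.subtype_injective N.mkQ_surjective (LinearMap.exact_subtype_mkQ N)
    have h2 : Module.length R' M = Module.length R' N + Module.length R' (M ⧸ N) :=
      Module.length_eq_add_of_exact N.subtype N.mkQ N.subtype_injective N.mkQ_surjective
        (LinearMap.exact_subtype_mkQ N)
    rw [h1, h2, ih (fun a ha x => Subtype.ext (hJ a ha x))]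
    congr 1
    have := hs.nontrivial
    obtain ⟨x0, hx0⟩ := exists_ne (0 : M ⧸ N)
    have hmax := IsSimpleModule.ker_toSpanSingleton_isMaximal R' hx0
    have hsurj := IsSimpleModule.toSpanSingleton_surjective R' hx0
    set n : Ideal R' := LinearMap.ker (LinearMap.toSpanSingleton R' (M ⧸ N) x0) with hn
    have hJn : J ≤ n := by
      intro a ha
      rw [hn, LinearMap.mem_ker, LinearMap.toSpanSingleton_apply]
      obtain ⟨x, rfl⟩ := N.mkQ_surjective x0
      rw [← map_smul, hJ a ha, map_zero]
    refine length_eq_of_same fun x => ?_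
    obtain ⟨a, ha⟩ := h n hmax hJn x
    refine ⟨a, fun y => ?_⟩
    obtain ⟨r, rfl⟩ := hsurj y
    rw [LinearMap.toSpanSingleton_apply, ← algebraMap_smul R' a, ← sub_eq_zero, ← sub_smul,
      smul_comm]
    have : (x - algebraMap R R' a) • x0 = 0 := by
      rw [hn, LinearMap.mem_ker, LinearMap.toSpanSingleton_apply] at ha
      exact ha
    rw [this, smul_zero]

/-- **lengths over `R` and `R'` agree** if `R → R'/𝔫` is onto for all maximal ideals `𝔫 ⊇ J`,
where `J` kills `M`. -/
theorem length_eq_of_residue (J : Ideal R')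
    (h : ∀ n : Ideal R', n.IsMaximal → J ≤ n → ∀ x : R', ∃ a : R, x - algebraMap R R' a ∈ n)
    {M : Type*} [AddCommGroup M] [Module R M] [Module R' M]
    [IsScalarTower R R' M] (hJ : ∀ a ∈ J, ∀ x : M, a • x = 0) :
    Module.length R M = Module.length R' M := by
  by_cases H : IsFiniteLength R' M
  · exact length_eq_of_residue_aux J h H hJ
  · rw [← Module.length_ne_top_iff, not_not] at H
    rw [H]
    exact top_le_iff.mp (H ▸ length_le_restrict M)

/-- lengths over `R` and a local `R'` with `R → R'/𝔪` onto agree -/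
theorem length_eq_of_isLocalRing [IsLocalRing R']
    (h : ∀ x : R', ∃ a : R, x - algebraMap R R' a ∈ IsLocalRing.maximalIdeal R')
    (M : Type*) [AddCommGroup M] [Module R M] [Module R' M] [IsScalarTower R R' M] :
    Module.length R M = Module.length R' M := by
  refine length_eq_of_residue (⊥ : Ideal R') (fun n hn _ x => ?_) (fun a ha x => ?_)
  · rw [IsLocalRing.eq_maximalIdeal hn]; exact h x
  · rw [Ideal.mem_bot] at ha; rw [ha, zero_smul]

/-- the length of a level `S / (I ∩ S)` -/
theorem length_level_eq {B A : Type*} [CommRing B] [CommRing A] [Algebra B A] (S : Subring A)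
    (hBS : ∀ b : B, algebraMap B A b ∈ S) (I : Ideal A) (m : Ideal B) (hm : m.IsMaximal)
    (hmI : ∀ b ∈ m, algebraMap B A b ∈ I) {ι : Type*} [Fintype ι] (w : ι → A)
    (hw : ∀ j, w j ∈ S) (h1 : ∀ x ∈ S, ∃ c : ι → B, x = ∑ j, c j • w j)
    (h2 : ∀ c : ι → B, ∑ j, c j • w j ∈ I → ∀ j, c j ∈ m)
    (h3 : ∀ x ∈ S, ∃ (b : B) (k : ℕ), (x - algebraMap B A b) ^ k ∈ I) :
    Module.length S (S ⧸ I.comap S.subtype) = Fintype.card ι := by
  classical
  let _ : Algebra B S := ((algebraMap B A).codRestrict S hBS).toAlgebra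
  have hcoe : ∀ b : B, ((algebraMap B S b : S) : A) = algebraMap B A b := fun _ => rfl
  have hsm : ∀ (b : B) (x : S), ((b • x : S) : A) = b • (x : A) := by
    intro b x
    rw [Algebra.smul_def, Algebra.smul_def, Subring.coe_mul, hcoe]
  have e1 : Module.length B (S ⧸ I.comap S.subtype) = Module.length S (S ⧸ I.comap S.subtype) := by
    refine length_eq_of_residue (I.comap S.subtype) ?_ ?_
    · intro n hn hJn x
      obtain ⟨b, k, hk⟩ := h3 x.1 x.2
      refine ⟨b, hn.isPrime.mem_of_pow_mem k (hJn ?_)⟩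
      exact hk
    · intro a ha x
      obtain ⟨x, rfl⟩ := Ideal.Quotient.mk_surjective x
      rw [← Ideal.Quotient.mk_eq_mk, ← Submodule.Quotient.mk_smul, Submodule.Quotient.mk_eq_zero,
        smul_eq_mul]
      exact Ideal.mul_mem_right _ _ ha
  rw [← e1]
  have : IsSimpleModule B (B ⧸ m) :=
    (isSimpleModule_iff_quot_maximal).mpr ⟨m, hm, ⟨LinearEquiv.refl _ _⟩⟩
  have hj : ∀ j, m ≤ LinearMap.ker (LinearMap.toSpanSingleton B (S ⧸ I.comap S.subtype)
      (Ideal.Quotient.mk _ (⟨w j, hw j⟩ : S))) := by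
    intro j a ha
    rw [LinearMap.mem_ker, LinearMap.toSpanSingleton_apply]
    have h1 : a • (Ideal.Quotient.mk (I.comap S.subtype) (⟨w j, hw j⟩ : S)) =
        Ideal.Quotient.mk (I.comap S.subtype) (a • (⟨w j, hw j⟩ : S)) := rfl
    rw [h1, Ideal.Quotient.eq_zero_iff_mem, Algebra.smul_def]
    refine Ideal.mul_mem_right _ _ ?_
    exact hmI a ha
  let g : (ι → B ⧸ m) →ₗ[B] (S ⧸ I.comap S.subtype) :=
    LinearMap.lsum B (fun _ => B ⧸ m) B (fun j => Submodule.liftQ m _ (hj j))
  have hgc : ∀ c : ι → B, g (fun j => Ideal.Quotient.mk m (c j)) =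
      Ideal.Quotient.mk _ (∑ j, c j • (⟨w j, hw j⟩ : S)) := by
    intro c
    change (LinearMap.lsum B (fun _ => B ⧸ m) B (fun j => Submodule.liftQ m _ (hj j)))
      (fun j => Ideal.Quotient.mk m (c j)) = _
    rw [LinearMap.lsum_apply, LinearMap.sum_apply, map_sum]
    rfl
  have hcs : ∀ c : ι → B, ((∑ j, c j • (⟨w j, hw j⟩ : S) : S) : A) = ∑ j, c j • w j := by
    intro c
    rw [AddSubmonoidClass.coe_finsetSum]
    exact Finset.sum_congr rfl fun j _ => hsm _ _
  have hg : Function.Bijective g := by
    constructor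
    · rw [injective_iff_map_eq_zero]
      intro v hv
      choose c hc using fun j => Ideal.Quotient.mk_surjective (v j)
      have hv' : v = fun j => Ideal.Quotient.mk m (c j) := funext fun j => (hc j).symm
      rw [hv', hgc, Ideal.Quotient.eq_zero_iff_mem] at hv
      have hv2 : ∑ j, c j • w j ∈ I := by rw [← hcs]; exact hv
      funext j
      rw [hv', Pi.zero_apply, Ideal.Quotient.eq_zero_iff_mem]
      exact h2 c hv2 j
    · intro y
      obtain ⟨x, rfl⟩ := Ideal.Quotient.mk_surjective y
      obtain ⟨c, hc⟩ := h1 x.1 x.2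
      refine ⟨fun j => Ideal.Quotient.mk m (c j), ?_⟩
      rw [hgc]
      congr 1
      exact Subtype.ext (by rw [hcs, hc])
  rw [← (LinearEquiv.ofBijective g hg).length_eq, Module.length_pi, Module.length_eq_one, mul_one,
    ENat.card_eq_coe_fintype_card]

end Residue

end Crest.Agent.R183.Lam

namespace Crest.Agent.R183.BInf

open scoped ENNReal TensorProduct NNRat

section Level

variable {d : ℕ} (p : ℕ) {B : Type*} [CommRing B] (t : Fin d → B) (hp : 0 < p)

theorem nsmul_ex (e : ℕ) (n : Fin d → ℕ) : p ^ e • ex p hp e n = natG n := by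
  funext i
  apply Subtype.ext
  rw [Pi.smul_apply, AddSubmonoidClass.coe_nsmul]
  change p ^ e • ((n i : ℚ≥0) / (p : ℚ≥0) ^ e) = (n i : ℚ≥0)
  rw [nsmul_eq_mul]
  push_cast
  rw [mul_div_cancel₀ _ (pe_ne p hp e)]

theorem ex_injective (e : ℕ) : Function.Injective (ex (d := d) p hp e) := by
  intro m n h
  have h1 : (natG m : Gam d p) = natG n := by rw [← nsmul_ex p hp e, h, nsmul_ex]
  funext i
  have h2 := congrArg (fun x : Gam d p => ((x i : NP p) : ℚ≥0)) h1
  have h3 : (m i : ℚ≥0) = (n i : ℚ≥0) := h2
  exact_mod_cast h3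

theorem ex_lt_one (e : ℕ) (j : Fin d → Fin (p ^ e)) (i : Fin d) :
    ((ex p hp e (fun i => (j i : ℕ)) i : NP p) : ℚ≥0) < 1 := by
  change ((j i : ℕ) : ℚ≥0) / (p : ℚ≥0) ^ e < 1
  rw [div_lt_one (pos_iff_ne_zero.mpr (pe_ne p hp e))]
  exact_mod_cast (j i).2

/-- every element of level `e` is a `B`-combination of the `p^{ed}` monomials -/
theorem exists_sum_level (e : ℕ) (x : BInf p t) (hx0 : x ∈ SA p t hp e) :
    ∃ c : (Fin d → Fin (p ^ e)) → B,
      x = ∑ j, c j • mon p t (ex p hp e (fun i => (j i : ℕ))) := by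
  have hpe : 0 < p ^ e := Nat.pow_pos hp
  have hx' : x ∈ Submodule.span B (Set.range fun n : Fin d → ℕ => mon p t (ex p hp e n)) := by
    rw [← SA_eq_span]; exact hx0
  clear hx0
  induction hx' using Submodule.span_induction with
  | mem x hx =>
    obtain ⟨n, rfl⟩ := hx
    classical
    let j0 : Fin d → Fin (p ^ e) := fun i => ⟨n i % p ^ e, Nat.mod_lt _ hpe⟩
    refine ⟨fun j => if j = j0 then ∏ i, t i ^ (n i / p ^ e) else 0, ?_⟩
    rw [Finset.sum_eq_single j0]
    · dsimp only
      rw [if_pos rfl]
      have h1 : n = fun i => p ^ e * (n i / p ^ e) + n i % p ^ e := by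
        funext i
        exact (Nat.div_add_mod (n i) (p ^ e)).symm
      have h2 : ex p hp e n = natG (fun i => n i / p ^ e) +
          ex p hp e (fun i => n i % p ^ e) := by
        conv_lhs => rw [h1]
        rw [show (fun i => p ^ e * (n i / p ^ e) + n i % p ^ e) =
          (fun i => p ^ e * (n i / p ^ e)) + fun i => n i % p ^ e from rfl, ex_add]
        congr 1
        rw [← ex_level_zero p hp, ← ex_add_level p hp 0 e, zero_add]
      rw [h2, mon_add, mon_natG, ← Algebra.smul_def]
    · intro j _ hj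
      dsimp only
      rw [if_neg hj, zero_smul]
    · intro h; exact absurd (Finset.mem_univ _) h
  | zero => exact ⟨0, by simp⟩
  | add x y hx hy hx' hy' =>
    obtain ⟨c, hc⟩ := hx'
    obtain ⟨c', hc'⟩ := hy'
    refine ⟨fun j => c j + c' j, ?_⟩
    conv_lhs => rw [hc, hc']
    rw [← Finset.sum_add_distrib]
    refine Finset.sum_congr rfl fun j _ => ?_
    rw [add_smul]
  | smul b x hx hx' =>
    obtain ⟨c, hc⟩ := hx'
    refine ⟨fun j => b • c j, ?_⟩
    conv_lhs => rw [hc, Finset.smul_sum]
    refine Finset.sum_congr rfl fun j _ => ?_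
    rw [smul_assoc]

/-- coordinates of elements of `m B_∞` -/
theorem repr_mem (m : Ideal B) (y : BInf p t) (hy : y ∈ m.map (algebraMap B (BInf p t)))
    (γ : Gam1 d p) : (basis p t).repr y γ ∈ m := by
  have h1 : y ∈ (m • ⊤ : Submodule B (BInf p t)) := by
    rw [Ideal.smul_top_eq_map]; exact hy
  clear hy
  induction h1 using Submodule.smul_induction_on' with
  | smul r hr x hx =>
    rw [map_smul, Finsupp.smul_apply, smul_eq_mul]
    exact Ideal.mul_mem_right _ _ hr
  | add x hx y hy hx' hy' =>
    rw [map_add, Finsupp.add_apply]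
    exact m.add_mem hx' hy'

theorem coord_mem (m : Ideal B) (e : ℕ) (c : (Fin d → Fin (p ^ e)) → B)
    (h : ∑ j, c j • mon p t (ex p hp e (fun i => (j i : ℕ))) ∈ m.map (algebraMap B (BInf p t)))
    (j : Fin d → Fin (p ^ e)) : c j ∈ m := by
  classical
  let γ : (Fin d → Fin (p ^ e)) → Gam1 d p := fun j =>
    ⟨ex p hp e (fun i => (j i : ℕ)), ex_lt_one p hp e j⟩
  have hγ : Function.Injective γ := by
    intro j j' h
    have h1 : ex p hp e (fun i => (j i : ℕ)) = ex p hp e (fun i => (j' i : ℕ)) :=
      congrArg Subtype.val h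
    have h2 := ex_injective p hp e h1
    funext i
    exact Fin.ext (congrFun h2 i)
  have h1 := repr_mem p t m _ h (γ j)
  rw [map_sum, Finsupp.finsetSum_apply] at h1
  have h2 : ∀ j', ((basis p t).repr (c j' • mon p t (ex p hp e (fun i => (j' i : ℕ))))) (γ j) =
      if j' = j then c j' else 0 := by
    intro j'
    have h3 : mon p t (ex p hp e (fun i => (j' i : ℕ))) = basis p t (γ j') :=
      (basis_apply p t (γ j')).symm
    rw [h3, map_smul, Module.Basis.repr_self, Finsupp.smul_apply, smul_eq_mul,
      Finsupp.single_apply]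
    by_cases h4 : j' = j
    · rw [if_pos h4, if_pos (by rw [h4]), mul_one]
    · rw [if_neg h4, if_neg (fun h5 => h4 (hγ h5)), mul_zero]
  simp only [h2, Finset.sum_ite_eq', Finset.mem_univ, if_true] at h1
  exact h1

/-- the residue condition -/
theorem exists_pow_mem (m : Ideal B) (ht : ∀ i, t i ∈ m) (e : ℕ) (x : BInf p t)
    (hx0 : x ∈ SA p t hp e) :
    ∃ (b : B) (k : ℕ), (x - algebraMap B _ b) ^ k ∈ m.map (algebraMap B (BInf p t)) := by
  have key : ∃ b : B, x - algebraMap B _ b ∈ (m.map (algebraMap B (BInf p t))).radical := by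
    have hx' : x ∈ Submodule.span B (Set.range fun n : Fin d → ℕ => mon p t (ex p hp e n)) := by
      rw [← SA_eq_span]; exact hx0
    clear hx0
    induction hx' using Submodule.span_induction with
    | mem x hx =>
      obtain ⟨n, rfl⟩ := hx
      by_cases hn : n = 0
      · refine ⟨1, ?_⟩
        subst hn
        dsimp only
        rw [ex_zero, mon_zero, map_one, sub_self]
        exact Ideal.zero_mem _
      · refine ⟨0, ?_⟩
        rw [map_zero, sub_zero]
        refine ⟨p ^ e, ?_⟩
        dsimp only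
        rw [← mon_nsmul, nsmul_ex, mon_natG]
        apply Ideal.mem_map_of_mem
        obtain ⟨i, hi⟩ := Function.ne_iff.mp hn
        refine Ideal.prod_mem _ (Finset.mem_univ i) ?_
        exact Ideal.pow_mem_of_mem _ (ht i) _ (Nat.pos_of_ne_zero hi)
    | zero => exact ⟨0, by rw [map_zero, sub_zero]; exact Ideal.zero_mem _⟩
    | add x y hx hy hx' hy' =>
      obtain ⟨b, hb⟩ := hx'
      obtain ⟨b', hb'⟩ := hy'
      refine ⟨b + b', ?_⟩
      rw [map_add, add_sub_add_comm]
      exact Ideal.add_mem _ hb hb'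
    | smul a x hx hx' =>
      obtain ⟨b, hb⟩ := hx'
      refine ⟨a * b, ?_⟩
      have h1 : a • x - algebraMap B (BInf p t) (a * b) =
          algebraMap B (BInf p t) a * (x - algebraMap B (BInf p t) b) := by
        rw [mul_sub, map_mul]
        congr 1
        exact Algebra.smul_def a x
      have h2 := Ideal.mul_mem_left _ (algebraMap B (BInf p t) a) hb
      rw [← h1] at h2
      exact h2
  obtain ⟨b, k, hk⟩ := key
  exact ⟨b, k, hk⟩

theorem length_level (m : Ideal B) (hm : m.IsMaximal) (ht : ∀ i, t i ∈ m) (e : ℕ) :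
    Module.length (Sub p t hp e) (Sub p t hp e ⧸
      (m.map (algebraMap B (BInf p t))).comap (Sub p t hp e).subtype) = (p ^ e) ^ d := by
  rw [Lam.length_level_eq (Sub p t hp e) (fun b => Subalgebra.algebraMap_mem _ b)
    (m.map (algebraMap B (BInf p t))) m hm (fun b hb => Ideal.mem_map_of_mem _ hb)
    (fun j : Fin d → Fin (p ^ e) => mon p t (ex p hp e (fun i => (j i : ℕ))))
    (fun j => mon_mem_Sub p t hp e _) (exists_sum_level p t hp e)
    (coord_mem p t hp m e) (exists_pow_mem p t hp m ht e)]
  rw [Fintype.card_fun, Fintype.card_fin, Fintype.card_fin]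
  push_cast
  rfl

variable [IsNoetherianRing B]

theorem lam_residue (m : Ideal B) (hm : m.IsMaximal) (ht : ∀ i, t i ∈ m) :
    (tower p t hp).lam (BInf p t ⧸ m.map (algebraMap B (BInf p t))) = 1 := by
  refine (tower p t hp).lam_quotient_of_eq (tower_union p t hp) _ 1 0 fun e _ => ?_
  change ((Module.length (Sub p t hp e) (Sub p t hp e ⧸
      (m.map (algebraMap B (BInf p t))).comap (Sub p t hp e).subtype) : ℕ∞) : ℝ≥0∞) =
      1 * ((p ^ d : ℕ) : ℝ≥0∞) ^ e
  rw [length_level p t hp m hm ht e, one_mul]
  push_cast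
  rw [← pow_mul, ← pow_mul, mul_comm]

end Level

end Crest.Agent.R183.BInf
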