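/-
R183 (Lech's conjecture), block [2b]: `λ(B_∞ ⊗_B N) = ℓ_B(N)` for all `N`; the form needed by
`Core`.  Author: helper529.
-/
import Crest.Agent.R183.BInf3
import Crest.Agent.R183.AddLenInst
import Mathlib.RingTheory.TensorProduct.Quotient
import Mathlib.RingTheory.TensorProduct.IsBaseChangePi

set_option autoImplicit false
set_option linter.dupNamespace false

namespace Crest.Agent.R183.Lam.Tower

open scoped ENNReal TensorProduct

universe u
variable {A : Type u} [CommRing A] (T : Tower A)
variable {R : Type*} [CommRing R] [IsLocalRing R] [Algebra R A]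
variable {F : Type*} [AddCommGroup F] [Module A F] [Module R F] [IsScalarTower R A F]

theorem lam_tensor_ge (hflat : Module.Flat R F) {N : Type*} [AddCommGroup N] [Module R N]
    [Nontrivial N] : T.lam (F ⊗[R] (R ⧸ IsLocalRing.maximalIdeal R)) ≤ T.lam (F ⊗[R] N) := by
  obtain ⟨x, hx⟩ := exists_ne (0 : N)
  let f : R →ₗ[R] N := LinearMap.toSpanSingleton R N x
  have hk : LinearMap.ker f ≤ IsLocalRing.maximalIdeal R := by
    apply IsLocalRing.le_maximalIdeal
    intro h
    have : (1 : R) ∈ LinearMap.ker f := by rw [h]; trivial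
    rw [LinearMap.mem_ker, LinearMap.toSpanSingleton_apply, one_smul] at this
    exact hx this
  have h1 : T.lam (F ⊗[R] (R ⧸ LinearMap.ker f)) ≤ T.lam (F ⊗[R] N) := by
    have hinj : Function.Injective ((LinearMap.ker f).liftQ f le_rfl) :=
      LinearMap.ker_eq_bot.mp (Submodule.ker_liftQ_eq_bot _ _ _ le_rfl)
    exact T.lam_le_of_injective (TensorProduct.AlgebraTensorModule.lTensor A F
      ((LinearMap.ker f).liftQ f le_rfl))
      (Module.Flat.lTensor_preserves_injective_linearMap _ hinj)
  have h2 : T.lam (F ⊗[R] (R ⧸ IsLocalRing.maximalIdeal R)) ≤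
      T.lam (F ⊗[R] (R ⧸ LinearMap.ker f)) := by
    have hs : Function.Surjective (Submodule.factor hk) := Submodule.factor_surjective hk
    exact T.lam_le_of_surjective (TensorProduct.AlgebraTensorModule.lTensor A F
      (Submodule.factor hk)) (LinearMap.lTensor_surjective F hs)
  exact h2.trans h1

theorem lam_tensor_lt (hflat : Module.Flat R F) {N : Type*} [AddCommGroup N] [Module R N]
    {N' N'' : Submodule R N} (h : N' < N'') :
    T.lam (F ⊗[R] N') + T.lam (F ⊗[R] (R ⧸ IsLocalRing.maximalIdeal R)) ≤ T.lam (F ⊗[R] N'') := by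
  let i : N' →ₗ[R] N'' := Submodule.inclusion h.le
  have hi : Function.Injective i := Submodule.inclusion_injective h.le
  have hex : T.lam (F ⊗[R] N'') = T.lam (F ⊗[R] N') +
      T.lam (F ⊗[R] (N'' ⧸ LinearMap.range i)) := by
    refine T.lam_eq_add_of_exact
      (TensorProduct.AlgebraTensorModule.lTensor A F i)
      (TensorProduct.AlgebraTensorModule.lTensor A F (LinearMap.range i).mkQ) ?_ ?_ ?_
    · exact Module.Flat.lTensor_preserves_injective_linearMap i hi
    · exact LinearMap.lTensor_surjective F (Submodule.mkQ_surjective _)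
    · exact lTensor_exact F (LinearMap.exact_map_mkQ_range i) (Submodule.mkQ_surjective _)
  rw [hex]
  have : Nontrivial (N'' ⧸ LinearMap.range i) := by
    rw [Submodule.Quotient.nontrivial_iff]
    intro htop
    apply h.not_ge
    intro x hx
    have : (⟨x, hx⟩ : N'') ∈ LinearMap.range i := by rw [htop]; trivial
    obtain ⟨y, hy⟩ := this
    have h2 : (y : N) = x := congrArg Subtype.val hy
    rw [← h2]
    exact y.2
  exact add_le_add le_rfl (T.lam_tensor_ge hflat)

/-- **flat base change, all modules** -/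
theorem lam_tensor_all (hflat : Module.Flat R F)
    (hpos : T.lam (F ⊗[R] (R ⧸ IsLocalRing.maximalIdeal R)) ≠ 0)
    (N : Type*) [AddCommGroup N] [Module R N] :
    T.lam (F ⊗[R] N) =
      ((Module.length R N : ℕ∞) : ℝ≥0∞) * T.lam (F ⊗[R] (R ⧸ IsLocalRing.maximalIdeal R)) := by
  by_cases H : IsFiniteLength R N
  · exact T.lam_tensor hflat H
  · rw [← Module.length_ne_top_iff, not_not] at H
    rw [H, ENat.toENNReal_top, ENNReal.top_mul hpos, eq_top_iff]
    rw [Module.length_eq_top_iff_infiniteDimensionalOrder] at H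
    have key : ∀ (s : LTSeries (Submodule R N)) (i : ℕ) (hi : i < s.length + 1),
        (i : ℝ≥0∞) * T.lam (F ⊗[R] (R ⧸ IsLocalRing.maximalIdeal R)) ≤
          T.lam (F ⊗[R] (s ⟨i, hi⟩ : Submodule R N)) := by
      intro s i
      induction i with
      | zero => intro hi; simp
      | succ i ih =>
        intro hi
        have h1 := ih (by omega)
        have h2 := T.lam_tensor_lt hflat (s.step ⟨i, by omega⟩)
        push_cast
        rw [add_mul, one_mul]
        exact (add_le_add_left h1 _).trans h2
    have h3 : ∀ n : ℕ, (n : ℝ≥0∞) * T.lam (F ⊗[R] (R ⧸ IsLocalRing.maximalIdeal R)) ≤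
        T.lam (F ⊗[R] N) := by
      intro n
      have h4 := key (LTSeries.withLength (Submodule R N) n) n
        (by rw [LTSeries.length_withLength]; omega)
      refine h4.trans ?_
      exact T.lam_le_of_injective (TensorProduct.AlgebraTensorModule.lTensor A F
        (Submodule.subtype _))
        (Module.Flat.lTensor_preserves_injective_linearMap _ (Submodule.subtype_injective _))
    by_contra hlt
    rw [top_le_iff] at hlt
    obtain ⟨n, hn⟩ := ENNReal.exists_nat_mul_gt hpos hlt
    exact absurd (h3 n) (not_le.mpr hn)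

/-- any model `To` of `A ⊗_B S` -/
theorem lam_quot_pushout {B S To : Type*} [CommRing B] [CommRing S] [CommRing To] [Algebra B A]
    [Algebra B S] [Algebra S To] [Algebra B To] [Algebra A To] [IsScalarTower B S To]
    [IsScalarTower B A To] [Algebra.IsPushout B A S To] (I : Ideal S) :
    T.lam (To ⧸ I.map (algebraMap S To)) = T.lam (A ⊗[B] (S ⧸ I)) := by
  let e : A ⊗[B] S ≃ₐ[A] To := Algebra.IsPushout.equiv B A S To
  have he : ∀ x : S, e (Algebra.TensorProduct.includeRight x) = algebraMap S To x := by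
    intro x
    change e (1 ⊗ₜ x) = _
    rw [Algebra.IsPushout.equiv_tmul, map_one, one_mul]
  let φ : A ⊗[B] S →+* To := (e : A ⊗[B] S →+* To)
  let ψ : To →+* A ⊗[B] S := (e.symm : To →+* A ⊗[B] S)
  let J : Ideal (A ⊗[B] S) :=
    I.map (Algebra.TensorProduct.includeRight : S →ₐ[B] A ⊗[B] S)
  have h1 : J ≤ (I.map (algebraMap S To)).comap φ := by
    refine Ideal.map_le_iff_le_comap.mpr fun x hx => ?_
    change φ (Algebra.TensorProduct.includeRight x) ∈ I.map (algebraMap S To)
    have : φ (Algebra.TensorProduct.includeRight x) = algebraMap S To x := he x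
    rw [this]
    exact Ideal.mem_map_of_mem _ hx
  have h2 : I.map (algebraMap S To) ≤ J.comap ψ := by
    refine Ideal.map_le_iff_le_comap.mpr fun x hx => ?_
    change ψ (algebraMap S To x) ∈ J
    have : ψ (algebraMap S To x) = Algebra.TensorProduct.includeRight x := by
      change e.symm _ = _
      rw [← he x, AlgEquiv.symm_apply_apply]
    rw [this]
    exact Ideal.mem_map_of_mem _ hx
  have hmap : Submodule.map (e.toLinearEquiv : A ⊗[B] S →ₗ[A] To) (J.restrictScalars A) =
      (I.map (algebraMap S To)).restrictScalars A := by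
    ext y
    constructor
    · rintro ⟨x, hx, rfl⟩
      exact h1 hx
    · intro hy
      exact ⟨e.symm y, h2 hy, e.apply_symm_apply y⟩
  have E : ((A ⊗[B] S) ⧸ J) ≃ₗ[A] (To ⧸ I.map (algebraMap S To)) :=
    ((Submodule.Quotient.restrictScalarsEquiv A J).symm.trans
      (Submodule.Quotient.equiv _ _ e.toLinearEquiv hmap)).trans
      (Submodule.Quotient.restrictScalarsEquiv A (I.map (algebraMap S To)))
  rw [← T.lam_congr E]
  exact (T.lam_congr (Algebra.TensorProduct.tensorQuotientEquiv (R := B) A S A I).toLinearEquiv).symm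

end Crest.Agent.R183.Lam.Tower

namespace Crest.Agent.R183.BInf

open scoped ENNReal TensorProduct NNRat

variable {d : ℕ} (p : ℕ) {B : Type*} [CommRing B] (t : Fin d → B) (hp : 0 < p)
variable [IsNoetherianRing B] [IsLocalRing B]

/-- `λ(B_∞ ⊗_B N) = ℓ_B(N)` -/
theorem lam_tensor (ht : ∀ i, t i ∈ IsLocalRing.maximalIdeal B)
    (N : Type*) [AddCommGroup N] [Module B N] :
    (tower p t hp).lam (BInf p t ⊗[B] N) = ((Module.length B N : ℕ∞) : ℝ≥0∞) := by
  have h1 : (tower p t hp).lam (BInf p t ⊗[B] (B ⧸ IsLocalRing.maximalIdeal B)) = 1 := by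
    rw [← lam_residue p t hp (IsLocalRing.maximalIdeal B) inferInstance ht]
    exact ((tower p t hp).lam_congr
      (Algebra.TensorProduct.quotIdealMapEquivTensorQuot (BInf p t)
        (IsLocalRing.maximalIdeal B)).toLinearEquiv).symm
  rw [(tower p t hp).lam_tensor_all inferInstance (by rw [h1]; exact one_ne_zero), h1, mul_one]

section TForm

variable {T : Type*} [CommRing T] [IsLocalRing T] [Algebra B T]

/-- `λ(T_∞ / I T_∞) = ℓ_T(T/I)` for `T_∞ = B_∞ ⊗_B T`, `T` local with the same residue field -/
theorem lam_quot_tensor (ht : ∀ i, t i ∈ IsLocalRing.maximalIdeal B)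
    (hres : ∀ x : T, ∃ b : B, x - algebraMap B T b ∈ IsLocalRing.maximalIdeal T) (I : Ideal T) :
    (tower p t hp).lam ((BInf p t ⊗[B] T) ⧸
      I.map (Algebra.TensorProduct.includeRight : T →ₐ[B] BInf p t ⊗[B] T)) =
      ((Module.length T (T ⧸ I) : ℕ∞) : ℝ≥0∞) := by
  rw [← Lam.length_eq_of_isLocalRing hres (T ⧸ I), ← lam_tensor p t hp ht (T ⧸ I)]
  exact ((tower p t hp).lam_congr (Algebra.TensorProduct.tensorQuotientEquiv (R := B)
    (BInf p t) T (BInf p t) I).toLinearEquiv).symm

/-- the same for any model `To` of `B_∞ ⊗_B T` (form needed by `Core`) -/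
theorem L_quot_pushout {To : Type*} [CommRing To] [Algebra T To] [Algebra B To]
    [Algebra (BInf p t) To] [IsScalarTower B T To] [IsScalarTower B (BInf p t) To]
    [Algebra.IsPushout B (BInf p t) T To] (ht : ∀ i, t i ∈ IsLocalRing.maximalIdeal B)
    (hres : ∀ x : T, ∃ b : B, x - algebraMap B T b ∈ IsLocalRing.maximalIdeal T) (I : Ideal T) :
    ((AddLen.ofTower (tower p t hp)).restrict (algebraMap (BInf p t) To)).L
      (To ⧸ I.map (algebraMap T To)) = ((Module.length T (T ⧸ I) : ℕ∞) : ℝ≥0∞) := by
  rw [AddLen.restrict_L _ _ _ (fun a x => (algebraMap_smul To a x).symm), AddLen.ofTower_L,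
    ← Lam.length_eq_of_isLocalRing hres (T ⧸ I), ← lam_tensor p t hp ht (T ⧸ I)]
  exact (tower p t hp).lam_quot_pushout I

end TForm

end Crest.Agent.R183.BInf
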