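import Crest.Agent.R183.Om1
import Mathlib

/-!
R183 / Om3 : `π`-adic completion of a perfect ring `P` of characteristic `p`.
`IsCompl π ι` : `ι : P → C` is a `π`-adic completion.  If `P` is perfect, so is `C`.
-/

set_option autoImplicit false
set_option linter.unusedSectionVars false

namespace Crest.Agent.R183.Om

universe u v

/-- `ι : P → C` is a `π`-adic completion. -/
structure IsCompl {P : Type u} {C : Type v} [CommRing P] [CommRing C] (π : P) (ι : P →+* C) :
    Prop where
  dense : ∀ (m : ℕ) (c : C), ∃ a : P, ι π ^ m ∣ c - ι a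
  sat : ∀ (m : ℕ) (a : P), ι π ^ m ∣ ι a → π ^ m ∣ a
  complete : IsAdicComplete (Ideal.span {ι π}) C

namespace IsCompl

variable {P : Type u} {C : Type v} [CommRing P] [CommRing C] {π : P} {ι : P →+* C}

lemma sep (h : IsCompl π ι) {c : C} (hc : ∀ m : ℕ, ι π ^ m ∣ c) : c = 0 := by
  have := h.complete
  refine IsHausdorff.haus (I := Ideal.span {ι π}) inferInstance c fun n => ?_
  rw [SModEq.zero, smul_eq_mul, Ideal.mul_top, Ideal.span_singleton_pow,
    Ideal.mem_span_singleton]
  exact hc n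

lemma ser (h : IsCompl π ι) (w : ℕ → C) :
    ∃ s, ∀ n : ℕ, ι π ^ n ∣ s - ∑ i ∈ Finset.range n, ι π ^ i * w i := by
  have := h.complete
  exact exists_series _ w

lemma dvd_iff (h : IsCompl π ι) (m : ℕ) (a : P) : ι π ^ m ∣ ι a ↔ π ^ m ∣ a :=
  ⟨h.sat m a, fun ⟨b, hb⟩ => ⟨ι b, by rw [hb, map_mul, map_pow]⟩⟩

lemma reg (h : IsCompl π ι) (hπ : Reg π) : Reg (ι π) := by
  intro c hc
  refine h.sep fun m => ?_
  obtain ⟨a, d, hd⟩ := h.dense m c
  have h1 : ι π ^ (m + 1) ∣ ι (π * a) := by
    refine ⟨-d, ?_⟩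
    rw [map_mul]
    have : ι π * c = ι π * ι a + ι π * (ι π ^ m * d) := by rw [← hd]; ring
    rw [hc] at this
    linear_combination -this
  obtain ⟨b, hb⟩ := h.sat _ _ h1
  have h2 : a = π ^ m * b := by
    rw [← sub_eq_zero]
    apply hπ
    rw [pow_succ'] at hb
    linear_combination hb
  refine ⟨ι b + d, ?_⟩
  rw [h2, map_mul, map_pow] at hd
  linear_combination hd

lemma regMod (h : IsCompl π ι) {D : P} (hD : RegMod D π) : RegMod (ι D) (ι π) := by
  intro c hc
  obtain ⟨a, d, hd⟩ := h.dense 1 c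
  rw [pow_one] at hd
  have h1 : ι π ^ 1 ∣ ι (D * a) := by
    rw [pow_one, map_mul]
    have : ι D * ι a = ι D * c - ι π * (ι D * d) := by linear_combination -ι D * hd
    rw [this]
    exact dvd_sub hc (dvd_mul_right _ _)
  have h2 := hD a (by simpa using h.sat _ _ h1)
  obtain ⟨b, hb⟩ := h2
  exact ⟨ι b + d, by rw [hb, map_mul] at hd; linear_combination hd⟩

lemma mem_jacobson (h : IsCompl π ι) : ι π ∈ (⊥ : Ideal C).jacobson := by
  have := h.complete
  exact IsAdicComplete.le_jacobson_bot (Ideal.span {ι π}) (Ideal.mem_span_singleton_self _)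

lemma isUnit_iff (h : IsCompl π ι) : IsUnit (ι π) ↔ IsUnit π := by
  constructor
  · intro hu
    have : ι π ^ 1 ∣ ι 1 := by rw [pow_one]; exact hu.dvd
    have := h.sat 1 1 this
    rw [pow_one] at this
    exact isUnit_of_dvd_one this
  · exact fun hu => hu.map ι

lemma charP (h : IsCompl π ι) {p : ℕ} [hp : Fact p.Prime] [CharP P p] (hu : ¬ IsUnit π) :
    CharP C p := by
  have : Nontrivial C := by
    by_contra hn
    rw [not_nontrivial_iff_subsingleton] at hn
    exact hu (h.isUnit_iff.1 (isUnit_of_subsingleton _))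
  rw [CharP.charP_iff_prime_eq_zero hp.out]
  have : ι (p : P) = 0 := by rw [CharP.cast_eq_zero, map_zero]
  rwa [map_natCast] at this

lemma perfectRing (h : IsCompl π ι) {p : ℕ} [hp : Fact p.Prime] [CharP P p] [PerfectRing P p]
    [CharP C p] : PerfectRing C p := by
  constructor
  constructor
  · show Function.Injective (frobenius C p)
    rw [injective_iff_map_eq_zero]
    intro c hc
    rw [frobenius_def] at hc
    refine h.sep fun m => ?_
    obtain ⟨a, d, hd⟩ := h.dense m c
    have h1 : ι π ^ (m * p) ∣ ι (a ^ p) := by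
      refine ⟨-d ^ p, ?_⟩
      have h2 : c = ι a + ι π ^ m * d := by rw [← hd]; ring
      have h3 : (ι a + ι π ^ m * d) ^ p = ι a ^ p + (ι π ^ m * d) ^ p := add_pow_char _ _ _
      rw [← h2, hc, mul_pow, ← pow_mul] at h3
      rw [map_pow]
      linear_combination -h3
    obtain ⟨b, hb⟩ := h.sat _ _ h1
    obtain ⟨b', rfl⟩ := exists_root p b
    have h2 : a = π ^ m * b' := pow_inj p (by rw [hb, mul_pow, pow_mul])
    refine ⟨ι b' + d, ?_⟩
    rw [h2, map_mul, map_pow] at hd
    linear_combination hd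
  · intro c
    -- digits
    have key : ∀ c : C, ∃ (b : P) (d : C), c = ι b ^ p + ι π ^ p * d := by
      intro c
      obtain ⟨a, d, hd⟩ := h.dense p c
      obtain ⟨b, rfl⟩ := exists_root p a
      exact ⟨b, d, by rw [map_pow] at hd; linear_combination hd⟩
    choose b d hbd using key
    let cs : ℕ → C := fun n => d^[n] c
    have hcs : ∀ n, cs n = ι (b (cs n)) ^ p + ι π ^ p * cs (n + 1) := by
      intro n
      have : cs (n + 1) = d (cs n) := Function.iterate_succ_apply' d n c
      rw [this]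
      exact hbd (cs n)
    obtain ⟨s, hs⟩ := h.ser fun n => ι (b (cs n))
    refine ⟨s, ?_⟩
    show s ^ p = c
    rw [← sub_eq_zero]
    refine h.sep fun m => ?_
    obtain ⟨t, ht⟩ := hs m
    have e1 : s = (∑ i ∈ Finset.range m, ι π ^ i * ι (b (cs i))) + ι π ^ m * t := by
      rw [← ht]; ring
    have e2 : s ^ p = (∑ i ∈ Finset.range m, (ι π ^ i * ι (b (cs i))) ^ p) +
        (ι π ^ m * t) ^ p := by
      conv_lhs => rw [e1]
      rw [add_pow_char, sum_pow_char]
    have e3 : c = (∑ i ∈ Finset.range m, (ι π ^ i * ι (b (cs i))) ^ p) +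
        (ι π ^ m) ^ p * cs m := by
      clear ht e1 e2 hs
      induction m with
      | zero => simp [cs]
      | succ m ih =>
        rw [Finset.sum_range_succ, ih]
        conv_lhs => rw [hcs m]
        simp only [mul_pow]
        ring
    refine ⟨(ι π ^ m) ^ (p - 1) * (t ^ p - cs m), ?_⟩
    obtain ⟨k, hk⟩ : ∃ k, p = k + 1 := ⟨p - 1, by have := hp.out.pos; omega⟩
    have e4 : s ^ p - c = (ι π ^ m) ^ p * (t ^ p - cs m) := by
      rw [e2, e3, mul_pow]
      conv_lhs => enter [2]; rw [← e3]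
      rw [e3]; ring
    rw [e4]
    have e5 : (ι π ^ m) ^ p = ι π ^ m * (ι π ^ m) ^ (p - 1) := by
      rw [← pow_succ', Nat.sub_add_cancel hp.out.pos]
    rw [e5, mul_assoc]

end IsCompl

open AdicCompletion in
lemma ker_evalₐ_eq_map' {R : Type*} [CommRing R] (I : Ideal R) (hI : I.FG) (n : ℕ) :
    RingHom.ker (evalₐ I n).toRingHom = (I ^ n).map (algebraMap R (AdicCompletion I R)) := by
  ext x
  trans x ∈ (AdicCompletion.eval I R n).ker
  · have eq : I ^ n * ⊤ = I ^ n := by simp
    have : Function.Injective (Ideal.Quotient.factor ((le_of_eq eq))) := by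
      simpa [RingHom.injective_iff_ker_eq_bot, Ideal.Quotient.factor_ker]
        using Ideal.map_mk_eq_bot_of_le (le_of_eq eq.symm)
    simpa [← factor_eval_eq_evalₐ] using map_eq_zero_iff _ this
  · simp [← pow_smul_top_eq_ker_eval hI]

/-- existence of the completion -/
theorem exists_isCompl {P : Type u} [CommRing P] (π : P) :
    ∃ (C : Type u) (_ : CommRing C) (ι : P →+* C), IsCompl π ι := by
  have hfg : (Ideal.span {π}).FG := ⟨{π}, by simp⟩
  have hk : ∀ (m : ℕ) (c : AdicCompletion (Ideal.span {π}) P),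
      AdicCompletion.evalₐ (Ideal.span {π}) m c = 0 ↔
        (algebraMap P (AdicCompletion (Ideal.span {π}) P) π) ^ m ∣ c := by
    intro m c
    have h1 := ker_evalₐ_eq_map' (Ideal.span {π}) hfg m
    have h2 : Ideal.map (algebraMap P (AdicCompletion (Ideal.span {π}) P)) (Ideal.span {π} ^ m) =
        Ideal.span {(algebraMap P (AdicCompletion (Ideal.span {π}) P) π) ^ m} := by
      rw [Ideal.span_singleton_pow, Ideal.map_span, Set.image_singleton, map_pow]
    rw [← Ideal.mem_span_singleton, ← h2, ← h1, RingHom.mem_ker]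
    rfl
  have hev : ∀ (m : ℕ) (a : P), AdicCompletion.evalₐ (Ideal.span {π}) m
      (algebraMap P (AdicCompletion (Ideal.span {π}) P) a) = Ideal.Quotient.mk _ a := by
    intro m a
    rw [AlgHom.commutes]; rfl
  refine ⟨AdicCompletion (Ideal.span {π}) P, inferInstance, algebraMap P _, ?_, ?_, ?_⟩
  · intro m c
    obtain ⟨a, ha⟩ := Ideal.Quotient.mk_surjective (AdicCompletion.evalₐ (Ideal.span {π}) m c)
    refine ⟨a, ?_⟩
    rw [← hk, map_sub, hev, ha, sub_self]
  · intro m a h
    rw [← hk, hev, Ideal.Quotient.eq_zero_iff_mem, Ideal.span_singleton_pow,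
      Ideal.mem_span_singleton] at h
    exact h
  · have := AdicCompletion.isAdicComplete_self (Ideal.span {π}) hfg
    rwa [Ideal.map_span, Set.image_singleton] at this

/-- Completion of a perfect ring. -/
theorem exists_perfect_compl {P : Type u} [CommRing P] {p : ℕ} [Fact p.Prime] [CharP P p]
    [PerfectRing P p] {π : P} (hπ : Reg π) (hu : ¬ IsUnit π) :
    ∃ (C : Type u) (_ : CommRing C) (_ : CharP C p) (_ : PerfectRing C p) (ι : P →+* C),
      IsCompl π ι ∧ Reg (ι π) ∧ ¬ IsUnit (ι π) ∧ ι π ∈ (⊥ : Ideal C).jacobson ∧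
      (∀ D : P, RegMod D π → RegMod (ι D) (ι π)) := by
  obtain ⟨C, _, ι, h⟩ := exists_isCompl π
  have := h.charP (p := p) hu
  have := h.perfectRing (p := p)
  exact ⟨C, inferInstance, inferInstance, inferInstance, ι, h, h.reg hπ,
    fun h' => hu (h.isUnit_iff.1 h'), h.mem_jacobson, fun D hD => h.regMod hD⟩

end Crest.Agent.R183.Om
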