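import Crest.Agent.R183.Om2
import Crest.Agent.R183.Om3

/-!
R183 / Om4 : integral perfectoid rings.  `PData p R ϖ` (Frobenius `R/p^{1/p} → R/p` bijective,
`ϖ e = p^{1/p^e}`); completion; tilting: every `p`-complete such `R` is `W(P)/(p - [π])`.
-/

set_option autoImplicit false
set_option linter.unusedSectionVars false

namespace Crest.Agent.R183.Om

open WittVector Crest.Agent.R183.Amp

/-- `π` is regular up to `π`-divisible elements. -/
def WReg {R : Type*} [CommRing R] (π : R) : Prop := ∀ (m : ℕ) (a : R), π ^ (m + 1) ∣ π * a → π ^ m ∣ a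

lemma Reg.wreg {R : Type*} [CommRing R] {π : R} (h : Reg π) : WReg π := by
  rintro m a ⟨b, hb⟩
  refine ⟨b, ?_⟩
  rw [← sub_eq_zero]
  apply h
  rw [mul_sub, hb]
  ring

/-- integral perfectoid data -/
structure PData (p : ℕ) (R : Type*) [CommRing R] (ϖ : ℕ → R) : Prop where
  zero : ϖ 0 = p
  roots : ∀ e, ϖ (e + 1) ^ p = ϖ e
  wreg : WReg (p : R)
  fsurj : ∀ x : R, ∃ y, (p : R) ∣ x - y ^ p
  finj : ∀ x : R, (p : R) ∣ x ^ p → ϖ 1 ∣ x

lemma IsCompl.reg' {P C : Type*} [CommRing P] [CommRing C] {π : P} {ι : P →+* C}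
    (h : IsCompl π ι) (hπ : WReg π) : Reg (ι π) := by
  intro c hc
  refine h.sep fun m => ?_
  obtain ⟨a, d, hd⟩ := h.dense m c
  have h1 : ι π ^ (m + 1) ∣ ι (π * a) := by
    refine ⟨-d, ?_⟩
    rw [map_mul]
    have : ι π * c = ι π * ι a + ι π * (ι π ^ m * d) := by rw [← hd]; ring
    rw [hc] at this
    linear_combination -this
  obtain ⟨b, hb⟩ := hπ _ _ (h.sat _ _ h1)
  refine ⟨ι b + d, ?_⟩
  rw [hb, map_mul, map_pow] at hd
  linear_combination hd

/-- perfectoid data pass to the `p`-adic completion -/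
theorem PData.completion {p : ℕ} [Fact p.Prime] {R C : Type*} [CommRing R] [CommRing C] {ϖ : ℕ → R}
    (d : PData p R ϖ) {ι : R →+* C} (h : IsCompl (p : R) ι) :
    PData p C (fun e => ι (ϖ e)) ∧ Reg (p : C) := by
  have hp0 : ι (p : R) = (p : C) := map_natCast ι p
  have hreg : Reg (p : C) := by
    have := h.reg' d.wreg
    rwa [hp0] at this
  refine ⟨⟨by rw [d.zero, hp0], fun e => by rw [← map_pow, d.roots], hreg.wreg, ?_, ?_⟩, hreg⟩
  · intro c
    obtain ⟨a, t, ht⟩ := h.dense 1 c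
    obtain ⟨y, z, hz⟩ := d.fsurj a
    refine ⟨ι y, t + ι z, ?_⟩
    have : ι a - ι y ^ p = p * ι z := by
      rw [← map_pow, ← map_sub, hz, map_mul, hp0]
    rw [pow_one, hp0] at ht
    linear_combination this + ht
  · intro c hc
    obtain ⟨a, t, ht⟩ := h.dense 1 c
    rw [pow_one, hp0] at ht
    have h1 : ι (p : R) ^ 1 ∣ ι (a ^ p) := by
      rw [pow_one, hp0, map_pow]
      have h2 : (p : C) ∣ c ^ p - ι a ^ p :=
        (Dvd.intro _ ht.symm).trans (sub_dvd_pow_sub_pow _ _ _)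
      have h3 : ι a ^ p = c ^ p - (c ^ p - ι a ^ p) := by ring
      rw [h3]
      exact dvd_sub hc h2
    have h2 := d.finj a (by simpa using h.sat _ _ h1)
    have h3 : ι (ϖ 1) ∣ (p : C) := by
      rw [← hp0, ← d.zero, ← d.roots 0, map_pow]
      exact dvd_pow_self _ (Fact.out : p.Prime).ne_zero
    have h4 : c = ι a + p * t := by rw [← ht]; ring
    rw [h4]
    exact dvd_add (map_dvd ι h2) (h3.mul_right _)

section Tilt

variable {p : ℕ} [hp : Fact p.Prime] {R : Type*} [CommRing R] {ϖ : ℕ → R}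

namespace PData

lemma roots' (d : PData p R ϖ) (e i : ℕ) : ϖ (e + i) ^ p ^ i = ϖ e := by
  induction i with
  | zero => simp
  | succ i ih => rw [pow_succ', pow_mul, ← add_assoc, d.roots, ih]

lemma pow_eq_p (d : PData p R ϖ) (n : ℕ) : ϖ n ^ p ^ n = p := by
  have := d.roots' 0 n
  rwa [zero_add, d.zero] at this

lemma reg_ϖ (d : PData p R ϖ) (hr : Reg (p : R)) (n : ℕ) : Reg (ϖ n) := by
  intro x hx
  apply hr
  obtain ⟨k, hk⟩ : ∃ k, p ^ n = k + 1 := ⟨p ^ n - 1, by have := pow_pos hp.out.pos n; omega⟩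
  rw [← d.pow_eq_p n, hk, pow_succ, mul_assoc, hx, mul_zero]

lemma reg_pow (d : PData p R ϖ) (hr : Reg (p : R)) (n k : ℕ) : Reg (ϖ n ^ k) := by
  induction k with
  | zero => intro x hx; simpa using hx
  | succ k ih =>
    intro x hx
    rw [pow_succ, mul_assoc] at hx
    exact d.reg_ϖ hr n _ (ih _ hx)

/-- `ϖ_e ∣ x^p → ϖ_{e+1} ∣ x` -/
lemma finj' (d : PData p R ϖ) (hr : Reg (p : R)) (e : ℕ) {x : R} (h : ϖ e ∣ x ^ p) :
    ϖ (e + 1) ∣ x := by
  obtain ⟨k, hk⟩ : ∃ k, p ^ e = k + 1 := ⟨p ^ e - 1, by have := pow_pos hp.out.pos e; omega⟩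
  have h1 : (p : R) ∣ (x * ϖ (e + 1) ^ k) ^ p := by
    rw [mul_pow, ← pow_mul, mul_comm k p, pow_mul, d.roots, ← d.pow_eq_p e, hk, pow_succ']
    exact mul_dvd_mul_right h _
  obtain ⟨z, hz⟩ := d.finj _ h1
  refine ⟨z, ?_⟩
  rw [← sub_eq_zero]
  apply d.reg_pow hr (e + 1) k
  have h2 : ϖ 1 = ϖ (e + 1) ^ (k + 1) := by
    rw [← hk, add_comm e 1, d.roots']
  rw [h2] at hz
  linear_combination hz

lemma finj_iter (d : PData p R ϖ) (hr : Reg (p : R)) (n : ℕ) {x : R} (h : (p : R) ∣ x ^ p ^ n) :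
    ϖ n ∣ x := by
  have key : ∀ (i : ℕ), i ≤ n → ϖ i ∣ x ^ p ^ (n - i) := by
    intro i
    induction i with
    | zero => intro _; rw [d.zero]; exact h
    | succ i ih =>
      intro hi
      have h1 := ih (by omega)
      have h2 : n - i = (n - (i + 1)) + 1 := by omega
      rw [h2, pow_succ, pow_mul] at h1
      exact d.finj' hr i h1
  simpa using key n le_rfl

/-- `p ∣ ϖ_n^k y`, `k ≤ p^n` implies `ϖ_n^(p^n - k) ∣ y` -/
lemma dvd_of_mul (d : PData p R ϖ) (hr : Reg (p : R)) (n k l : ℕ) (hkl : k + l = p ^ n) {y : R}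
    (h : (p : R) ∣ ϖ n ^ k * y) : ϖ n ^ l ∣ y := by
  obtain ⟨z, hz⟩ := h
  refine ⟨z, ?_⟩
  rw [← sub_eq_zero]
  apply d.reg_pow hr n k
  rw [← d.pow_eq_p n, ← hkl, pow_add] at hz
  linear_combination hz

end PData

variable [Fact ¬IsUnit (p : R)] [IsAdicComplete (Ideal.span {(p : R)}) R]

/-- the element of the tilt given by a compatible system of roots (only needed modulo `p`) -/
noncomputable def tilt (r : ℕ → R) (h : ∀ n, (p : R) ∣ r (n + 1) ^ p - r n) : PreTilt R p :=
  (⟨fun n => Ideal.Quotient.mk _ (r n), fun n => by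
    rw [← map_pow, Ideal.Quotient.mk_eq_mk_iff_sub_mem, Ideal.mem_span_singleton]
    exact h n⟩ : Perfection (ModP R p) p)

lemma coeff_tilt (r : ℕ → R) (h : ∀ n, (p : R) ∣ r (n + 1) ^ p - r n) (n : ℕ) :
    PreTilt.coeff n (tilt r h) = Ideal.Quotient.mk _ (r n) := rfl

lemma exists_lift_tilt (f : PreTilt R p) :
    ∃ (r : ℕ → R) (h : ∀ n, (p : R) ∣ r (n + 1) ^ p - r n), f = tilt r h := by
  choose r hr using fun n => Ideal.Quotient.mk_surjective (PreTilt.coeff n f)
  have h : ∀ n, (p : R) ∣ r (n + 1) ^ p - r n := by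
    intro n
    rw [← Ideal.mem_span_singleton, ← Ideal.Quotient.mk_eq_mk_iff_sub_mem, map_pow, hr, hr]
    exact PreTilt.coeff_pow_p f n
  refine ⟨r, h, ?_⟩
  apply Perfection.ext
  intro n
  exact (hr n).symm

omit [IsAdicComplete (Ideal.span {(p : R)}) R] in
lemma PreTilt_ext {f g : PreTilt R p} (h : ∀ n, PreTilt.coeff n f = PreTilt.coeff n g) : f = g :=
  Perfection.ext h

omit [IsAdicComplete (Ideal.span {(p : R)}) R] in
lemma mk_eq_zero_iff {x : R} : (Ideal.Quotient.mk _ x : ModP R p) = 0 ↔ (p : R) ∣ x := by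
  show (Ideal.Quotient.mk (Ideal.span {(p : R)}) x) = 0 ↔ _
  rw [Ideal.Quotient.eq_zero_iff_mem, Ideal.mem_span_singleton]

lemma tilt_eq_iff {r s : ℕ → R} {hr : ∀ n, (p : R) ∣ r (n + 1) ^ p - r n}
    {hs : ∀ n, (p : R) ∣ s (n + 1) ^ p - s n} : tilt r hr = tilt s hs ↔ ∀ n, (p : R) ∣ r n - s n := by
  constructor
  · intro h n
    have := congrArg (PreTilt.coeff n) h
    rw [coeff_tilt, coeff_tilt, ← sub_eq_zero, ← map_sub, mk_eq_zero_iff] at this
    exact this
  · intro h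
    apply PreTilt_ext
    intro n
    rw [coeff_tilt, coeff_tilt, ← sub_eq_zero, ← map_sub, mk_eq_zero_iff]
    exact h n

/-- `untilt` of a genuine root system -/
lemma untilt_tilt (r : ℕ → R) (h : ∀ n, r (n + 1) ^ p = r n) :
    (tilt (p := p) r (fun n => by rw [h, sub_self]; exact dvd_zero _)).untilt = r 0 := by
  apply Perfection.teichmuller_spec
  intro n
  refine ⟨r n, rfl, ?_⟩
  have : r n ^ p ^ n = r 0 := by
    induction n with
    | zero => simp
    | succ n ih => rw [pow_succ', pow_mul, h, ih]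
  rw [this]

lemma frobenius_tilt (r : ℕ → R) (h : ∀ n, r (n + 1) ^ p = r n) :
    (tilt (p := p) (fun n => r (n + 1)) (fun n => by rw [h, sub_self]; exact dvd_zero _)) ^ p =
      tilt (p := p) r (fun n => by rw [h, sub_self]; exact dvd_zero _) := by
  apply PreTilt_ext
  intro n
  rw [map_pow, coeff_tilt, coeff_tilt, ← map_pow, h]

lemma rt_tilt (r : ℕ → R) (h : ∀ n, r (n + 1) ^ p = r n) (e : ℕ) :
    rt (p := p) e (tilt (p := p) r (fun n => by rw [h, sub_self]; exact dvd_zero _)) =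
      tilt (p := p) (fun n => r (n + e)) (fun n => by
        rw [show n + 1 + e = (n + e) + 1 by ring, h, sub_self]; exact dvd_zero _) := by
  induction e with
  | zero => rw [rt_zero]; rfl
  | succ e ih =>
    apply pow_inj p
    rw [rt_succ_pow, ih]
    have := frobenius_tilt (p := p) (fun n => r (n + e)) (fun n => by
      show r (n + 1 + e) ^ p = r (n + e)
      rw [show n + 1 + e = (n + e) + 1 by ring, h])
    rw [← this]
    congr 1
    rw [tilt_eq_iff]
    intro n
    show (p : R) ∣ r (n + 1 + e) - r (n + (e + 1))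
    rw [show n + 1 + e = n + (e + 1) by ring, sub_self]
    exact dvd_zero _

/-- `p^♭` -/
noncomputable def piTilt (d : PData p R ϖ) : PreTilt R p :=
  tilt ϖ (fun n => by rw [d.roots, sub_self]; exact dvd_zero _)

lemma coeff_piTilt (d : PData p R ϖ) (n : ℕ) :
    PreTilt.coeff n (piTilt d) = Ideal.Quotient.mk _ (ϖ n) := rfl

lemma sh_rt_tilt (r : ℕ → R) (h : ∀ n, r (n + 1) ^ p = r n) (e : ℕ) :
    sh (fontaineTheta R p) (rt (p := p) e (tilt (p := p) r
      (fun n => by rw [h, sub_self]; exact dvd_zero _))) = r e := by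
  rw [rt_tilt r h, sh, fontaineTheta_teichmuller]
  have := untilt_tilt (p := p) (fun n => r (n + e)) (fun n => by
      show r (n + 1 + e) ^ p = r (n + e)
      rw [show n + 1 + e = (n + e) + 1 by ring, h])
  rw [this, zero_add]

/-- compatible root systems are sharps -/
lemma exists_sh_eq (r : ℕ → R) (h : ∀ n, r (n + 1) ^ p = r n) :
    ∃ a : PreTilt R p, ∀ e, sh (fontaineTheta R p) (rt (p := p) e a) = r e :=
  ⟨_, fun e => sh_rt_tilt r h e⟩

lemma sh_rt_pi (d : PData p R ϖ) (e : ℕ) :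
    sh (fontaineTheta R p) (rt (p := p) e (piTilt d)) = ϖ e :=
  sh_rt_tilt ϖ d.roots e

lemma dvd_pow_sub (r : ℕ → R) (h : ∀ n, (p : R) ∣ r (n + 1) ^ p - r n) (n : ℕ) :
    (p : R) ∣ r n ^ p ^ n - r 0 := by
  induction n with
  | zero => simp
  | succ n ih =>
    have h1 : (p : R) ∣ (r (n + 1) ^ p) ^ p ^ n - r n ^ p ^ n :=
      (h n).trans (sub_dvd_pow_sub_pow _ _ _)
    rw [pow_succ', pow_mul]
    have := dvd_add h1 ih
    rwa [sub_add_sub_cancel] at this

/-- `(a + t)^p ≡ a^p + t^p` modulo `p`. -/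
lemma dvd_frob (a b : R) : (p : R) ∣ a ^ p - b ^ p - (a - b) ^ p := by
  rw [← mk_eq_zero_iff (p := p)]
  rw [map_sub, map_sub, map_pow, map_pow, map_pow, map_sub]
  rw [sub_pow_char, sub_self]

/-- the kernel of `P → R/p` is `(π)` -/
lemma pi_dvd_of_coeff_zero (d : PData p R ϖ) (hr : Reg (p : R)) {f : PreTilt R p}
    (hf : PreTilt.coeff 0 f = 0) : piTilt d ∣ f := by
  obtain ⟨r, h, rfl⟩ := exists_lift_tilt f
  rw [coeff_tilt, mk_eq_zero_iff] at hf
  have h1 : ∀ n, ϖ n ∣ r n := by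
    intro n
    refine d.finj_iter hr n ?_
    have := dvd_add (dvd_pow_sub r h n) hf
    rwa [sub_add_cancel] at this
  choose g hg using h1
  have h2 : ∀ n, ϖ n ^ (p ^ n - 1) ∣ g (n + 1) ^ p - g n := by
    intro n
    refine d.dvd_of_mul hr n 1 _ (by have := pow_pos hp.out.pos n; omega) ?_
    have := h n
    rw [hg (n + 1), hg n, mul_pow, d.roots] at this
    rwa [pow_one, mul_sub]
  have h3 : ∀ n, (p : R) ∣ (g (n + 2) ^ p) ^ p - g (n + 1) ^ p := by
    intro n
    obtain ⟨t, ht⟩ := h2 (n + 1)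
    have h4 : (p : R) ∣ (g (n + 2) ^ p - g (n + 1)) ^ p := by
      rw [ht, mul_pow, ← pow_mul, mul_comm (p ^ (n + 1) - 1) p, pow_mul, d.roots]
      refine Dvd.dvd.mul_right ?_ _
      have h5 : p ^ n ≤ p ^ (n + 1) - 1 := by
        have h6 : 2 * p ^ n ≤ p ^ (n + 1) := by
          rw [pow_succ']; exact Nat.mul_le_mul_right _ hp.out.two_le
        have := pow_pos hp.out.pos n
        omega
      rw [← d.pow_eq_p n]
      exact pow_dvd_pow _ h5
    have := dvd_add (dvd_frob (p := p) (g (n + 2) ^ p) (g (n + 1))) h4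
    rwa [sub_add_cancel] at this
  refine ⟨tilt (fun n => g (n + 1) ^ p) h3, ?_⟩
  apply PreTilt_ext
  intro n
  rw [map_mul, coeff_piTilt, coeff_tilt, coeff_tilt, ← map_mul, ← sub_eq_zero, ← map_sub,
    mk_eq_zero_iff, hg n, ← mul_sub]
  obtain ⟨t, ht⟩ := h2 n
  refine ⟨-t, ?_⟩
  have h7 : (p : R) = ϖ n * ϖ n ^ (p ^ n - 1) := by
    rw [← pow_succ', Nat.sub_add_cancel (pow_pos hp.out.pos n), d.pow_eq_p]
  rw [h7]
  linear_combination -ϖ n * ht

lemma reg_piTilt (d : PData p R ϖ) (hr : Reg (p : R)) : Reg (piTilt d) := by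
  intro f hf
  obtain ⟨r, h, rfl⟩ := exists_lift_tilt f
  have h1 : ∀ n, ϖ n ^ (p ^ n - 1) ∣ r n := by
    intro n
    refine d.dvd_of_mul hr n 1 _ (by have := pow_pos hp.out.pos n; omega) ?_
    have := congrArg (PreTilt.coeff n) hf
    rw [map_mul, coeff_piTilt, coeff_tilt, ← map_mul, map_zero, mk_eq_zero_iff] at this
    rwa [pow_one]
  apply PreTilt_ext
  intro n
  rw [coeff_tilt, map_zero, mk_eq_zero_iff]
  obtain ⟨t, ht⟩ := h1 (n + 1)
  have h4 : (p : R) ∣ r (n + 1) ^ p := by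
    rw [ht, mul_pow, ← pow_mul, mul_comm (p ^ (n + 1) - 1) p, pow_mul, d.roots]
    refine Dvd.dvd.mul_right ?_ _
    have h5 : p ^ n ≤ p ^ (n + 1) - 1 := by
      have h6 : 2 * p ^ n ≤ p ^ (n + 1) := by
        rw [pow_succ']; exact Nat.mul_le_mul_right _ hp.out.two_le
      have := pow_pos hp.out.pos n
      omega
    rw [← d.pow_eq_p n]
    exact pow_dvd_pow _ h5
  have := dvd_sub h4 (h n)
  rwa [sub_sub_cancel] at this

lemma mk_ϖ_pow (d : PData p R ϖ) {n i : ℕ} (hi : p ^ n ≤ i) :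
    (Ideal.Quotient.mk _ (ϖ n) : ModP R p) ^ i = 0 := by
  rw [← map_pow, mk_eq_zero_iff, ← d.pow_eq_p n]
  exact pow_dvd_pow _ hi

/-- partial sums in `R/p` -/
lemma sum_trunc (d : PData p R ϖ) (n M : ℕ) (hM : p ^ n ≤ M) (a : ℕ → ModP R p) :
    ∑ i ∈ Finset.range M, (Ideal.Quotient.mk _ (ϖ n) : ModP R p) ^ i * a i =
      ∑ i ∈ Finset.range (p ^ n), (Ideal.Quotient.mk _ (ϖ n) : ModP R p) ^ i * a i := by
  obtain ⟨k, rfl⟩ := Nat.exists_eq_add_of_le hM
  rw [Finset.sum_range_add, add_eq_left]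
  refine Finset.sum_eq_zero fun i _ => ?_
  rw [mk_ϖ_pow d (Nat.le_add_right _ _), zero_mul]

/-- the sum of a series in the tilt -/
noncomputable def tsum (d : PData p R ϖ) (u : ℕ → PreTilt R p) : PreTilt R p :=
  (⟨fun n => ∑ i ∈ Finset.range (p ^ n),
      (Ideal.Quotient.mk _ (ϖ n) : ModP R p) ^ i * PreTilt.coeff n (u i), fun n => by
    rw [sum_pow_char]
    have h1 : ∀ i ∈ Finset.range (p ^ (n + 1)),
        ((Ideal.Quotient.mk _ (ϖ (n + 1)) : ModP R p) ^ i * PreTilt.coeff (n + 1) (u i)) ^ p =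
          (Ideal.Quotient.mk _ (ϖ n) : ModP R p) ^ i * PreTilt.coeff n (u i) := by
      intro i _
      rw [mul_pow, PreTilt.coeff_pow_p, ← pow_mul, mul_comm i p, pow_mul, ← map_pow, d.roots]
    rw [Finset.sum_congr rfl h1]
    exact sum_trunc d n _ (Nat.pow_le_pow_right hp.out.pos (Nat.le_succ n)) _⟩ :
    Perfection (ModP R p) p)

lemma coeff_tsum (d : PData p R ϖ) (u : ℕ → PreTilt R p) (n : ℕ) :
    PreTilt.coeff n (tsum d u) = ∑ i ∈ Finset.range (p ^ n),
      (Ideal.Quotient.mk _ (ϖ n) : ModP R p) ^ i * PreTilt.coeff n (u i) := rfl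

theorem isAdicComplete_tilt (d : PData p R ϖ) :
    IsAdicComplete (Ideal.span {piTilt d}) (PreTilt R p) := by
  refine isAdicComplete_of_series (piTilt d) ?_ ?_
  · intro f hf
    apply PreTilt_ext
    intro n
    obtain ⟨g, rfl⟩ := hf (p ^ n)
    rw [map_mul, map_pow, coeff_piTilt, mk_ϖ_pow d le_rfl, zero_mul, map_zero]
  · intro u
    refine ⟨tsum d u, fun m => ⟨tsum d fun i => u (m + i), ?_⟩⟩
    apply PreTilt_ext
    intro n
    rw [map_sub, map_mul, map_pow, coeff_piTilt, coeff_tsum, coeff_tsum, map_sum]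
    rw [← sum_trunc d n (m + p ^ n) (Nat.le_add_left _ _), Finset.sum_range_add]
    have h1 : ∑ i ∈ Finset.range m, PreTilt.coeff n (piTilt d ^ i * u i) =
        ∑ i ∈ Finset.range m, (Ideal.Quotient.mk _ (ϖ n) : ModP R p) ^ i *
          PreTilt.coeff n (u i) := by
      refine Finset.sum_congr rfl fun i _ => ?_
      rw [map_mul, map_pow, coeff_piTilt]
    rw [h1, add_sub_cancel_left, Finset.mul_sum]
    refine Finset.sum_congr rfl fun i _ => ?_
    rw [pow_add, mul_assoc]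

/-- **Tilting**: the kernel of `θ` is generated by `p - [p^♭]`. -/
theorem ker_fontaineTheta (d : PData p R ϖ) (hr : Reg (p : R)) :
    RingHom.ker (fontaineTheta R p) = Ideal.span {xi 1 (piTilt d)} := by
  have hxi : fontaineTheta R p (xi 1 (piTilt d)) = 0 := by
    rw [xi, mul_one, map_sub, map_natCast]
    have := sh_rt_pi d 0
    rw [rt_zero, sh, d.zero] at this
    rw [this, sub_self]
  apply le_antisymm
  · intro x hx
    rw [RingHom.mem_ker] at hx
    have key : ∀ x : WittVector p (PreTilt R p), fontaineTheta R p x = 0 →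
        ∃ y x', x = xi 1 (piTilt d) * y + (p : WittVector p (PreTilt R p)) * x' ∧
          fontaineTheta R p x' = 0 := by
      intro x hx
      have h1 : PreTilt.coeff 0 (x.coeff 0) = 0 := by
        rw [← mk_fontaineTheta, hx, map_zero]
      obtain ⟨b, hb⟩ := pi_dvd_of_coeff_zero d hr h1
      have h2 : constantCoeff (x - xi 1 (piTilt d) * teichmuller p (-b)) = 0 := by
        rw [map_sub, map_mul, constCoeff_xi, constCoeff_teich]
        have : constantCoeff x = x.coeff 0 := rfl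
        rw [this, hb]; ring
      obtain ⟨x', hx'⟩ := dvd_p_of_coeff_zero h2
      refine ⟨teichmuller p (-b), x', by linear_combination hx', ?_⟩
      apply hr
      have := congrArg (fontaineTheta R p) hx'
      rw [map_sub, map_mul, hx, hxi, zero_mul, sub_zero, map_mul, map_natCast] at this
      exact this.symm
    choose! y x' hyx hx' using key
    let xs : ℕ → WittVector p (PreTilt R p) := fun n => x'^[n] x
    have hxs : ∀ n, xs (n + 1) = x' (xs n) := fun n => Function.iterate_succ_apply' x' n x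
    have h0 : ∀ n, fontaineTheta R p (xs n) = 0 := by
      intro n
      induction n with
      | zero => exact hx
      | succ n ih => rw [hxs]; exact hx' _ ih
    obtain ⟨s, hs⟩ := exists_series (p : WittVector p (PreTilt R p)) fun n => y (xs n)
    rw [Ideal.mem_span_singleton]
    refine ⟨s, ?_⟩
    rw [← sub_eq_zero]
    refine W_sep fun n => ?_
    have h3 : x = xi 1 (piTilt d) * (∑ i ∈ Finset.range n, (p : WittVector p (PreTilt R p)) ^ i *
        y (xs i)) + (p : WittVector p (PreTilt R p)) ^ n * xs n := by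
      induction n with
      | zero => simp [xs]
      | succ n ih =>
        have e1 := hyx (xs n) (h0 n)
        rw [← hxs] at e1
        rw [Finset.sum_range_succ]
        conv_lhs => rw [ih, e1]
        ring
    obtain ⟨t, ht⟩ := hs n
    refine ⟨xs n - xi 1 (piTilt d) * t, ?_⟩
    linear_combination h3 - xi 1 (piTilt d) * ht
  · rw [Ideal.span_singleton_le_iff_mem, RingHom.mem_ker, hxi]

lemma surjective_theta (d : PData p R ϖ) : Function.Surjective (fontaineTheta R p) := by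
  apply surjective_fontaineTheta
  intro x
  obtain ⟨x, rfl⟩ := Ideal.Quotient.mk_surjective x
  obtain ⟨y, hy⟩ := d.fsurj x
  refine ⟨Ideal.Quotient.mk _ y, ?_⟩
  rw [frobenius_def, ← map_pow, ← sub_eq_zero, ← map_sub, mk_eq_zero_iff, ← dvd_neg, neg_sub]
  exact hy

end Tilt

/-- **Tilting theorem**, summary. -/
theorem exists_tilt.{w} {p : ℕ} [Fact p.Prime] {R : Type w} [CommRing R] {ϖ : ℕ → R}
    (d : PData p R ϖ) (hr : Reg (p : R)) (hu : ¬ IsUnit (p : R))
    [IsAdicComplete (Ideal.span {(p : R)}) R] :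
    ∃ (P : Type w) (_ : CommRing P) (_ : CharP P p) (_ : PerfectRing P p)
      (θ : WittVector p P →+* R) (π : P), Function.Surjective θ ∧
      RingHom.ker θ = Ideal.span {xi 1 π} ∧ Reg π ∧ ¬ IsUnit π ∧
      IsAdicComplete (Ideal.span {π}) P ∧
      (∀ e, sh θ (rt (p := p) e π) = ϖ e) ∧
      (∀ r : ℕ → R, (∀ n, r (n + 1) ^ p = r n) → ∃ a : P, ∀ e, sh θ (rt (p := p) e a) = r e) := by
  have : Fact ¬IsUnit (p : R) := ⟨hu⟩
  refine ⟨PreTilt R p, inferInstance, inferInstance, inferInstance, fontaineTheta R p, piTilt d,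
    surjective_theta d, ker_fontaineTheta d hr, reg_piTilt d hr, ?_, isAdicComplete_tilt d,
    sh_rt_pi d, exists_sh_eq⟩
  intro h
  have h1 : IsUnit (fontaineTheta R p (teichmuller p (piTilt d))) :=
    (h.map (teichmuller p)).map _
  have h2 := sh_rt_pi d 0
  rw [rt_zero, sh, d.zero] at h2
  rw [h2] at h1
  exact hu h1

/-- Conversely `Ω = W(P)/(p - [π])` is integral perfectoid. -/
theorem pdata_omega {p : ℕ} [hp : Fact p.Prime] {P : Type*} [CommRing P] [CharP P p]
    [PerfectRing P p] {π : P} {Ω : Type*} [CommRing Ω] (θ : WittVector p P →+* Ω)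
    (hθ : Function.Surjective θ) (hker : RingHom.ker θ = Ideal.span {xi 1 π}) (hπ : Reg π) :
    PData p Ω (fun e => sh θ (rt (p := p) e π)) where
  zero := by rw [rt_zero, sh_pi θ hker]
  roots := isRoots_sh θ π
  wreg := (p_regular θ hθ hker hπ).wreg
  fsurj := frob_surj θ hθ
  finj := by
    intro x hx
    refine frob_inj θ hθ hker (ϖ := rt (p := p) 1 π) ?_ hx isUnit_one
    rw [rt_succ_pow, rt_zero]

/-- helper817's datum for an integral perfectoid ring -/
noncomputable def PData.heb {p : ℕ} [Fact p.Prime] {R : Type*} [CommRing R] {ϖ : ℕ → R}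
    (d : PData p R ϖ) (hr : Reg (p : R)) {K : Type*} [CommRing K] [Algebra R K]
    (inj : Function.Injective (algebraMap R K)) (unit_p : IsUnit (algebraMap R K (p : R)))
    (δ : ℕ → R) (hδ : ∀ e, δ (e + 1) ^ p = δ e) (unit_D : IsUnit (algebraMap R K (δ 0)))
    (hD : RegMod (δ 0) (p : R)) : Heb.Data p R K where
  ϖ := ϖ
  δ := δ
  ϖ0 := d.zero
  hϖ := d.roots
  hδ := hδ
  inj := inj
  unit_p := unit_p
  unit_D := unit_D
  reg_p := hr
  reg_D := hD
  fsurj := d.fsurj
  finj := d.finj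

end Crest.Agent.R183.Om
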