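/-
R183 (Lech's conjecture), block (G): `B_∞` is integral perfectoid up to completion
(`PData` of helper902).  Author: helper529.
-/
import Crest.Agent.R183.BInf3
import Crest.Agent.R183.Om4

set_option autoImplicit false
set_option linter.dupNamespace false

namespace Crest.Agent.R183.BInf

open scoped NNRat
open Crest.Agent.R183.Om (Reg PData)

variable {d : ℕ} {p : ℕ}

/-- indices of the `p`-basis monomials: `α ∈ [0,p)^d`, `α_{i0} = 0` -/
abbrev PIdx (p : ℕ) (i0 : Fin d) := {α : Fin d → Fin p // ((α i0 : Fin p) : ℕ) = 0}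

/-- `t_{i0} = p`, and the other `t_i` form a `p`-basis of `B/p` (with exact roots, i.e. `B/p` is
`p`-generated by the monomials) -/
structure PBasis (p : ℕ) {B : Type*} [CommRing B] (t : Fin d → B) (i0 : Fin d) : Prop where
  eq : t i0 = p
  reg : ∀ x : B, (p : B) * x = 0 → x = 0
  nonunit : ¬ IsUnit (p : B)
  gen : ∀ x : B, ∃ c : PIdx p i0 → B, (p : B) ∣ x - ∑ α, (∏ i, t i ^ (α.1 i : ℕ)) * c α ^ p
  uniq : ∀ c : PIdx p i0 → B, (p : B) ∣ ∑ α, (∏ i, t i ^ (α.1 i : ℕ)) * c α ^ p →
    ∀ α, (p : B) ∣ c α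

/-- division of exponents by `p` -/
noncomputable def divp (hp : 0 < p) (x : NP p) : NP p := ⟨(x : ℚ≥0) / p, by
  obtain ⟨e, n, h⟩ := x.2
  refine ⟨e + 1, n, ?_⟩
  have hp' : (p : ℚ≥0) ≠ 0 := by exact_mod_cast hp.ne'
  rw [pow_succ', ← mul_assoc, div_mul_cancel₀ _ hp', h]⟩

theorem nsmul_divp (hp : 0 < p) (x : NP p) : p • divp hp x = x := by
  apply Subtype.ext
  rw [AddSubmonoidClass.coe_nsmul]
  change p • ((x : ℚ≥0) / p) = x
  have hp' : (p : ℚ≥0) ≠ 0 := by exact_mod_cast hp.ne'
  rw [nsmul_eq_mul, mul_div_cancel₀ _ hp']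

theorem nsmul_injective (hp : 0 < p) {x y : NP p} (h : p • x = p • y) : x = y := by
  apply Subtype.ext
  have h1 := congrArg Subtype.val h
  rw [AddSubmonoidClass.coe_nsmul, AddSubmonoidClass.coe_nsmul, nsmul_eq_mul, nsmul_eq_mul] at h1
  have hp' : (p : ℚ≥0) ≠ 0 := by exact_mod_cast hp.ne'
  exact mul_left_cancel₀ hp' h1

/-- `(α + δ)/p` for `α ∈ [0,p)^d`, `δ ∈ [0,1)^d` -/
noncomputable def gam (hp : 0 < p) (α : Fin d → Fin p) (δ : Gam1 d p) : Gam1 d p :=
  ⟨fun i => divp hp (natG (fun i => (α i : ℕ)) i + (δ : Gam d p) i), fun i => by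
    change (((α i : ℕ) : ℚ≥0) + ((δ : Gam d p) i : ℚ≥0)) / p < 1
    have hp' : (0 : ℚ≥0) < p := by exact_mod_cast hp
    rw [div_lt_one hp']
    have h1 : ((α i : ℕ) : ℚ≥0) + 1 ≤ p := by exact_mod_cast (α i).2
    exact lt_of_lt_of_le (add_lt_add_of_le_of_lt le_rfl (δ.2 i)) h1⟩

theorem nsmul_gam (hp : 0 < p) (α : Fin d → Fin p) (δ : Gam1 d p) :
    p • (gam hp α δ : Gam d p) = natG (fun i => (α i : ℕ)) + (δ : Gam d p) := by
  funext i
  rw [Pi.smul_apply]
  exact nsmul_divp hp _

theorem gam_eq_iff (hp : 0 < p) (α : Fin d → Fin p) (δ γ : Gam1 d p) :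
    gam hp α δ = γ ↔ frG (p • (γ : Gam d p)) = δ ∧
      ∀ i, fl ((p • (γ : Gam d p)) i) = (α i : ℕ) := by
  have h1 : ∀ δ : Gam1 d p, frG (δ : Gam d p) = δ := fun δ =>
    Subtype.ext (funext fun i => fr_of_lt_one _ (δ.2 i))
  constructor
  · rintro rfl
    rw [nsmul_gam, add_comm]
    refine ⟨by rw [frG_add_natG', h1], fun i => ?_⟩
    rw [fl_add_natG, fl_of_lt_one _ (δ.2 i), zero_add]
  · rintro ⟨h2, h3⟩
    apply Subtype.ext
    funext i
    apply nsmul_injective hp
    have h4 := frG_add_natG (p • (γ : Gam d p))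
    have h5 : natG (fun i => fl ((p • (γ : Gam d p)) i)) = (natG fun i => (α i : ℕ) : Gam d p) := by
      congr 1
      funext i
      exact h3 i
    rw [h2, h5, add_comm] at h4
    have h6 := nsmul_gam hp α δ
    rw [h4] at h6
    exact congrFun h6 i

theorem fl_nsmul_lt (hp : 0 < p) (γ : Gam1 d p) (i : Fin d) : fl ((p • (γ : Gam d p)) i) < p := by
  have h1 : (((p • (γ : Gam d p)) i : NP p) : ℚ≥0) = p * ((γ : Gam d p) i : ℚ≥0) := by
    rw [Pi.smul_apply, AddSubmonoidClass.coe_nsmul, nsmul_eq_mul]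
  have h2 : ((fl ((p • (γ : Gam d p)) i) : ℕ) : ℚ≥0) < p := by
    refine lt_of_le_of_lt (fl_le _) ?_
    rw [h1]
    have hp' : (0 : ℚ≥0) < p := by exact_mod_cast hp
    calc (p : ℚ≥0) * ((γ : Gam d p) i : ℚ≥0) < p * 1 := mul_lt_mul_of_pos_left (γ.2 i) hp'
      _ = p := mul_one _
  exact_mod_cast h2

section Frob

variable {B : Type*} [CommRing B] (t : Fin d → B)

theorem basis_pow (k : ℕ) (γ : Gam1 d p) : (basis p t γ) ^ k =
    (∏ i, t i ^ fl ((k • (γ : Gam d p)) i)) • basis p t (frG (k • (γ : Gam d p))) := by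
  rw [basis_apply, basis_apply, ← mon_nsmul, mon_eq]

theorem natCast_mul_eq (k : ℕ) (z : BInf p t) : (k : BInf p t) * z = (k : B) • z := by
  rw [Nat.cast_smul_eq_nsmul, nsmul_eq_mul]

theorem repr_natCast_mul (k : ℕ) (z : BInf p t) (δ : Gam1 d p) :
    (basis p t).repr ((k : BInf p t) * z) δ = (k : B) * (basis p t).repr z δ := by
  rw [natCast_mul_eq, map_smul, Finsupp.smul_apply, smul_eq_mul]

theorem natCast_dvd_iff (k : ℕ) (z : BInf p t) :
    (k : BInf p t) ∣ z ↔ ∀ δ, (k : B) ∣ (basis p t).repr z δ := by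
  constructor
  · rintro ⟨y, rfl⟩ δ
    rw [repr_natCast_mul]
    exact Dvd.intro _ rfl
  · intro h
    choose c hc using h
    classical
    refine ⟨(basis p t).repr.symm (Finsupp.onFinset ((basis p t).repr z).support
      (fun δ => if (basis p t).repr z δ = 0 then 0 else c δ) (fun δ hδ => ?_)), ?_⟩
    · rw [Finsupp.mem_support_iff]
      intro h0
      rw [if_pos h0] at hδ
      exact hδ rfl
    · apply (basis p t).repr.injective
      ext δ
      rw [repr_natCast_mul, LinearEquiv.apply_symm_apply, Finsupp.onFinset_apply]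
      by_cases h0 : (basis p t).repr z δ = 0
      · rw [if_pos h0, h0, mul_zero]
      · rw [if_neg h0]; exact hc δ

theorem reg_natCast (k : ℕ) (hk : ∀ x : B, (k : B) * x = 0 → x = 0) (z : BInf p t)
    (hz : (k : BInf p t) * z = 0) : z = 0 := by
  apply (basis p t).repr.injective
  rw [map_zero]
  ext δ
  apply hk
  rw [← repr_natCast_mul, hz, map_zero]
  rfl

variable [hpr : Fact p.Prime]

theorem repr_pow (x : BInf p t) : ∀ δ : Gam1 d p,
    (p : B) ∣ (basis p t).repr (x ^ p) δ -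
      ∑ α : Fin d → Fin p, (∏ i, t i ^ (α i : ℕ)) *
        ((basis p t).repr x (gam hpr.out.pos α δ)) ^ p := by
  classical
  have hx := (basis p t).mem_span x
  induction hx using Submodule.span_induction with
  | mem x hx =>
    obtain ⟨γ, rfl⟩ := hx
    intro δ
    have h1 : (basis p t).repr (basis p t γ ^ p) δ =
        if frG (p • (γ : Gam d p)) = δ then ∏ i, t i ^ fl ((p • (γ : Gam d p)) i) else 0 := by
      rw [basis_pow, map_smul, Module.Basis.repr_self, Finsupp.smul_apply, smul_eq_mul,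
        Finsupp.single_apply, mul_ite, mul_one, mul_zero]
    have h2 : ∑ α : Fin d → Fin p, (∏ i, t i ^ (α i : ℕ)) *
        ((basis p t).repr (basis p t γ) (gam hpr.out.pos α δ)) ^ p =
        if frG (p • (γ : Gam d p)) = δ then ∏ i, t i ^ fl ((p • (γ : Gam d p)) i) else 0 := by
      let α0 : Fin d → Fin p := fun i =>
        ⟨fl ((p • (γ : Gam d p)) i), fl_nsmul_lt hpr.out.pos γ i⟩
      have h3 : ∀ α : Fin d → Fin p, α ≠ α0 →
          (∏ i, t i ^ (α i : ℕ)) *
            ((basis p t).repr (basis p t γ) (gam hpr.out.pos α δ)) ^ p = 0 := by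
        intro α hα
        rw [Module.Basis.repr_self, Finsupp.single_apply, if_neg, zero_pow hpr.out.ne_zero,
          mul_zero]
        intro h4
        apply hα
        funext i
        apply Fin.ext
        exact (((gam_eq_iff hpr.out.pos α δ γ).mp h4.symm).2 i).symm
      rw [Finset.sum_eq_single α0 (fun α _ hα => h3 α hα)
        (fun h => absurd (Finset.mem_univ _) h), Module.Basis.repr_self, Finsupp.single_apply]
      by_cases h4 : frG (p • (γ : Gam d p)) = δ
      · rw [if_pos h4, if_pos, one_pow, mul_one]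
        exact ((gam_eq_iff hpr.out.pos α0 δ γ).mpr ⟨h4, fun i => rfl⟩).symm
      · rw [if_neg h4, if_neg, zero_pow hpr.out.ne_zero, mul_zero]
        intro h5
        exact h4 ((gam_eq_iff hpr.out.pos α0 δ γ).mp h5.symm).1
    rw [h1, h2, sub_self]
    exact dvd_zero _
  | zero =>
    intro δ
    rw [zero_pow hpr.out.ne_zero, map_zero]
    simp [zero_pow hpr.out.ne_zero]
  | add x y _ _ hx hy =>
    intro δ
    obtain ⟨r, hr⟩ := exists_add_pow_prime_eq hpr.out x y
    choose s hs using fun α : Fin d → Fin p => exists_add_pow_prime_eq hpr.out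
      ((basis p t).repr x (gam hpr.out.pos α δ)) ((basis p t).repr y (gam hpr.out.pos α δ))
    have h1 : (basis p t).repr ((x + y) ^ p) δ = (basis p t).repr (x ^ p) δ +
        (basis p t).repr (y ^ p) δ + (p : B) * (basis p t).repr (x * y * r) δ := by
      rw [hr, map_add, map_add, Finsupp.add_apply, Finsupp.add_apply, mul_assoc, mul_assoc,
        repr_natCast_mul, ← mul_assoc x y r]
    have h2 : ∑ α : Fin d → Fin p, (∏ i, t i ^ (α i : ℕ)) *
        ((basis p t).repr (x + y) (gam hpr.out.pos α δ)) ^ p =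
        ∑ α : Fin d → Fin p, (∏ i, t i ^ (α i : ℕ)) *
          ((basis p t).repr x (gam hpr.out.pos α δ)) ^ p +
        ∑ α : Fin d → Fin p, (∏ i, t i ^ (α i : ℕ)) *
          ((basis p t).repr y (gam hpr.out.pos α δ)) ^ p +
        (p : B) * ∑ α : Fin d → Fin p, (∏ i, t i ^ (α i : ℕ)) *
          ((basis p t).repr x (gam hpr.out.pos α δ) * (basis p t).repr y (gam hpr.out.pos α δ) *
            s α) := by
      rw [Finset.mul_sum, ← Finset.sum_add_distrib, ← Finset.sum_add_distrib]
      refine Finset.sum_congr rfl fun α _ => ?_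
      rw [map_add, Finsupp.add_apply, hs α]
      ring
    obtain ⟨a, ha⟩ := hx δ
    obtain ⟨b, hb⟩ := hy δ
    rw [h1, h2]
    refine ⟨a + b + (basis p t).repr (x * y * r) δ - ∑ α : Fin d → Fin p,
      (∏ i, t i ^ (α i : ℕ)) * ((basis p t).repr x (gam hpr.out.pos α δ) *
        (basis p t).repr y (gam hpr.out.pos α δ) * s α), ?_⟩
    linear_combination ha + hb
  | smul b x _ hx =>
    intro δ
    obtain ⟨a, ha⟩ := hx δ
    refine ⟨b ^ p * a, ?_⟩
    have h1 : (basis p t).repr ((b • x) ^ p) δ = b ^ p * (basis p t).repr (x ^ p) δ := by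
      rw [smul_pow, map_smul, Finsupp.smul_apply, smul_eq_mul]
    have h2 : ∑ α : Fin d → Fin p, (∏ i, t i ^ (α i : ℕ)) *
        ((basis p t).repr (b • x) (gam hpr.out.pos α δ)) ^ p =
        b ^ p * ∑ α : Fin d → Fin p, (∏ i, t i ^ (α i : ℕ)) *
          ((basis p t).repr x (gam hpr.out.pos α δ)) ^ p := by
      rw [Finset.mul_sum]
      refine Finset.sum_congr rfl fun α _ => ?_
      rw [map_smul, Finsupp.smul_apply, smul_eq_mul, mul_pow]
      ring
    rw [h1, h2, ← mul_sub, ha]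
    ring

/-- division of an exponent vector by `p` -/
noncomputable def divG (hp : 0 < p) (α : Gam d p) : Gam d p := fun i => divp hp (α i)

omit hpr in
theorem nsmul_divG (hp : 0 < p) (α : Gam d p) : p • divG hp α = α := by
  funext i
  rw [Pi.smul_apply]
  exact nsmul_divp hp _

omit hpr in
theorem nsmul_injG (hp : 0 < p) {α β : Gam d p} (h : p • α = p • β) : α = β := by
  funext i
  apply nsmul_injective hp
  have := congrFun h i
  rwa [Pi.smul_apply, Pi.smul_apply] at this

/-- `x` is a `p`-th power modulo `p` -/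
def IsF {A : Type*} [CommRing A] (p : ℕ) (x : A) : Prop := ∃ y : A, (p : A) ∣ x - y ^ p

theorem IsF.add {A : Type*} [CommRing A] {x x' : A} (h : IsF p x) (h' : IsF p x') :
    IsF p (x + x') := by
  obtain ⟨y, a, ha⟩ := h
  obtain ⟨y', a', ha'⟩ := h'
  obtain ⟨r, hr⟩ := exists_add_pow_prime_eq hpr.out y y'
  exact ⟨y + y', a + a' - y * y' * r, by rw [hr]; linear_combination ha + ha'⟩

omit hpr in
theorem IsF.mul {A : Type*} [CommRing A] {x x' : A} (h : IsF p x) (h' : IsF p x') :
    IsF p (x * x') := by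
  obtain ⟨y, a, ha⟩ := h
  obtain ⟨y', a', ha'⟩ := h'
  refine ⟨y * y', a * x' + y ^ p * a', ?_⟩
  rw [mul_pow]
  linear_combination x' * ha + y ^ p * ha'

omit hpr in
theorem isF_pow {A : Type*} [CommRing A] (y : A) : IsF p (y ^ p) :=
  ⟨y, by rw [sub_self]; exact dvd_zero _⟩

theorem isF_zero {A : Type*} [CommRing A] : IsF p (0 : A) :=
  ⟨0, by rw [zero_pow hpr.out.ne_zero, sub_self]; exact dvd_zero _⟩

theorem isF_natCast_mul {A : Type*} [CommRing A] (a : A) : IsF p ((p : A) * a) :=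
  ⟨0, by rw [zero_pow hpr.out.ne_zero, sub_zero]; exact Dvd.intro _ rfl⟩

theorem isF_sum {A : Type*} [CommRing A] {ι : Type*} (s : Finset ι) (f : ι → A)
    (h : ∀ i ∈ s, IsF p (f i)) : IsF p (∑ i ∈ s, f i) := by
  classical
  induction s using Finset.induction_on with
  | empty => rw [Finset.sum_empty]; exact isF_zero
  | insert a s ha ih =>
    rw [Finset.sum_insert ha]
    exact (h a (Finset.mem_insert_self a s)).add
      (ih fun i hi => h i (Finset.mem_insert_of_mem hi))

omit hpr in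
theorem isF_mon (hp : 0 < p) (α : Gam d p) : IsF p (mon p t α) := by
  have h : mon p t α = mon p t (divG hp α) ^ p := by rw [← mon_nsmul, nsmul_divG]
  rw [h]
  exact isF_pow _

variable {t} {i0 : Fin d}

/-- Frobenius is onto modulo `p` -/
theorem PBasis.fsurj (h : PBasis p t i0) (x : BInf p t) : IsF p x := by
  have hB : ∀ b : B, IsF p (algebraMap B (BInf p t) b) := by
    intro b
    obtain ⟨c, a, ha⟩ := h.gen b
    have hb : b = (∑ α, (∏ i, t i ^ (α.1 i : ℕ)) * c α ^ p) + p * a := by rw [← ha]; ring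
    rw [hb, map_add, map_sum, map_mul, map_natCast]
    refine IsF.add (isF_sum _ _ fun α _ => ?_) (isF_natCast_mul _)
    rw [map_mul, map_pow]
    refine IsF.mul ?_ (isF_pow _)
    rw [← mon_natG]
    exact isF_mon t hpr.out.pos _
  have hx := (basis p t).mem_span x
  induction hx using Submodule.span_induction with
  | mem x hx =>
    obtain ⟨γ, rfl⟩ := hx
    rw [basis_apply]
    exact isF_mon t hpr.out.pos _
  | zero => exact isF_zero
  | add x y _ _ hx hy => exact hx.add hy
  | smul b x _ hx =>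
    have h1 : b • x = algebraMap B (BInf p t) b * x := Algebra.smul_def b x
    rw [h1]
    exact (hB b).mul hx

theorem PBasis.root_dvd_p (h : PBasis p t i0) :
    rt p t hpr.out.pos 1 i0 ∣ (p : BInf p t) := by
  have h1 : (p : BInf p t) = rt p t hpr.out.pos 1 i0 ^ p := by
    rw [rt_succ_pow, rt_zero, h.eq, map_natCast]
  rw [h1]
  exact dvd_pow_self _ hpr.out.ne_zero

theorem rt_dvd_mon (γ : Gam d p) (i : Fin d) (h : fl ((p • γ) i) ≠ 0) :
    rt p t hpr.out.pos 1 i ∣ mon p t γ := by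
  classical
  let n : Fin d → ℕ := fun j => fl ((p • γ) j)
  let n' : Fin d → ℕ := n - Pi.single i 1
  have hn : n = Pi.single i 1 + n' := by
    funext j
    rw [Pi.add_apply]
    change n j = _ + (n j - (Pi.single i 1 : Fin d → ℕ) j)
    rcases eq_or_ne j i with rfl | hj
    · rw [Pi.single_eq_same]
      have : 1 ≤ n j := Nat.one_le_iff_ne_zero.mpr h
      omega
    · rw [Pi.single_eq_of_ne hj]; omega
  let γ' : Gam d p := divG hpr.out.pos ((frG (p • γ) : Gam d p) + natG n')
  have h1 : γ = ex p hpr.out.pos 1 (Pi.single i 1) + γ' := by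
    apply nsmul_injG hpr.out.pos
    rw [smul_add, nsmul_divG]
    have h2 : p • ex p hpr.out.pos 1 (Pi.single i 1) = (natG (Pi.single i 1) : Gam d p) := by
      have := nsmul_ex p hpr.out.pos 1 (Pi.single i 1)
      rwa [pow_one] at this
    rw [h2, add_left_comm, ← natG_add, ← hn]
    exact (frG_add_natG (p • γ)).symm
  rw [h1, mon_add]
  exact Dvd.intro _ rfl

/-- Frobenius modulo `p` has kernel `(p^{1/p})` -/
theorem PBasis.finj (h : PBasis p t i0) (x : BInf p t) (hx : (p : BInf p t) ∣ x ^ p) :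
    rt p t hpr.out.pos 1 i0 ∣ x := by
  classical
  have hp := hpr.out.pos
  -- step 1
  have h1 : ∀ (δ : Gam1 d p) (α : PIdx p i0), (p : B) ∣ (basis p t).repr x (gam hp α.1 δ) := by
    intro δ
    refine h.uniq (fun α => (basis p t).repr x (gam hp α.1 δ)) ?_
    have h2 : (p : B) ∣ ∑ α : Fin d → Fin p, (∏ i, t i ^ (α i : ℕ)) *
        ((basis p t).repr x (gam hpr.out.pos α δ)) ^ p := by
      have h3 := repr_pow t x δ
      have h4 := (natCast_dvd_iff t p (x ^ p)).mp hx δ
      have h5 := dvd_sub h4 h3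
      rwa [sub_sub_cancel] at h5
    have h6 : ∑ α : Fin d → Fin p, (∏ i, t i ^ (α i : ℕ)) *
        ((basis p t).repr x (gam hpr.out.pos α δ)) ^ p =
        (∑ α ∈ Finset.univ.filter (fun α : Fin d → Fin p => ((α i0 : Fin p) : ℕ) = 0),
          (∏ i, t i ^ (α i : ℕ)) * ((basis p t).repr x (gam hpr.out.pos α δ)) ^ p) +
        ∑ α ∈ Finset.univ.filter (fun α : Fin d → Fin p => ¬ ((α i0 : Fin p) : ℕ) = 0),
          (∏ i, t i ^ (α i : ℕ)) * ((basis p t).repr x (gam hpr.out.pos α δ)) ^ p :=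
      (Finset.sum_filter_add_sum_filter_not _ _ _).symm
    have h7 : (p : B) ∣ ∑ α ∈ Finset.univ.filter
        (fun α : Fin d → Fin p => ¬ ((α i0 : Fin p) : ℕ) = 0),
          (∏ i, t i ^ (α i : ℕ)) * ((basis p t).repr x (gam hpr.out.pos α δ)) ^ p := by
      refine Finset.dvd_sum fun α hα => ?_
      rw [Finset.mem_filter] at hα
      refine Dvd.dvd.mul_right ?_ _
      refine Dvd.dvd.trans ?_ (Finset.dvd_prod_of_mem _ (Finset.mem_univ i0))
      rw [h.eq]
      exact dvd_pow_self _ hα.2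
    rw [h6] at h2
    have h8 := (dvd_add_left h7).mp h2
    rw [Finset.sum_subtype (p := fun α : Fin d → Fin p => ((α i0 : Fin p) : ℕ) = 0) _
      (fun α => by rw [Finset.mem_filter]; exact ⟨fun h => h.2, fun h => ⟨Finset.mem_univ _, h⟩⟩)]
      at h8
    exact h8
  -- step 2
  have h2 : ∀ γ : Gam1 d p, fl ((p • (γ : Gam d p)) i0) = 0 → (p : B) ∣ (basis p t).repr x γ := by
    intro γ hγ
    let α : PIdx p i0 := ⟨fun i => ⟨fl ((p • (γ : Gam d p)) i), fl_nsmul_lt hp γ i⟩, hγ⟩
    have h3 : gam hp α.1 (frG (p • (γ : Gam d p))) = γ :=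
      (gam_eq_iff hp α.1 _ γ).mpr ⟨rfl, fun i => rfl⟩
    have h4 := h1 (frG (p • (γ : Gam d p))) α
    rwa [h3] at h4
  -- step 3
  have h3 : rt p t hpr.out.pos 1 i0 ∣
      Finsupp.linearCombination B (basis p t) ((basis p t).repr x) := by
    rw [Finsupp.linearCombination_apply, Finsupp.sum]
    refine Finset.dvd_sum fun γ _ => ?_
    have h4 : (basis p t).repr x γ • basis p t γ =
        algebraMap B (BInf p t) ((basis p t).repr x γ) * basis p t γ :=
      Algebra.smul_def ((basis p t).repr x γ) (basis p t γ)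
    rw [h4]
    by_cases hγ : fl ((p • (γ : Gam d p)) i0) = 0
    · obtain ⟨c, hc⟩ := h2 γ hγ
      rw [hc, map_mul, map_natCast, mul_assoc]
      exact h.root_dvd_p.mul_right _
    · rw [basis_apply]
      exact (rt_dvd_mon (γ : Gam d p) i0 hγ).mul_left _
  rwa [(basis p t).linearCombination_repr] at h3

/-- `B_∞` is integral perfectoid up to completion -/
theorem PBasis.pdata (h : PBasis p t i0) :
    PData p (BInf p t) (fun e => rt p t hpr.out.pos e i0) where
  zero := by rw [rt_zero, h.eq, map_natCast]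
  roots := fun e => rt_succ_pow p t hpr.out.pos e i0
  wreg := Om.Reg.wreg fun z hz => reg_natCast t p h.reg z hz
  fsurj := h.fsurj
  finj := h.finj

omit hpr in
theorem PBasis.reg_p (h : PBasis p t i0) : Reg (p : BInf p t) :=
  fun z hz => reg_natCast t p h.reg z hz

omit hpr in
theorem PBasis.not_isUnit (h : PBasis p t i0) : ¬ IsUnit (p : BInf p t) := by
  intro hu
  obtain ⟨z, hz⟩ := hu.exists_right_inv
  have h1 : (p : BInf p t) ∣ mon p t 0 := ⟨z, by rw [hz, mon_zero]⟩
  have h2 : (0 : Gam d p) = ((⟨0, fun i => by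
    change ((0 : NP p) : ℚ≥0) < 1
    exact zero_lt_one⟩ : Gam1 d p) : Gam d p) := rfl
  rw [h2, ← basis_apply] at h1
  have h3 := (natCast_dvd_iff t p _).mp h1 ⟨0, fun i => by
    change ((0 : NP p) : ℚ≥0) < 1
    exact zero_lt_one⟩
  rw [Module.Basis.repr_self, Finsupp.single_eq_same] at h3
  exact h.nonunit (isUnit_of_dvd_one h3)

end Frob

end Crest.Agent.R183.BInf
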