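/-
R183 (Lech), block PCE (equal characteristic p, generically etale case), file 1:
trace data `TrData`: `A`-linear Frobenius-compatible `τ : R → A` with a dual family up to `δ`.
helper499
-/
import Mathlib

set_option autoImplicit false

namespace Crest.Agent.R183.PC

open Module

universe u v w

/-- Trace datum for `A → R` in characteristic `p`. -/
structure TrData (p : ℕ) (A : Type u) (R : Type v) [CommRing A] [CommRing R] [Algebra A R] where
  /-- rank -/
  r : ℕ
  /-- basis -/
  w : Fin r → R
  /-- dual family (scaled) -/
  w' : Fin r → R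
  /-- denominator -/
  δ : A
  /-- trace -/
  τ : R →ₗ[A] A
  frob : ∀ x, τ (x ^ p) = (τ x) ^ p
  dual : ∀ (e : ℕ) (x : R), ∑ j, τ (x * w' j ^ p ^ e) • w j ^ p ^ e = δ ^ p ^ e • x

section field

variable {K : Type u} {L : Type v} [Field K] [Field L] [Algebra K L] [FiniteDimensional K L]
  [Algebra.IsSeparable K L] (p : ℕ) [Fact p.Prime] [CharP K p]

/-- the trace of a separable extension commutes with Frobenius. -/
lemma trace_pow_char (x : L) : Algebra.trace K L (x ^ p) = (Algebra.trace K L x) ^ p := by
  apply (algebraMap K (AlgebraicClosure L)).injective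
  have : CharP (AlgebraicClosure L) p :=
    charP_of_injective_algebraMap (algebraMap K (AlgebraicClosure L)).injective p
  have : Fintype (L →ₐ[K] AlgebraicClosure L) := Fintype.ofFinite _
  rw [trace_eq_sum_embeddings (AlgebraicClosure L), map_pow,
    trace_eq_sum_embeddings (AlgebraicClosure L), sum_pow_char]
  simp only [map_pow]

lemma trace_pow_char_pow (e : ℕ) (x : L) :
    Algebra.trace K L (x ^ p ^ e) = (Algebra.trace K L x) ^ p ^ e := by
  induction e with
  | zero => simp
  | succ e ih => rw [pow_succ, pow_mul, trace_pow_char p, ih, ← pow_mul]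

/-- the dual identity for Frobenius powers of a basis. -/
lemma dual_identity {r : ℕ} (b : Basis (Fin r) K L) (e : ℕ) (x : L) :
    ∑ j, Algebra.trace K L (x * b.traceDual j ^ p ^ e) • b j ^ p ^ e = x := by
  classical
  -- the `q`-th powers are linearly independent by pairing
  have hpair : ∀ i j, Algebra.trace K L (b i ^ p ^ e * b.traceDual j ^ p ^ e) =
      if i = j then 1 else 0 := by
    intro i j
    rw [← mul_pow, trace_pow_char_pow p, b.trace_mul_traceDual i j]
    split_ifs with h
    · simp
    · exact zero_pow (pow_ne_zero _ (Fact.out : p.Prime).ne_zero)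
  have hli : LinearIndependent K (fun i => b i ^ p ^ e) := by
    rw [Fintype.linearIndependent_iff]
    intro c hc j
    have h1 : Algebra.trace K L ((∑ i, c i • b i ^ p ^ e) * b.traceDual j ^ p ^ e) = c j := by
      rw [Finset.sum_mul, map_sum]
      simp only [smul_mul_assoc, map_smul, hpair, smul_eq_mul, mul_ite, mul_one, mul_zero,
        Finset.sum_ite_eq', Finset.mem_univ, if_true]
    rw [← h1, hc, zero_mul, map_zero]
  let b' : Basis (Fin r) K L := basisOfLinearIndependentOfCardEqFinrank' _ hli
    (by rw [Module.finrank_eq_card_basis b])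
  have hb' : ∀ i, b' i = b i ^ p ^ e := fun i => by simp [b']
  have hx := b'.sum_repr x
  have hc : ∀ j, Algebra.trace K L (x * b.traceDual j ^ p ^ e) = b'.repr x j := by
    intro j
    conv_lhs => rw [← hx]
    rw [Finset.sum_mul, map_sum]
    simp only [hb', smul_mul_assoc, map_smul, hpair, smul_eq_mul, mul_ite, mul_one, mul_zero,
      Finset.sum_ite_eq', Finset.mem_univ, if_true]
  simp only [hc]
  conv_rhs => rw [← hx]
  simp only [hb']

end field

section existence

variable {A : Type u} {R : Type v} [CommRing A] [CommRing R] [Algebra A R] [IsDomain A]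
  [IsDomain R] [Module.Finite A R]

/-- denominators can be chosen in `A`. -/
lemma exists_den (L : Type w) [Field L] [Algebra R L] [IsFractionRing R L] (y : L) :
    ∃ a : A, a ≠ 0 ∧ ∃ x : R, algebraMap R L (algebraMap A R a) * y = algebraMap R L x := by
  obtain ⟨x, s, hs, rfl⟩ := IsFractionRing.div_surjective (A := R) y
  have hint : IsIntegral A s := Algebra.IsIntegral.isIntegral s
  obtain ⟨a, ha, t, ht⟩ := hint.isAlgebraic.exists_nonzero_dvd hs
  refine ⟨a, ha, t * x, ?_⟩
  have hs0 : algebraMap R L s ≠ 0 := by
    simpa using nonZeroDivisors.ne_zero hs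
  rw [ht, map_mul, map_mul]
  field_simp

/-- **Existence of a trace datum** for a finite generically separable extension of a normal
domain of characteristic `p`. -/
theorem exists_trData (p : ℕ) [Fact p.Prime] [CharP A p] [IsIntegrallyClosed A]
    (K : Type u) (L : Type v) [Field K] [Field L] [Algebra A K] [IsFractionRing A K]
    [Algebra R L] [IsFractionRing R L] [Algebra K L] [Algebra A L] [IsScalarTower A K L]
    [IsScalarTower A R L] [Algebra.IsSeparable K L] :
    ∃ D : TrData p A R, D.δ ≠ 0 ∧ D.r = Module.finrank K L := by
  classical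
  have hKp : CharP K p := charP_of_injective_algebraMap (IsFractionRing.injective A K) p
  -- the span of `R` is everything
  have hden : ∀ y : L, ∃ a : A, a ≠ 0 ∧ ∃ x : R, algebraMap A L a * y = algebraMap R L x := by
    intro y
    obtain ⟨a, ha, x, hx⟩ := exists_den (A := A) (R := R) L y
    exact ⟨a, ha, x, by rw [IsScalarTower.algebraMap_apply A R L]; exact hx⟩
  have hinj : Function.Injective (algebraMap A L) := by
    rw [IsScalarTower.algebraMap_eq A K L]
    exact (algebraMap K L).injective.comp (IsFractionRing.injective A K)
  have hspan : ⊤ ≤ Submodule.span K (Set.range (algebraMap R L)) := by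
    intro y _
    obtain ⟨a, ha, x, hx⟩ := hden y
    have ha' : algebraMap A K a ≠ 0 := by
      simpa using (IsFractionRing.injective A K).ne ha
    have : y = (algebraMap A K a)⁻¹ • algebraMap R L x := by
      rw [← hx, Algebra.smul_def, IsScalarTower.algebraMap_apply A K L, ← mul_assoc, ← map_mul,
        inv_mul_cancel₀ ha', map_one, one_mul]
    rw [this]
    exact Submodule.smul_mem _ _ (Submodule.subset_span ⟨x, rfl⟩)
  -- finite dimensionality
  have hfd : FiniteDimensional K L := by
    obtain ⟨s, hs⟩ := (Module.finite_def (R := A) (M := R)).1 inferInstance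
    have h2 : ∀ x : R, algebraMap R L x ∈ Submodule.span K (s.image (algebraMap R L) : Set L) := by
      intro x
      have hx : x ∈ Submodule.span A (s : Set R) := by rw [hs]; trivial
      induction hx using Submodule.span_induction with
      | mem x hx =>
        refine Submodule.subset_span ?_
        rw [Finset.coe_image]
        exact ⟨x, hx, rfl⟩
      | zero => simp
      | add x y _ _ hx hy => rw [map_add]; exact Submodule.add_mem _ hx hy
      | smul a x _ hx =>
        rw [Algebra.smul_def, map_mul, ← IsScalarTower.algebraMap_apply,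
          IsScalarTower.algebraMap_apply A K L, ← Algebra.smul_def]
        exact Submodule.smul_mem _ _ hx
    refine Module.finite_def.2 ⟨s.image (algebraMap R L), ?_⟩
    rw [eq_top_iff]
    refine hspan.trans (Submodule.span_le.2 ?_)
    rintro _ ⟨x, rfl⟩
    exact h2 x
  -- the basis inside `R`
  let b0 := Basis.ofSpan hspan
  have hb0 : ∀ i, ∃ x : R, algebraMap R L x = b0 i := fun i =>
    Basis.ofSpan_subset hspan ⟨i, rfl⟩
  have : Finite _ := Module.Finite.finite_basis b0
  have : Fintype _ := Fintype.ofFinite (((linearIndepOn_empty K id).extend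
    (Set.empty_subset (Set.range (algebraMap R L)))))
  let n := Module.finrank K L
  let e0 := Fintype.equivFinOfCardEq (Module.finrank_eq_card_basis b0).symm
  let b : Basis (Fin n) K L := b0.reindex e0
  have hb : ∀ i, ∃ x : R, algebraMap R L x = b i := fun i => by
    obtain ⟨x, hx⟩ := hb0 (e0.symm i)
    exact ⟨x, by rw [hx]; simp [b]⟩
  choose w hw using hb
  -- common denominator of the dual basis
  have hcd : ∃ a : A, a ≠ 0 ∧ ∀ j, ∃ x : R, algebraMap A L a * b.traceDual j =
      algebraMap R L x := by
    choose a ha x hx using fun j => hden (b.traceDual j)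
    refine ⟨∏ j, a j, Finset.prod_ne_zero_iff.2 (fun j _ => ha j), fun j => ?_⟩
    refine ⟨algebraMap A R (∏ i ∈ Finset.univ.erase j, a i) * x j, ?_⟩
    rw [← Finset.prod_erase_mul Finset.univ a (Finset.mem_univ j), map_mul, mul_assoc, hx j,
      map_mul, ← IsScalarTower.algebraMap_apply]
  obtain ⟨δ, hδ, hcd⟩ := hcd
  choose w' hw' using hcd
  -- the trace
  have hint : ∀ x : R, ∃ a : A, algebraMap A K a = Algebra.trace K L (algebraMap R L x) := by
    intro x
    refine IsIntegrallyClosed.isIntegral_iff.1 (Algebra.isIntegral_trace ?_)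
    exact (Algebra.IsIntegral.isIntegral (R := A) x).algebraMap
  choose τ hτ using hint
  have hKinj := IsFractionRing.injective A K
  let T : R →ₗ[A] A :=
    { toFun := τ
      map_add' := fun x y => hKinj (by rw [map_add, hτ, hτ, hτ, map_add, map_add])
      map_smul' := fun a x => hKinj (by
        rw [hτ, RingHom.id_apply, smul_eq_mul, map_mul, hτ, Algebra.smul_def, map_mul,
          ← IsScalarTower.algebraMap_apply, IsScalarTower.algebraMap_apply A K L,
          ← Algebra.smul_def, map_smul, smul_eq_mul]) }
  have hT : ∀ x, algebraMap A K (T x) = Algebra.trace K L (algebraMap R L x) := hτ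
  refine ⟨⟨n, w, w', δ, T, ?_, ?_⟩, hδ, rfl⟩
  · intro x
    apply hKinj
    rw [hT, RingHom.map_pow, trace_pow_char p, RingHom.map_pow, hT]
  · intro e x
    apply IsFractionRing.injective R L
    have h := dual_identity p b e (algebraMap R L x)
    rw [map_sum, Algebra.smul_def, map_mul, ← IsScalarTower.algebraMap_apply]
    conv_rhs => rw [← h]
    rw [Finset.mul_sum]
    refine Finset.sum_congr rfl fun j _ => ?_
    have hc : algebraMap A L δ ^ p ^ e = algebraMap K L (algebraMap A K δ ^ p ^ e) := by
      rw [map_pow, ← IsScalarTower.algebraMap_apply]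
    have key : algebraMap A K (T (x * w' j ^ p ^ e)) = (algebraMap A K δ ^ p ^ e) *
        Algebra.trace K L (algebraMap R L x * b.traceDual j ^ p ^ e) := by
      rw [hT, map_mul, map_pow, ← hw' j, mul_pow, hc,
        show algebraMap R L x * (algebraMap K L (algebraMap A K δ ^ p ^ e) *
          b.traceDual j ^ p ^ e) = (algebraMap A K δ ^ p ^ e) •
          (algebraMap R L x * b.traceDual j ^ p ^ e) by rw [Algebra.smul_def]; ring,
        map_smul, smul_eq_mul]
    rw [Algebra.smul_def, map_mul, ← IsScalarTower.algebraMap_apply,
      IsScalarTower.algebraMap_apply A K L, key, map_mul, ← hc, map_pow, hw j, map_pow,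
      Algebra.smul_def]
    ring

end existence

section baseChange

variable {p : ℕ} {A : Type u} {R : Type v} [CommRing A] [CommRing R] [Algebra A R]

/-- Base change of a trace datum along `A → B`, for any model `T` of `B ⊗ R`. -/
noncomputable def TrData.baseChange (D : TrData p A R) [Fact p.Prime]
    (B : Type w) [CommRing B] [Algebra A B] [CharP B p]
    (T : Type*) [CommRing T] [Algebra A T] [Algebra B T] [Algebra R T] [IsScalarTower A B T]
    [IsScalarTower A R T] [CharP T p]
    (h : IsBaseChange B (IsScalarTower.toAlgHom A R T).toLinearMap) : TrData p B T where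
  r := D.r
  w := fun j => algebraMap R T (D.w j)
  w' := fun j => algebraMap R T (D.w' j)
  δ := algebraMap A B D.δ
  τ := h.lift ((Algebra.linearMap A B).comp D.τ)
  frob := fun x => by
    induction x using h.inductionOn with
    | zero => simp [zero_pow (Fact.out : p.Prime).ne_zero]
    | tmul m =>
      have h1 : ∀ m : R, h.lift ((Algebra.linearMap A B).comp D.τ) (algebraMap R T m) =
          algebraMap A B (D.τ m) := fun m => h.lift_eq _ m
      change h.lift ((Algebra.linearMap A B).comp D.τ) (algebraMap R T m ^ p) =
        (h.lift ((Algebra.linearMap A B).comp D.τ) (algebraMap R T m)) ^ p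
      rw [← map_pow, h1, h1, D.frob, map_pow]
    | smul b x hx =>
      rw [Algebra.smul_def, mul_pow, ← map_pow, ← Algebra.smul_def, ← Algebra.smul_def, map_smul,
        map_smul, hx, smul_eq_mul, smul_eq_mul, mul_pow]
    | add x y hx hy => rw [add_pow_char, map_add, map_add, hx, hy, add_pow_char]
  dual := fun e x => by
    induction x using h.inductionOn with
    | zero => simp
    | tmul m =>
      have h1 : ∀ m : R, h.lift ((Algebra.linearMap A B).comp D.τ) (algebraMap R T m) =
          algebraMap A B (D.τ m) := fun m => h.lift_eq _ m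
      have h2 := congrArg (algebraMap R T) (D.dual e m)
      change ∑ j, h.lift ((Algebra.linearMap A B).comp D.τ)
        (algebraMap R T m * algebraMap R T (D.w' j) ^ p ^ e) • algebraMap R T (D.w j) ^ p ^ e =
        (algebraMap A B D.δ) ^ p ^ e • algebraMap R T m
      rw [map_sum, Algebra.smul_def, map_mul, ← IsScalarTower.algebraMap_apply] at h2
      rw [Algebra.smul_def, ← map_pow, ← IsScalarTower.algebraMap_apply, ← h2]
      refine Finset.sum_congr rfl fun j _ => ?_
      rw [← RingHom.map_pow, ← RingHom.map_mul, h1, Algebra.smul_def, Algebra.smul_def,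
        RingHom.map_mul, ← IsScalarTower.algebraMap_apply A B T,
        ← IsScalarTower.algebraMap_apply A R T, RingHom.map_pow]
    | smul b x hx =>
      rw [smul_comm, ← hx, Finset.smul_sum]
      refine Finset.sum_congr rfl fun j _ => ?_
      rw [smul_mul_assoc, map_smul, smul_assoc]
    | add x y hx hy =>
      rw [smul_add, ← hx, ← hy, ← Finset.sum_add_distrib]
      refine Finset.sum_congr rfl fun j _ => ?_
      rw [add_mul, map_add, add_smul]

end baseChange

end Crest.Agent.R183.PC
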