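/-
R183 (Lech), block PCE, file 2: extension of a trace datum to perfect closures.
helper499
-/
import Crest.Agent.R183.PC1

set_option autoImplicit false
set_option linter.unusedSectionVars false

namespace Crest.Agent.R183.PC

open Module

universe u v w

section basic

variable (p : ℕ) [Fact p.Prime]

lemma pow_p_pow_inj {M : Type*} [CommRing M] [CharP M p] [PerfectRing M p] (n : ℕ) {x y : M}
    (h : x ^ p ^ n = y ^ p ^ n) : x = y := by
  apply (iterateFrobeniusEquiv M p n).injective
  rw [iterateFrobeniusEquiv_def, iterateFrobeniusEquiv_def, h]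

/-- the `p^n`-th root in a perfect ring -/
noncomputable def rt {M : Type*} [CommRing M] [CharP M p] [PerfectRing M p] (n : ℕ) : M ≃+* M :=
  (iterateFrobeniusEquiv M p n).symm

lemma rt_pow {M : Type*} [CommRing M] [CharP M p] [PerfectRing M p] (n : ℕ) (x : M) :
    (rt p n x) ^ p ^ n = x := by
  rw [rt, ← iterateFrobenius_def, ← iterateFrobeniusEquiv_apply, RingEquiv.apply_symm_apply]

lemma rt_unique {M : Type*} [CommRing M] [CharP M p] [PerfectRing M p] (n : ℕ) {x y : M}
    (h : y ^ p ^ n = x) : rt p n x = y :=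
  pow_p_pow_inj p n (by rw [rt_pow, h])

lemma rt_pow_self {M : Type*} [CommRing M] [CharP M p] [PerfectRing M p] (n : ℕ) (x : M) :
    rt p n (x ^ p ^ n) = x := rt_unique p n rfl

lemma rt_rt {M : Type*} [CommRing M] [CharP M p] [PerfectRing M p] (n m : ℕ) (x : M) :
    rt p n (rt p m x) = rt p (n + m) x := by
  symm
  apply rt_unique
  rw [pow_add, pow_mul, rt_pow, rt_pow]

lemma rt_add_pow {M : Type*} [CommRing M] [CharP M p] [PerfectRing M p] (n m : ℕ) (x : M) :
    rt p (n + m) x ^ p ^ m = rt p n x := by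
  rw [add_comm, ← rt_rt, rt_pow]

lemma rt_zero {M : Type*} [CommRing M] [CharP M p] [PerfectRing M p] (x : M) :
    rt p 0 x = x := rt_unique p 0 (by simp)

/-- relation in the perfect closure comes from a power. -/
lemma exists_pow_eq {T W : Type*} [CommRing T] [CommRing W] [CharP T p] [Algebra T W]
    [IsPRadical (algebraMap T W) p] {t t' : T} (h : algebraMap T W t = algebraMap T W t') :
    ∃ k, t ^ p ^ k = t' ^ p ^ k := by
  have h1 : t - t' ∈ RingHom.ker (algebraMap T W) := by
    rw [RingHom.mem_ker, map_sub, h, sub_self]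
  have h2 := IsPRadical.ker_le (algebraMap T W) p h1
  exact (sub_mem_pNilradical_iff_pow_expChar_pow_eq (p := p)).1 h2

omit [Fact p.Prime] in
/-- an element of the perfect closure has a `p^n`-power below, for all large `n`. -/
lemma exists_level {T W : Type*} [CommRing T] [CommRing W] [Algebra T W]
    [IsPRadical (algebraMap T W) p] (x : W) :
    ∃ n0, ∀ n, n0 ≤ n → ∃ t : T, algebraMap T W t = x ^ p ^ n := by
  obtain ⟨n0, t, ht⟩ := IsPRadical.pow_mem (algebraMap T W) p x
  refine ⟨n0, fun n hn => ?_⟩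
  obtain ⟨m, rfl⟩ := Nat.exists_eq_add_of_le hn
  exact ⟨t ^ p ^ m, by rw [map_pow, ht, ← pow_mul, ← pow_add]⟩

end basic

section ext

variable (p : ℕ) [Fact p.Prime]
variable {T : Type*} {B : Type*} (W : Type*) (Bi : Type*) [CommRing T] [CommRing B] [CommRing W]
  [CommRing Bi] [CharP T p] [CharP B p] [CharP W p] [CharP Bi p] [PerfectRing W p]
  [PerfectRing Bi p] [Algebra T W] [Algebra B Bi] [IsPRadical (algebraMap T W) p]

/-- the extension of a Frobenius-compatible map `T → B` to the perfect closures. -/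
noncomputable def ext (f : T → B) (x : W) : Bi :=
  rt p (IsPRadical.pow_mem (algebraMap T W) p x).choose
    (algebraMap B Bi (f (IsPRadical.pow_mem (algebraMap T W) p x).choose_spec.choose))

variable {W Bi}

omit [CharP B p] [CharP W p] [PerfectRing W p] in
lemma ext_spec (f : T → B) (hf : ∀ x, f (x ^ p) = f x ^ p) (x : W) (n : ℕ) (t : T)
    (h : algebraMap T W t = x ^ p ^ n) : (ext p W Bi f x) ^ p ^ n = algebraMap B Bi (f t) := by
  have hf' : ∀ (k : ℕ) (x : T), f (x ^ p ^ k) = f x ^ p ^ k := by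
    intro k
    induction k with
    | zero => simp
    | succ k ih => intro x; rw [pow_succ, pow_mul, hf, ih, ← pow_mul]
  set m := (IsPRadical.pow_mem (algebraMap T W) p x).choose with hm
  set t' := (IsPRadical.pow_mem (algebraMap T W) p x).choose_spec.choose with ht'
  have h' : algebraMap T W t' = x ^ p ^ m :=
    (IsPRadical.pow_mem (algebraMap T W) p x).choose_spec.choose_spec
  have e1 : algebraMap T W (t ^ p ^ m) = algebraMap T W (t' ^ p ^ n) := by
    rw [map_pow, map_pow, h, h', ← pow_mul, ← pow_mul, mul_comm]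
  obtain ⟨k, hk⟩ := exists_pow_eq p e1
  have e2 := congrArg f hk
  rw [hf', hf', hf', hf'] at e2
  have e3 : (ext p W Bi f x) ^ p ^ m = algebraMap B Bi (f t') := rt_pow p m _
  apply pow_p_pow_inj p (m + k)
  calc ((ext p W Bi f x) ^ p ^ n) ^ p ^ (m + k)
      = (((ext p W Bi f x) ^ p ^ m) ^ p ^ n) ^ p ^ k := by
        simp only [← pow_mul, pow_add]; congr 1; ring
    _ = algebraMap B Bi ((f t' ^ p ^ n) ^ p ^ k) := by rw [e3, map_pow, map_pow]
    _ = algebraMap B Bi ((f t ^ p ^ m) ^ p ^ k) := by rw [e2]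
    _ = _ := by rw [map_pow, map_pow, ← pow_mul, ← pow_add]

lemma ext_algebraMap (f : T → B) (hf : ∀ x, f (x ^ p) = f x ^ p) (t : T) :
    ext p W Bi f (algebraMap T W t) = algebraMap B Bi (f t) := by
  have := ext_spec p (W := W) (Bi := Bi) f hf (algebraMap T W t) 0 t (by simp)
  simpa using this

lemma ext_eq_rt (f : T → B) (hf : ∀ x, f (x ^ p) = f x ^ p) (x : W) (n : ℕ) (t : T)
    (h : algebraMap T W t = x ^ p ^ n) : ext p W Bi f x = rt p n (algebraMap B Bi (f t)) :=
  (rt_unique p n (ext_spec p f hf x n t h)).symm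

lemma ext_pow (f : T → B) (hf : ∀ x, f (x ^ p) = f x ^ p) (x : W) (m : ℕ) :
    ext p W Bi f (x ^ p ^ m) = (ext p W Bi f x) ^ p ^ m := by
  obtain ⟨n0, hn0⟩ := exists_level p (T := T) x
  obtain ⟨t, ht⟩ := hn0 (m + n0) (Nat.le_add_left _ _)
  apply pow_p_pow_inj p n0
  rw [ext_spec p f hf (x ^ p ^ m) n0 t (by rw [ht, ← pow_mul, ← pow_add]), ← pow_mul, ← pow_add,
    ext_spec p f hf x (m + n0) t ht]

end ext

section trace

variable {p : ℕ} [Fact p.Prime]
variable {T : Type*} {B : Type*} (W : Type*) (Bi : Type*) [CommRing T] [CommRing B] [CommRing W]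
  [CommRing Bi] [CharP T p] [CharP B p] [CharP W p] [CharP Bi p] [PerfectRing W p]
  [PerfectRing Bi p] [Algebra T W] [Algebra B Bi] [IsPRadical (algebraMap T W) p]
  [IsPRadical (algebraMap B Bi) p] [Algebra B T] [Algebra Bi W] [Algebra B W]
  [IsScalarTower B Bi W] [IsScalarTower B T W]

namespace TrData

variable (D : TrData p B T)

/-- the trace on the perfect closure. -/
noncomputable def tauInf : W →ₗ[Bi] Bi where
  toFun := ext p W Bi D.τ
  map_add' := fun x y => by
    obtain ⟨n1, h1⟩ := exists_level p (T := T) x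
    obtain ⟨n2, h2⟩ := exists_level p (T := T) y
    obtain ⟨t, ht⟩ := h1 (max n1 n2) (le_max_left _ _)
    obtain ⟨s, hs⟩ := h2 (max n1 n2) (le_max_right _ _)
    apply pow_p_pow_inj p (max n1 n2)
    rw [ext_spec p D.τ D.frob (x + y) _ (t + s) (by rw [map_add, ht, hs, add_pow_char_pow]),
      add_pow_char_pow, ext_spec p D.τ D.frob x _ t ht, ext_spec p D.τ D.frob y _ s hs, map_add,
      map_add]
  map_smul' := fun b x => by
    obtain ⟨n1, h1⟩ := exists_level p (T := T) x
    obtain ⟨n2, h2⟩ := exists_level p (T := B) b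
    obtain ⟨t, ht⟩ := h1 (max n1 n2) (le_max_left _ _)
    obtain ⟨s, hs⟩ := h2 (max n1 n2) (le_max_right _ _)
    apply pow_p_pow_inj p (max n1 n2)
    have e : algebraMap T W (s • t) = (b • x) ^ p ^ max n1 n2 := by
      rw [Algebra.smul_def, map_mul, ← IsScalarTower.algebraMap_apply B T W,
        IsScalarTower.algebraMap_apply B Bi W, hs, ht, Algebra.smul_def, mul_pow, map_pow]
    rw [ext_spec p D.τ D.frob (b • x) _ (s • t) e, map_smul, smul_eq_mul, map_mul, hs,
      RingHom.id_apply, smul_eq_mul, mul_pow, ext_spec p D.τ D.frob x _ t ht]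

lemma tauInf_apply (x : W) : D.tauInf W Bi x = ext p W Bi D.τ x := rfl

lemma tauInf_pow (x : W) (m : ℕ) : D.tauInf W Bi (x ^ p ^ m) = (D.tauInf W Bi x) ^ p ^ m :=
  ext_pow p D.τ D.frob x m

lemma tauInf_algebraMap (t : T) :
    D.tauInf W Bi (algebraMap T W t) = algebraMap B Bi (D.τ t) :=
  ext_algebraMap p D.τ D.frob t

lemma tauInf_rt (x : W) (m : ℕ) : D.tauInf W Bi (rt p m x) = rt p m (D.tauInf W Bi x) := by
  symm
  apply rt_unique
  rw [← tauInf_pow, rt_pow]

/-- the dual identity at infinite level, with `p^e`-th roots. -/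
lemma dual_inf (e : ℕ) (x : W) :
    ∑ j, D.tauInf W Bi (x * rt p e (algebraMap T W (D.w' j))) • rt p e (algebraMap T W (D.w j)) =
      rt p e (algebraMap B Bi D.δ) • x := by
  obtain ⟨n0, hn0⟩ := exists_level p (T := T) x
  obtain ⟨t, ht⟩ := hn0 n0 le_rfl
  apply pow_p_pow_inj p (e + n0)
  rw [sum_pow_char_pow, Algebra.smul_def, mul_pow, ← map_pow, pow_add, pow_mul, rt_pow]
  have hx : x ^ (p ^ e * p ^ n0) = algebraMap T W (t ^ p ^ e) := by
    rw [map_pow, ht, ← pow_mul, mul_comm]
  have hx' : x ^ (p ^ (e + n0)) = algebraMap T W (t ^ p ^ e) := by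
    rw [pow_add, hx]
  have key := congrArg (algebraMap T W) (D.dual n0 (t ^ p ^ e))
  rw [map_sum, Algebra.smul_def, map_mul, ← IsScalarTower.algebraMap_apply B T W, ← hx,
    IsScalarTower.algebraMap_apply B Bi W, map_pow] at key
  rw [← key]
  refine Finset.sum_congr rfl fun j _ => ?_
  rw [Algebra.smul_def, mul_pow, ← map_pow, ← pow_add, ← tauInf_pow, mul_pow, hx', pow_add,
    pow_mul (rt p e (algebraMap T W (D.w' j))), rt_pow, pow_mul (rt p e (algebraMap T W (D.w j))),
    rt_pow, ← map_pow (algebraMap T W) (D.w' j), ← RingHom.map_mul, tauInf_algebraMap,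
    Algebra.smul_def, RingHom.map_mul (algebraMap T W), ← IsScalarTower.algebraMap_apply B T W,
    IsScalarTower.algebraMap_apply B Bi W, RingHom.map_pow (algebraMap T W)]

end TrData

end trace

end Crest.Agent.R183.PC
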