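/-
R183 (Lech), block PCE, file 3: the ideal `X = ⋃ δ^(1/p^e) W` of the perfect closure `W` of `T` is flat
over the perfect closure of `B`; boundedness; the amplifier.
helper499
-/
import Crest.Agent.R183.PC2

set_option autoImplicit false
set_option linter.unusedSectionVars false

namespace Crest.Agent.R183.PC

open Module TensorProduct

section X

variable {p : ℕ} [Fact p.Prime]
variable {T : Type*} {B : Type*} (W : Type*) (Bi : Type*) [CommRing T] [CommRing B] [CommRing W]
  [CommRing Bi] [CharP T p] [CharP B p] [CharP W p] [CharP Bi p] [PerfectRing W p]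
  [PerfectRing Bi p] [Algebra T W] [Algebra B Bi] [IsPRadical (algebraMap T W) p]
  [IsPRadical (algebraMap B Bi) p] [Algebra B T] [Algebra Bi W] [Algebra B W]
  [IsScalarTower B Bi W] [IsScalarTower B T W]

namespace TrData

variable (D : TrData p B T)

/-- `δ^(1/p^e)` -/
noncomputable def dl (e : ℕ) : Bi := rt p e (algebraMap B Bi D.δ)

lemma dl_add_pow (e m : ℕ) : D.dl Bi (e + m) ^ p ^ m = D.dl Bi e := rt_add_pow p e m _

lemma dl_zero : D.dl Bi 0 = algebraMap B Bi D.δ := rt_zero p _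

lemma dl_dvd {e e' : ℕ} (h : e ≤ e') : D.dl Bi e' ∣ D.dl Bi e := by
  obtain ⟨m, rfl⟩ := Nat.exists_eq_add_of_le h
  rw [← D.dl_add_pow Bi e m]
  exact dvd_pow_self _ (pow_ne_zero _ (Fact.out : p.Prime).ne_zero)

lemma dl_sq_dvd {e : ℕ} : D.dl Bi (e + 1) ^ 2 ∣ D.dl Bi e := by
  rw [← D.dl_add_pow Bi e 1]
  exact pow_dvd_pow _ (by rw [pow_one]; exact (Fact.out : p.Prime).two_le)

/-- `X = ⋃ δ^(1/p^e) W`. -/
noncomputable def X : Ideal W where
  carrier := {x | ∃ e : ℕ, algebraMap Bi W (D.dl Bi e) ∣ x}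
  zero_mem' := ⟨0, dvd_zero _⟩
  add_mem' := by
    rintro x y ⟨e, hx⟩ ⟨e', hy⟩
    refine ⟨max e e', dvd_add ?_ ?_⟩
    · exact ((algebraMap Bi W).map_dvd (D.dl_dvd Bi (le_max_left _ _))).trans hx
    · exact ((algebraMap Bi W).map_dvd (D.dl_dvd Bi (le_max_right _ _))).trans hy
  smul_mem' := by
    rintro c x ⟨e, hx⟩
    exact ⟨e, hx.mul_left c⟩

lemma mem_X {x : W} : x ∈ D.X W Bi ↔ ∃ e : ℕ, algebraMap Bi W (D.dl Bi e) ∣ x := Iff.rfl

lemma dl_mul_mem (e : ℕ) (x : W) : algebraMap Bi W (D.dl Bi e) * x ∈ D.X W Bi := ⟨e, dvd_mul_right _ _⟩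

/-- `δ^(1/p^e)` is a nonzerodivisor on `W` -/
lemma dl_reg (hδ : ∀ t : T, D.δ • t = 0 → t = 0) (e : ℕ) (x : W)
    (h : algebraMap Bi W (D.dl Bi e) * x = 0) : x = 0 := by
  have hδ' : ∀ (n : ℕ) (t : T), D.δ ^ n • t = 0 → t = 0 := by
    intro n
    induction n with
    | zero => intro t ht; simpa using ht
    | succ n ih => intro t ht; exact hδ t (ih _ (by rw [smul_smul, ← pow_succ]; exact ht))
  obtain ⟨n, t, ht⟩ := IsPRadical.pow_mem (algebraMap T W) p x
  have h1 : (algebraMap Bi W (D.dl Bi e) * x) ^ p ^ (e + n) =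
      algebraMap T W (D.δ ^ p ^ n • t ^ p ^ e) := by
    rw [mul_pow, ← map_pow, dl, pow_add, pow_mul, rt_pow, Algebra.smul_def, map_mul,
      ← IsScalarTower.algebraMap_apply B T W, IsScalarTower.algebraMap_apply B Bi W, map_pow,
      map_pow, map_pow (algebraMap T W), ht, ← pow_mul, mul_comm (p ^ e) (p ^ n)]
    congr 1
    rw [map_pow]
  rw [h, zero_pow (pow_ne_zero _ (Fact.out : p.Prime).ne_zero), ← map_zero (algebraMap T W)] at h1
  obtain ⟨k, hk⟩ := exists_pow_eq p h1
  rw [zero_pow (pow_ne_zero _ (Fact.out : p.Prime).ne_zero), smul_pow, ← pow_mul] at hk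
  have h2 := hδ' _ _ hk.symm
  rw [← pow_mul, ← pow_add] at h2
  have h3 : x ^ p ^ (n + (e + k)) = 0 := by
    rw [pow_add, pow_mul, ← ht, ← map_pow, h2, map_zero]
  exact pow_p_pow_inj p (n + (e + k))
    (by rw [h3, zero_pow (pow_ne_zero _ (Fact.out : p.Prime).ne_zero)])

/-- `X` is flat over the perfect closure of `B`. -/
theorem flat_X (hδ : ∀ t : T, D.δ • t = 0 → t = 0) : Module.Flat Bi (D.X W Bi) := by
  rw [Module.Flat.iff_forall_isTrivialRelation]
  intro l f x hfx
  -- a common level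
  have hlev : ∃ e : ℕ, ∀ i, ∃ y : W, (x i : W) = algebraMap Bi W (D.dl Bi e) * y := by
    choose e he using fun i => (x i).2
    refine ⟨Finset.univ.sup e, fun i => ?_⟩
    exact ((algebraMap Bi W).map_dvd (D.dl_dvd Bi (Finset.le_sup (Finset.mem_univ i)))).trans
      (he i)
  obtain ⟨e, hy⟩ := hlev
  obtain ⟨c, hc⟩ := D.dl_sq_dvd Bi (e := e)
  -- x i = dl (e+1)^2 * y' i
  have hy' : ∀ i, ∃ y : W, (x i : W) = algebraMap Bi W (D.dl Bi (e + 1)) *
      (algebraMap Bi W (D.dl Bi (e + 1)) * y) := by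
    intro i
    obtain ⟨y, hy⟩ := hy i
    exact ⟨algebraMap Bi W c * y, by rw [hy, hc, map_mul, map_pow]; ring⟩
  choose y hy using hy'
  refine ⟨D.r, fun i j => D.tauInf W Bi (y i * rt p (e + 1) (algebraMap T W (D.w' j))),
    fun j => ⟨algebraMap Bi W (D.dl Bi (e + 1)) * rt p (e + 1) (algebraMap T W (D.w j)),
      D.dl_mul_mem W Bi _ _⟩, fun i => ?_, fun j => ?_⟩
  · apply Subtype.ext
    rw [hy i]
    have := D.dual_inf W Bi (e + 1) (y i)
    rw [← dl, Algebra.smul_def] at this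
    rw [← this]
    simp only [AddSubmonoidClass.coe_finsetSum, Submodule.coe_smul_of_tower, Finset.mul_sum]
    refine Finset.sum_congr rfl fun j _ => ?_
    rw [Algebra.smul_def, Algebra.smul_def]
    ring
  · have h1 : ∑ i, f i • y i = 0 := by
      apply D.dl_reg W Bi hδ (e + 1)
      apply D.dl_reg W Bi hδ (e + 1)
      have := congrArg Subtype.val hfx
      simp only [AddSubmonoidClass.coe_finsetSum, Submodule.coe_smul_of_tower,
        ZeroMemClass.coe_zero] at this
      rw [← this, Finset.mul_sum, Finset.mul_sum]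
      refine Finset.sum_congr rfl fun i _ => ?_
      rw [hy i, Algebra.smul_def, Algebra.smul_def]
      ring
    have h2 : D.tauInf W Bi ((∑ i, f i • y i) * rt p (e + 1) (algebraMap T W (D.w' j))) = 0 := by
      rw [h1, zero_mul, map_zero]
    rw [Finset.sum_mul, map_sum] at h2
    rw [← h2]
    refine Finset.sum_congr rfl fun i _ => ?_
    rw [smul_mul_assoc, map_smul, smul_eq_mul]

/-- the ring map `T ⊗ Bi → W` -/
noncomputable def mu : T ⊗[B] Bi →ₐ[B] W :=
  Algebra.TensorProduct.lift (IsScalarTower.toAlgHom B T W) (IsScalarTower.toAlgHom B Bi W)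
    (fun _ _ => Commute.all _ _)

lemma mu_tmul (t : T) (b : Bi) : mu W Bi (t ⊗ₜ[B] b) = algebraMap T W t * algebraMap Bi W b := by
  simp [mu]

/-- the inverse up to `δ` -/
noncomputable def rho : W →+ T ⊗[B] Bi where
  toFun := fun x => ∑ j, D.w j ⊗ₜ[B] D.tauInf W Bi (x * algebraMap T W (D.w' j))
  map_zero' := by simp
  map_add' := fun x y => by
    simp only [add_mul, map_add, tmul_add, Finset.sum_add_distrib]

lemma mu_rho (x : W) : mu W Bi (D.rho W Bi x) = algebraMap Bi W (algebraMap B Bi D.δ) * x := by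
  have := D.dual_inf W Bi 0 x
  simp only [rt_zero] at this
  rw [Algebra.smul_def] at this
  rw [← this, rho, AddMonoidHom.coe_mk, ZeroHom.coe_mk, map_sum]
  refine Finset.sum_congr rfl fun j _ => ?_
  rw [mu_tmul, Algebra.smul_def, mul_comm]

lemma rho_mu (s : T ⊗[B] Bi) : D.rho W Bi (mu W Bi s) = D.δ • s := by
  induction s using TensorProduct.induction_on with
  | zero => rw [map_zero, map_zero, smul_zero]
  | add x y hx hy => rw [map_add, map_add, hx, hy, smul_add]
  | tmul t b =>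
    have h0 : ∑ j, D.τ (t * D.w' j) • D.w j = D.δ • t := by simpa using D.dual 0 t
    rw [mu_tmul, rho, AddMonoidHom.coe_mk, ZeroHom.coe_mk, smul_tmul', ← h0, sum_tmul]
    refine Finset.sum_congr rfl fun j _ => ?_
    rw [show algebraMap T W t * algebraMap Bi W b * algebraMap T W (D.w' j) =
      b • algebraMap T W (t * D.w' j) by rw [Algebra.smul_def, map_mul]; ring, map_smul,
      tauInf_algebraMap, smul_tmul, smul_eq_mul, Algebra.smul_def, mul_comm]

/-- cokernel of `T ⊗ Bi → W` is killed by `δ` -/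
theorem exists_mu_eq (x : W) :
    ∃ s : T ⊗[B] Bi, mu W Bi s = algebraMap Bi W (algebraMap B Bi D.δ) * x :=
  ⟨_, D.mu_rho W Bi x⟩

/-- kernel of `T ⊗ Bi → W` is killed by `δ` -/
theorem smul_eq_zero_of_mu_eq_zero (s : T ⊗[B] Bi) (h : mu W Bi s = 0) : D.δ • s = 0 := by
  rw [← D.rho_mu W Bi s, h, map_zero]

end TrData

end X

section amplifier

variable {p : ℕ} [Fact p.Prime]
variable {T : Type*} {W : Type*} [CommRing T] [CommRing W] [CharP T p] [CharP W p]
  [PerfectRing W p] [Algebra T W]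

/-- **Amplifier in characteristic `p`.**  If `a^(c+1) ≤ (z) a^c` then the image of `a` in a perfect
ring lies in `(z^(1/q))^(q-c)`. -/
theorem amplifier {ι : Type*} (a : Ideal T) (z : ι → T) (c : ℕ)
    (h : a ^ (c + 1) ≤ Ideal.span (Set.range z) * a ^ c) (e N : ℕ) (hN : N + c ≤ p ^ e) :
    a.map (algebraMap T W) ≤
      (Ideal.span (Set.range fun i => rt p e (algebraMap T W (z i)))) ^ N := by
  -- iterate the reduction
  have h1 : ∀ N, a ^ (c + N) ≤ Ideal.span (Set.range z) ^ N * a ^ c := by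
    intro N
    induction N with
    | zero => simp
    | succ N ih =>
      calc a ^ (c + (N + 1)) = a ^ (c + N) * a := by rw [← add_assoc, pow_succ]
        _ ≤ (Ideal.span (Set.range z) ^ N * a ^ c) * a := Ideal.mul_mono_left ih
        _ = Ideal.span (Set.range z) ^ N * a ^ (c + 1) := by rw [mul_assoc, ← pow_succ]
        _ ≤ Ideal.span (Set.range z) ^ N * (Ideal.span (Set.range z) * a ^ c) :=
          Ideal.mul_mono_right h
        _ = _ := by rw [← mul_assoc, ← pow_succ]
  rw [Ideal.map_le_iff_le_comap]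
  intro x hx
  rw [Ideal.mem_comap]
  have hx1 : x ^ p ^ e ∈ Ideal.span (Set.range z) ^ N := by
    have h2 : a ^ (p ^ e) ≤ Ideal.span (Set.range z) ^ N := by
      refine le_trans (Ideal.pow_le_pow_right (?_ : c + N ≤ p ^ e)) ((h1 N).trans Ideal.mul_le_left)
      rw [add_comm]
      exact hN
    exact h2 (Ideal.pow_mem_pow hx _)
  have hx2 : (algebraMap T W x) ^ p ^ e ∈
      Ideal.span (Set.range fun i => algebraMap T W (z i)) ^ N := by
    rw [← map_pow]
    have := Ideal.mem_map_of_mem (algebraMap T W) hx1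
    rwa [Ideal.map_pow, Ideal.map_span, ← Set.range_comp] at this
  have hx3 := Ideal.mem_map_of_mem (rt (M := W) p e) hx2
  rw [Ideal.map_pow, Ideal.map_span, ← Set.range_comp, rt_pow_self] at hx3
  exact hx3

end amplifier

end Crest.Agent.R183.PC
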