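/-
R183 (Lech), characteristic p: `p`-bases; `MvPowerSeries (Fin d) K` (`K` perfect) has the `p`-basis
`X`; helper529's `BInf p t` is then a perfect closure of `B`.
helper499
-/
import Crest.Agent.R183.PC3
import Crest.Agent.R183.BInf2

set_option autoImplicit false
set_option linter.unusedSectionVars false

namespace Crest.Agent.R183.PC

open Module

/-- `t` is a (finite) `p`-basis of the ring `B` of characteristic `p`, in the strong form: every
element is uniquely `∑ t^α b_α^p`, `0 ≤ α_i < p`. -/
structure PBasis (p : ℕ) {d : ℕ} {B : Type*} [CommRing B] (t : Fin d → B) : Prop where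
  surj : ∀ x : B, ∃ b : (Fin d → Fin p) → B, x = ∑ α, (∏ i, t i ^ (α i : ℕ)) * b α ^ p
  inj : ∀ b : (Fin d → Fin p) → B, ∑ α, (∏ i, t i ^ (α i : ℕ)) * b α ^ p = 0 → ∀ α, b α = 0

section PowerSeries

variable {d p : ℕ} [Fact p.Prime] {K : Type*} [Field K] [CharP K p]

local notation "PS" => MvPowerSeries (Fin d) K

lemma coeff_pow_char (b : PS) (m : Fin d →₀ ℕ) :
    MvPowerSeries.coeff (p • m) (b ^ p) = (MvPowerSeries.coeff m b) ^ p := by
  rw [← MvPowerSeries.map_frobenius_expand p (Fact.out : p.Prime).ne_zero (f := b),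
    MvPowerSeries.coeff_map, MvPowerSeries.coeff_expand_smul, frobenius_def]

lemma coeff_pow_char_of_not_dvd (b : PS) (m : Fin d →₀ ℕ) (i : Fin d) (h : ¬ p ∣ m i) :
    MvPowerSeries.coeff m (b ^ p) = 0 := by
  rw [← MvPowerSeries.map_frobenius_expand p (Fact.out : p.Prime).ne_zero (f := b),
    MvPowerSeries.coeff_map, MvPowerSeries.coeff_expand_of_not_dvd _ _ _ h, map_zero]

/-- `α` as a Finsupp -/
noncomputable def toF (α : Fin d → Fin p) : Fin d →₀ ℕ := Finsupp.equivFunOnFinite.symm fun i => (α i : ℕ)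

lemma toF_apply (α : Fin d → Fin p) (i : Fin d) : toF α i = (α i : ℕ) := rfl

lemma prod_X_pow (α : Fin d → Fin p) :
    (∏ i, (MvPowerSeries.X i : PS) ^ (α i : ℕ)) = MvPowerSeries.monomial (toF α) 1 := by
  rw [MvPowerSeries.monomial_eq', Finsupp.prod_fintype _ _ (fun i => by simp)]
  simp [toF_apply]

lemma coeff_sum (b : (Fin d → Fin p) → PS) (n : Fin d →₀ ℕ) (β : Fin d → Fin p) :
    MvPowerSeries.coeff (p • n + toF β)
      (∑ α, (∏ i, (MvPowerSeries.X i : PS) ^ (α i : ℕ)) * b α ^ p) =
      (MvPowerSeries.coeff n (b β)) ^ p := by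
  rw [map_sum, Finset.sum_eq_single β]
  · rw [prod_X_pow, MvPowerSeries.coeff_monomial_mul, if_pos (le_add_of_nonneg_left zero_le),
      one_mul, add_tsub_cancel_right, coeff_pow_char]
  · intro α _ hα
    rw [prod_X_pow, MvPowerSeries.coeff_monomial_mul]
    split_ifs with h
    · rw [one_mul]
      obtain ⟨i, hi⟩ : ∃ i, α i ≠ β i := by
        by_contra hc
        exact hα (funext fun i => by_contra fun h' => hc ⟨i, h'⟩)
      apply coeff_pow_char_of_not_dvd (b α) _ i
      intro hdvd
      obtain ⟨k, hk⟩ := hdvd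
      have hle : (α i : ℕ) ≤ p * n i + (β i : ℕ) := by simpa [toF_apply] using h i
      rw [Finsupp.tsub_apply, Finsupp.add_apply, Finsupp.smul_apply, smul_eq_mul, toF_apply,
        toF_apply] at hk
      apply hi
      apply Fin.ext
      have h1 : p * n i + (β i : ℕ) = p * k + (α i : ℕ) := by omega
      have h2 := congrArg (· % p) h1
      simp only [Nat.mul_add_mod, Nat.mod_eq_of_lt (β i).2, Nat.mod_eq_of_lt (α i).2] at h2
      exact h2.symm
    · rfl
  · intro h; exact absurd (Finset.mem_univ _) h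

lemma exists_decomp (m : Fin d →₀ ℕ) : ∃ (n : Fin d →₀ ℕ) (β : Fin d → Fin p),
    m = p • n + toF β := by
  refine ⟨Finsupp.equivFunOnFinite.symm fun i => m i / p, fun i => ⟨m i % p,
    Nat.mod_lt _ (Fact.out : p.Prime).pos⟩, ?_⟩
  ext i
  rw [Finsupp.add_apply, Finsupp.smul_apply, smul_eq_mul, toF_apply]
  exact (Nat.div_add_mod _ _).symm

/-- power series over a perfect field: the variables form a `p`-basis. -/
theorem pBasis_mvPowerSeries [PerfectRing K p] :
    PBasis p (fun i : Fin d => (MvPowerSeries.X i : PS)) where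
  surj := by
    intro x
    let c : (Fin d → Fin p) → PS :=
      fun β n => (frobeniusEquiv K p).symm (MvPowerSeries.coeff (p • n + toF β) x)
    refine ⟨c, ?_⟩
    ext m
    obtain ⟨n, β, rfl⟩ := exists_decomp (p := p) m
    rw [coeff_sum c n β]
    change _ = ((frobeniusEquiv K p).symm (MvPowerSeries.coeff (p • n + toF β) x)) ^ p
    rw [frobeniusEquiv_symm_pow_p]
  inj := by
    intro b hb β
    ext n
    have h := coeff_sum b n β
    rw [hb, map_zero] at h
    rw [map_zero]
    exact pow_eq_zero_iff (Fact.out : p.Prime).ne_zero |>.1 h.symm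

end PowerSeries

section perfect

open BInf

variable {d p : ℕ} [hp : Fact p.Prime] {B : Type*} [CommRing B] [CharP B p] (t : Fin d → B)

omit hp [CharP B p] in
lemma algebraMap_BInf_injective : Function.Injective (algebraMap B (BInf p t)) := by
  let z : Gam1 d p := ⟨0, fun i => by simp⟩
  have h1 : ∀ b : B, algebraMap B (BInf p t) b = b • basis p t z := by
    intro b
    rw [basis_apply]
    change _ = b • mon p t 0
    rw [mon_zero]
    exact (Algebra.algebraMap_eq_smul_one b)
  intro a b hab
  rw [h1, h1] at hab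
  have := congrArg (fun v => (basis p t).repr v z) hab
  simpa using this

instance charP_BInf : CharP (BInf p t) p :=
  charP_of_injective_algebraMap (algebraMap_BInf_injective t) p

/-- the Frobenius is surjective on `BInf`. -/
theorem frobenius_surjective (h : PBasis p t) : Function.Surjective (frobenius (BInf p t) p) := by
  have h1 : ∀ b : B, algebraMap B (BInf p t) b ∈ (frobenius (BInf p t) p).range := by
    intro b
    obtain ⟨c, hc⟩ := h.surj b
    rw [hc, map_sum]
    refine Subring.sum_mem _ fun α _ => ?_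
    rw [map_mul]
    refine Subring.mul_mem _ ?_ (RingHom.mem_range.2 ⟨algebraMap _ _ (c α), by
      rw [frobenius_def, map_pow]⟩)
    rw [map_prod]
    refine Subring.prod_mem _ fun i _ => ?_
    rw [map_pow]
    refine Subring.pow_mem _ (RingHom.mem_range.2 ⟨BInf.rt p t hp.out.pos 1 i, ?_⟩) _
    rw [frobenius_def, rt_succ_pow, BInf.rt_zero]
  have h2 : ∀ α : Gam d p, mon p t α ∈ (frobenius (BInf p t) p).range := by
    intro α
    obtain ⟨e, n, rfl⟩ := exists_ex p hp.out.pos α
    rw [mon_ex]
    refine Subring.prod_mem _ fun i _ => Subring.pow_mem _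
      (RingHom.mem_range.2 ⟨BInf.rt p t hp.out.pos (e + 1) i, ?_⟩) _
    rw [frobenius_def, rt_succ_pow]
  intro x
  have hx : x ∈ Submodule.span B (Set.range (basis p t)) := by rw [(basis p t).span_eq]; trivial
  change x ∈ (frobenius (BInf p t) p).range
  induction hx using Submodule.span_induction with
  | mem x hx =>
    obtain ⟨γ, rfl⟩ := hx
    rw [basis_apply]
    exact h2 _
  | zero => exact Subring.zero_mem _
  | add x y _ _ hx hy => exact Subring.add_mem _ hx hy
  | smul b x _ hx =>
    have e : b • x = algebraMap B (BInf p t) b * x := Algebra.smul_def b x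
    rw [e]
    exact Subring.mul_mem _ (h1 b) hx

/-- `x / p` as an exponent -/
noncomputable def dvp (x : NP p) : NP p := ⟨(x : ℚ≥0) / p, by
  obtain ⟨e, n, h⟩ := x.2
  refine ⟨e + 1, n, ?_⟩
  have hp0 : (p : ℚ≥0) ≠ 0 := by exact_mod_cast hp.out.ne_zero
  rw [pow_succ', ← mul_assoc, div_mul_cancel₀ _ hp0, h]⟩

lemma coe_dvp (x : NP p) : ((dvp x : NP p) : ℚ≥0) = (x : ℚ≥0) / p := rfl

/-- the exponent `(β + α)/p`. -/
noncomputable def fj (β : Gam1 d p) (α : Fin d → Fin p) : Gam1 d p :=
  ⟨fun i => dvp ((β : Gam d p) i + ⟨(α i : ℕ), nat_mem_NP p _⟩), fun i => by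
    have hp0 : (0 : ℚ≥0) < p := by exact_mod_cast hp.out.pos
    rw [coe_dvp, div_lt_one hp0, AddSubmonoid.coe_add]
    change ((β : Gam d p) i : ℚ≥0) + ((α i : ℕ) : ℚ≥0) < p
    have h1 := β.2 i
    have h2 : ((α i : ℕ) : ℚ≥0) + 1 ≤ p := by exact_mod_cast (α i).2
    calc ((β : Gam d p) i : ℚ≥0) + ((α i : ℕ) : ℚ≥0) < 1 + ((α i : ℕ) : ℚ≥0) :=
          by gcongr
      _ ≤ p := by rw [add_comm]; exact h2⟩

lemma fj_eq_iff (β γ : Gam1 d p) (α : Fin d → Fin p) :
    fj β α = γ ↔ frG (p • (γ : Gam d p)) = β ∧ ∀ i, fl ((p • (γ : Gam d p)) i) = (α i : ℕ) := by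
  have hp0 : (p : ℚ≥0) ≠ 0 := by exact_mod_cast hp.out.ne_zero
  have key : fj β α = γ ↔ p • (γ : Gam d p) = (β : Gam d p) + natG (fun i => (α i : ℕ)) := by
    constructor
    · rintro rfl
      funext i
      apply Subtype.ext
      rw [Pi.smul_apply, AddSubmonoidClass.coe_nsmul, nsmul_eq_mul]
      change (p : ℚ≥0) * ((((β : Gam d p) i + ⟨(α i : ℕ), nat_mem_NP p _⟩ : NP p) : ℚ≥0) / p) =
        ((β : Gam d p) i : ℚ≥0) + ((α i : ℕ) : ℚ≥0)
      rw [mul_div_cancel₀ _ hp0]
      rfl
    · intro h
      apply Subtype.ext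
      funext i
      apply Subtype.ext
      have h1 := congrArg Subtype.val (congrFun h i)
      rw [Pi.smul_apply, AddSubmonoidClass.coe_nsmul, nsmul_eq_mul] at h1
      change ((((β : Gam d p) i + ⟨(α i : ℕ), nat_mem_NP p _⟩ : NP p) : ℚ≥0) / p) = _
      rw [div_eq_iff hp0, mul_comm]
      exact h1.symm
  rw [key]
  constructor
  · intro h
    refine ⟨?_, fun i => ?_⟩
    · rw [h, frG_add_natG']
      apply Subtype.ext
      funext i
      exact fr_of_lt_one _ (β.2 i)
    · rw [h, fl_add_natG, fl_of_lt_one _ (β.2 i), zero_add]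
  · rintro ⟨h1, h2⟩
    rw [← frG_add_natG (p • (γ : Gam d p)), h1]
    congr 2
    funext i
    exact h2 i

/-- coordinates of a `p`-th power. -/
theorem repr_pow (x : BInf p t) (β : Gam1 d p) :
    (basis p t).repr (x ^ p) β =
      ∑ α : Fin d → Fin p, (∏ i, t i ^ (α i : ℕ)) * ((basis p t).repr x (fj β α)) ^ p := by
  classical
  have hx : x ∈ Submodule.span B (Set.range (basis p t)) := by rw [(basis p t).span_eq]; trivial
  induction hx using Submodule.span_induction with
  | mem x hx =>
    obtain ⟨γ, rfl⟩ := hx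
    have e1 : (basis p t γ) ^ p = (∏ i, t i ^ fl ((p • (γ : Gam d p)) i)) •
        basis p t (frG (p • (γ : Gam d p))) := by
      rw [basis_apply, basis_apply, ← mon_nsmul, mon_eq]
    rw [e1, map_smul, Finsupp.smul_apply, Basis.repr_self, Finsupp.single_apply]
    have e2 : ∀ α : Fin d → Fin p, ((basis p t).repr (basis p t γ) (fj β α)) =
        if fj β α = γ then 1 else 0 := by
      intro α
      rw [Basis.repr_self, Finsupp.single_apply]
      simp only [eq_comm]
    simp only [e2]
    by_cases hβ : frG (p • (γ : Gam d p)) = β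
    · rw [if_pos hβ]
      have hlt : ∀ i, fl ((p • (γ : Gam d p)) i) < p := by
        intro i
        have h1 := γ.2 i
        have h2 : ((fl ((p • (γ : Gam d p)) i) : ℕ) : ℚ≥0) < p := by
          refine lt_of_le_of_lt (fl_le _) ?_
          rw [Pi.smul_apply, AddSubmonoidClass.coe_nsmul, nsmul_eq_mul]
          calc (p : ℚ≥0) * ((γ : Gam d p) i : ℚ≥0) < p * 1 := by
                have hp0 : (0 : ℚ≥0) < p := by exact_mod_cast hp.out.pos
                gcongr
            _ = p := mul_one _
        exact_mod_cast h2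
      rw [Finset.sum_eq_single (fun i => (⟨fl ((p • (γ : Gam d p)) i), hlt i⟩ : Fin p))]
      · rw [if_pos ((fj_eq_iff β γ _).2 ⟨hβ, fun i => rfl⟩), one_pow, mul_one, smul_eq_mul, mul_one]
      · intro α _ hα
        rw [if_neg, zero_pow hp.out.ne_zero, mul_zero]
        intro h
        apply hα
        funext i
        exact Fin.ext (((fj_eq_iff β γ α).1 h).2 i).symm
      · intro h; exact absurd (Finset.mem_univ _) h
    · rw [if_neg hβ, smul_zero]
      symm
      refine Finset.sum_eq_zero fun α _ => ?_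
      rw [if_neg, zero_pow hp.out.ne_zero, mul_zero]
      intro h
      exact hβ ((fj_eq_iff β γ α).1 h).1
  | zero =>
    rw [zero_pow hp.out.ne_zero, map_zero]
    simp [zero_pow hp.out.ne_zero]
  | add x y _ _ hx hy =>
    rw [add_pow_char, map_add, Finsupp.add_apply, hx, hy, ← Finset.sum_add_distrib]
    refine Finset.sum_congr rfl fun α _ => ?_
    rw [map_add, Finsupp.add_apply, add_pow_char, mul_add]
  | smul b x _ hx =>
    have e : b • x = algebraMap B (BInf p t) b * x := Algebra.smul_def b x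
    have e' : (b • x) ^ p = b ^ p • x ^ p := by
      rw [e, mul_pow, ← map_pow]
      exact (Algebra.smul_def (b ^ p) (x ^ p)).symm
    rw [e', map_smul, Finsupp.smul_apply, hx, smul_eq_mul, Finset.mul_sum]
    refine Finset.sum_congr rfl fun α _ => ?_
    rw [map_smul, Finsupp.smul_apply, smul_eq_mul, mul_pow]
    ring

theorem frobenius_injective (h : PBasis p t) : Function.Injective (frobenius (BInf p t) p) := by
  rw [injective_iff_map_eq_zero]
  intro x hx
  rw [frobenius_def] at hx
  apply (basis p t).repr.injective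
  rw [map_zero]
  ext γ
  have h1 := repr_pow t x (frG (p • (γ : Gam d p)))
  rw [hx, map_zero, Finsupp.zero_apply] at h1
  have h2 := h.inj (fun α => (basis p t).repr x (fj (frG (p • (γ : Gam d p))) α)) h1.symm
  have hlt : ∀ i, fl ((p • (γ : Gam d p)) i) < p := by
    intro i
    have h1 := γ.2 i
    have h2 : ((fl ((p • (γ : Gam d p)) i) : ℕ) : ℚ≥0) < p := by
      refine lt_of_le_of_lt (fl_le _) ?_
      rw [Pi.smul_apply, AddSubmonoidClass.coe_nsmul, nsmul_eq_mul]
      calc (p : ℚ≥0) * ((γ : Gam d p) i : ℚ≥0) < p * 1 := by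
            have hp0 : (0 : ℚ≥0) < p := by exact_mod_cast hp.out.pos
            gcongr
        _ = p := mul_one _
    exact_mod_cast h2
  have h3 := h2 (fun i => ⟨fl ((p • (γ : Gam d p)) i), hlt i⟩)
  rw [(fj_eq_iff (frG (p • (γ : Gam d p))) γ _).2 ⟨rfl, fun i => rfl⟩] at h3
  exact h3

theorem perfectRing_BInf (h : PBasis p t) : PerfectRing (BInf p t) p :=
  ⟨frobenius_injective t h, frobenius_surjective t h⟩

theorem isPRadical_BInf : IsPRadical (algebraMap B (BInf p t)) p where
  pow_mem' := by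
    intro x
    have hx : x ∈ Submodule.span B (Set.range (basis p t)) := by rw [(basis p t).span_eq]; trivial
    induction hx using Submodule.span_induction with
    | mem x hx =>
      obtain ⟨γ, rfl⟩ := hx
      obtain ⟨e, n, hn⟩ := exists_ex p hp.out.pos (γ : Gam d p)
      refine ⟨e, ∏ i, t i ^ n i, ?_⟩
      rw [basis_apply, ← mon_nsmul, ← mon_natG]
      congr 1
      rw [hn]
      funext i
      apply Subtype.ext
      rw [Pi.smul_apply, AddSubmonoidClass.coe_nsmul, nsmul_eq_mul]
      change (n i : ℚ≥0) = ((p ^ e : ℕ) : ℚ≥0) * ((n i : ℚ≥0) / (p : ℚ≥0) ^ e)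
      push_cast
      rw [mul_div_cancel₀ _ (pe_ne p hp.out.pos e)]
    | zero => exact ⟨0, 0, by simp⟩
    | add x y _ _ hx hy =>
      obtain ⟨e, a, ha⟩ := hx
      obtain ⟨e', a', ha'⟩ := hy
      refine ⟨e + e', a ^ p ^ e' + a' ^ p ^ e, ?_⟩
      rw [map_add, map_pow, map_pow, ha, ha', add_pow_char_pow, ← pow_mul, ← pow_mul, ← pow_add,
        ← pow_add, add_comm e' e]
    | smul b x _ hx =>
      obtain ⟨e, a, ha⟩ := hx
      refine ⟨e, b ^ p ^ e * a, ?_⟩
      have e1 : b • x = algebraMap B (BInf p t) b * x := Algebra.smul_def b x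
      rw [e1, mul_pow, map_mul, ha, map_pow]
  ker_le' := by
    intro x hx
    have : x = 0 := algebraMap_BInf_injective t (by rw [(RingHom.mem_ker).1 hx, map_zero])
    rw [this]
    exact zero_mem _

end perfect

end Crest.Agent.R183.PC
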