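/-
R183 (Lech's conjecture), block (G): the base `B = Λ[[X_1, …, X_n]]` has the `p`-basis
`(p, X_1, …, X_n)`.  Author: helper529.
-/
import Crest.Agent.R183.BInf4
import Crest.Agent.R183.PC4
import Mathlib.RingTheory.WittVector.Complete
import Mathlib.RingTheory.WittVector.DiscreteValuationRing

set_option autoImplicit false
set_option linter.dupNamespace false

namespace Crest.Agent.R183.BInf

open Crest.Agent.R183

section Base

variable {n p : ℕ} [hpr : Fact p.Prime] {Λ : Type*} [CommRing Λ] {K : Type*} [Field K]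
  [CharP K p] [PerfectRing K p]

/-- the parameters `(p, X_1, …, X_n)` of `Λ[[X_1, …, X_n]]` -/
noncomputable def tb (n p : ℕ) (Λ : Type*) [CommRing Λ] : Fin (n + 1) → MvPowerSeries (Fin n) Λ :=
  Fin.cons (p : MvPowerSeries (Fin n) Λ) MvPowerSeries.X

omit hpr in
theorem tb_zero : tb n p Λ 0 = p := rfl

omit hpr in
theorem tb_succ (i : Fin n) : tb n p Λ i.succ = MvPowerSeries.X i := rfl

omit hpr in
theorem coeff_natCast_mul (k : ℕ) (f : MvPowerSeries (Fin n) Λ) (m : Fin n →₀ ℕ) :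
    MvPowerSeries.coeff m ((k : MvPowerSeries (Fin n) Λ) * f) = k * MvPowerSeries.coeff m f := by
  rw [← nsmul_eq_mul, map_nsmul, nsmul_eq_mul]

omit hpr in
theorem natCast_dvd_iff_coeff (k : ℕ) (f : MvPowerSeries (Fin n) Λ) :
    (k : MvPowerSeries (Fin n) Λ) ∣ f ↔ ∀ m, (k : Λ) ∣ MvPowerSeries.coeff m f := by
  constructor
  · rintro ⟨g, rfl⟩ m
    rw [coeff_natCast_mul]
    exact Dvd.intro _ rfl
  · intro h
    choose c hc using h
    let g : MvPowerSeries (Fin n) Λ := fun m => c m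
    have hg : ∀ m, MvPowerSeries.coeff m g = c m := fun m => rfl
    refine ⟨g, ?_⟩
    ext m
    rw [coeff_natCast_mul, hc m, hg]

omit hpr [CharP K p] [PerfectRing K p] in
theorem natCast_dvd_iff_map (π : Λ →+* K) (hk : ∀ x, π x = 0 ↔ (p : Λ) ∣ x)
    (f : MvPowerSeries (Fin n) Λ) :
    (p : MvPowerSeries (Fin n) Λ) ∣ f ↔ MvPowerSeries.map π f = 0 := by
  rw [natCast_dvd_iff_coeff]
  constructor
  · intro h
    ext m
    rw [MvPowerSeries.coeff_map, (hk _).mpr (h m), map_zero]
  · intro h m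
    rw [← hk, ← MvPowerSeries.coeff_map, h, map_zero]

/-- the index bijection -/
def eIdx (n p : ℕ) (hp : 0 < p) : PIdx p (0 : Fin (n + 1)) ≃ (Fin n → Fin p) where
  toFun α := fun i => α.1 i.succ
  invFun β := ⟨Fin.cons ⟨0, hp⟩ β, rfl⟩
  left_inv := by
    rintro ⟨α, hα⟩
    apply Subtype.ext
    funext i
    refine Fin.cases ?_ (fun i => ?_) i
    · apply Fin.ext
      exact hα.symm
    · rfl
  right_inv β := rfl

omit hpr in
theorem prod_tb (α : PIdx p (0 : Fin (n + 1))) :
    (∏ i, tb n p Λ i ^ (α.1 i : ℕ)) = ∏ i : Fin n, MvPowerSeries.X i ^ (α.1 i.succ : ℕ) := by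
  rw [Fin.prod_univ_succ, α.2, pow_zero, one_mul]
  rfl

theorem sum_tb (c : (Fin n → Fin p) → MvPowerSeries (Fin n) Λ) :
    (∑ α : PIdx p (0 : Fin (n + 1)), (∏ i, tb n p Λ i ^ (α.1 i : ℕ)) *
      c (eIdx n p hpr.out.pos α) ^ p) =
      ∑ β : Fin n → Fin p, (∏ i, (MvPowerSeries.X i : MvPowerSeries (Fin n) Λ) ^ (β i : ℕ)) *
        c β ^ p := by
  rw [← (eIdx n p hpr.out.pos).sum_comp (fun β => (∏ i, (MvPowerSeries.X i :
    MvPowerSeries (Fin n) Λ) ^ (β i : ℕ)) * c β ^ p)]
  refine Finset.sum_congr rfl fun α _ => ?_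
  rw [prod_tb]
  rfl

omit [CharP K p] [PerfectRing K p] hpr in
theorem map_surjective (π : Λ →+* K) (hs : Function.Surjective π) :
    Function.Surjective (MvPowerSeries.map (σ := Fin n) π) := by
  intro f
  choose c hc using fun m => hs (MvPowerSeries.coeff m f)
  let g : MvPowerSeries (Fin n) Λ := fun m => c m
  have hg : ∀ m, MvPowerSeries.coeff m g = c m := fun m => rfl
  refine ⟨g, ?_⟩
  ext m
  rw [MvPowerSeries.coeff_map, hg, hc]

omit [CharP K p] [PerfectRing K p] hpr in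
theorem map_sum_X (π : Λ →+* K) (c : (Fin n → Fin p) → MvPowerSeries (Fin n) Λ) :
    MvPowerSeries.map π (∑ β : Fin n → Fin p,
      (∏ i, (MvPowerSeries.X i : MvPowerSeries (Fin n) Λ) ^ (β i : ℕ)) * c β ^ p) =
    ∑ β : Fin n → Fin p, (∏ i, (MvPowerSeries.X i : MvPowerSeries (Fin n) K) ^ (β i : ℕ)) *
      (MvPowerSeries.map π (c β)) ^ p := by
  rw [map_sum]
  refine Finset.sum_congr rfl fun β _ => ?_
  rw [map_mul, map_prod, map_pow]
  congr 1
  refine Finset.prod_congr rfl fun i _ => ?_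
  rw [map_pow, MvPowerSeries.map_X]

/-- `(p, X_1, …, X_n)` is a `p`-basis system of `Λ[[X]]`, `Λ/p = K` perfect -/
theorem pbasis_tb (π : Λ →+* K) (hs : Function.Surjective π) (hk : ∀ x, π x = 0 ↔ (p : Λ) ∣ x)
    (hreg : ∀ x : Λ, (p : Λ) * x = 0 → x = 0) : PBasis p (tb n p Λ) 0 where
  eq := tb_zero
  reg := by
    intro f hf
    ext m
    rw [map_zero]
    apply hreg
    rw [← coeff_natCast_mul, hf, map_zero]
  nonunit := by
    intro h
    have h1 := h.map (MvPowerSeries.map (σ := Fin n) π)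
    rw [(natCast_dvd_iff_map π hk _).mp dvd_rfl] at h1
    exact not_isUnit_zero h1
  gen := by
    intro f
    obtain ⟨b, hb⟩ := (PC.pBasis_mvPowerSeries (p := p) (K := K) (d := n)).surj
      (MvPowerSeries.map π f)
    choose c hc using fun β => map_surjective (n := n) π hs (b β)
    refine ⟨fun α => c (eIdx n p hpr.out.pos α), ?_⟩
    rw [sum_tb, natCast_dvd_iff_map π hk, map_sub, map_sum_X, hb, sub_eq_zero]
    refine Finset.sum_congr rfl fun β _ => ?_
    rw [hc]
  uniq := by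
    intro c hc α
    let c' : (Fin n → Fin p) → MvPowerSeries (Fin n) Λ := fun β =>
      c ((eIdx n p hpr.out.pos).symm β)
    have h1 : ∀ α, c α = c' (eIdx n p hpr.out.pos α) := by
      intro α
      change c α = c ((eIdx n p hpr.out.pos).symm (eIdx n p hpr.out.pos α))
      rw [Equiv.symm_apply_apply]
    simp only [h1] at hc
    rw [sum_tb, natCast_dvd_iff_map π hk, map_sum_X] at hc
    have h2 := (PC.pBasis_mvPowerSeries (p := p) (K := K) (d := n)).inj
      (fun β => MvPowerSeries.map π (c' β)) hc (eIdx n p hpr.out.pos α)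
    rw [h1, natCast_dvd_iff_map π hk]
    exact h2

/-- the case `Λ = W(K)` -/
theorem pbasis_witt (n p : ℕ) [Fact p.Prime] (K : Type*) [Field K] [CharP K p] [PerfectRing K p] :
    PBasis p (tb n p (WittVector p K)) 0 := by
  refine pbasis_tb (K := K) WittVector.constantCoeff ?_ ?_ ?_
  · intro x
    exact ⟨WittVector.teichmuller p x, Om.constCoeff_teich x⟩
  · intro x
    exact Om.W_dvd_p_iff.symm
  · intro x hx
    exact Amp.p_cancel (by rw [hx, mul_zero])

end Base

end Crest.Agent.R183.BInf
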