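/-
R183 (Lech's conjecture), block (G): the completed base `Ω₀`: `λ(Ω₀ ⊗_B N) = ℓ_B(N)` for `N` killed
by a power of `p`; hypothesis `hΛ` of `core_main` for `To = Ω₀ ⊗_B T`.  Author: helper529.
-/
import Crest.Agent.R183.BInf3b
import Crest.Agent.R183.BInf5

set_option autoImplicit false
set_option linter.dupNamespace false

open scoped ENNReal TensorProduct

namespace Crest.Agent.R183.Lam

section Compl

variable {B M₁ M₂ N : Type*} [CommRing B] [AddCommGroup M₁] [Module B M₁] [AddCommGroup M₂]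
  [Module B M₂] [AddCommGroup N] [Module B N]

theorem rTensor_mkQ_injective (M : Type*) [AddCommGroup M] [Module B M] (a : B)
    (hN : ∀ n : N, a • n = 0) :
    Function.Injective ((LinearMap.range (LinearMap.lsmul B M a)).mkQ.rTensor N) := by
  have hex := rTensor_exact N (LinearMap.exact_map_mkQ_range (LinearMap.lsmul B M a))
    (Submodule.mkQ_surjective _)
  have h0 : (LinearMap.lsmul B M a).rTensor N = 0 := by
    apply TensorProduct.ext'
    intro m n
    rw [LinearMap.rTensor_tmul, LinearMap.lsmul_apply, TensorProduct.smul_tmul, hN,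
      TensorProduct.tmul_zero, LinearMap.zero_apply]
  rw [h0] at hex
  rw [← LinearMap.ker_eq_bot, hex.linearMap_ker_eq, LinearMap.range_zero]

/-- `f : M₁ → M₂` an isomorphism modulo `a`, `a N = 0` ⇒ `M₁ ⊗ N ≃ M₂ ⊗ N` -/
theorem rTensor_bijective (f : M₁ →ₗ[B] M₂) (a : B)
    (sat : ∀ (x : M₁) (y : M₂), f x = a • y → ∃ x', x = a • x')
    (dense : ∀ y : M₂, ∃ (x : M₁) (y' : M₂), y - f x = a • y') (hN : ∀ n : N, a • n = 0) :
    Function.Bijective (f.rTensor N) := by
  set R₁ := LinearMap.range (LinearMap.lsmul B M₁ a) with hR₁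
  set R₂ := LinearMap.range (LinearMap.lsmul B M₂ a) with hR₂
  have hle : R₁ ≤ R₂.comap f := by
    rintro _ ⟨x, rfl⟩
    exact ⟨f x, by rw [LinearMap.lsmul_apply, LinearMap.lsmul_apply, map_smul]⟩
  let g : M₁ ⧸ R₁ →ₗ[B] M₂ ⧸ R₂ := Submodule.mapQ R₁ R₂ f hle
  have hg : Function.Bijective g := by
    constructor
    · rw [← LinearMap.ker_eq_bot, eq_bot_iff]
      intro x hx
      obtain ⟨x, rfl⟩ := Submodule.mkQ_surjective _ x
      rw [LinearMap.mem_ker] at hx
      change R₂.mkQ (f x) = 0 at hx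
      rw [Submodule.mkQ_apply, Submodule.Quotient.mk_eq_zero] at hx
      obtain ⟨y, hy⟩ := hx
      obtain ⟨x', hx'⟩ := sat x y hy.symm
      rw [Submodule.mem_bot, Submodule.mkQ_apply, Submodule.Quotient.mk_eq_zero]
      exact ⟨x', hx'.symm⟩
    · intro y
      obtain ⟨y, rfl⟩ := Submodule.mkQ_surjective _ y
      obtain ⟨x, y', h⟩ := dense y
      refine ⟨R₁.mkQ x, ?_⟩
      change R₂.mkQ (f x) = R₂.mkQ y
      rw [eq_comm, ← sub_eq_zero, ← map_sub, Submodule.mkQ_apply, Submodule.Quotient.mk_eq_zero]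
      exact ⟨y', h.symm⟩
  have hgt : Function.Bijective (g.rTensor N) := by
    exact (LinearEquiv.rTensor N (LinearEquiv.ofBijective g hg)).bijective
  have hcomm : (g.rTensor N) ∘ₗ (R₁.mkQ.rTensor N) = (R₂.mkQ.rTensor N) ∘ₗ (f.rTensor N) := by
    rw [← LinearMap.rTensor_comp, ← LinearMap.rTensor_comp]
    congr 1
  have hc : ∀ x, (g.rTensor N) (R₁.mkQ.rTensor N x) = (R₂.mkQ.rTensor N) (f.rTensor N x) :=
    fun x => LinearMap.congr_fun hcomm x
  constructor
  · rw [injective_iff_map_eq_zero]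
    intro x hx
    have h1 := hc x
    rw [hx, map_zero] at h1
    have h2 := hgt.1 (h1.trans (map_zero _).symm)
    exact (rTensor_mkQ_injective M₁ a hN) (h2.trans (map_zero _).symm)
  · intro y
    obtain ⟨z, hz⟩ := hgt.2 (R₂.mkQ.rTensor N y)
    obtain ⟨x, rfl⟩ := LinearMap.rTensor_surjective N (Submodule.mkQ_surjective R₁) z
    refine ⟨x, ?_⟩
    rw [hc] at hz
    exact (rTensor_mkQ_injective M₂ a hN) hz

end Compl

namespace Tower

universe u
variable {A : Type u} [CommRing A] (T : Tower A)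

/-- replacing `A` by an algebra `A'` which is isomorphic to `A` modulo `a` -/
theorem lam_tensor_compl {B A' : Type*} [CommRing B] [CommRing A'] [Algebra B A] [Algebra B A']
    [Algebra A A'] [IsScalarTower B A A'] (a : B)
    (sat : ∀ (x : A) (y : A'), algebraMap A A' x = algebraMap B A' a * y →
      ∃ x', x = algebraMap B A a * x')
    (dense : ∀ y : A', ∃ (x : A) (y' : A'), y - algebraMap A A' x = algebraMap B A' a * y')
    (N : Type*) [AddCommGroup N] [Module B N] (hN : ∀ n : N, a • n = 0) :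
    T.lam (A' ⊗[B] N) = T.lam (A ⊗[B] N) := by
  let f : A →ₗ[B] A' := (Algebra.linearMap A A').restrictScalars B
  have hf : Function.Bijective (f.rTensor N) := by
    refine rTensor_bijective f a ?_ ?_ hN
    · intro x y h
      rw [Algebra.smul_def] at h
      obtain ⟨x', hx'⟩ := sat x y h
      exact ⟨x', by rw [Algebra.smul_def]; exact hx'⟩
    · intro y
      obtain ⟨x, y', h⟩ := dense y
      exact ⟨x, y', by rw [Algebra.smul_def]; exact h⟩
  let F : A ⊗[B] N →ₗ[A] A' ⊗[B] N :=
    TensorProduct.AlgebraTensorModule.map (Algebra.linearMap A A') LinearMap.id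
  have hF : ⇑F = ⇑(f.rTensor N) := by
    funext x
    induction x using TensorProduct.induction_on with
    | zero => rw [map_zero, map_zero]
    | tmul x y => rfl
    | add x y hx hy => rw [map_add, map_add, hx, hy]
  exact (T.lam_congr (LinearEquiv.ofBijective F (by rw [hF]; exact hf))).symm

/-- any model `To` of `A' ⊗_B S`, lengths over `A` -/
theorem lam_quot_pushout' {B A' S To : Type*} [CommRing B] [CommRing A'] [CommRing S] [CommRing To]
    [Algebra B A] [Algebra B A'] [Algebra A A'] [IsScalarTower B A A']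
    [Algebra B S] [Algebra S To] [Algebra B To] [Algebra A' To] [Algebra A To]
    [IsScalarTower A A' To] [IsScalarTower B S To]
    [IsScalarTower B A' To] [Algebra.IsPushout B A' S To] (I : Ideal S) :
    T.lam (To ⧸ I.map (algebraMap S To)) = T.lam (A' ⊗[B] (S ⧸ I)) := by
  let e : A' ⊗[B] S ≃ₐ[A'] To := Algebra.IsPushout.equiv B A' S To
  have he : ∀ x : S, e (Algebra.TensorProduct.includeRight x) = algebraMap S To x := by
    intro x
    change e (1 ⊗ₜ x) = _
    rw [Algebra.IsPushout.equiv_tmul, map_one, one_mul]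
  let φ : A' ⊗[B] S →+* To := (e : A' ⊗[B] S →+* To)
  let ψ : To →+* A' ⊗[B] S := (e.symm : To →+* A' ⊗[B] S)
  let J : Ideal (A' ⊗[B] S) :=
    I.map (Algebra.TensorProduct.includeRight : S →ₐ[B] A' ⊗[B] S)
  have h1 : J ≤ (I.map (algebraMap S To)).comap φ := by
    refine Ideal.map_le_iff_le_comap.mpr fun x hx => ?_
    change φ (Algebra.TensorProduct.includeRight x) ∈ I.map (algebraMap S To)
    have : φ (Algebra.TensorProduct.includeRight x) = algebraMap S To x := he x
    rw [this]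
    exact Ideal.mem_map_of_mem _ hx
  have h2 : I.map (algebraMap S To) ≤ J.comap ψ := by
    refine Ideal.map_le_iff_le_comap.mpr fun x hx => ?_
    change ψ (algebraMap S To x) ∈ J
    have : ψ (algebraMap S To x) = Algebra.TensorProduct.includeRight x := by
      change e.symm _ = _
      rw [← he x, AlgEquiv.symm_apply_apply]
    rw [this]
    exact Ideal.mem_map_of_mem _ hx
  have hmap : Submodule.map (e.toLinearEquiv : A' ⊗[B] S →ₗ[A'] To) (J.restrictScalars A') =
      (I.map (algebraMap S To)).restrictScalars A' := by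
    ext y
    constructor
    · rintro ⟨x, hx, rfl⟩
      exact h1 hx
    · intro hy
      exact ⟨e.symm y, h2 hy, e.apply_symm_apply y⟩
  have E : ((A' ⊗[B] S) ⧸ J) ≃ₗ[A'] (To ⧸ I.map (algebraMap S To)) :=
    ((Submodule.Quotient.restrictScalarsEquiv A' J).symm.trans
      (Submodule.Quotient.equiv _ _ e.toLinearEquiv hmap)).trans
      (Submodule.Quotient.restrictScalarsEquiv A' (I.map (algebraMap S To)))
  have E2 : (A' ⊗[B] (S ⧸ I)) ≃ₗ[A'] (To ⧸ I.map (algebraMap S To)) :=
    (Algebra.TensorProduct.tensorQuotientEquiv (R := B) A' S A' I).toLinearEquiv.trans E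
  exact (T.lam_congr (E2.restrictScalars A)).symm

end Tower

/-- an element of the maximal ideal is nilpotent modulo an ideal of finite colength -/
theorem exists_pow_mem_of_length_ne_top {S : Type*} [CommRing S] [IsLocalRing S] (I : Ideal S)
    (hI : Module.length S (S ⧸ I) ≠ ⊤) (r : S) (hr : r ∈ IsLocalRing.maximalIdeal S) :
    ∃ n, r ^ n ∈ I := by
  rw [Module.length_ne_top_iff, isFiniteLength_iff_isNoetherian_isArtinian] at hI
  have := hI.2
  obtain ⟨n, y, hy⟩ := IsArtinian.exists_pow_succ_smul_dvd r (1 : S ⧸ I)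
  obtain ⟨y, rfl⟩ := Ideal.Quotient.mk_surjective y
  refine ⟨n, ?_⟩
  have h1 : r ^ n * (1 - r * y) ∈ I := by
    rw [← Ideal.Quotient.eq_zero_iff_mem]
    have h2 : Ideal.Quotient.mk I (r ^ (n + 1) * y) = Ideal.Quotient.mk I (r ^ n * 1) := hy
    rw [mul_sub, map_sub, sub_eq_zero, ← h2]
    congr 1
    ring
  have h3 : IsUnit (1 - r * y) := by
    by_contra h4
    have h5 : (1 - r * y) ∈ IsLocalRing.maximalIdeal S := h4
    have h6 := Ideal.add_mem _ h5 (Ideal.mul_mem_right y _ hr)
    rw [sub_add_cancel] at h6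
    exact (IsLocalRing.maximalIdeal.isMaximal S).ne_top ((Ideal.eq_top_iff_one _).mpr h6)
  obtain ⟨v, hv⟩ := h3.exists_right_inv
  have h7 := I.mul_mem_right v h1
  rwa [mul_assoc, hv, mul_one] at h7

end Crest.Agent.R183.Lam

namespace Crest.Agent.R183.BInf

open Crest.Agent.R183 Crest.Agent.R183.Om IsLocalRing

section

variable {d : ℕ} (p : ℕ) {B : Type*} [CommRing B] (t : Fin d → B) (hp : 0 < p)
variable [IsNoetherianRing B] [IsLocalRing B]
variable {Ω : Type*} [CommRing Ω] [Algebra B Ω] [Algebra (BInf p t) Ω]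
  [IsScalarTower B (BInf p t) Ω]

/-- `λ(Ω₀ ⊗_B N) = ℓ_B(N)` for `N` killed by `p^k` -/
theorem lam_tensor_compl (hc : IsCompl (p : BInf p t) (algebraMap (BInf p t) Ω))
    (ht : ∀ i, t i ∈ maximalIdeal B) (N : Type*) [AddCommGroup N] [Module B N] (k : ℕ)
    (hN : ∀ n : N, ((p : B) ^ k) • n = 0) :
    (tower p t hp).lam (Ω ⊗[B] N) = ((Module.length B N : ℕ∞) : ℝ≥0∞) := by
  rw [(tower p t hp).lam_tensor_compl ((p : B) ^ k) ?_ ?_ N hN, lam_tensor p t hp ht N]
  · intro x y h
    rw [map_pow, map_natCast] at h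
    obtain ⟨z, hz⟩ := hc.sat k x ⟨y, by rw [map_natCast, h]⟩
    exact ⟨z, by rw [map_pow, map_natCast, hz]⟩
  · intro y
    obtain ⟨x, z, hz⟩ := hc.dense k y
    exact ⟨x, z, by rw [hz, map_natCast, map_pow, map_natCast]⟩

variable {T : Type*} [CommRing T] [IsLocalRing T] [Algebra B T]
variable {To : Type*} [CommRing To] [Algebra T To] [Algebra B To] [Algebra Ω To]
  [Algebra (BInf p t) To] [IsScalarTower (BInf p t) Ω To] [IsScalarTower B T To]
  [IsScalarTower B Ω To] [Algebra.IsPushout B Ω T To]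

/-- **hypothesis `hΛ` of `core_main`** for `To = Ω₀ ⊗_B T` -/
theorem L_quot_pushout_compl (hc : IsCompl (p : BInf p t) (algebraMap (BInf p t) Ω))
    (ht : ∀ i, t i ∈ maximalIdeal B) (hpT : (p : T) ∈ maximalIdeal T)
    (hres : ∀ x : T, ∃ b : B, x - algebraMap B T b ∈ maximalIdeal T) (I : Ideal T)
    (hI : Module.length T (T ⧸ I) ≠ ⊤) :
    ((AddLen.ofTower (tower p t hp)).restrict (algebraMap (BInf p t) To)).L
      (To ⧸ I.map (algebraMap T To)) = ((Module.length T (T ⧸ I) : ℕ∞) : ℝ≥0∞) := by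
  obtain ⟨k, hk⟩ := Lam.exists_pow_mem_of_length_ne_top I hI (p : T) hpT
  have hN : ∀ n : T ⧸ I, ((p : B) ^ k) • n = 0 := by
    intro n
    obtain ⟨n, rfl⟩ := Ideal.Quotient.mk_surjective n
    have h1 : ((p : B) ^ k) • (Ideal.Quotient.mk I n) = Ideal.Quotient.mk I ((p : T) ^ k * n) := by
      have : ((p : B) ^ k) • (Ideal.Quotient.mk I n) =
          Ideal.Quotient.mk I (((p : B) ^ k) • n) := rfl
      rw [this, Algebra.smul_def, map_pow, map_natCast]
    rw [h1, Ideal.Quotient.eq_zero_iff_mem]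
    exact Ideal.mul_mem_right _ _ hk
  rw [AddLen.restrict_L _ _ _ (fun a x => (algebraMap_smul To a x).symm), AddLen.ofTower_L,
    (tower p t hp).lam_quot_pushout' (B := B) (A' := Ω) I,
    lam_tensor_compl p t hp hc ht (T ⧸ I) k hN,
    Lam.length_eq_of_isLocalRing hres (T ⧸ I)]

end

end Crest.Agent.R183.BInf
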