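import Crest.Agent.R183.CohenEval

/-!
# R183 (Lech), Cohen structure, part 11: dimension and regularity of power series rings,
dimension and finite extensions
-/

set_option autoImplicit false

namespace Crest.Agent.R183.Cohen

open Ideal IsLocalRing MvPowerSeries

section Integral

variable {A S : Type*} [CommRing A] [CommRing S] [Algebra A S]

/-- dimension does not go up in integral extensions -/
theorem ringKrullDim_le_of_isIntegral [Algebra.IsIntegral A S] :
    ringKrullDim S ≤ ringKrullDim A := by
  apply Order.krullDim_le_of_strictMono (PrimeSpectrum.comap (algebraMap A S))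
  intro p q hpq
  have h1 : p.asIdeal < q.asIdeal := hpq
  exact Ideal.IsIntegral.comap_lt_comap (R := A) h1

/-- A finite (integral) homomorphism from a domain of the same finite dimension is injective. -/
theorem injective_of_isIntegral_of_ringKrullDim_le [IsDomain A] [Algebra.IsIntegral A S]
    (hA : ringKrullDim A ≠ ⊤) (h : ringKrullDim A ≤ ringKrullDim S) :
    Function.Injective (algebraMap A S) := by
  rw [injective_iff_map_eq_zero]
  intro r hr
  by_contra hr0
  have h1 : ringKrullDim (A ⧸ Ideal.span {r}) + 1 ≤ ringKrullDim A :=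
    ringKrullDim_quotient_succ_le_of_nonZeroDivisor (mem_nonZeroDivisors_of_ne_zero hr0)
  let f : A ⧸ Ideal.span {r} →+* S := Ideal.Quotient.lift _ (algebraMap A S) (by
    intro a ha
    obtain ⟨b, rfl⟩ := Ideal.mem_span_singleton'.1 ha
    rw [map_mul, hr, mul_zero])
  let _ : Algebra (A ⧸ Ideal.span {r}) S := f.toAlgebra
  have htower : IsScalarTower A (A ⧸ Ideal.span {r}) S := IsScalarTower.of_algebraMap_eq
    (fun x => rfl)
  have hint : Algebra.IsIntegral (A ⧸ Ideal.span {r}) S := Algebra.IsIntegral.tower_top A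
  have h2 : ringKrullDim S ≤ ringKrullDim (A ⧸ Ideal.span {r}) := ringKrullDim_le_of_isIntegral
  have h3 : ringKrullDim A + 1 ≤ ringKrullDim A := by
    refine le_trans ?_ h1
    gcongr
    exact h.trans h2
  have h4 : ringKrullDim A ≠ ⊥ := by
    have : Nonempty (PrimeSpectrum A) := inferInstance
    exact Order.bot_lt_krullDim.ne'
  generalize ringKrullDim A = d at hA h3 h4
  cases d with
  | bot => exact h4 rfl
  | coe d =>
    cases d with
    | top => exact hA rfl
    | coe d =>
      have h5 : ((d + 1 : ℕ) : WithBot ℕ∞) ≤ ((d : ℕ) : WithBot ℕ∞) := by exact_mod_cast h3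
      have h6 : d + 1 ≤ d := by exact_mod_cast h5
      omega

end Integral

section PS

variable (Λ : Type*) [CommRing Λ] [IsLocalRing Λ] [IsNoetherianRing Λ]

theorem ringKrullDim_powerSeries : ringKrullDim (PowerSeries Λ) = ringKrullDim Λ + 1 := by
  have hloc : IsLocalRing (PowerSeries Λ) := inferInstanceAs (IsLocalRing (MvPowerSeries Unit Λ))
  have hX : (PowerSeries.X : PowerSeries Λ) ∈ maximalIdeal (PowerSeries Λ) := by
    rw [mem_maximalIdeal, mem_nonunits_iff, PowerSeries.isUnit_iff_constantCoeff]
    simp
  have h1 := ringKrullDim_quotient_span_singleton_succ_eq_ringKrullDim_of_mem_nonZeroDivisors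
    (R := PowerSeries Λ) (x := PowerSeries.X) MvPowerSeries.X_mem_nonzeroDivisors hX
  rw [← h1]
  congr 1
  have h2 : Ideal.span {(PowerSeries.X : PowerSeries Λ)} =
      RingHom.ker (PowerSeries.constantCoeff (R := Λ)) := by
    ext f
    rw [Ideal.mem_span_singleton, RingHom.mem_ker, PowerSeries.X_dvd_iff]
  rw [h2]
  exact ringKrullDim_eq_of_ringEquiv (RingHom.quotientKerEquivOfSurjective
    (PowerSeries.constantCoeff_surj))

theorem ringKrullDim_mvPowerSeries (n : ℕ) :
    ringKrullDim (MvPowerSeries (Fin n) Λ) = ringKrullDim Λ + n := by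
  induction n with
  | zero =>
    rw [ringKrullDim_eq_of_ringEquiv (isEmptyEquiv (Fin 0) Λ).toRingEquiv]
    simp
  | succ n ih =>
    rw [ringKrullDim_eq_of_ringEquiv (finSuccEquiv Λ n).toRingEquiv, ringKrullDim_powerSeries, ih]
    push_cast
    rw [add_assoc]

end PS

section Max

variable {σ Λ : Type*} [Finite σ] [CommRing Λ] [IsLocalRing Λ]

theorem maximalIdeal_mvPowerSeries :
    maximalIdeal (MvPowerSeries σ Λ) = (maximalIdeal Λ).map (C : Λ →+* MvPowerSeries σ Λ) ⊔
      Ideal.span (Set.range (X : σ → MvPowerSeries σ Λ)) := by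
  have hmem : ∀ f : MvPowerSeries σ Λ, f ∈ maximalIdeal (MvPowerSeries σ Λ) ↔
      constantCoeff f ∈ maximalIdeal Λ := by
    intro f
    rw [mem_maximalIdeal, mem_nonunits_iff, MvPowerSeries.isUnit_iff_constantCoeff,
      mem_maximalIdeal, mem_nonunits_iff]
  apply le_antisymm
  · intro f hf
    have h1 : f = C (constantCoeff f) + (f - C (constantCoeff f)) := by ring
    rw [h1]
    refine add_mem (Ideal.mem_sup_left (Ideal.mem_map_of_mem _ ((hmem f).1 hf)))
      (Ideal.mem_sup_right ?_)
    have h2 : f - C (constantCoeff f) ∈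
        (Ideal.span (Set.range (X : σ → MvPowerSeries σ Λ))) ^ 1 := by
      apply mem_span_X_pow
      intro x hx
      have hx0 : x = 0 := (Finsupp.degree_eq_zero_iff x).1 (by omega)
      subst hx0
      rw [map_sub, coeff_zero_eq_constantCoeff_apply, coeff_zero_C, sub_self]
    rwa [pow_one] at h2
  · rw [sup_le_iff]
    constructor
    · rw [Ideal.map_le_iff_le_comap]
      intro a ha
      rw [Ideal.mem_comap, hmem, constantCoeff_C]
      exact ha
    · rw [Ideal.span_le]
      rintro _ ⟨i, rfl⟩
      change X i ∈ maximalIdeal (MvPowerSeries σ Λ)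
      rw [hmem, constantCoeff_X]
      exact Ideal.zero_mem _

/-- power series rings over regular local rings are regular -/
instance isRegularLocalRing_mvPowerSeries [IsRegularLocalRing Λ] (n : ℕ) :
    IsRegularLocalRing (MvPowerSeries (Fin n) Λ) := by
  apply IsRegularLocalRing.of_spanFinrank_maximalIdeal_le
  rw [ringKrullDim_mvPowerSeries, ← IsRegularLocalRing.spanFinrank_maximalIdeal]
  obtain ⟨s, hs1, hs2⟩ :=
    Submodule.FG.exists_span_finset_card_eq_spanFinrank (maximalIdeal Λ).fg_of_isNoetherianRing
  have h1 : maximalIdeal (MvPowerSeries (Fin n) Λ) =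
      Ideal.span ((C : Λ →+* MvPowerSeries (Fin n) Λ) '' s ∪ Set.range X) := by
    rw [maximalIdeal_mvPowerSeries, Ideal.span_union, ← Ideal.map_span]
    congr 2
    exact hs2.symm
  have h2 : (maximalIdeal (MvPowerSeries (Fin n) Λ)).spanFinrank ≤ s.card + n := by
    classical
    have hfin : ((C : Λ →+* MvPowerSeries (Fin n) Λ) '' s ∪ Set.range X).Finite :=
      (s.finite_toSet.image _).union (Set.finite_range _)
    rw [h1]
    refine (Submodule.spanFinrank_span_le_ncard_of_finite hfin).trans ?_
    refine (Set.ncard_union_le _ _).trans ?_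
    gcongr
    · refine (Set.ncard_image_le s.finite_toSet).trans ?_
      rw [Set.ncard_coe_finset]
    · rw [← Set.image_univ]
      refine (Set.ncard_image_le Set.finite_univ).trans ?_
      rw [Set.ncard_univ, Nat.card_eq_fintype_card, Fintype.card_fin]
  rw [hs1] at h2
  exact_mod_cast h2

end Max

end Crest.Agent.R183.Cohen
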