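import Crest.Agent.R183.CohenNoether

/-!
# R183 (Lech), Cohen structure, part 13: Witt vectors of a perfect field form a Cohen ring, and
every Cohen ring with perfect residue field is of this form
-/

set_option autoImplicit false

namespace Crest.Agent.R183.Cohen

open Ideal IsLocalRing

section Witt

variable (p : ℕ) [hp : Fact p.Prime] (K : Type*) [Field K] [CharP K p] [PerfectRing K p]

instance isLocalRing_witt : IsLocalRing (WittVector p K) := inferInstance

theorem maximalIdeal_witt :
    maximalIdeal (WittVector p K) = span {(p : WittVector p K)} := by
  have h : Irreducible (p : WittVector p K) := WittVector.irreducible p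
  exact h.maximalIdeal_eq

theorem isCohen_witt : IsCohen p (WittVector p K) where
  isDVR_dom := inferInstance
  isDVR := inferInstance
  complete := by
    rw [maximalIdeal_witt]
    infer_instance
  maximalIdeal_eq := maximalIdeal_witt p K

/-- the residue field of `W(K)` is `K` -/
noncomputable def residueWitt : ResidueField (WittVector p K) ≃+* K :=
  (Ideal.quotEquivOfEq (maximalIdeal_witt p K)).trans WittVector.quotientPEquiv

theorem residueWitt_residue (x : WittVector p K) :
    residueWitt p K (residue _ x) = WittVector.constantCoeff x := rfl

end Witt

section Compare

variable {p : ℕ} [hp : Fact p.Prime] {C D : Type*} [CommRing C] [IsLocalRing C] [CommRing D]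
  [IsLocalRing D]

/-- A homomorphism of Cohen rings which is bijective on residue fields is bijective. -/
theorem IsCohen.bijective_of_residue (hC : IsCohen p C) (hD : IsCohen p D) (g : C →+* D)
    (hg : Function.Surjective ((residue D).comp g)) : Function.Bijective g := by
  have := hC.isDVR_dom
  have := hD.isDVR_dom
  have hDm := hD.complete
  have hCm := hC.complete
  constructor
  · -- injective
    have := hC.isDVR
    rw [injective_iff_map_eq_zero]
    intro x hx
    by_contra hx0
    obtain ⟨n, u, rfl⟩ := exists_unit_mul_pow hC.maximalIdeal_eq hx0
    rw [map_mul, map_pow, map_natCast] at hx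
    rcases mul_eq_zero.1 hx with h | h
    · exact hD.natCast_ne_zero (eq_zero_of_pow_eq_zero h)
    · exact (u.isUnit.map g).ne_zero h
  · -- surjective
    have hpre : IsPrecomplete (maximalIdeal C) C := hCm.toIsPrecomplete
    have hmap : (maximalIdeal C).map g = maximalIdeal D := by
      rw [hC.maximalIdeal_eq, hD.maximalIdeal_eq, Ideal.map_span, Set.image_singleton,
        map_natCast]
    have hH : IsHausdorff ((maximalIdeal C).map g) D := by
      rw [hmap]
      exact hDm.toIsHausdorff
    apply surjective_of_mk_map_comp_surjective g (I := maximalIdeal C)
    rw [hmap]
    exact hg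

/-- **Uniqueness of Cohen rings**: any isomorphism (even any homomorphism) of residue fields lifts;
in particular two Cohen rings with isomorphic residue fields are isomorphic. -/
theorem IsCohen.exists_ringEquiv (hC : IsCohen p C) (hD : IsCohen p D)
    (e : ResidueField C ≃+* ResidueField D) :
    ∃ g : C ≃+* D, ∀ x, residue D (g x) = e (residue C x) := by
  have := hD.complete
  obtain ⟨g, hg⟩ := hC.exists_lift_residue (S := D)
    (by rw [hD.maximalIdeal_eq]; exact Ideal.mem_span_singleton_self _)
    (e.toRingHom.comp (residue C))
  have hbij := hC.bijective_of_residue hD g (by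
    rw [hg]
    exact e.surjective.comp residue_surjective)
  exact ⟨RingEquiv.ofBijective g hbij, fun x => RingHom.congr_fun hg x⟩

end Compare

end Crest.Agent.R183.Cohen
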