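import Crest.Agent.R183.Om4

/-!
R183 / Om5 : tensor products of integral perfectoid rings.
-/

set_option autoImplicit false
set_option linter.unusedSectionVars false

namespace Crest.Agent.R183.Om

open WittVector Crest.Agent.R183.Amp TensorProduct

section FrobInv

variable {p : ℕ} [hp : Fact p.Prime] {R : Type*} [CommRing R] {ϖ : ℕ → R}

lemma exists_add_pow' {R : Type*} [CommRing R] (x y : R) :
    ∃ r, (x + y) ^ p = x ^ p + y ^ p + p * r := by
  obtain ⟨r, hr⟩ := exists_add_pow_prime_eq hp.out x y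
  exact ⟨x * y * r, by rw [hr]; ring⟩

lemma dvd_frob' (a b : R) : (p : R) ∣ (a + b) ^ p - (a ^ p + b ^ p) := by
  obtain ⟨r, hr⟩ := exists_add_pow' (p := p) a b
  exact ⟨r, by rw [hr]; ring⟩

lemma dvd_pow_sub_of (a b : R) (h : (p : R) ∣ a ^ p - b ^ p) : (p : R) ∣ (a - b) ^ p := by
  obtain ⟨r, hr⟩ := exists_add_pow' (p := p) b (a - b)
  rw [add_sub_cancel] at hr
  obtain ⟨s, hs⟩ := h
  refine ⟨s - r, ?_⟩
  linear_combination hs - hr

lemma PData.ϖ1_dvd (d : PData p R ϖ) : ϖ 1 ∣ (p : R) := by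
  rw [← d.zero, ← d.roots 0]
  exact dvd_pow_self _ hp.out.ne_zero

lemma PData.eq_mk (d : PData p R ϖ) {a b : R} (h : (p : R) ∣ a ^ p - b ^ p) :
    Ideal.Quotient.mk (Ideal.span {ϖ 1}) a = Ideal.Quotient.mk _ b := by
  rw [Ideal.Quotient.mk_eq_mk_iff_sub_mem, Ideal.mem_span_singleton]
  exact d.finj _ (dvd_pow_sub_of a b h)

/-- the inverse of the Frobenius `R/p^{1/p} → R/p`. -/
noncomputable def PData.frobInv (d : PData p R ϖ) : R →+* R ⧸ Ideal.span {ϖ 1} where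
  toFun x := Ideal.Quotient.mk _ (d.fsurj x).choose
  map_one' := by
    rw [← map_one (Ideal.Quotient.mk (Ideal.span {ϖ 1}))]
    apply d.eq_mk
    have := (d.fsurj 1).choose_spec
    rw [one_pow, ← dvd_neg, neg_sub]
    exact this
  map_zero' := by
    rw [← map_zero (Ideal.Quotient.mk (Ideal.span {ϖ 1}))]
    apply d.eq_mk
    have := (d.fsurj 0).choose_spec
    rw [zero_pow hp.out.ne_zero, ← dvd_neg, neg_sub]
    exact this
  map_mul' x y := by
    rw [← map_mul (Ideal.Quotient.mk (Ideal.span {ϖ 1}))]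
    apply d.eq_mk
    obtain ⟨a, ha⟩ := (d.fsurj x).choose_spec
    obtain ⟨b, hb⟩ := (d.fsurj y).choose_spec
    obtain ⟨c, hc⟩ := (d.fsurj (x * y)).choose_spec
    rw [mul_pow]
    refine ⟨y * a + x * b - p * a * b - c, ?_⟩
    have ha' : (d.fsurj x).choose ^ p = x - p * a := by rw [← ha]; ring
    have hb' : (d.fsurj y).choose ^ p = y - p * b := by rw [← hb]; ring
    have hc' : (d.fsurj (x * y)).choose ^ p = x * y - p * c := by rw [← hc]; ring
    rw [ha', hb', hc']; ring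
  map_add' x y := by
    rw [← map_add (Ideal.Quotient.mk (Ideal.span {ϖ 1}))]
    apply d.eq_mk
    obtain ⟨a, ha⟩ := (d.fsurj x).choose_spec
    obtain ⟨b, hb⟩ := (d.fsurj y).choose_spec
    obtain ⟨c, hc⟩ := (d.fsurj (x + y)).choose_spec
    obtain ⟨r, hr⟩ := exists_add_pow' (p := p) (d.fsurj x).choose (d.fsurj y).choose
    refine ⟨a + b - c - r, ?_⟩
    have ha' : (d.fsurj x).choose ^ p = x - p * a := by rw [← ha]; ring
    have hb' : (d.fsurj y).choose ^ p = y - p * b := by rw [← hb]; ring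
    have hc' : (d.fsurj (x + y)).choose ^ p = x + y - p * c := by rw [← hc]; ring
    rw [hr, ha', hb', hc']; ring

lemma PData.frobInv_eq (d : PData p R ϖ) {x y : R} (h : (p : R) ∣ x - y ^ p) :
    d.frobInv x = Ideal.Quotient.mk _ y := by
  show Ideal.Quotient.mk _ (d.fsurj x).choose = _
  apply d.eq_mk
  have := (d.fsurj x).choose_spec
  have h2 := dvd_sub h this
  rwa [sub_sub_sub_cancel_left] at h2

lemma PData.frobInv_pow (d : PData p R ϖ) (y : R) : d.frobInv (y ^ p) = Ideal.Quotient.mk _ y :=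
  d.frobInv_eq (by rw [sub_self]; exact dvd_zero _)

end FrobInv

section Lift

variable {A₀ A B : Type*} [CommRing A₀] [CommRing A] [CommRing B] [Algebra A₀ A] [Algebra A₀ B]

/-- maps out of a tensor product of algebras, as ring homs -/
lemma exists_tensor_lift {S : Type*} [CommRing S] (f : A →+* S) (g : B →+* S)
    (h : f.comp (algebraMap A₀ A) = g.comp (algebraMap A₀ B)) :
    ∃ F : A ⊗[A₀] B →+* S, (∀ a, F (a ⊗ₜ 1) = f a) ∧ (∀ b, F (1 ⊗ₜ b) = g b) ∧
      ∀ a b, F (a ⊗ₜ b) = f a * g b := by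
  let _ : Algebra A₀ S := (f.comp (algebraMap A₀ A)).toAlgebra
  let f' : A →ₐ[A₀] S := { f with commutes' := fun r => rfl }
  let g' : B →ₐ[A₀] S := { g with commutes' := fun r => (RingHom.congr_fun h r).symm }
  have key : ∀ a b, (Algebra.TensorProduct.productMap f' g') (a ⊗ₜ b) = f a * g b := by
    intro a b
    rw [Algebra.TensorProduct.productMap_apply_tmul]
    rfl
  refine ⟨(Algebra.TensorProduct.productMap f' g').toRingHom, ?_, ?_, key⟩
  · intro a
    have := key a 1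
    rw [map_one, mul_one] at this
    exact this
  · intro b
    have := key 1 b
    rw [map_one, one_mul] at this
    exact this

end Lift

section Tensor

variable {p : ℕ} [hp : Fact p.Prime]
variable {A₀ A B : Type*} [CommRing A₀] [CommRing A] [CommRing B] [Algebra A₀ A] [Algebra A₀ B]
variable {ϖ : ℕ → A₀}

lemma tensor_fsurj (hA : ∀ x : A, ∃ y, (p : A) ∣ x - y ^ p) (hB : ∀ x : B, ∃ y, (p : B) ∣ x - y ^ p)
    (t : A ⊗[A₀] B) : ∃ y, (p : A ⊗[A₀] B) ∣ t - y ^ p := by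
  induction t using TensorProduct.induction_on with
  | zero => exact ⟨0, by rw [zero_pow hp.out.ne_zero, sub_zero]; exact dvd_zero _⟩
  | tmul a b =>
    obtain ⟨x, u, hu⟩ := hA a
    obtain ⟨y, v, hv⟩ := hB b
    refine ⟨x ⊗ₜ y, ?_⟩
    have ha : a ⊗ₜ[A₀] (1 : B) = (x ⊗ₜ[A₀] (1 : B)) ^ p +
        (p : A ⊗[A₀] B) * (u ⊗ₜ[A₀] (1 : B)) := by
      have : a = x ^ p + p * u := by rw [← hu]; ring
      rw [this, TensorProduct.add_tmul, Algebra.TensorProduct.tmul_pow, one_pow]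
      congr 1
      rw [← nsmul_eq_mul, ← nsmul_eq_mul, TensorProduct.smul_tmul']
    have hb : (1 : A) ⊗ₜ[A₀] b = ((1 : A) ⊗ₜ[A₀] y) ^ p +
        (p : A ⊗[A₀] B) * ((1 : A) ⊗ₜ[A₀] v) := by
      have : b = y ^ p + p * v := by rw [← hv]; ring
      rw [this, TensorProduct.tmul_add, Algebra.TensorProduct.tmul_pow, one_pow]
      congr 1
      rw [← nsmul_eq_mul, ← nsmul_eq_mul, TensorProduct.tmul_smul]
    have hab : a ⊗ₜ[A₀] b = (a ⊗ₜ[A₀] (1 : B)) * ((1 : A) ⊗ₜ[A₀] b) := by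
      rw [Algebra.TensorProduct.tmul_mul_tmul, mul_one, one_mul]
    have hxy : (x ⊗ₜ[A₀] y) ^ p = (x ⊗ₜ[A₀] (1 : B)) ^ p * ((1 : A) ⊗ₜ[A₀] y) ^ p := by
      rw [← mul_pow, Algebra.TensorProduct.tmul_mul_tmul, mul_one, one_mul]
    rw [hab, ha, hb, hxy]
    generalize x ⊗ₜ[A₀] (1 : B) = X
    generalize u ⊗ₜ[A₀] (1 : B) = U
    generalize (1 : A) ⊗ₜ[A₀] y = Y
    generalize (1 : A) ⊗ₜ[A₀] v = V
    exact ⟨U * Y ^ p + X ^ p * V + p * U * V, by ring⟩
  | add s t hs ht =>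
    obtain ⟨x, u, hu⟩ := hs
    obtain ⟨y, v, hv⟩ := ht
    obtain ⟨r, hr⟩ := exists_add_pow' (p := p) x y
    exact ⟨x + y, u + v - r, by rw [hr]; linear_combination hu + hv⟩

lemma tensor_finj (d0 : PData p A₀ ϖ) (dA : PData p A (fun e => algebraMap A₀ A (ϖ e)))
    (dB : PData p B (fun e => algebraMap A₀ B (ϖ e))) (t : A ⊗[A₀] B)
    (ht : (p : A ⊗[A₀] B) ∣ t ^ p) : algebraMap A₀ (A ⊗[A₀] B) (ϖ 1) ∣ t := by
  set S := (A ⊗[A₀] B) ⧸ Ideal.span {algebraMap A₀ (A ⊗[A₀] B) (ϖ 1)} with hS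
  let q : A ⊗[A₀] B →+* S := Ideal.Quotient.mk _
  have hϖA : algebraMap A₀ (A ⊗[A₀] B) (ϖ 1) = (algebraMap A₀ A (ϖ 1)) ⊗ₜ 1 := rfl
  have hϖB : algebraMap A₀ (A ⊗[A₀] B) (ϖ 1) = 1 ⊗ₜ (algebraMap A₀ B (ϖ 1)) := by
    rw [Algebra.TensorProduct.algebraMap_apply, Algebra.algebraMap_eq_smul_one,
      Algebra.algebraMap_eq_smul_one, TensorProduct.smul_tmul]
  let iA : A ⧸ Ideal.span {algebraMap A₀ A (ϖ 1)} →+* S :=
    Ideal.Quotient.lift _ (q.comp (Algebra.TensorProduct.includeLeftRingHom)) (by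
      intro a ha
      rw [Ideal.mem_span_singleton] at ha
      obtain ⟨b, rfl⟩ := ha
      rw [RingHom.comp_apply, Ideal.Quotient.eq_zero_iff_mem, Ideal.mem_span_singleton, map_mul]
      exact Dvd.intro _ rfl)
  let iB : B ⧸ Ideal.span {algebraMap A₀ B (ϖ 1)} →+* S :=
    Ideal.Quotient.lift _ (q.comp (Algebra.TensorProduct.includeRight : B →ₐ[A₀] A ⊗[A₀] B).toRingHom)
      (by
      intro a ha
      rw [Ideal.mem_span_singleton] at ha
      obtain ⟨b, rfl⟩ := ha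
      rw [RingHom.comp_apply, Ideal.Quotient.eq_zero_iff_mem, Ideal.mem_span_singleton, map_mul,
        hϖB]
      exact Dvd.intro _ rfl)
  have hp0 : (p : S) = 0 := by
    have h1 : (p : A ⊗[A₀] B) = algebraMap A₀ (A ⊗[A₀] B) (ϖ 1) ^ p := by
      rw [← map_pow, d0.roots, d0.zero, map_natCast]
    have h2 : (p : S) = q (p : A ⊗[A₀] B) := (map_natCast q p).symm
    rw [h2, h1, Ideal.Quotient.eq_zero_iff_mem, Ideal.mem_span_singleton]
    exact dvd_pow_self _ hp.out.ne_zero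
  have hadd : ∀ x y : S, (x + y) ^ p = x ^ p + y ^ p := by
    intro x y
    obtain ⟨r, hr⟩ := exists_add_pow' (p := p) x y
    rw [hr, hp0]; ring
  obtain ⟨ψ, hψA, hψB, hψ⟩ := exists_tensor_lift (A₀ := A₀) (iA.comp dA.frobInv)
    (iB.comp dB.frobInv) (by
      ext x
      obtain ⟨y, hy⟩ := d0.fsurj x
      have h1 : dA.frobInv (algebraMap A₀ A x) = Ideal.Quotient.mk _ (algebraMap A₀ A y) := by
        apply dA.frobInv_eq
        have := map_dvd (algebraMap A₀ A) hy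
        rwa [map_natCast, map_sub, map_pow] at this
      have h2 : dB.frobInv (algebraMap A₀ B x) = Ideal.Quotient.mk _ (algebraMap A₀ B y) := by
        apply dB.frobInv_eq
        have := map_dvd (algebraMap A₀ B) hy
        rwa [map_natCast, map_sub, map_pow] at this
      rw [RingHom.comp_apply, RingHom.comp_apply, RingHom.comp_apply, RingHom.comp_apply, h1, h2]
      show q ((algebraMap A₀ A y) ⊗ₜ 1) = q (1 ⊗ₜ (algebraMap A₀ B y))
      congr 1
      rw [Algebra.algebraMap_eq_smul_one, Algebra.algebraMap_eq_smul_one,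
        TensorProduct.smul_tmul])
  have key : ∀ t, ψ t ^ p = q t := by
    intro t
    induction t using TensorProduct.induction_on with
    | zero => rw [map_zero, map_zero, zero_pow hp.out.ne_zero]
    | add s t hs ht => rw [map_add, hadd, hs, ht, map_add]
    | tmul a b =>
      rw [hψ, mul_pow]
      obtain ⟨x, hx⟩ := dA.fsurj a
      obtain ⟨y, hy⟩ := dB.fsurj b
      rw [RingHom.comp_apply, RingHom.comp_apply, dA.frobInv_eq hx, dB.frobInv_eq hy,
        ← map_pow, ← map_pow, ← map_pow, ← map_pow]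
      have e1 : iA (Ideal.Quotient.mk _ (x ^ p)) = q (a ⊗ₜ 1) := by
        have : Ideal.Quotient.mk (Ideal.span {algebraMap A₀ A (ϖ 1)}) (x ^ p) =
            Ideal.Quotient.mk _ a := by
          rw [Ideal.Quotient.mk_eq_mk_iff_sub_mem, Ideal.mem_span_singleton, ← dvd_neg, neg_sub]
          exact dA.ϖ1_dvd.trans hx
        rw [this]; rfl
      have e2 : iB (Ideal.Quotient.mk _ (y ^ p)) = q (1 ⊗ₜ b) := by
        have : Ideal.Quotient.mk (Ideal.span {algebraMap A₀ B (ϖ 1)}) (y ^ p) =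
            Ideal.Quotient.mk _ b := by
          rw [Ideal.Quotient.mk_eq_mk_iff_sub_mem, Ideal.mem_span_singleton, ← dvd_neg, neg_sub]
          exact dB.ϖ1_dvd.trans hy
        rw [this]; rfl
      rw [e1, e2, ← map_mul, Algebra.TensorProduct.tmul_mul_tmul, mul_one, one_mul]
  have h1 : q t = 0 := by
    rw [← key, ← map_pow]
    obtain ⟨s, hs⟩ := ht
    rw [hs, map_mul, map_natCast, hp0, zero_mul]
  rwa [Ideal.Quotient.eq_zero_iff_mem, Ideal.mem_span_singleton] at h1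

/-- flatness of `B` over `A₀` modulo the ideal `I`. -/
def FlatQ (A₀ : Type*) {B : Type*} [CommRing A₀] [CommRing B] [Algebra A₀ B] (I : Ideal A₀) : Prop :=
  Module.Flat (A₀ ⧸ I) (B ⧸ I.map (algebraMap A₀ B))

section Bar

variable (A₀ A B) (I : Ideal A₀)

/-- reduction of a tensor product modulo an ideal of the base: the ring map
`A ⊗ B → (A/I) ⊗ (B/I)`. -/
lemma exists_red : ∃ q : A ⊗[A₀] B →+*
      (A ⧸ I.map (algebraMap A₀ A)) ⊗[A₀ ⧸ I] (B ⧸ I.map (algebraMap A₀ B)),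
    (∀ a b, q (a ⊗ₜ b) = Ideal.Quotient.mk _ a ⊗ₜ Ideal.Quotient.mk _ b) ∧
    Function.Surjective q ∧
    RingHom.ker q = I.map (algebraMap A₀ (A ⊗[A₀] B)) := by
  set TI := (A ⧸ I.map (algebraMap A₀ A)) ⊗[A₀ ⧸ I] (B ⧸ I.map (algebraMap A₀ B)) with hTI
  obtain ⟨q, hqA, hqB, hq⟩ := exists_tensor_lift (A₀ := A₀) (A := A) (B := B) (S := TI)
    ((Algebra.TensorProduct.includeLeftRingHom).comp (Ideal.Quotient.mk _))
    (((Algebra.TensorProduct.includeRight : (B ⧸ I.map (algebraMap A₀ B)) →ₐ[A₀ ⧸ I] TI).toRingHom).comp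
      (Ideal.Quotient.mk _)) (by
      ext x
      show ((Ideal.Quotient.mk (I.map (algebraMap A₀ A)) (algebraMap A₀ A x)) ⊗ₜ[A₀ ⧸ I]
        (1 : B ⧸ I.map (algebraMap A₀ B))) = (1 : A ⧸ I.map (algebraMap A₀ A)) ⊗ₜ[A₀ ⧸ I]
        (Ideal.Quotient.mk (I.map (algebraMap A₀ B)) (algebraMap A₀ B x))
      have h1 : (Ideal.Quotient.mk (I.map (algebraMap A₀ A)) (algebraMap A₀ A x)) =
          (Ideal.Quotient.mk I x) • (1 : A ⧸ I.map (algebraMap A₀ A)) := by
        rw [Algebra.smul_def, mul_one]; rfl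
      have h2 : (Ideal.Quotient.mk (I.map (algebraMap A₀ B)) (algebraMap A₀ B x)) =
          (Ideal.Quotient.mk I x) • (1 : B ⧸ I.map (algebraMap A₀ B)) := by
        rw [Algebra.smul_def, mul_one]; rfl
      rw [h1, h2, TensorProduct.smul_tmul])
  have hq' : ∀ a b, q (a ⊗ₜ b) = Ideal.Quotient.mk _ a ⊗ₜ Ideal.Quotient.mk _ b := by
    intro a b
    rw [hq]
    show (Ideal.Quotient.mk _ a ⊗ₜ[A₀ ⧸ I] 1) * (1 ⊗ₜ[A₀ ⧸ I] Ideal.Quotient.mk _ b) = _
    rw [Algebra.TensorProduct.tmul_mul_tmul, mul_one, one_mul]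
  -- the map back
  set S := (A ⊗[A₀] B) ⧸ I.map (algebraMap A₀ (A ⊗[A₀] B)) with hS
  let jA : A ⧸ I.map (algebraMap A₀ A) →+* S :=
    Ideal.Quotient.lift _ ((Ideal.Quotient.mk _).comp (Algebra.TensorProduct.includeLeftRingHom)) (by
      intro a ha
      rw [RingHom.comp_apply, Ideal.Quotient.eq_zero_iff_mem]
      have h1 : (I.map (algebraMap A₀ A)).map
          (Algebra.TensorProduct.includeLeftRingHom : A →+* A ⊗[A₀] B) =
          I.map (algebraMap A₀ (A ⊗[A₀] B)) := by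
        rw [Ideal.map_map]; rfl
      rw [← h1]
      exact Ideal.mem_map_of_mem _ ha)
  let jB : B ⧸ I.map (algebraMap A₀ B) →+* S :=
    Ideal.Quotient.lift _ ((Ideal.Quotient.mk _).comp
      (Algebra.TensorProduct.includeRight : B →ₐ[A₀] A ⊗[A₀] B).toRingHom) (by
      intro a ha
      rw [RingHom.comp_apply, Ideal.Quotient.eq_zero_iff_mem]
      have h1 : (I.map (algebraMap A₀ B)).map
          (Algebra.TensorProduct.includeRight : B →ₐ[A₀] A ⊗[A₀] B).toRingHom =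
          I.map (algebraMap A₀ (A ⊗[A₀] B)) := by
        rw [Ideal.map_map]
        congr 1
        exact (Algebra.TensorProduct.includeRight : B →ₐ[A₀] A ⊗[A₀] B).comp_algebraMap
      rw [← h1]
      exact Ideal.mem_map_of_mem _ ha)
  obtain ⟨b, hbA, hbB, hb⟩ := exists_tensor_lift (A₀ := A₀ ⧸ I)
    (A := A ⧸ I.map (algebraMap A₀ A)) (B := B ⧸ I.map (algebraMap A₀ B)) (S := S) jA jB (by
      ext x
      show (Ideal.Quotient.mk _ ((algebraMap A₀ A x) ⊗ₜ[A₀] (1 : B)) : S) =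
        Ideal.Quotient.mk _ ((1 : A) ⊗ₜ[A₀] (algebraMap A₀ B x))
      congr 1
      rw [Algebra.algebraMap_eq_smul_one, Algebra.algebraMap_eq_smul_one,
        TensorProduct.smul_tmul])
  have hbq : ∀ t, b (q t) = Ideal.Quotient.mk _ t := by
    intro t
    induction t using TensorProduct.induction_on with
    | zero => rw [map_zero, map_zero, map_zero]
    | add s t hs ht => rw [map_add, map_add, map_add, hs, ht]
    | tmul x y =>
      rw [hq', hb]
      show (Ideal.Quotient.mk _ (x ⊗ₜ[A₀] (1 : B)) : S) *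
        Ideal.Quotient.mk _ ((1 : A) ⊗ₜ[A₀] y) = _
      rw [← map_mul, Algebra.TensorProduct.tmul_mul_tmul, mul_one, one_mul]
  refine ⟨q, hq', ?_, ?_⟩
  · intro t
    induction t using TensorProduct.induction_on with
    | zero => exact ⟨0, map_zero _⟩
    | add s t hs ht =>
      obtain ⟨x, rfl⟩ := hs
      obtain ⟨y, rfl⟩ := ht
      exact ⟨x + y, map_add _ _ _⟩
    | tmul x y =>
      obtain ⟨x, rfl⟩ := Ideal.Quotient.mk_surjective x
      obtain ⟨y, rfl⟩ := Ideal.Quotient.mk_surjective y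
      exact ⟨x ⊗ₜ y, hq' x y⟩
  · apply le_antisymm
    · intro t ht
      rw [RingHom.mem_ker] at ht
      rw [← Ideal.Quotient.eq_zero_iff_mem, ← hbq, ht, map_zero]
    · rw [Ideal.map_le_iff_le_comap]
      intro x hx
      rw [Ideal.mem_comap, RingHom.mem_ker]
      show q ((algebraMap A₀ A x) ⊗ₜ[A₀] (1 : B)) = 0
      rw [hq']
      have : (Ideal.Quotient.mk (I.map (algebraMap A₀ A)) (algebraMap A₀ A x)) = 0 := by
        rw [Ideal.Quotient.eq_zero_iff_mem]
        exact Ideal.mem_map_of_mem _ hx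
      rw [this, TensorProduct.zero_tmul]

end Bar

section FlatKer

variable (I : Ideal A₀)

/-- kernels of multiplications on the left factor -/
lemma tensor_ker_left (hB : FlatQ A₀ (B := B) I) (a b : A)
    (hab : a * b ∈ I.map (algebraMap A₀ A))
    (h : ∀ x, a * x ∈ I.map (algebraMap A₀ A) → ∃ y, x - b * y ∈ I.map (algebraMap A₀ A))
    (t : A ⊗[A₀] B) (ht : (a ⊗ₜ[A₀] (1 : B)) * t ∈ I.map (algebraMap A₀ (A ⊗[A₀] B))) :
    ∃ t', t - (b ⊗ₜ[A₀] (1 : B)) * t' ∈ I.map (algebraMap A₀ (A ⊗[A₀] B)) := by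
  obtain ⟨q, hq, hqs, hqk⟩ := exists_red A₀ A B I
  let ml : A → ((A ⧸ I.map (algebraMap A₀ A)) →ₗ[A₀ ⧸ I] (A ⧸ I.map (algebraMap A₀ A))) :=
    fun c => LinearMap.mulLeft (A₀ ⧸ I) (Ideal.Quotient.mk _ c)
  have hex : Function.Exact (ml b) (ml a) := by
    intro x
    obtain ⟨x, rfl⟩ := Ideal.Quotient.mk_surjective x
    constructor
    · intro hx
      have h1 : (Ideal.Quotient.mk (I.map (algebraMap A₀ A))) (a * x) = 0 := by
        rw [map_mul]; exact hx
      rw [Ideal.Quotient.eq_zero_iff_mem] at h1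
      obtain ⟨y, hy⟩ := h x h1
      refine ⟨Ideal.Quotient.mk _ y, ?_⟩
      show Ideal.Quotient.mk _ b * Ideal.Quotient.mk _ y = _
      rw [← map_mul, ← sub_eq_zero, ← map_sub, Ideal.Quotient.eq_zero_iff_mem, ← neg_mem_iff,
        neg_sub]
      exact hy
    · rintro ⟨y, hy⟩
      obtain ⟨y, rfl⟩ := Ideal.Quotient.mk_surjective y
      rw [← hy]
      show Ideal.Quotient.mk _ a * (Ideal.Quotient.mk _ b * Ideal.Quotient.mk _ y) = 0
      rw [← mul_assoc, ← map_mul, Ideal.Quotient.eq_zero_iff_mem.2 hab, zero_mul]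
  have hflat : Module.Flat (A₀ ⧸ I) (B ⧸ I.map (algebraMap A₀ B)) := hB
  have hex2 := Module.Flat.rTensor_exact (B ⧸ I.map (algebraMap A₀ B)) hex
  have hml : ∀ (c : A) (s : (A ⧸ I.map (algebraMap A₀ A)) ⊗[A₀ ⧸ I] (B ⧸ I.map (algebraMap A₀ B))),
      (ml c).rTensor (B ⧸ I.map (algebraMap A₀ B)) s =
        (Ideal.Quotient.mk _ c ⊗ₜ[A₀ ⧸ I] (1 : B ⧸ I.map (algebraMap A₀ B))) * s := by
    intro c s
    induction s using TensorProduct.induction_on with
    | zero => rw [map_zero, mul_zero]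
    | add s t hs ht => rw [map_add, hs, ht, mul_add]
    | tmul x y =>
      rw [LinearMap.rTensor_tmul, Algebra.TensorProduct.tmul_mul_tmul, one_mul]
      rfl
  have h1 : (ml a).rTensor (B ⧸ I.map (algebraMap A₀ B)) (q t) = 0 := by
    have h2 : q ((a ⊗ₜ[A₀] (1 : B)) * t) = 0 := by
      rw [← RingHom.mem_ker, hqk]; exact ht
    rw [hml, ← h2, map_mul, hq, map_one]
  obtain ⟨s, hs⟩ := (hex2 (q t)).1 h1
  obtain ⟨t', rfl⟩ := hqs s
  refine ⟨t', ?_⟩
  rw [← hqk, RingHom.mem_ker, map_sub, map_mul, hq, map_one, ← hml, hs, sub_self]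

/-- kernels of multiplications on the right factor -/
lemma tensor_ker_right (hA : FlatQ A₀ (B := A) I) (a b : B)
    (hab : a * b ∈ I.map (algebraMap A₀ B))
    (h : ∀ x, a * x ∈ I.map (algebraMap A₀ B) → ∃ y, x - b * y ∈ I.map (algebraMap A₀ B))
    (t : A ⊗[A₀] B) (ht : ((1 : A) ⊗ₜ[A₀] a) * t ∈ I.map (algebraMap A₀ (A ⊗[A₀] B))) :
    ∃ t', t - ((1 : A) ⊗ₜ[A₀] b) * t' ∈ I.map (algebraMap A₀ (A ⊗[A₀] B)) := by
  obtain ⟨q, hq, hqs, hqk⟩ := exists_red A₀ A B I
  let ml : B → ((B ⧸ I.map (algebraMap A₀ B)) →ₗ[A₀ ⧸ I] (B ⧸ I.map (algebraMap A₀ B))) :=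
    fun c => LinearMap.mulLeft (A₀ ⧸ I) (Ideal.Quotient.mk _ c)
  have hex : Function.Exact (ml b) (ml a) := by
    intro x
    obtain ⟨x, rfl⟩ := Ideal.Quotient.mk_surjective x
    constructor
    · intro hx
      have h1 : (Ideal.Quotient.mk (I.map (algebraMap A₀ B))) (a * x) = 0 := by
        rw [map_mul]; exact hx
      rw [Ideal.Quotient.eq_zero_iff_mem] at h1
      obtain ⟨y, hy⟩ := h x h1
      refine ⟨Ideal.Quotient.mk _ y, ?_⟩
      show Ideal.Quotient.mk _ b * Ideal.Quotient.mk _ y = _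
      rw [← map_mul, ← sub_eq_zero, ← map_sub, Ideal.Quotient.eq_zero_iff_mem, ← neg_mem_iff,
        neg_sub]
      exact hy
    · rintro ⟨y, hy⟩
      obtain ⟨y, rfl⟩ := Ideal.Quotient.mk_surjective y
      rw [← hy]
      show Ideal.Quotient.mk _ a * (Ideal.Quotient.mk _ b * Ideal.Quotient.mk _ y) = 0
      rw [← mul_assoc, ← map_mul, Ideal.Quotient.eq_zero_iff_mem.2 hab, zero_mul]
  have hflat : Module.Flat (A₀ ⧸ I) (A ⧸ I.map (algebraMap A₀ A)) := hA
  have hex2 := Module.Flat.lTensor_exact (A ⧸ I.map (algebraMap A₀ A)) hex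
  have hml : ∀ (c : B) (s : (A ⧸ I.map (algebraMap A₀ A)) ⊗[A₀ ⧸ I] (B ⧸ I.map (algebraMap A₀ B))),
      (ml c).lTensor (A ⧸ I.map (algebraMap A₀ A)) s =
        ((1 : A ⧸ I.map (algebraMap A₀ A)) ⊗ₜ[A₀ ⧸ I] Ideal.Quotient.mk _ c) * s := by
    intro c s
    induction s using TensorProduct.induction_on with
    | zero => rw [map_zero, mul_zero]
    | add s t hs ht => rw [map_add, hs, ht, mul_add]
    | tmul x y =>
      rw [LinearMap.lTensor_tmul, Algebra.TensorProduct.tmul_mul_tmul, one_mul]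
      rfl
  have h1 : (ml a).lTensor (A ⧸ I.map (algebraMap A₀ A)) (q t) = 0 := by
    have h2 : q (((1 : A) ⊗ₜ[A₀] a) * t) = 0 := by
      rw [← RingHom.mem_ker, hqk]; exact ht
    rw [hml, ← h2, map_mul, hq, map_one]
  obtain ⟨s, hs⟩ := (hex2 (q t)).1 h1
  obtain ⟨t', rfl⟩ := hqs s
  refine ⟨t', ?_⟩
  rw [← hqk, RingHom.mem_ker, map_sub, map_mul, hq, map_one, ← hml, hs, sub_self]

end FlatKer

lemma mem_map_span_iff {R S : Type*} [CommRing R] [CommRing S] [Algebra R S] (n : ℕ) {x : S} :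
    x ∈ (Ideal.span {(p : R) ^ n}).map (algebraMap R S) ↔ (p : S) ^ n ∣ x := by
  rw [Ideal.map_span, Set.image_singleton, map_pow, map_natCast, Ideal.mem_span_singleton]

/-- `p` on the tensor product -/
lemma tensor_wreg (hA : WReg (p : A)) (hB : ∀ n : ℕ, FlatQ A₀ (B := B) (Ideal.span {(p : A₀) ^ n})) :
    WReg (p : A ⊗[A₀] B) := by
  intro m t ht
  have hp1 : ∀ k : ℕ, ((p : A) ^ k) ⊗ₜ[A₀] (1 : B) = (p : A ⊗[A₀] B) ^ k := by
    intro k
    have : (Algebra.TensorProduct.includeLeftRingHom : A →+* A ⊗[A₀] B) ((p : A) ^ k) =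
        (p : A ⊗[A₀] B) ^ k := by rw [map_pow, map_natCast]
    exact this
  obtain ⟨t', ht'⟩ := tensor_ker_left (A := A) (B := B) (Ideal.span {(p : A₀) ^ (m + 1)})
    (hB (m + 1)) (p : A) ((p : A) ^ m)
    (by rw [mem_map_span_iff, ← pow_succ'])
    (fun x hx => by
      rw [mem_map_span_iff] at hx
      obtain ⟨y, rfl⟩ := hA m x hx
      exact ⟨y, by rw [sub_self]; exact Ideal.zero_mem _⟩) t
    (by
      rw [mem_map_span_iff]
      have := hp1 1
      rw [pow_one, pow_one] at this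
      rw [this]; exact ht)
  rw [mem_map_span_iff, hp1] at ht'
  obtain ⟨c, hc⟩ := ht'
  exact ⟨t' + p * c, by rw [pow_succ] at hc; linear_combination hc⟩

lemma tensor_regMod_left (hB : FlatQ A₀ (B := B) (Ideal.span {(p : A₀) ^ 1})) {D : A}
    (hD : RegMod D (p : A)) : RegMod (D ⊗ₜ[A₀] (1 : B)) (p : A ⊗[A₀] B) := by
  intro t ht
  obtain ⟨t', ht'⟩ := tensor_ker_left (A := A) (B := B) (Ideal.span {(p : A₀) ^ 1}) hB D 0
    (by rw [mul_zero]; exact Ideal.zero_mem _)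
    (fun x hx => by
      rw [mem_map_span_iff, pow_one] at hx
      refine ⟨0, ?_⟩
      rw [mul_zero, sub_zero, mem_map_span_iff, pow_one]
      exact hD x hx) t (by rw [mem_map_span_iff, pow_one]; exact ht)
  rwa [TensorProduct.zero_tmul, zero_mul, sub_zero, mem_map_span_iff, pow_one] at ht'

lemma tensor_regMod_right (hA : FlatQ A₀ (B := A) (Ideal.span {(p : A₀) ^ 1})) {D : B}
    (hD : RegMod D (p : B)) : RegMod ((1 : A) ⊗ₜ[A₀] D) (p : A ⊗[A₀] B) := by
  intro t ht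
  obtain ⟨t', ht'⟩ := tensor_ker_right (A := A) (B := B) (Ideal.span {(p : A₀) ^ 1}) hA D 0
    (by rw [mul_zero]; exact Ideal.zero_mem _)
    (fun x hx => by
      rw [mem_map_span_iff, pow_one] at hx
      refine ⟨0, ?_⟩
      rw [mul_zero, sub_zero, mem_map_span_iff, pow_one]
      exact hD x hx) t (by rw [mem_map_span_iff, pow_one]; exact ht)
  rwa [TensorProduct.tmul_zero, zero_mul, sub_zero, mem_map_span_iff, pow_one] at ht'

/-- **the tensor product of integral perfectoid rings** (before completion) -/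
theorem tensor_pdata (d0 : PData p A₀ ϖ) (dA : PData p A (fun e => algebraMap A₀ A (ϖ e)))
    (dB : PData p B (fun e => algebraMap A₀ B (ϖ e)))
    (hB : ∀ n : ℕ, FlatQ A₀ (B := B) (Ideal.span {(p : A₀) ^ n})) :
    PData p (A ⊗[A₀] B) (fun e => algebraMap A₀ (A ⊗[A₀] B) (ϖ e)) where
  zero := by rw [d0.zero, map_natCast]
  roots := fun e => by rw [← map_pow, d0.roots]
  wreg := tensor_wreg dA.wreg hB
  fsurj := tensor_fsurj dA.fsurj dB.fsurj
  finj := tensor_finj d0 dA dB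

end Tensor

end Crest.Agent.R183.Om
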