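/-
R183 (Lech's conjecture), block (G): regularity modulo `p`, flatness and the maximal ideal of
`W(K)[[X]]`.  Author: helper529.
-/
import Crest.Agent.R183.BInf6
import Crest.Agent.R183.Om5
import Crest.Agent.R183.CohenDim
import Crest.Agent.R183.CohenWitt

set_option autoImplicit false
set_option linter.dupNamespace false

open scoped TensorProduct

namespace Crest.Agent.R183.BInf

open Crest.Agent.R183 Crest.Agent.R183.Om IsLocalRing

section

variable {d : ℕ} {p : ℕ} {B : Type*} [CommRing B] {t : Fin d → B}

theorem repr_algebraMap_mul (D : B) (z : BInf p t) (γ : Gam1 d p) :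
    (basis p t).repr (algebraMap B (BInf p t) D * z) γ = D * (basis p t).repr z γ := by
  have h : algebraMap B (BInf p t) D * z = D • z := (Algebra.smul_def D z).symm
  rw [h, map_smul, Finsupp.smul_apply, smul_eq_mul]

/-- `D` regular modulo `p` on `B` ⇒ on `B_∞` -/
theorem regMod_algebraMap {D : B} (hD : RegMod D (p : B)) :
    RegMod (algebraMap B (BInf p t) D) (p : BInf p t) := by
  intro x hx
  rw [natCast_dvd_iff] at hx ⊢
  intro γ
  have h := hx γ
  rw [repr_algebraMap_mul] at h
  exact hD _ h

theorem reg_algebraMap {D : B} (hD : ∀ x, D * x = 0 → x = 0) (z : BInf p t)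
    (hz : algebraMap B (BInf p t) D * z = 0) : z = 0 := by
  apply (basis p t).repr.injective
  rw [map_zero]
  ext γ
  apply hD
  rw [← repr_algebraMap_mul, hz, map_zero]
  rfl

/-- flat base change modulo an ideal -/
theorem flatQ_of_flat {A C : Type*} [CommRing A] [CommRing C] [Algebra A C] [Module.Flat A C]
    (I : Ideal A) : FlatQ A (B := C) I := by
  unfold FlatQ
  exact Module.Flat.of_linearEquiv
    (Algebra.TensorProduct.quotIdealMapEquivQuotTensor C I).toLinearEquiv

theorem flatQ_BInf (I : Ideal B) : FlatQ B (B := BInf p t) I := flatQ_of_flat I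

end

section Witt

variable (n p : ℕ) [hp : Fact p.Prime] (K : Type*) [Field K] [CharP K p] [PerfectRing K p]

theorem maximalIdeal_tb : maximalIdeal (MvPowerSeries (Fin n) (WittVector p K)) =
    Ideal.span (Set.range (tb n p (WittVector p K))) := by
  rw [Cohen.maximalIdeal_mvPowerSeries, Cohen.maximalIdeal_witt, Ideal.map_span,
    Set.image_singleton, map_natCast]
  unfold tb
  rw [Fin.range_cons, Ideal.span_insert]

theorem tb_mem_maximalIdeal (i : Fin (n + 1)) :
    tb n p (WittVector p K) i ∈ maximalIdeal (MvPowerSeries (Fin n) (WittVector p K)) := by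
  rw [maximalIdeal_tb]
  exact Ideal.subset_span ⟨i, rfl⟩

variable {n p K}

/-- power series over `W(K)` not divisible by `p` are regular modulo `p` -/
theorem regMod_witt {D : MvPowerSeries (Fin n) (WittVector p K)}
    (hD : ¬ (p : MvPowerSeries (Fin n) (WittVector p K)) ∣ D) :
    RegMod D (p : MvPowerSeries (Fin n) (WittVector p K)) := by
  have hk : ∀ x : WittVector p K, WittVector.constantCoeff x = 0 ↔ (p : WittVector p K) ∣ x :=
    fun x => Om.W_dvd_p_iff.symm
  intro x hx
  rw [natCast_dvd_iff_map _ hk] at hx hD ⊢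
  rw [map_mul] at hx
  exact (mul_eq_zero.mp hx).resolve_left hD

end Witt

end Crest.Agent.R183.BInf
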