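/-
R183 (Lech): completely integrally closed domains; power series rings over fields and discrete
valuation rings are integrally closed.
helper499
-/
import Mathlib

set_option autoImplicit false

namespace Crest.Agent.R183.Cic

/-- completely integrally closed (for domains), without fractions. -/
def CIC (R : Type*) [CommRing R] : Prop :=
  ∀ a b c : R, b ≠ 0 → c ≠ 0 → (∀ n : ℕ, b ^ n ∣ c * a ^ n) → b ∣ a

theorem CIC.of_dvr (R : Type*) [CommRing R] [IsDomain R] [IsDiscreteValuationRing R] : CIC R := by
  intro a b c hb hc h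
  by_cases ha : a = 0
  · rw [ha]; exact dvd_zero _
  open IsDiscreteValuationRing in
  rw [← addVal_le_iff_dvd]
  obtain ⟨va, hva⟩ := ENat.ne_top_iff_exists.1 (fun h => ha (addVal_eq_top_iff.1 h))
  obtain ⟨vb, hvb⟩ := ENat.ne_top_iff_exists.1 (fun h => hb (addVal_eq_top_iff.1 h))
  obtain ⟨vc, hvc⟩ := ENat.ne_top_iff_exists.1 (fun h => hc (addVal_eq_top_iff.1 h))
  have h1 := addVal_le_iff_dvd.2 (h (vc + 1))
  rw [addVal_mul, addVal_pow, addVal_pow, ← hva, ← hvb, ← hvc] at h1
  rw [← hva, ← hvb]
  have h2 : (vc + 1) * vb ≤ vc + (vc + 1) * va := by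
    have : (((vc + 1) * vb : ℕ) : ℕ∞) ≤ ((vc + (vc + 1) * va : ℕ) : ℕ∞) := by
      push_cast
      simpa [nsmul_eq_mul] using h1
    exact_mod_cast this
  have h3 : vb ≤ va := by
    by_contra hlt
    rw [not_le] at hlt
    have : (vc + 1) * (va + 1) ≤ (vc + 1) * vb := Nat.mul_le_mul_left _ hlt
    nlinarith
  exact_mod_cast h3

theorem CIC.of_field (K : Type*) [Field K] : CIC K := by
  intro a b c hb _ _
  exact ⟨b⁻¹ * a, by rw [← mul_assoc, mul_inv_cancel₀ hb, one_mul]⟩

theorem CIC.of_equiv {R S : Type*} [CommRing R] [CommRing S] (e : R ≃+* S) (h : CIC S) : CIC R := by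
  intro a b c hb hc hn
  have h1 := h (e a) (e b) (e c) (fun hh => hb (by simpa using hh)) (fun hh => hc (by simpa using hh))
    (fun n => by rw [← map_pow, ← map_pow, ← map_mul]; exact map_dvd e (hn n))
  obtain ⟨g, hg⟩ := h1
  refine ⟨e.symm g, ?_⟩
  apply e.injective
  rw [map_mul, hg, RingEquiv.apply_symm_apply]

theorem CIC.powerSeries {R : Type*} [CommRing R] [IsDomain R] (h : CIC R) :
    CIC (PowerSeries R) := by
  classical
  intro a b c hb hc hn
  let F := FractionRing R
  let φ : PowerSeries R →+* PowerSeries F := PowerSeries.map (algebraMap R F)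
  have hinj : Function.Injective (algebraMap R F) := IsFractionRing.injective R F
  have hφ : Function.Injective φ := PowerSeries.map_injective _ hinj
  have hbF : φ b ≠ 0 := fun hh => hb (hφ (by rw [hh, map_zero]))
  have hcF : φ c ≠ 0 := fun hh => hc (hφ (by rw [hh, map_zero]))
  obtain ⟨f, hf⟩ := CIC.of_dvr (PowerSeries F) (φ a) (φ b) (φ c) hbF hcF
    (fun n => by rw [← map_pow, ← map_pow, ← map_mul]; exact map_dvd φ (hn n))
  have hcf : ∀ n, φ c * f ^ n ∈ φ.range := by
    intro n
    obtain ⟨g, hg⟩ := hn n
    refine RingHom.mem_range.2 ⟨g, ?_⟩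
    have h1 := congrArg φ hg
    rw [map_mul, map_pow, map_mul, map_pow, hf, mul_pow] at h1
    have h2 : φ b ^ n * (φ c * f ^ n) = φ b ^ n * φ g := by rw [← h1]; ring
    exact (mul_left_cancel₀ (pow_ne_zero n hbF) h2).symm
  -- coefficients of `f` lie in `R`
  have key : ∀ m, PowerSeries.coeff m f ∈ (algebraMap R F).range := by
    intro m
    induction m using Nat.strong_induction_on with
    | _ m ih =>
      choose! g hg using ih
      let P : PowerSeries R := PowerSeries.mk fun i => if i < m then g i else 0
      have hP : ∀ i, i < m → PowerSeries.coeff i (f - φ P) = 0 := by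
        intro i hi
        rw [map_sub, PowerSeries.coeff_map, PowerSeries.coeff_mk, if_pos hi, hg i hi, sub_self]
      have hP' : PowerSeries.coeff m (f - φ P) = PowerSeries.coeff m f := by
        rw [map_sub, PowerSeries.coeff_map, PowerSeries.coeff_mk, if_neg (lt_irrefl m), map_zero,
          sub_zero]
      obtain ⟨f', hf'⟩ := PowerSeries.X_pow_dvd_iff.2 hP
      have hf0 : PowerSeries.constantCoeff f' = PowerSeries.coeff m f := by
        rw [← hP', hf', PowerSeries.coeff_X_pow_mul', if_pos le_rfl, Nat.sub_self,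
          PowerSeries.coeff_zero_eq_constantCoeff]
      have h1 : ∀ n, φ c * (f - φ P) ^ n ∈ φ.range := by
        intro n
        rw [sub_eq_add_neg, add_pow, Finset.mul_sum]
        refine Subring.sum_mem _ fun k _ => ?_
        have : φ c * (f ^ k * (-φ P) ^ (n - k) * (n.choose k : PowerSeries F)) =
            (φ c * f ^ k) * ((-φ P) ^ (n - k) * (n.choose k : PowerSeries F)) := by ring
        rw [this]
        refine Subring.mul_mem _ (hcf k) (Subring.mul_mem _ (Subring.pow_mem _
          (Subring.neg_mem _ (RingHom.mem_range.2 ⟨P, rfl⟩)) _) (natCast_mem _ _))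
      -- leading coefficient of `c`
      set k := (PowerSeries.order c).toNat with hk
      have hck : PowerSeries.coeff k c ≠ 0 := PowerSeries.coeff_order hc
      have hclt : ∀ i, i < k → PowerSeries.coeff i c = 0 := fun i hi =>
        PowerSeries.coeff_of_lt_order_toNat i hi
      have h2 : ∀ n, ∃ r : R, algebraMap R F r =
          algebraMap R F (PowerSeries.coeff k c) * (PowerSeries.coeff m f) ^ n := by
        intro n
        obtain ⟨g', hg'⟩ := RingHom.mem_range.1 (h1 n)
        refine ⟨PowerSeries.coeff (k + m * n) g', ?_⟩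
        rw [← PowerSeries.coeff_map, hg', hf', mul_pow, ← pow_mul,
          show φ c * (PowerSeries.X ^ (m * n) * f' ^ n) =
            PowerSeries.X ^ (m * n) * (φ c * f' ^ n) by ring,
          PowerSeries.coeff_X_pow_mul, PowerSeries.coeff_mul,
          Finset.sum_eq_single (k, 0)]
        · rw [PowerSeries.coeff_map, PowerSeries.coeff_zero_eq_constantCoeff, map_pow, hf0]
        · rintro ⟨i, j⟩ hij hne
          rw [Finset.HasAntidiagonal.mem_antidiagonal] at hij
          have hi : i < k := by
            rcases Nat.lt_or_ge i k with h | h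
            · exact h
            · exfalso
              apply hne
              have : i = k := by omega
              have : j = 0 := by omega
              simp [*]
          rw [PowerSeries.coeff_map, hclt i hi, map_zero, zero_mul]
        · intro hh
          exact absurd (Finset.HasAntidiagonal.mem_antidiagonal.2 (by simp)) hh
      obtain ⟨α, β, hβ, hαβ⟩ := IsFractionRing.div_surjective (A := R) (PowerSeries.coeff m f)
      have hβ0 : β ≠ 0 := nonZeroDivisors.ne_zero hβ
      have hβF : algebraMap R F β ≠ 0 := fun hh => hβ0 (hinj (by rw [hh, map_zero]))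
      have h3 : β ∣ α := by
        refine h α β (PowerSeries.coeff k c) hβ0 hck fun n => ?_
        obtain ⟨r, hr⟩ := h2 n
        refine ⟨r, hinj ?_⟩
        rw [map_mul, map_pow, map_mul, map_pow, hr, ← hαβ, div_pow, mul_left_comm,
          mul_div_cancel₀ _ (pow_ne_zero n hβF)]
      obtain ⟨q, hq⟩ := h3
      refine RingHom.mem_range.2 ⟨q, ?_⟩
      rw [← hαβ, hq, map_mul, mul_div_cancel_left₀ _ hβF]
  choose g hg using key
  refine ⟨PowerSeries.mk g, hφ ?_⟩
  rw [map_mul, hf]
  congr 1
  ext m
  rw [PowerSeries.coeff_map, PowerSeries.coeff_mk, hg m]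

instance isDomain_mvPowerSeries (R : Type*) [CommRing R] [IsDomain R] (σ : Type*) :
    IsDomain (MvPowerSeries σ R) := NoZeroDivisors.to_isDomain _

theorem CIC.mvPowerSeries {R : Type*} [CommRing R] [IsDomain R] (h : CIC R) :
    ∀ d : ℕ, CIC (MvPowerSeries (Fin d) R) := by
  intro d
  induction d with
  | zero => exact CIC.of_equiv (MvPowerSeries.isEmptyEquiv (Fin 0) R).toRingEquiv h
  | succ d ih => exact CIC.of_equiv (MvPowerSeries.finSuccEquiv R d).toRingEquiv ih.powerSeries

theorem CIC.isIntegrallyClosed {R : Type*} [CommRing R] [IsDomain R] (h : CIC R) :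
    IsIntegrallyClosed R := by
  rw [isIntegrallyClosed_iff (FractionRing R)]
  intro x hx
  obtain ⟨r, hr, hrx⟩ := hx.isAlmostIntegral
  obtain ⟨a, b, hb, rfl⟩ := IsFractionRing.div_surjective (A := R) x
  have hinj : Function.Injective (algebraMap R (FractionRing R)) := IsFractionRing.injective R _
  have hb0 : algebraMap R (FractionRing R) b ≠ 0 := by
    simpa using nonZeroDivisors.ne_zero hb
  have h1 : b ∣ a := by
    refine h a b r (nonZeroDivisors.ne_zero hb) (nonZeroDivisors.ne_zero hr) fun n => ?_
    obtain ⟨s, hs⟩ := RingHom.mem_range.1 (hrx n)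
    refine ⟨s, hinj ?_⟩
    rw [map_mul, map_pow, map_mul, map_pow, hs, Algebra.smul_def, div_pow]
    field_simp
  obtain ⟨q, hq⟩ := h1
  exact ⟨q, by rw [hq, map_mul, mul_div_cancel_left₀ _ hb0]⟩

instance isIntegrallyClosed_mvPowerSeries_field (K : Type*) [Field K] (d : ℕ) :
    IsIntegrallyClosed (MvPowerSeries (Fin d) K) :=
  ((CIC.of_field K).mvPowerSeries d).isIntegrallyClosed

theorem isIntegrallyClosed_mvPowerSeries_dvr (R : Type*) [CommRing R] [IsDomain R]
    [IsDiscreteValuationRing R] (d : ℕ) : IsIntegrallyClosed (MvPowerSeries (Fin d) R) :=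
  ((CIC.of_dvr R).mvPowerSeries d).isIntegrallyClosed

end Crest.Agent.R183.Cic
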