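import Crest.Agent.R183.CohenFinite

/-!
# R183 (Lech), Cohen structure, part 9: evaluation of power series in a complete ring
-/

set_option autoImplicit false

namespace Crest.Agent.R183.Cohen

open Ideal IsLocalRing MvPowerSeries

section XPow

variable {σ R : Type*} [Finite σ] [CommRing R]

/-- a power series without terms of degree `< N` is in `(X)^N` -/
theorem mem_span_X_pow {N : ℕ} {f : MvPowerSeries σ R}
    (h : ∀ x : σ →₀ ℕ, Finsupp.degree x < N → coeff x f = 0) :
    f ∈ (Ideal.span (Set.range (X : σ → MvPowerSeries σ R))) ^ N := by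
  let e := toAdicCompletionAlgEquiv σ R
  have h1 : e f ∈ ((MvPolynomial.idealOfVars σ R) ^ N • ⊤ :
      Submodule (MvPolynomial σ R) (AdicCompletion (MvPolynomial.idealOfVars σ R) _)) := by
    rw [AdicCompletion.pow_smul_top_eq_ker_eval (MvPolynomial.idealOfVars_fg σ R),
      LinearMap.mem_ker]
    change (toAdicCompletion σ R f).val N = 0
    rw [toAdicCompletion_apply_eq_mk_truncTotal, smul_eq_mul, Ideal.mul_top]
    change Ideal.Quotient.mk _ _ = _
    rw [Ideal.Quotient.eq_zero_iff_mem]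
    refine (MvPolynomial.mem_pow_idealOfVars_iff' ..).mpr fun x hx ↦ ?_
    rw [coeff_truncTotal _ hx, h x hx]
  have h2 : f ∈ ((MvPolynomial.idealOfVars σ R) ^ N • ⊤ :
      Submodule (MvPolynomial σ R) (MvPowerSeries σ R)) := by
    have h3 := Submodule.mem_map_of_mem (f := e.symm.toLinearMap) h1
    rw [Submodule.map_smul'', Submodule.map_top, LinearMap.range_eq_top.2 e.symm.surjective] at h3
    have h4 : e.symm.toLinearMap (e f) = f := e.symm_apply_apply f
    rwa [h4] at h3
  rw [Ideal.smul_top_eq_map, Submodule.restrictScalars_mem, Ideal.map_pow, Ideal.map_span,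
    ← Set.range_comp] at h2
  have h5 : (⇑(algebraMap (MvPolynomial σ R) (MvPowerSeries σ R)) ∘ MvPolynomial.X) =
      (X : σ → MvPowerSeries σ R) := by
    funext i
    exact MvPolynomial.coe_X i
  rwa [h5] at h2

end XPow

section Eval

variable {σ Λ S : Type*} [Finite σ] [CommRing Λ] [CommRing S] (J : Ideal S)
  (φ : Λ →+* S) (t : σ → S)

omit [Finite σ] in
theorem idealOfVars_pow_le (ht : ∀ i, t i ∈ J) (N : ℕ) :
    (MvPolynomial.idealOfVars σ Λ) ^ N ≤ (J ^ N).comap (MvPolynomial.eval₂Hom φ t) := by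
  rw [← Ideal.map_le_iff_le_comap, Ideal.map_pow]
  apply Ideal.pow_right_mono
  rw [Ideal.map_span, Ideal.span_le]
  rintro _ ⟨_, ⟨i, rfl⟩, rfl⟩
  rw [MvPolynomial.eval₂Hom_X']
  exact ht i

/-- evaluation modulo `J ^ N` -/
noncomputable def psEvalAux (ht : ∀ i, t i ∈ J) (N : ℕ) : MvPowerSeries σ Λ →+* S ⧸ J ^ N :=
  (Ideal.quotientMap (J ^ N) (MvPolynomial.eval₂Hom φ t) (idealOfVars_pow_le J φ t ht N)).comp
    (truncTotalAlgHom σ Λ N).toRingHom

theorem psEvalAux_apply (ht : ∀ i, t i ∈ J) (N : ℕ) (f : MvPowerSeries σ Λ) :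
    psEvalAux J φ t ht N f =
      Ideal.Quotient.mk (J ^ N) (MvPolynomial.eval₂Hom φ t (truncTotal N f)) := rfl

theorem psEvalAux_compat (ht : ∀ i, t i ∈ J) {m n : ℕ} (hmn : m ≤ n) :
    (Ideal.Quotient.factorPow J hmn).comp (psEvalAux J φ t ht n) = psEvalAux J φ t ht m := by
  ext f
  rw [RingHom.comp_apply, psEvalAux_apply, psEvalAux_apply]
  change Ideal.Quotient.mk (J ^ m) _ = _
  rw [Ideal.Quotient.eq, ← map_sub]
  exact idealOfVars_pow_le J φ t ht m
    (truncTotal_sub_truncTotal_mem_pow_idealOfVars hmn le_rfl f)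

variable [IsAdicComplete J S]

/-- Evaluation of a power series with coefficients in `Λ` at topologically nilpotent elements. -/
noncomputable def psEval (ht : ∀ i, t i ∈ J) : MvPowerSeries σ Λ →+* S :=
  IsAdicComplete.liftRingHom J (psEvalAux J φ t ht) (fun h => psEvalAux_compat J φ t ht h)

theorem mk_psEval (ht : ∀ i, t i ∈ J) (N : ℕ) (f : MvPowerSeries σ Λ) :
    Ideal.Quotient.mk (J ^ N) (psEval J φ t ht f) =
      Ideal.Quotient.mk (J ^ N) (MvPolynomial.eval₂Hom φ t (truncTotal N f)) := by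
  rw [psEval, IsAdicComplete.mk_liftRingHom, psEvalAux_apply]

theorem psEval_coe (ht : ∀ i, t i ∈ J) (p : MvPolynomial σ Λ) :
    psEval J φ t ht (p : MvPowerSeries σ Λ) = MvPolynomial.eval₂Hom φ t p := by
  have hH : IsHausdorff J S := inferInstance
  rw [← sub_eq_zero]
  refine hH.haus' _ fun N => ?_
  rw [SModEq.zero, smul_eq_mul, Ideal.mul_top, ← Ideal.Quotient.eq_zero_iff_mem, map_sub,
    mk_psEval, ← map_sub, ← map_sub, Ideal.Quotient.eq_zero_iff_mem]
  apply idealOfVars_pow_le J φ t ht N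
  refine (MvPolynomial.mem_pow_idealOfVars_iff' ..).mpr fun x hx ↦ ?_
  rw [MvPolynomial.coeff_sub, coeff_truncTotal _ hx, MvPolynomial.coeff_coe, sub_self]

@[simp]
theorem psEval_C (ht : ∀ i, t i ∈ J) (a : Λ) :
    psEval J φ t ht (MvPowerSeries.C a) = φ a := by
  have h := psEval_coe J φ t ht (MvPolynomial.C a)
  rw [MvPolynomial.coe_C, MvPolynomial.eval₂Hom_C] at h
  exact h

@[simp]
theorem psEval_X (ht : ∀ i, t i ∈ J) (i : σ) :
    psEval J φ t ht (MvPowerSeries.X i) = t i := by
  have h := psEval_coe J φ t ht (MvPolynomial.X i)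
  rw [MvPolynomial.coe_X, MvPolynomial.eval₂Hom_X'] at h
  exact h

/-- uniqueness of evaluation -/
theorem eq_psEval (ht : ∀ i, t i ∈ J) (g : MvPowerSeries σ Λ →+* S)
    (hC : ∀ a, g (MvPowerSeries.C a) = φ a) (hX : ∀ i, g (MvPowerSeries.X i) = t i) :
    g = psEval J φ t ht := by
  have hH : IsHausdorff J S := inferInstance
  have hpoly : ∀ p : MvPolynomial σ Λ, g (p : MvPowerSeries σ Λ) = MvPolynomial.eval₂Hom φ t p := by
    intro p
    have : g.comp (MvPolynomial.coeToMvPowerSeries.ringHom) = MvPolynomial.eval₂Hom φ t := by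
      apply MvPolynomial.ringHom_ext
      · intro a
        rw [RingHom.comp_apply, MvPolynomial.coeToMvPowerSeries.ringHom_apply, MvPolynomial.coe_C,
          hC, MvPolynomial.eval₂Hom_C]
      · intro i
        rw [RingHom.comp_apply, MvPolynomial.coeToMvPowerSeries.ringHom_apply, MvPolynomial.coe_X,
          hX, MvPolynomial.eval₂Hom_X']
    exact RingHom.congr_fun this p
  ext f
  rw [← sub_eq_zero]
  refine hH.haus' _ fun N => ?_
  rw [SModEq.zero, smul_eq_mul, Ideal.mul_top]
  -- `f - trunc N f` lies in `(X)^N`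
  have h1 : f - ((truncTotal N f : MvPolynomial σ Λ) : MvPowerSeries σ Λ) ∈
      (Ideal.span (Set.range (X : σ → MvPowerSeries σ Λ))) ^ N := by
    apply mem_span_X_pow
    intro x hx
    rw [map_sub, MvPolynomial.coeff_coe, coeff_truncTotal _ hx, sub_self]
  have h2 : g (f - ((truncTotal N f : MvPolynomial σ Λ) : MvPowerSeries σ Λ)) ∈ J ^ N := by
    have h3 : (Ideal.span (Set.range (X : σ → MvPowerSeries σ Λ))) ^ N ≤ (J ^ N).comap g := by
      rw [← Ideal.map_le_iff_le_comap, Ideal.map_pow]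
      apply Ideal.pow_right_mono
      rw [Ideal.map_span, Ideal.span_le]
      rintro _ ⟨_, ⟨i, rfl⟩, rfl⟩
      rw [hX]
      exact ht i
    exact h3 h1
  rw [map_sub, hpoly] at h2
  have h4 := mk_psEval J φ t ht N f
  rw [Ideal.Quotient.eq] at h4
  have h5 : g f - psEval J φ t ht f = (g f - MvPolynomial.eval₂Hom φ t (truncTotal N f)) -
    (psEval J φ t ht f - MvPolynomial.eval₂Hom φ t (truncTotal N f)) := by ring
  rw [h5]
  exact sub_mem h2 h4

end Eval

end Crest.Agent.R183.Cohen
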