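import Crest.Agent.R183.CohenLift

/-!
# R183 (Lech), Cohen structure, part 3: existence of Cohen rings

For every field `k` of characteristic `p` there is a local domain `A` of characteristic zero with
maximal ideal `(p)` and residue field `k`: take a maximal `p`-saturated subring (with residues in
`k`) of a valuation ring of an algebraically closed field of characteristic zero whose residue
field contains `k`.
-/

set_option autoImplicit false

namespace Crest.Agent.R183.Cohen

open Ideal IsLocalRing Polynomial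

section Zorn

variable {L : Type*} [Field L] (O : ValuationSubring L) (π : O)
  {k : Type*} [Field k] (j : k →+* ResidueField O)

/-- the poset of admissible subrings -/
def Adm : Set (Subring O) :=
  {A | (∀ a ∈ A, residue O a = 0 → ∃ b ∈ A, a = π * b) ∧ ∀ a ∈ A, residue O a ∈ j.range}

variable {O π j}

theorem adm_sSup {c : Set (Subring O)} (hc : c ⊆ Adm O π j) (hch : IsChain (· ≤ ·) c)
    {y : Subring O} (hy : y ∈ c) : sSup c ∈ Adm O π j := by
  refine ⟨fun a ha h0 => ?_, fun a ha => ?_⟩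
  · rw [Subring.mem_sSup_of_directedOn ⟨y, hy⟩ hch.directedOn] at ha
    obtain ⟨s, hs, has⟩ := ha
    obtain ⟨b, hb, rfl⟩ := (hc hs).1 a has h0
    exact ⟨b, (le_sSup hs : s ≤ sSup c) hb, rfl⟩
  · rw [Subring.mem_sSup_of_directedOn ⟨y, hy⟩ hch.directedOn] at ha
    obtain ⟨s, hs, has⟩ := ha
    exact (hc hs).2 a has

/-- extension by an element: abstract criterion -/
theorem adm_adjoin {A : Subring O} (hA : A ∈ Adm O π j) (α : O) (hα : residue O α ∈ j.range)
    (h : ∀ P : A[X], residue O (aeval α P) = 0 → ∃ Q : A[X], aeval α P = π * aeval α Q) :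
    ∃ A' ∈ Adm O π j, A ≤ A' ∧ α ∈ A' := by
  refine ⟨(aeval (R := A) α : A[X] →ₐ[A] O).toRingHom.range, ⟨?_, ?_⟩, ?_, ?_⟩
  · rintro _ ⟨P, rfl⟩ h0
    obtain ⟨Q, hQ⟩ := h P h0
    exact ⟨_, ⟨Q, rfl⟩, hQ⟩
  · rintro _ ⟨P, rfl⟩
    change residue O (aeval α P) ∈ j.range
    rw [aeval_eq_sum_range, map_sum]
    refine sum_mem fun i _ => ?_
    rw [Subring.smul_def, smul_eq_mul, map_mul, map_pow]
    exact mul_mem (hA.2 _ (P.coeff i).2) (pow_mem hα i)
  · intro w hw
    exact ⟨C ⟨w, hw⟩, by simp [Algebra.algebraMap_eq_smul_one, Subring.smul_def]⟩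
  · exact ⟨X, by simp⟩

theorem adm_inv {A : Subring O} (hA : A ∈ Adm O π j) {s : O} (hs : s ∈ A)
    (hs0 : residue O s ≠ 0) : ∃ A' ∈ Adm O π j, A ≤ A' ∧ ∃ t ∈ A', s * t = 1 := by
  have hu : IsUnit s := by
    by_contra hcon
    exact hs0 ((residue_eq_zero_iff s).2 ((mem_maximalIdeal _).2 hcon))
  obtain ⟨u, rfl⟩ := hu
  have hmul : ∀ n : ℕ, ((u : O) ^ n) ∈ A := fun n => pow_mem hs n
  have hinv : ∀ n : ℕ, ((↑u⁻¹ : O) ^ n) * (u : O) ^ n = 1 := fun n => by
    rw [← mul_pow, Units.inv_mul, one_pow]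
  refine ⟨{ carrier := {y | ∃ n : ℕ, y * (u : O) ^ n ∈ A}
            mul_mem' := ?_, one_mem' := ⟨0, by simp [A.one_mem]⟩,
            add_mem' := ?_, zero_mem' := ⟨0, by simp [A.zero_mem]⟩, neg_mem' := ?_ },
    ⟨?_, ?_⟩, ?_, ?_⟩
  · rintro a b ⟨n, hn⟩ ⟨m, hm⟩
    refine ⟨n + m, ?_⟩
    have : a * b * (u : O) ^ (n + m) = (a * (u : O) ^ n) * (b * (u : O) ^ m) := by ring
    rw [this]
    exact mul_mem hn hm
  · rintro a b ⟨n, hn⟩ ⟨m, hm⟩
    refine ⟨n + m, ?_⟩
    have : (a + b) * (u : O) ^ (n + m) = (a * (u : O) ^ n) * (u : O) ^ m +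
        (b * (u : O) ^ m) * (u : O) ^ n := by ring
    rw [this]
    exact add_mem (mul_mem hn (hmul m)) (mul_mem hm (hmul n))
  · rintro a ⟨n, hn⟩
    exact ⟨n, by rw [neg_mul]; exact neg_mem hn⟩
  · rintro a ⟨n, hn⟩ h0
    obtain ⟨b, hb, hab⟩ := hA.1 _ hn (by rw [map_mul, h0, zero_mul])
    refine ⟨b * (↑u⁻¹ : O) ^ n, ⟨n, ?_⟩, ?_⟩
    · rw [mul_assoc, hinv, mul_one]; exact hb
    · have : a = (a * (u : O) ^ n) * (↑u⁻¹ : O) ^ n := by
        rw [mul_assoc, mul_comm ((u : O) ^ n), hinv, mul_one]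
      rw [this, hab]; ring
  · rintro a ⟨n, hn⟩
    have h1 := hA.2 _ hn
    have h2 := hA.2 _ (hmul n)
    have h3 : residue O a = residue O (a * (u : O) ^ n) * (residue O ((u : O) ^ n))⁻¹ := by
      rw [map_mul, mul_assoc, mul_inv_cancel₀, mul_one]
      rw [map_pow]
      exact pow_ne_zero _ hs0
    rw [h3]
    obtain ⟨x, hx⟩ := h1
    obtain ⟨y, hy⟩ := h2
    exact ⟨x * y⁻¹, by rw [map_mul, map_inv₀, hx, hy]⟩
  · intro a ha
    exact ⟨0, by simpa using ha⟩
  · exact ⟨(↑u⁻¹ : O), ⟨1, by simp [A.one_mem]⟩, Units.mul_inv u⟩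

theorem exists_div_pi {A : Subring O} (hA : A ∈ Adm O π j) (R : A[X])
    (h : ∀ i, residue O (R.coeff i : O) = 0) (α : O) :
    ∃ Q : A[X], aeval α R = π * aeval α Q := by
  have h1 : ∀ i, ∃ b : A, (R.coeff i : O) = π * b := fun i => by
    obtain ⟨b, hb, hab⟩ := hA.1 _ (R.coeff i).2 (h i)
    exact ⟨⟨b, hb⟩, hab⟩
  choose b hb using h1
  refine ⟨∑ i ∈ Finset.range (R.natDegree + 1), monomial i (b i), ?_⟩
  rw [aeval_eq_sum_range, map_sum, Finset.mul_sum]
  refine Finset.sum_congr rfl fun i _ => ?_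
  rw [aeval_monomial, Subring.smul_def, smul_eq_mul, hb i]
  change π * (b i : O) * α ^ i = π * ((b i : O) * α ^ i)
  ring

/-- A monic polynomial over `O` with a root mod `𝔪` has a root in `O` above it, when the fraction
field is algebraically closed. -/
theorem exists_root [IsAlgClosed L] {A : Subring O} (f : A[X]) (hf : f.Monic) (y : O)
    (hy : residue O (aeval y f) = 0) : ∃ α : O, aeval α f = 0 ∧ residue O α = residue O y := by
  let g : L[X] := f.map (O.subtype.comp A.subtype)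
  have hg : g.Monic := hf.map _
  have hev : ∀ z : O, g.eval (z : L) = ((aeval z f : O) : L) := by
    intro z
    have h1 : (aeval z f : O) = f.eval₂ A.subtype z := rfl
    rw [h1, eval_map]
    change _ = O.subtype (f.eval₂ A.subtype z)
    rw [hom_eval₂]
    rfl
  have hsp : g.Splits := IsAlgClosed.splits g
  have hprod := hsp.eval_eq_prod_roots_of_monic hg (y : L)
  have hlt : O.valuation (g.eval (y : L)) < 1 := by
    rw [hev]
    exact (O.valuation_lt_one_iff _).1 ((residue_eq_zero_iff _).1 hy)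
  obtain ⟨α, hα, hlt'⟩ : ∃ α ∈ g.roots, O.valuation ((y : L) - α) < 1 := by
    by_contra hcon
    push Not at hcon
    rw [hprod, map_multiset_prod] at hlt
    refine absurd hlt (not_lt.2 ?_)
    apply Multiset.one_le_prod_of_one_le
    intro x hx
    rw [Multiset.mem_map] at hx
    obtain ⟨w, hw, rfl⟩ := hx
    rw [Multiset.mem_map] at hw
    obtain ⟨α, hα, rfl⟩ := hw
    exact hcon α hα
  have hmem : (y : L) - α ∈ O := (O.valuation_le_one_iff _).1 hlt'.le
  have hmem2 : α ∈ O := by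
    have := sub_mem y.2 hmem
    simpa using this
  refine ⟨⟨α, hmem2⟩, ?_, ?_⟩
  · apply Subtype.ext
    rw [← hev]
    exact isRoot_of_mem_roots hα
  · have h1 : (y - ⟨α, hmem2⟩ : O) ∈ maximalIdeal O := (O.valuation_lt_one_iff _).2 hlt'
    have h2 := (residue_eq_zero_iff _).2 h1
    rw [map_sub, sub_eq_zero] at h2
    exact h2.symm

theorem exists_max [IsAlgClosed L] {A₀ : Subring O} (h₀ : A₀ ∈ Adm O π j) :
    ∃ A ∈ Adm O π j, (∀ s ∈ A, residue O s ≠ 0 → ∃ t ∈ A, s * t = 1) ∧
      ∀ x : k, ∃ a ∈ A, residue O a = j x := by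
  classical
  obtain ⟨A, -, hAmax⟩ := zorn_le_nonempty₀ (Adm O π j)
    (fun c hc hchain y hy => ⟨sSup c, adm_sSup hc hchain hy, fun z hz => le_sSup hz⟩) A₀ h₀
  have hA := hAmax.1
  have hinv : ∀ s ∈ A, residue O s ≠ 0 → ∃ t ∈ A, s * t = 1 := by
    intro s hs hs0
    obtain ⟨A', hA', hAA', t, ht, hst⟩ := adm_inv hA hs hs0
    exact ⟨t, hAmax.2 hA' hAA' ht, hst⟩
  refine ⟨A, hA, hinv, ?_⟩
  by_contra hcon
  push Not at hcon
  obtain ⟨x, hx⟩ := hcon
  -- the residue field of `A`
  let ρ : A →+* ResidueField O := (residue O).comp A.subtype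
  let F : Subfield (ResidueField O) :=
    { ρ.range with
      inv_mem' := by
        rintro _ ⟨s, rfl⟩
        by_cases h0 : residue O (s : O) = 0
        · refine ⟨0, ?_⟩
          change ρ 0 = (residue O (s : O))⁻¹
          rw [h0, map_zero, inv_zero]
        · obtain ⟨t, ht, hst⟩ := hinv _ s.2 h0
          refine ⟨⟨t, ht⟩, ?_⟩
          change residue O t = (residue O (s : O))⁻¹
          refine eq_inv_of_mul_eq_one_left ?_
          rw [← map_mul, mul_comm, hst, map_one] }
  let ρ' : A →+* F := ρ.codRestrict F (fun a => ⟨a, rfl⟩)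
  have hρ' : Function.Surjective ρ' := by
    rintro ⟨_, a, rfl⟩
    exact ⟨a, rfl⟩
  have hρ'0 : ∀ a : A, ρ' a = 0 ↔ residue O (a : O) = 0 := fun a => by
    rw [Subtype.ext_iff]
    rfl
  have hres : ∀ (P : A[X]) (z : O), residue O (aeval z P) = aeval (residue O z) (P.map ρ') := by
    intro P z
    have h1 : (aeval z P : O) = P.eval₂ A.subtype z := rfl
    rw [h1, hom_eval₂, aeval_def, eval₂_map]
    rfl
  obtain ⟨y, hy⟩ := residue_surjective (R := O) (j x)
  have key : ∃ α : O, residue O α = j x ∧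
      ∀ P : A[X], residue O (aeval α P) = 0 → ∃ Q : A[X], aeval α P = π * aeval α Q := by
    by_cases halg : IsAlgebraic F (j x)
    · -- algebraic case
      have hint : IsIntegral F (j x) := halg.isIntegral
      obtain ⟨f, hf1, hf2, hf3⟩ := lifts_and_natDegree_eq_and_monic
        (f := ρ') (p := minpoly F (j x))
        ((mem_lifts _).2 (map_surjective ρ' hρ' _)) (minpoly.monic hint)
      have hy0 : residue O (aeval y f) = 0 := by
        rw [hres, hf1, hy, minpoly.aeval]
      obtain ⟨α, hα0, hα⟩ := exists_root f hf3 y hy0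
      refine ⟨α, hα.trans hy, fun P hP => ?_⟩
      have hmod : aeval α (P %ₘ f) = aeval α P := aeval_modByMonic_eq_self_of_root hα0
      rw [← hmod]
      apply exists_div_pi hA
      have h1 : aeval (j x) ((P %ₘ f).map ρ') = 0 := by
        rw [← hy, ← hα, ← hres, hmod, hP]
      have h2 : (P %ₘ f).map ρ' = 0 := by
        by_contra hne
        have h3 := minpoly.degree_le_of_ne_zero F (j x) hne h1
        have h4 : ((P %ₘ f).map ρ').degree < (minpoly F (j x)).degree := by
          refine lt_of_le_of_lt degree_map_le ?_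
          refine lt_of_lt_of_le (degree_modByMonic_lt P hf3) ?_
          rw [degree_eq_natDegree hf3.ne_zero, hf2,
            degree_eq_natDegree (minpoly.ne_zero hint)]
        exact absurd h3 (not_le.2 h4)
      intro i
      rw [← hρ'0, ← coeff_map, h2, coeff_zero]
    · -- transcendental case
      refine ⟨y, hy, fun P hP => ?_⟩
      apply exists_div_pi hA
      have h1 : aeval (j x) (P.map ρ') = 0 := by rw [← hy, ← hres, hP]
      have h2 : P.map ρ' = 0 := by
        by_contra hne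
        exact halg ⟨_, hne, h1⟩
      intro i
      rw [← hρ'0, ← coeff_map, h2, coeff_zero]
  obtain ⟨α, hα, hα'⟩ := key
  obtain ⟨A', hA', hAA', hαA'⟩ := adm_adjoin hA α ⟨x, hα.symm⟩ hα'
  exact hx α (hAmax.2 hA' hAA' hαA') hα

end Zorn

end Crest.Agent.R183.Cohen
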