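import Crest.Agent.R183.CohenExist

/-!
# R183 (Lech), Cohen structure, part 4: existence of Cohen rings, conclusion
-/

set_option autoImplicit false

namespace Crest.Agent.R183.Cohen

open Ideal IsLocalRing

universe u

/-- A valuation ring of an algebraically closed field of characteristic zero whose residue field
contains a given field. -/
theorem exists_valuationSubring (k : Type u) [Field k] :
    ∃ (L : Type u) (_ : Field L) (_ : IsAlgClosed L) (_ : CharZero L) (O : ValuationSubring L),
      Nonempty (k →+* ResidueField O) := by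
  classical
  let R₀ := MvPolynomial k ℤ
  let ev : R₀ →+* k := MvPolynomial.eval₂Hom (Int.castRingHom k) id
  have hev : Function.Surjective ev := fun x => ⟨MvPolynomial.X x, MvPolynomial.eval₂_X _ _ _⟩
  have hprime : (RingHom.ker ev).IsPrime := RingHom.ker_isPrime ev
  let n := RingHom.ker ev
  let R₁ := Localization.AtPrime n
  let L := AlgebraicClosure (FractionRing R₀)
  have hinj : Function.Injective (algebraMap R₀ L) := by
    rw [IsScalarTower.algebraMap_eq R₀ (FractionRing R₀) L]
    exact (algebraMap (FractionRing R₀) L).injective.comp (IsFractionRing.injective R₀ _)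
  have hz : CharZero L := by
    refine ⟨fun a b hab => ?_⟩
    have h1 : algebraMap R₀ L (a : R₀) = algebraMap R₀ L (b : R₀) := by
      simpa using hab
    exact Nat.cast_injective (hinj h1)
  let f : R₁ →+* L := IsLocalization.lift (M := n.primeCompl) (g := algebraMap R₀ L) (by
    intro y
    rw [isUnit_iff_ne_zero]
    intro h0
    have h1 : (y : R₀) = 0 := hinj (by rw [h0, map_zero])
    exact y.2 (by rw [h1]; exact n.zero_mem))
  obtain ⟨O, hO, hloc⟩ := IsLocalRing.exists_factor_valuationRing f
  refine ⟨L, inferInstance, inferInstance, hz, O, ?_⟩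
  let φ : R₁ →+* O := f.codRestrict O.toSubring hO
  have hφ : IsLocalHom φ := hloc
  let ψ : R₀ →+* ResidueField O := (residue O).comp (φ.comp (algebraMap R₀ R₁))
  have hker : RingHom.ker ev ≤ RingHom.ker ψ := by
    intro x hx
    rw [RingHom.mem_ker]
    change residue O (φ (algebraMap R₀ R₁ x)) = 0
    rw [residue_eq_zero_iff, mem_maximalIdeal, mem_nonunits_iff]
    intro hu
    have hu' : IsUnit (algebraMap R₀ R₁ x) := hφ.map_nonunit _ hu
    rw [IsLocalization.AtPrime.isUnit_to_map_iff R₁ n x] at hu'
    exact hu' hx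
  exact ⟨ev.liftOfSurjective hev ⟨ψ, hker⟩⟩

/-- **Existence of (non complete) Cohen rings.** -/
theorem exists_cohen_local (p : ℕ) [Fact p.Prime] (k : Type u) [Field k] [CharP k p] :
    ∃ (A : Type u) (_ : CommRing A) (_ : IsDomain A) (_ : IsLocalRing A) (_ : CharZero A),
      maximalIdeal A = span {(p : A)} ∧ Nonempty (ResidueField A ≃+* k) := by
  classical
  obtain ⟨L, _, _, _, O, ⟨j⟩⟩ := exists_valuationSubring k
  have hchar : CharP (ResidueField O) p := charP_of_injective_ringHom j.injective p
  have hp0 : residue O ((p : ℕ) : O) = 0 := by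
    rw [map_natCast, CharP.cast_eq_zero]
  have hbot : (⊥ : Subring O) ∈ Adm O ((p : ℕ) : O) j := by
    refine ⟨?_, ?_⟩
    · intro a ha h0
      rw [Subring.mem_bot] at ha
      obtain ⟨n, rfl⟩ := ha
      rw [map_intCast, CharP.intCast_eq_zero_iff _ p] at h0
      obtain ⟨m, rfl⟩ := h0
      exact ⟨(m : O), Subring.mem_bot.2 ⟨m, rfl⟩, by push_cast; ring⟩
    · intro a ha
      rw [Subring.mem_bot] at ha
      obtain ⟨n, rfl⟩ := ha
      exact ⟨n, by simp⟩
  obtain ⟨A, hA, hinv, hsurj⟩ := exists_max hbot
  have hunit : ∀ a : A, IsUnit a ↔ residue O (a : O) ≠ 0 := by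
    intro a
    constructor
    · intro hu
      have : IsUnit (residue O (a : O)) := (hu.map A.subtype).map (residue O)
      exact this.ne_zero
    · intro h
      obtain ⟨t, ht, hst⟩ := hinv _ a.2 h
      exact IsUnit.of_mul_eq_one ⟨t, ht⟩ (Subtype.ext hst)
  have hlocal : IsLocalRing A := by
    refine IsLocalRing.of_nonunits_add ?_
    intro a b ha hb
    rw [mem_nonunits_iff, hunit, not_not] at ha hb ⊢
    rw [Subring.coe_add, map_add, ha, hb, add_zero]
  have hcz : CharZero A := by
    refine ⟨fun a b hab => ?_⟩
    have h1 : ((a : A) : L) = ((b : A) : L) := by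
      have := congrArg (fun z : A => ((z : O) : L)) hab
      simpa using this
    have h2 : ((a : ℕ) : L) = ((b : ℕ) : L) := by simpa using h1
    exact Nat.cast_injective h2
  have hmem : ∀ a : A, a ∈ maximalIdeal A ↔ residue O (a : O) = 0 := by
    intro a
    rw [mem_maximalIdeal, mem_nonunits_iff, hunit, not_not]
  refine ⟨A, inferInstance, inferInstance, hlocal, hcz, ?_, ?_⟩
  · ext a
    rw [hmem, Ideal.mem_span_singleton']
    constructor
    · intro h
      obtain ⟨b, hb, hab⟩ := hA.1 _ a.2 h
      refine ⟨⟨b, hb⟩, Subtype.ext ?_⟩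
      rw [hab, Subring.coe_mul, Subring.coe_natCast, mul_comm]
    · rintro ⟨b, rfl⟩
      rw [Subring.coe_mul, map_mul, Subring.coe_natCast, hp0, mul_zero]
  · -- residue field
    have hrange : ∀ a : A, residue O (a : O) ∈ j.range := fun a => hA.2 _ a.2
    let e : k ≃+* j.range := RingEquiv.ofBijective j.rangeRestrict
      ⟨fun a b hab => j.injective (congrArg Subtype.val hab), j.rangeRestrict_surjective⟩
    let θ : A →+* k := e.symm.toRingHom.comp
      (((residue O).comp A.subtype).codRestrict j.range hrange)
    have hθ : ∀ a : A, j (θ a) = residue O (a : O) := by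
      intro a
      have h1 : e (θ a) = ⟨residue O (a : O), hrange a⟩ := e.apply_symm_apply _
      exact congrArg Subtype.val h1
    have hθs : Function.Surjective θ := by
      intro x
      obtain ⟨a, ha, hax⟩ := hsurj x
      exact ⟨⟨a, ha⟩, j.injective (by rw [hθ]; exact hax)⟩
    have hker : maximalIdeal A = RingHom.ker θ := by
      ext a
      rw [hmem, RingHom.mem_ker, ← hθ, map_eq_zero]
    exact ⟨(Ideal.quotEquivOfEq hker).trans (RingHom.quotientKerEquivOfSurjective hθs)⟩

end Crest.Agent.R183.Cohen
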