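import Mathlib

/-!
# R183 (Lech), Cohen structure, part 1: fields of characteristic `p` are formally smooth over `F_p`
-/

set_option autoImplicit false

namespace Crest.Agent.R183.Cohen

open Polynomial

section ZornLift

variable {k B Q : Type*} [Field k] [CommRing B] [CommRing Q] {p : ℕ} [hp : Fact p.Prime]
  [CharP k p] [CharP B p]

/-- the subring of compatible pairs -/
def pairs (f : k →+* Q) (π : B →+* Q) : Subring (k × B) :=
  RingHom.eqLocus (f.comp (RingHom.fst k B)) (π.comp (RingHom.snd k B))

lemma mem_pairs (f : k →+* Q) (π : B →+* Q) (z : k × B) :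
    z ∈ pairs f π ↔ f z.1 = π z.2 := Iff.rfl

/-- Lifting a homomorphism out of a field of characteristic `p` through a square-zero (or just
`x ∈ ker → x ^ p = 0`) surjection of rings of characteristic `p`. -/
theorem exists_lift_of_ker_pow_eq_zero (f : k →+* Q) (π : B →+* Q)
    (hπ : Function.Surjective π) (hker : ∀ b : B, π b = 0 → b ^ p = 0) :
    ∃ g : k →+* B, π.comp g = f := by
  classical
  -- Frobenius image of the compatible pairs
  have : CharP (k × B) p := Prod.charP k B p
  set S : Subring (k × B) := pairs f π with hS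
  set G₀ : Subring (k × B) := S.map (frobenius (k × B) p) with hG₀
  have hG₀S : G₀ ≤ S := by
    rintro _ ⟨z, hz, rfl⟩
    have hz' : z ∈ S := hz
    rw [frobenius_def]
    exact S.pow_mem hz' p
  -- the poset
  let 𝒮 : Set (Subring (k × B)) := {G | G₀ ≤ G ∧ G ≤ S ∧ ∀ z ∈ G, z.1 = 0 → z = 0}
  have h₀ : G₀ ∈ 𝒮 := by
    refine ⟨le_rfl, hG₀S, ?_⟩
    rintro _ ⟨z, hz, rfl⟩ h1
    have hz' : f z.1 = π z.2 := hz
    have h2 : z.1 ^ p = 0 := by simpa [frobenius_def] using h1
    have h3 : z.1 = 0 := pow_eq_zero_iff hp.out.ne_zero |>.1 h2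
    have h4 : π z.2 = 0 := by rw [← hz', h3, map_zero]
    have h5 := hker _ h4
    rw [frobenius_def]
    exact Prod.ext (by simpa using h2) (by simpa using h5)
  obtain ⟨G, hG, hGmax⟩ := zorn_le_nonempty₀ 𝒮 (by
    intro c hc hchain y hy
    refine ⟨sSup c, ⟨?_, ?_, ?_⟩, fun z hz => le_sSup hz⟩
    · exact (hc hy).1.trans (le_sSup hy)
    · exact sSup_le fun z hz => (hc hz).2.1
    · intro z hz hz1
      rw [Subring.mem_sSup_of_directedOn ⟨y, hy⟩ hchain.directedOn] at hz
      obtain ⟨s, hs, hzs⟩ := hz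
      exact (hc hs).2.2 z hzs hz1) G₀ h₀
  obtain ⟨hG₀G, hGS, hGinj⟩ := hGmax.1
  -- the first projection is surjective on `G`
  have key : ∀ x : k, ∃ z ∈ G, z.1 = x := by
    by_contra hcon
    push Not at hcon
    obtain ⟨x, hx⟩ := hcon
    obtain ⟨β, hβ⟩ := hπ (f x)
    set z : k × B := (x, β) with hz
    have hzS : z ∈ S := by
      change f x = π β
      exact hβ.symm
    have hzp : z ^ p ∈ G := hG₀G ⟨z, hzS, by rw [frobenius_def]⟩
    -- `G` is a field
    have hfield : IsField G := by
      refine ⟨⟨0, 1, zero_ne_one⟩, mul_comm, ?_⟩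
      intro a ha
      have ha1 : (a : k × B).1 ≠ 0 := by
        intro h
        exact ha (Subtype.ext (hGinj _ a.2 h))
      obtain ⟨b, hb⟩ := hπ (f ((a : k × B).1)⁻¹)
      have hbS : (((a : k × B).1)⁻¹, b) ∈ S := hb.symm
      have hbG : ((((a : k × B).1)⁻¹, b) : k × B) ^ p ∈ G := hG₀G ⟨_, hbS, by rw [frobenius_def]⟩
      refine ⟨a ^ (p - 1) * ⟨_, hbG⟩, ?_⟩
      have : (a * (a ^ (p - 1) * ⟨_, hbG⟩) - 1 : G) = 0 := by
        apply Subtype.ext
        apply hGinj _ (Subtype.property _)
        have hp1 : (a : k × B).1 * (a : k × B).1 ^ (p - 1) = (a : k × B).1 ^ p := by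
          rw [← pow_succ', Nat.sub_add_cancel hp.out.one_le]
        simp only [AddSubgroupClass.coe_sub, Subring.coe_mul, Subring.coe_pow, Subring.coe_one,
          Prod.fst_sub, Prod.fst_mul, Prod.pow_fst, Prod.fst_one]
        rw [← mul_assoc, hp1, inv_pow, mul_inv_cancel₀ (pow_ne_zero _ ha1), sub_self]
      exact sub_eq_zero.1 this
    let _ : Field G := hfield.toField
    let _ : Algebra G k := ((RingHom.fst k B).comp G.subtype).toAlgebra
    have halg : ∀ g : G, algebraMap G k g = (g : k × B).1 := fun g => rfl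
    set a : G := ⟨z ^ p, hzp⟩ with ha
    have hirr : Irreducible (X ^ p - C a : G[X]) := by
      apply X_pow_sub_C_irreducible_of_prime hp.out
      intro b hb
      have h1 : ((b : k × B).1) ^ p = x ^ p := by
        have := congrArg (fun w : G => (w : k × B).1) hb
        simpa [ha, hz] using this
      have h2 : ((b : k × B).1) = x := by
        have := frobenius_inj k p
        exact this (by simpa [frobenius_def] using h1)
      exact hx _ b.2 h2
    have hmonic : (X ^ p - C a : G[X]).Monic := monic_X_pow_sub_C a hp.out.ne_zero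
    have hmin : minpoly G x = X ^ p - C a := by
      refine (minpoly.eq_of_irreducible_of_monic hirr ?_ hmonic).symm
      simp [halg, ha, hz]
    -- the bigger subring
    have hzG' : ∃ G' : Subring (k × B), G ≤ G' ∧ z ∈ G' ∧ G' ≤ S ∧ ∀ w ∈ G', w.1 = 0 → w = 0 := by
      refine ⟨(aeval (R := G) z : G[X] →ₐ[G] k × B).toRingHom.range, ?_, ?_, ?_, ?_⟩
      · intro w hw
        exact ⟨C ⟨w, hw⟩, by simp [Algebra.algebraMap_eq_smul_one, Subring.smul_def]⟩
      · exact ⟨X, by simp⟩
      · rintro _ ⟨P, rfl⟩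
        change aeval z P ∈ S
        rw [aeval_eq_sum_range]
        refine sum_mem fun i _ => ?_
        rw [Subring.smul_def, smul_eq_mul]
        exact S.mul_mem (hGS (P.coeff i).2) (S.pow_mem hzS i)
      · rintro _ ⟨P, rfl⟩ h1
        change (aeval z P).1 = 0 at h1
        change aeval z P = 0
        have h2 : aeval x P = 0 := by
          rw [← h1, aeval_eq_sum_range, aeval_eq_sum_range, Prod.fst_sum]
          refine Finset.sum_congr rfl fun i _ => ?_
          rw [Subring.smul_def, smul_eq_mul, Prod.fst_mul, Prod.pow_fst, Algebra.smul_def, halg]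
        have h3 : (X ^ p - C a : G[X]) ∣ P := by
          rw [← hmin]; exact minpoly.dvd G x h2
        obtain ⟨R, rfl⟩ := h3
        have h4 : aeval z (X ^ p - C a : G[X]) = 0 := by
          simp [ha, Algebra.algebraMap_eq_smul_one, Subring.smul_def]
        rw [map_mul, h4, zero_mul]
    obtain ⟨G', hGG', hzG', hG'S, hG'inj⟩ := hzG'
    have : G' ≤ G := hGmax.2 ⟨hG₀G.trans hGG', hG'S, hG'inj⟩ hGG'
    exact hx z (this hzG') rfl
  -- conclude
  have hinj : Function.Injective ((RingHom.fst k B).comp G.subtype) := by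
    rw [injective_iff_map_eq_zero]
    intro a ha
    exact Subtype.ext (hGinj _ a.2 ha)
  have hsurj : Function.Surjective ((RingHom.fst k B).comp G.subtype) := by
    intro x
    obtain ⟨z, hz, rfl⟩ := key x
    exact ⟨⟨z, hz⟩, rfl⟩
  let e : G ≃+* k := RingEquiv.ofBijective _ ⟨hinj, hsurj⟩
  refine ⟨((RingHom.snd k B).comp G.subtype).comp e.symm.toRingHom, ?_⟩
  ext x
  obtain ⟨w, rfl⟩ := e.surjective x
  have hw := hGS w.2
  rw [hS, mem_pairs] at hw
  simp only [RingEquiv.toRingHom_eq_coe, RingHom.coe_comp, Function.comp_apply,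
    RingHom.coe_coe, RingEquiv.symm_apply_apply]
  exact hw.symm

end ZornLift

section Smooth

variable {k : Type*} [Field k] {p : ℕ} [hp : Fact p.Prime] [CharP k p]

/-- Lifting a homomorphism out of a field of characteristic `p` through a surjection with
nilpotent-of-exponent-`p` kernel, target ring killed by `p` (possibly zero). -/
theorem exists_lift_of_ker_pow_eq_zero' {B Q : Type*} [CommRing B] [CommRing Q]
    (hpB : (p : B) = 0) (f : k →+* Q) (π : B →+* Q)
    (hπ : Function.Surjective π) (hker : ∀ b : B, π b = 0 → b ^ p = 0) :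
    ∃ g : k →+* B, π.comp g = f := by
  rcases subsingleton_or_nontrivial B with h | h
  · have hQ : Subsingleton Q := hπ.subsingleton
    refine ⟨⟨⟨⟨fun _ => 0, Subsingleton.elim _ _⟩, fun _ _ => Subsingleton.elim _ _⟩,
      Subsingleton.elim _ _, fun _ _ => Subsingleton.elim _ _⟩, ?_⟩
    ext x
    exact Subsingleton.elim _ _
  · have : CharP B p := by
      obtain ⟨q, hq⟩ := CharP.exists B
      have h1 : q ∣ p := (CharP.cast_eq_zero_iff B q p).1 hpB
      have h2 : q ≠ 1 := CharP.char_ne_one B q
      have h3 : q = p := ((Nat.dvd_prime hp.out).1 h1).resolve_left h2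
      exact h3 ▸ hq
    exact exists_lift_of_ker_pow_eq_zero f π hπ hker

variable (k p) in
/-- Every field of characteristic `p` is formally smooth over `F_p`. -/
theorem formallySmooth_zmod [Algebra (ZMod p) k] : Algebra.FormallySmooth (ZMod p) k := by
  apply Algebra.FormallySmooth.of_comp_surjective
  intro B _ _ I hI f
  have hpB : (p : B) = 0 := by
    rw [← map_natCast (algebraMap (ZMod p) B), ZMod.natCast_self, map_zero]
  obtain ⟨g, hg⟩ := exists_lift_of_ker_pow_eq_zero' hpB f.toRingHom (Ideal.Quotient.mk I)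
    Ideal.Quotient.mk_surjective (fun b hb => by
      have hb' : b ∈ I := Ideal.Quotient.eq_zero_iff_mem.1 hb
      have : b ^ 2 ∈ I ^ 2 := Ideal.pow_mem_pow hb' 2
      rw [hI] at this
      have h2 : b ^ 2 = 0 := by simpa using this
      calc b ^ p = b ^ 2 * b ^ (p - 2) := by
            rw [← pow_add, Nat.add_sub_cancel' hp.out.two_le]
        _ = 0 := by rw [h2, zero_mul])
  refine ⟨⟨g, fun r => ?_⟩, ?_⟩
  · have : g.comp (algebraMap (ZMod p) k) = algebraMap (ZMod p) B :=
      RingHom.ext_zmod _ _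
    exact RingHom.congr_fun this r
  · ext x
    exact RingHom.congr_fun hg x

end Smooth

end Crest.Agent.R183.Cohen
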