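import Crest.Agent.R183.CohenRingLift

/-!
# R183 (Lech), Cohen structure, part 7: coefficient fields in equal characteristic
-/

set_option autoImplicit false

namespace Crest.Agent.R183.Cohen

open Ideal IsLocalRing

universe u

/-- Field extensions in characteristic zero are formally smooth. -/
theorem formallySmooth_charZero (k K : Type*) [Field k] [Field K] [Algebra k K] [CharZero k] :
    Algebra.FormallySmooth k K := by
  obtain ⟨ι, v, hv⟩ := exists_isTranscendenceBasis' k K
  have halg : Algebra.IsAlgebraic (IntermediateField.adjoin k (Set.range v)) K :=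
    hv.isAlgebraic_field
  have hcz : CharZero (IntermediateField.adjoin k (Set.range v)) :=
    charZero_of_injective_algebraMap (algebraMap k _).injective
  have : Algebra.IsSeparable (IntermediateField.adjoin k (Set.range v)) K := inferInstance
  exact Algebra.FormallySmooth.of_algebraicIndependent_of_isSeparable hv.1

/-- Lifting for formally smooth algebras (discrete version) along complete surjections. -/
theorem exists_lift_complete_of_formallySmooth {R C : Type*} [Field R] [CommRing C] [Algebra R C]
    (h : Algebra.FormallySmooth R C) {S : Type*} [CommRing S] [Algebra R S] (J K : Ideal S)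
    [IsAdicComplete J S] (hKJ : K ≤ J)
    (hK : ∀ x : S, (∀ m : ℕ, x ∈ J ^ m ⊔ K) → x ∈ K) (c : C →ₐ[R] S ⧸ K) :
    ∃ g : C →ₐ[R] S, (Ideal.Quotient.mkₐ R K).comp g = c := by
  refine exists_lift_complete (⊥ : Ideal R) ?_ J K (by rw [Ideal.map_bot]; exact bot_le) hKJ hK c
  exact .of_equiv (Algebra.TensorProduct.quotIdealMapEquivQuotTensor C (⊥ : Ideal R)).symm

/-- Coefficient fields, residue characteristic zero, relative to a subfield `k`. -/
theorem exists_coefficientField_charZero {k : Type*} [Field k] [CharZero k] (S : Type*)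
    [CommRing S] [IsLocalRing S] [IsAdicComplete (maximalIdeal S) S] [Algebra k S] :
    ∃ σ : ResidueField S →+* S, (∀ x, residue S (σ x) = x) ∧
      ∀ a : k, σ (residue S (algebraMap k S a)) = algebraMap k S a := by
  have h := formallySmooth_charZero k (ResidueField S)
  obtain ⟨σ, hσ⟩ := exists_lift_complete_of_formallySmooth h (maximalIdeal S) (maximalIdeal S)
    le_rfl (fun x hx => by simpa using hx 1) (AlgHom.id k (ResidueField S))
  exact ⟨σ.toRingHom, fun x => AlgHom.congr_fun hσ x, fun a => σ.commutes a⟩

/-- A local ring with residue characteristic zero is a `ℚ`-algebra. -/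
theorem nonempty_algebra_rat (S : Type*) [CommRing S] [IsLocalRing S]
    (h : CharZero (ResidueField S)) : Nonempty (Algebra ℚ S) := by
  rw [EqualCharZero.nonempty_algebraRat_iff]
  intro I hI
  have hle : I ≤ maximalIdeal S := le_maximalIdeal hI
  have h' : CharZero (S ⧸ maximalIdeal S) := h
  exact RingHom.charZero (Ideal.Quotient.factor hle : S ⧸ I →+* S ⧸ maximalIdeal S)

/-- Coefficient fields, residue characteristic zero. -/
theorem exists_coefficientField_charZero' (S : Type*)
    [CommRing S] [IsLocalRing S] [IsAdicComplete (maximalIdeal S) S]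
    (h : CharZero (ResidueField S)) :
    ∃ σ : ResidueField S →+* S, ∀ x, residue S (σ x) = x := by
  obtain ⟨_⟩ := nonempty_algebra_rat S h
  obtain ⟨σ, hσ, -⟩ := exists_coefficientField_charZero (k := ℚ) S
  exact ⟨σ, hσ⟩

/-- Coefficient fields in equal characteristic `p`. -/
theorem exists_coefficientField_charP (p : ℕ) [Fact p.Prime] (S : Type u)
    [CommRing S] [IsLocalRing S] [IsAdicComplete (maximalIdeal S) S] (hp : (p : S) = 0) :
    ∃ σ : ResidueField S →+* S, ∀ x, residue S (σ x) = x := by
  obtain ⟨C, _, _, hC, g, hg, hbij⟩ := exists_coefficientRing p S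
    (by rw [hp]; exact Ideal.zero_mem _)
  have hker : ∀ a ∈ maximalIdeal C, g a = 0 := by
    intro a ha
    rw [hC.maximalIdeal_eq, Ideal.mem_span_singleton] at ha
    obtain ⟨b, rfl⟩ := ha
    rw [map_mul, map_natCast, hp, zero_mul]
  let τ : ResidueField C →+* S := Ideal.Quotient.lift _ g hker
  let e := RingEquiv.ofBijective _ hbij
  refine ⟨τ.comp e.symm.toRingHom, fun x => ?_⟩
  obtain ⟨y, rfl⟩ := e.surjective x
  obtain ⟨z, rfl⟩ := residue_surjective y
  change residue S (τ (e.symm (e (residue C z)))) = _
  rw [RingEquiv.symm_apply_apply]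
  rfl

end Crest.Agent.R183.Cohen
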