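import Mathlib

/-!
# R183 (Lech), Cohen structure, part 8: complete Nakayama, finiteness modulo powers
-/

set_option autoImplicit false

namespace Crest.Agent.R183.Cohen

open Ideal IsLocalRing

section CN

variable {A : Type*} [CommRing A] (I : Ideal A)

theorem mem_smul_top_pi {n : ℕ} {J : Ideal A} {x : Fin n → A} :
    x ∈ (J • ⊤ : Submodule A (Fin n → A)) ↔ ∀ i, x i ∈ J := by
  constructor
  · intro hx i
    refine Submodule.smul_induction_on (p := fun y => y i ∈ J) hx ?_ ?_
    · intro r hr m _
      rw [Pi.smul_apply, smul_eq_mul]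
      exact Ideal.mul_mem_right _ _ hr
    · intro y z hy hz
      rw [Pi.add_apply]
      exact add_mem hy hz
  · intro hx
    have h1 : x = ∑ i, x i • (Pi.single i 1 : Fin n → A) := by
      ext j
      simp [Finset.sum_apply, Pi.single_apply]
    rw [h1]
    exact sum_mem fun i _ => Submodule.smul_mem_smul (hx i) Submodule.mem_top

theorem isPrecomplete_pi [hI : IsPrecomplete I A] (n : ℕ) : IsPrecomplete I (Fin n → A) := by
  refine ⟨fun f hf => ?_⟩
  have h1 : ∀ i, ∃ L : A, ∀ m, f m i ≡ L [SMOD (I ^ m • ⊤ : Submodule A A)] := by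
    intro i
    refine hI.prec' (fun m => f m i) fun {m k} hmk => ?_
    have h2 := hf hmk
    rw [SModEq.sub_mem] at h2 ⊢
    rw [mem_smul_top_pi] at h2
    have h3 := h2 i
    rw [smul_eq_mul, Ideal.mul_top]
    exact h3
  choose L hL using h1
  refine ⟨L, fun m => ?_⟩
  rw [SModEq.sub_mem, mem_smul_top_pi]
  intro i
  have h2 := hL i m
  rw [SModEq.sub_mem, smul_eq_mul, Ideal.mul_top] at h2
  exact h2

/-- **Complete Nakayama**: a Hausdorff module, finite modulo `I`, over an `I`-precomplete ring is
finite. -/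
theorem finite_of_finite_quotient [IsPrecomplete I A] {M : Type*} [AddCommGroup M] [Module A M]
    [IsHausdorff I M] (h : Module.Finite A (M ⧸ (I • ⊤ : Submodule A M))) :
    Module.Finite A M := by
  obtain ⟨n, g, hg⟩ := Module.Finite.exists_fin' A (M ⧸ (I • ⊤ : Submodule A M))
  have h1 : ∀ i, ∃ m : M, Submodule.Quotient.mk m = g (Pi.single i 1) :=
    fun i => Submodule.Quotient.mk_surjective _ _
  choose m hm using h1
  let f : (Fin n → A) →ₗ[A] M := Fintype.linearCombination A m
  have hf : (Submodule.mkQ (I • ⊤ : Submodule A M)).comp f = g := by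
    apply LinearMap.pi_ext'
    intro i
    ext
    simp only [LinearMap.comp_apply, LinearMap.single_apply, f]
    rw [Fintype.linearCombination_apply_single, one_smul, Submodule.mkQ_apply, hm]
  have := isPrecomplete_pi I n
  have hsurj : Function.Surjective f :=
    surjective_of_mkQ_comp_surjective (I := I) (f := f) (by rw [hf]; exact hg)
  exact Module.Finite.of_surjective f hsurj

end CN

section Pow

variable {Λ S : Type*} [CommRing Λ] [CommRing S] [Algebra Λ S] (I : Ideal S)

theorem finite_quotient_pow (hI : I.FG) (h : Module.Finite Λ (S ⧸ I)) (n : ℕ) :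
    Module.Finite Λ (S ⧸ I ^ n) := by
  classical
  induction n with
  | zero =>
    have : Subsingleton (S ⧸ I ^ 0) := by
      rw [pow_zero, Ideal.one_eq_top]
      exact Ideal.Quotient.subsingleton_iff.2 rfl
    infer_instance
  | succ n ih =>
    have hle : I ^ (n + 1) ≤ I ^ n := Ideal.pow_le_pow_right (Nat.le_succ n)
    let q : (S ⧸ I ^ (n + 1)) →ₗ[Λ] (S ⧸ I ^ n) := (Ideal.Quotient.factorₐ Λ hle).toLinearMap
    have hq : Function.Surjective q := Ideal.Quotient.factor_surjective hle
    obtain ⟨s, hs⟩ := (hI.pow (n := n))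
    -- the maps S/I → S/I^{n+1}, multiplication by g
    have hg : ∀ g ∈ I ^ n, ∀ a ∈ I, (Ideal.Quotient.mk (I ^ (n + 1))) (a * g) = 0 := by
      intro g hg a ha
      rw [Ideal.Quotient.eq_zero_iff_mem, pow_succ']
      exact Ideal.mul_mem_mul ha hg
    let Fg : s → (S ⧸ I) →ₗ[Λ] (S ⧸ I ^ (n + 1)) := fun g =>
        { toFun := fun x => Quotient.liftOn' x (fun a => (Ideal.Quotient.mk (I ^ (n + 1))) (a * g))
            (fun a b hab => by
              rw [← sub_eq_zero, ← map_sub, ← sub_mul]
              have hab' : a - b ∈ I := (Submodule.quotientRel_def I).1 hab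
              exact hg g (hs ▸ Ideal.subset_span g.2) _ hab')
          map_add' := fun x y => by
            obtain ⟨a, rfl⟩ := Ideal.Quotient.mk_surjective x
            obtain ⟨b, rfl⟩ := Ideal.Quotient.mk_surjective y
            change (Ideal.Quotient.mk (I ^ (n + 1))) ((a + b) * g) =
              (Ideal.Quotient.mk (I ^ (n + 1))) (a * g) + (Ideal.Quotient.mk (I ^ (n + 1))) (b * g)
            rw [add_mul, map_add]
          map_smul' := fun c x => by
            obtain ⟨a, rfl⟩ := Ideal.Quotient.mk_surjective x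
            change (Ideal.Quotient.mk (I ^ (n + 1))) ((c • a) * g) =
              c • (Ideal.Quotient.mk (I ^ (n + 1))) (a * g)
            rw [smul_mul_assoc]
            rfl }
    let F : (s → (S ⧸ I)) →ₗ[Λ] (S ⧸ I ^ (n + 1)) :=
      ∑ g : s, (Fg g).comp (LinearMap.proj g)
    have hFa : ∀ x, F x = ∑ g : s, Fg g (x g) := fun x => by
      simp [F, LinearMap.sum_apply]
    have hF : LinearMap.ker q ≤ LinearMap.range F := by
      intro x hx
      obtain ⟨a, rfl⟩ := Ideal.Quotient.mk_surjective x
      have ha : a ∈ I ^ n := Ideal.Quotient.eq_zero_iff_mem.1 hx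
      rw [← hs] at ha
      obtain ⟨c, -, rfl⟩ := (Submodule.mem_span_finset).1 ha
      refine ⟨fun g => Ideal.Quotient.mk I (c g), ?_⟩
      rw [hFa]
      change ∑ g : s, (Ideal.Quotient.mk (I ^ (n + 1))) (c g * g) = _
      rw [← map_sum, Finset.sum_coe_sort s (fun g => c g * g)]
      rfl
    have hF2 : LinearMap.range F ≤ LinearMap.ker q := by
      rintro _ ⟨x, rfl⟩
      rw [hFa]
      refine sum_mem fun g _ => ?_
      obtain ⟨b, hb⟩ := Ideal.Quotient.mk_surjective (x g)
      rw [← hb]
      change Ideal.Quotient.mk (I ^ n) (b * g) = 0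
      rw [Ideal.Quotient.eq_zero_iff_mem]
      exact Ideal.mul_mem_left _ _ (hs ▸ Ideal.subset_span g.2)
    have hker : Module.Finite Λ (LinearMap.ker q) := by
      rw [le_antisymm hF hF2]
      infer_instance
    have hquot : Module.Finite Λ ((S ⧸ I ^ (n + 1)) ⧸ LinearMap.ker q) :=
      Module.Finite.equiv (q.quotKerEquivOfSurjective hq).symm
    exact Module.Finite.of_submodule_quotient (LinearMap.ker q)

end Pow

end Crest.Agent.R183.Cohen
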