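import Crest.Agent.R183.CohenField

/-!
# R183 (Lech), Cohen structure, part 2: lifting along complete surjections

`C` flat over `R`, `C/IC` formally smooth over `R/I`.
-/

set_option autoImplicit false

namespace Crest.Agent.R183.Cohen

open Ideal

section Base

variable {R C : Type*} [CommRing R] [CommRing C] [Algebra R C] (I : Ideal R)

instance flat_quotient [Module.Flat R C] :
    Module.Flat (R ⧸ I) (C ⧸ I.map (algebraMap R C)) :=
  Module.Flat.of_linearEquiv
    (Algebra.TensorProduct.quotIdealMapEquivQuotTensor C I).toLinearEquiv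

/-- Formal smoothness mod `I` gives formal smoothness mod `I ^ (n+1)`, for flat algebras. -/
theorem formallySmooth_pow [Module.Flat R C]
    (h : Algebra.FormallySmooth (R ⧸ I) (C ⧸ I.map (algebraMap R C))) (n : ℕ) :
    Algebra.FormallySmooth (R ⧸ I ^ (n + 1)) (C ⧸ (I ^ (n + 1)).map (algebraMap R C)) := by
  have key : (algebraMap (R ⧸ I ^ (n + 1)) (C ⧸ (I ^ (n + 1)).map (algebraMap R C))).FormallySmooth := by
    induction n with
    | zero =>
      have e1 : I ^ (0 + 1) = I := by simp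
      rw [e1]
      exact (RingHom.formallySmooth_algebraMap).2 h
    | succ n ih =>
      have hle : I ^ (n + 1 + 1) ≤ I ^ (n + 1) := Ideal.pow_le_pow_right (Nat.le_succ _)
      refine RingHom.FormallySmooth.of_flat_of_ker_eq_map_of_square_zero _ ?_
        (Ideal.Quotient.factor hle) (Ideal.Quotient.factor (Ideal.map_mono hle)) _
        (Ideal.Quotient.factor_surjective hle) (Ideal.Quotient.factor_surjective _) ?_ ?_ ?_ ih
      · rw [RingHom.flat_algebraMap_iff]
        infer_instance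
      · ext x
        rfl
      · rw [Ideal.Quotient.factor_ker, ← Ideal.map_pow, ← pow_mul]
        rw [eq_bot_iff, Ideal.map_le_iff_le_comap]
        intro x hx
        have : x ∈ I ^ (n + 1 + 1) := Ideal.pow_le_pow_right (by nlinarith) hx
        simpa [Ideal.Quotient.eq_zero_iff_mem] using this
      · rw [Ideal.Quotient.factor_ker, Ideal.Quotient.factor_ker, Ideal.map_map, Ideal.map_map]
        rfl
  exact (RingHom.formallySmooth_algebraMap).1 key

/-- Lifting through nilpotent surjections of `R`-algebras killed by a power of `I`. -/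
theorem exists_lift_nilp [Module.Flat R C]
    (h : Algebra.FormallySmooth (R ⧸ I) (C ⧸ I.map (algebraMap R C)))
    {B B' : Type*} [CommRing B] [Algebra R B] [CommRing B'] [Algebra R B'] (n : ℕ)
    (hn : (I ^ n).map (algebraMap R B) = ⊥) (π : B →ₐ[R] B') (hπ : Function.Surjective π)
    (hker : IsNilpotent (RingHom.ker π)) (f : C →ₐ[R] B') :
    ∃ g : C →ₐ[R] B, π.comp g = f := by
  have hn1 : (I ^ (n + 1)).map (algebraMap R B) = ⊥ := by
    rw [eq_bot_iff, ← hn]
    exact Ideal.map_mono (Ideal.pow_le_pow_right (Nat.le_succ _))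
  have hB : ∀ a ∈ I ^ (n + 1), algebraMap R B a = 0 := fun a ha => by
    have := Ideal.mem_map_of_mem (algebraMap R B) ha
    rwa [hn1, Ideal.mem_bot] at this
  have hB' : ∀ a ∈ I ^ (n + 1), algebraMap R B' a = 0 := fun a ha => by
    rw [← π.commutes, hB a ha, map_zero]
  let _ : Algebra (R ⧸ I ^ (n + 1)) B := (Ideal.Quotient.lift _ (algebraMap R B) hB).toAlgebra
  let _ : Algebra (R ⧸ I ^ (n + 1)) B' := (Ideal.Quotient.lift _ (algebraMap R B') hB').toAlgebra
  have hsm := formallySmooth_pow I h n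
  let π' : B →ₐ[R ⧸ I ^ (n + 1)] B' :=
    { π.toRingHom with
      commutes' := fun r => by
        obtain ⟨r, rfl⟩ := Ideal.Quotient.mk_surjective r
        exact π.commutes r }
  have hf : ∀ a ∈ (I ^ (n + 1)).map (algebraMap R C), f a = 0 := by
    intro a ha
    have : (I ^ (n + 1)).map (algebraMap R C) ≤ RingHom.ker f := by
      rw [Ideal.map_le_iff_le_comap]
      intro x hx
      rw [Ideal.mem_comap, RingHom.mem_ker, f.commutes]
      exact hB' x hx
    exact this ha
  let f' : (C ⧸ (I ^ (n + 1)).map (algebraMap R C)) →ₐ[R ⧸ I ^ (n + 1)] B' :=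
    { Ideal.Quotient.lift _ f.toRingHom hf with
      commutes' := fun r => by
        obtain ⟨r, rfl⟩ := Ideal.Quotient.mk_surjective r
        exact f.commutes r }
  let g' := Algebra.FormallySmooth.liftOfSurjective f' π' hπ hker
  have hg' : π'.comp g' = f' := Algebra.FormallySmooth.comp_liftOfSurjective f' π' hπ hker
  refine ⟨{ g'.toRingHom.comp (Ideal.Quotient.mk _) with
      commutes' := fun r => g'.commutes (Ideal.Quotient.mk _ r) }, ?_⟩
  ext x
  exact AlgHom.congr_fun hg' (Ideal.Quotient.mk _ x)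

end Base

section Complete

variable {R C : Type*} [CommRing R] [CommRing C] [Algebra R C] (I : Ideal R)

/-- One lifting step. -/
theorem exists_lift_step [Module.Flat R C]
    (h : Algebra.FormallySmooth (R ⧸ I) (C ⧸ I.map (algebraMap R C)))
    {S : Type*} [CommRing S] [Algebra R S] (J K : Ideal S) (hIJ : I.map (algebraMap R S) ≤ J)
    (c : C →ₐ[R] S ⧸ K) (m : ℕ) (hm : m ≠ 0) (g : C →ₐ[R] S ⧸ J ^ m)
    (hg : (Ideal.Quotient.factorₐ R (le_sup_left : J ^ m ≤ J ^ m ⊔ K)).comp g =
      (Ideal.Quotient.factorₐ R (le_sup_right : K ≤ J ^ m ⊔ K)).comp c) :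
    ∃ g' : C →ₐ[R] S ⧸ J ^ (m + 1),
      (Ideal.Quotient.factorₐ R (Ideal.pow_le_pow_right (Nat.le_succ m))).comp g' = g ∧
      (Ideal.Quotient.factorₐ R (le_sup_left : J ^ (m + 1) ≤ J ^ (m + 1) ⊔ K)).comp g' =
      (Ideal.Quotient.factorₐ R (le_sup_right : K ≤ J ^ (m + 1) ⊔ K)).comp c := by
  -- the map to the product
  let π : S ⧸ J ^ (m + 1) →ₐ[R] (S ⧸ J ^ m) × (S ⧸ J ^ (m + 1) ⊔ K) :=
    (Ideal.Quotient.factorₐ R (Ideal.pow_le_pow_right (Nat.le_succ m))).prod
      (Ideal.Quotient.factorₐ R le_sup_left)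
  let F : C →ₐ[R] (S ⧸ J ^ m) × (S ⧸ J ^ (m + 1) ⊔ K) :=
    g.prod ((Ideal.Quotient.factorₐ R (le_sup_right : K ≤ J ^ (m + 1) ⊔ K)).comp c)
  have hF : ∀ x, F x ∈ π.range := by
    intro x
    obtain ⟨a, ha⟩ := Ideal.Quotient.mk_surjective (g x)
    obtain ⟨b, hb⟩ := Ideal.Quotient.mk_surjective (c x)
    have h1 : a - b ∈ J ^ m ⊔ K := by
      have := AlgHom.congr_fun hg x
      rw [AlgHom.comp_apply, AlgHom.comp_apply, ← ha, ← hb] at this
      exact Ideal.Quotient.eq.1 this
    obtain ⟨j, hj, k, hk, hjk⟩ := Submodule.mem_sup.1 h1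
    refine ⟨Ideal.Quotient.mk _ (b + k), ?_⟩
    refine Prod.ext ?_ ?_
    · change Ideal.Quotient.mk _ (b + k) = g x
      rw [← ha, Ideal.Quotient.eq]
      have : b + k - a = - j := by linear_combination hjk
      rw [this]
      exact neg_mem hj
    · change Ideal.Quotient.mk _ (b + k) =
        (Ideal.Quotient.factorₐ R (le_sup_right : K ≤ J ^ (m + 1) ⊔ K)) (c x)
      rw [← hb]
      change Ideal.Quotient.mk _ (b + k) = Ideal.Quotient.mk _ b
      rw [Ideal.Quotient.eq]
      have : b + k - b = k := by ring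
      rw [this]
      exact Ideal.mem_sup_right hk
  let F' : C →ₐ[R] π.range := F.codRestrict π.range hF
  have hnil : IsNilpotent (RingHom.ker π.rangeRestrict) := by
    refine ⟨2, ?_⟩
    rw [Submodule.zero_eq_bot, eq_bot_iff]
    have hle : RingHom.ker π.rangeRestrict ≤ (J ^ m).map (Ideal.Quotient.mk (J ^ (m + 1))) := by
      intro x hx
      obtain ⟨x, rfl⟩ := Ideal.Quotient.mk_surjective x
      have hx1 : π (Ideal.Quotient.mk _ x) = 0 := congrArg Subtype.val hx
      have hx2 : Ideal.Quotient.mk (J ^ m) x = 0 := congrArg Prod.fst hx1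
      exact Ideal.mem_map_of_mem _ (Ideal.Quotient.eq_zero_iff_mem.1 hx2)
    refine (Ideal.pow_right_mono hle 2).trans ?_
    rw [← Ideal.map_pow, Ideal.map_le_iff_le_comap, ← pow_mul]
    intro x hx
    have : x ∈ J ^ (m + 1) := Ideal.pow_le_pow_right (by omega) hx
    simpa [Ideal.Quotient.eq_zero_iff_mem] using this
  have hkill : (I ^ (m + 1)).map (algebraMap R (S ⧸ J ^ (m + 1))) = ⊥ := by
    rw [eq_bot_iff, Ideal.map_le_iff_le_comap]
    intro x hx
    have : algebraMap R S x ∈ J ^ (m + 1) := by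
      have h1 := Ideal.mem_map_of_mem (algebraMap R S) hx
      rw [Ideal.map_pow] at h1
      exact Ideal.pow_right_mono hIJ _ h1
    exact Ideal.Quotient.eq_zero_iff_mem.2 this
  obtain ⟨g', hg'⟩ := exists_lift_nilp I h (m + 1) hkill π.rangeRestrict
    π.rangeRestrict_surjective hnil F'
  have hg2 : π.comp g' = F := by
    ext1 x
    exact congrArg Subtype.val (AlgHom.congr_fun hg' x)
  refine ⟨g', ?_, ?_⟩
  · ext1 x
    exact congrArg Prod.fst (AlgHom.congr_fun hg2 x)
  · ext1 x
    exact congrArg Prod.snd (AlgHom.congr_fun hg2 x)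

/-- **Lifting along complete surjections.**  `C` flat over `R` with `C/IC` formally smooth over
`R/I`; `S` an `R`-algebra, `J`-adically complete with `IS ≤ J`; `K ≤ J` a `J`-adically closed
ideal. Every `R`-algebra map `C → S/K` lifts to `C → S`. -/
theorem exists_lift_complete [Module.Flat R C]
    (h : Algebra.FormallySmooth (R ⧸ I) (C ⧸ I.map (algebraMap R C)))
    {S : Type*} [CommRing S] [Algebra R S] (J K : Ideal S) [IsAdicComplete J S]
    (hIJ : I.map (algebraMap R S) ≤ J) (hKJ : K ≤ J)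
    (hK : ∀ x : S, (∀ m : ℕ, x ∈ J ^ m ⊔ K) → x ∈ K) (c : C →ₐ[R] S ⧸ K) :
    ∃ g : C →ₐ[R] S, (Ideal.Quotient.mkₐ R K).comp g = c := by
  classical
  let T : ℕ → Type _ := fun m => {g : C →ₐ[R] S ⧸ J ^ (m + 1) //
    (Ideal.Quotient.factorₐ R (le_sup_left : J ^ (m + 1) ≤ J ^ (m + 1) ⊔ K)).comp g =
      (Ideal.Quotient.factorₐ R (le_sup_right : K ≤ J ^ (m + 1) ⊔ K)).comp c}
  have hK1 : K ≤ J ^ (0 + 1) := by simpa using hKJ
  let t0 : T 0 := ⟨(Ideal.Quotient.factorₐ R hK1).comp c, by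
    ext1 x
    obtain ⟨y, hy⟩ := Ideal.Quotient.mk_surjective (c x)
    simp only [AlgHom.comp_apply]
    rw [← hy]
    rfl⟩
  have step : ∀ (m : ℕ) (t : T m), ∃ t' : T (m + 1),
      (Ideal.Quotient.factorₐ R (Ideal.pow_le_pow_right (Nat.le_succ (m + 1)))).comp t'.1 = t.1 := by
    intro m t
    obtain ⟨g', hg1, hg2⟩ := exists_lift_step I h J K hIJ c (m + 1) (Nat.succ_ne_zero m) t.1 t.2
    exact ⟨⟨g', hg2⟩, hg1⟩
  choose next hnext using step
  let t : ∀ m, T m := fun m => Nat.rec t0 next m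
  have ht : ∀ m, (Ideal.Quotient.factorₐ R (Ideal.pow_le_pow_right (Nat.le_succ (m + 1)))).comp
      (t (m + 1)).1 = (t m).1 := fun m => hnext m (t m)
  -- the compatible family
  let f : (n : ℕ) → C →ₐ[R] S ⧸ J ^ n := fun n =>
    (Ideal.Quotient.factorₐ R (Ideal.pow_le_pow_right (Nat.le_succ n))).comp (t n).1
  have hf1 : ∀ n, (Ideal.Quotient.factorₐ R (Ideal.pow_le_pow_right (Nat.le_succ n))).comp
      (f (n + 1)) = f n := by
    intro n
    ext1 x
    have h1 := AlgHom.congr_fun (ht n) x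
    simp only [f, AlgHom.comp_apply] at h1 ⊢
    rw [h1]
  have hf : ∀ {m n : ℕ} (hle : m ≤ n),
      (Ideal.Quotient.factorₐ R (Ideal.pow_le_pow_right hle)).comp (f n) = f m := by
    intro m n hle
    induction n, hle using Nat.le_induction with
    | base =>
      ext1 x
      obtain ⟨y, hy⟩ := Ideal.Quotient.mk_surjective (f m x)
      rw [AlgHom.comp_apply, ← hy]
      rfl
    | succ n hmn ih =>
      rw [← ih, ← hf1 n]
      ext1 x
      obtain ⟨y, hy⟩ := Ideal.Quotient.mk_surjective (f (n + 1) x)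
      simp only [AlgHom.comp_apply]
      rw [← hy]
      rfl
  let g := IsAdicComplete.liftAlgHom J f hf
  refine ⟨g, ?_⟩
  ext1 x
  obtain ⟨y, hy⟩ := Ideal.Quotient.mk_surjective (c x)
  rw [← hy]
  change Ideal.Quotient.mk K (g x) = Ideal.Quotient.mk K y
  rw [Ideal.Quotient.eq]
  refine hK _ fun m => ?_
  have h1 : Ideal.Quotient.mk (J ^ (m + 1)) (g x) = f (m + 1) x :=
    IsAdicComplete.mk_liftAlgHom J f hf (m + 1) x
  have h2 : f (m + 1) x = (t m).1 x := AlgHom.congr_fun (ht m) x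
  have h3 := AlgHom.congr_fun (t m).2 x
  rw [AlgHom.comp_apply, AlgHom.comp_apply, ← h2, ← h1, ← hy] at h3
  have h4 : g x - y ∈ J ^ (m + 1) ⊔ K := Ideal.Quotient.eq.1 h3
  exact sup_le_sup_right (Ideal.pow_le_pow_right (Nat.le_succ m)) K h4

end Complete

end Crest.Agent.R183.Cohen
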