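import Crest.Agent.R183.CohenStruct
import Crest.Agent.R183.CohenDim
import Crest.Agent.R183.HSRed

/-!
# R183 (Lech), Cohen structure, part 12: Noether normalisation of complete local rings
-/

set_option autoImplicit false

namespace Crest.Agent.R183.Cohen

open Ideal IsLocalRing MvPowerSeries

universe u

section Inj

variable {Λ S : Type*} [CommRing Λ] [IsLocalRing Λ] [IsNoetherianRing Λ] [IsDomain Λ]
  [CommRing S] [IsLocalRing S]
  [IsNoetherianRing S] [IsAdicComplete (maximalIdeal S) S] (φ : Λ →+* S) {n : ℕ} (t : Fin n → S)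

/-- **Injectivity of evaluation** for dimension reasons. -/
theorem psEval_injective [IsPrecomplete (maximalIdeal Λ) Λ] (hφ : IsLocalHom φ)
    (hres : ((residue S).comp φ).Finite) (ht : ∀ i, t i ∈ maximalIdeal S) (c : ℕ)
    (hc : maximalIdeal S ^ c ≤ (maximalIdeal Λ).map φ ⊔ span (Set.range t))
    (hdim : ringKrullDim Λ + n ≤ ringKrullDim S) :
    Function.Injective (psEval (maximalIdeal S) φ t ht) := by
  let _ : Algebra (MvPowerSeries (Fin n) Λ) S := (psEval (maximalIdeal S) φ t ht).toAlgebra
  have hfin : Module.Finite (MvPowerSeries (Fin n) Λ) S := psEval_finite φ t hφ hres ht c hc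
  have h1 : ringKrullDim (MvPowerSeries (Fin n) Λ) ≠ ⊤ := ringKrullDim_lt_top.ne
  have : IsDomain (MvPowerSeries (Fin n) Λ) := NoZeroDivisors.to_isDomain _
  exact injective_of_isIntegral_of_ringKrullDim_le (A := MvPowerSeries (Fin n) Λ) (S := S) h1
    (by rw [ringKrullDim_mvPowerSeries]; exact hdim)

end Inj

section CohenDim

variable {p : ℕ} {C : Type*} [CommRing C] [IsLocalRing C]

theorem IsCohen.isNoetherianRing (hC : IsCohen p C) : IsNoetherianRing C := by
  have := hC.isDVR_dom
  have := hC.isDVR
  infer_instance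

theorem IsCohen.ringKrullDim_eq (hC : IsCohen p C) : ringKrullDim C = 1 := by
  have := hC.isDVR_dom
  have := hC.isDVR
  exact IsPrincipalIdealRing.ringKrullDim_eq_one C (IsDiscreteValuationRing.not_isField C)

theorem IsCohen.isRegularLocalRing (hC : IsCohen p C) : IsRegularLocalRing C := by
  have := hC.isDVR_dom
  have := hC.isDVR
  infer_instance

end CohenDim

section Sop

theorem eq_of_add_one_eq {e : WithBot ℕ∞} {d : ℕ} (h : e + 1 = ((d + 1 : ℕ) : WithBot ℕ∞)) :
    e = (d : ℕ) := by
  cases e with
  | bot =>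
    rw [WithBot.bot_add] at h
    exact absurd h.symm (WithBot.coe_ne_bot)
  | coe e =>
    cases e with
    | top =>
      exfalso
      have h2 : ((⊤ : ℕ∞) : WithBot ℕ∞) = (((d + 1 : ℕ) : ℕ∞) : WithBot ℕ∞) := h
      exact ENat.top_ne_natCast _ (WithBot.coe_injective h2)
    | coe e =>
      have h2 : (((e + 1 : ℕ) : ℕ∞) : WithBot ℕ∞) = (((d + 1 : ℕ) : ℕ∞) : WithBot ℕ∞) := h
      have h3 : ((e + 1 : ℕ) : ℕ∞) = ((d + 1 : ℕ) : ℕ∞) := WithBot.coe_injective h2
      have h4 : e + 1 = d + 1 := by exact_mod_cast h3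
      have h5 : e = d := by omega
      rw [h5]; rfl

/-- In a local domain a nonzero nonunit `x` is part of a system of parameters. -/
theorem exists_sop_mixed (R : Type*) [CommRing R] [IsDomain R] [IsLocalRing R]
    [IsNoetherianRing R] (x : R) (hx : x ∈ maximalIdeal R) (hx0 : x ≠ 0) (d : ℕ)
    (hd : ringKrullDim R = (d + 1 : ℕ)) :
    ∃ t : Fin d → R, (∀ i, t i ∈ maximalIdeal R) ∧
      ∃ c, maximalIdeal R ^ c ≤ span {x} ⊔ span (Set.range t) := by
  have hne : span {x} ≠ ⊤ := fun h => (maximalIdeal.isMaximal R).ne_top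
    (top_le_iff.1 (h ▸ (Ideal.span_singleton_le_iff_mem _).2 hx))
  have hnt : Nontrivial (R ⧸ span {x}) := Ideal.Quotient.nontrivial_iff.2 hne
  have hloc : IsLocalRing (R ⧸ span {x}) :=
    IsLocalRing.of_surjective' (Ideal.Quotient.mk _) Ideal.Quotient.mk_surjective
  have h1 := ringKrullDim_quotient_span_singleton_succ_eq_ringKrullDim_of_mem_nonZeroDivisors
    (R := R) (mem_nonZeroDivisors_of_ne_zero hx0) hx
  have hd' : ringKrullDim (R ⧸ span {x}) = d := eq_of_add_one_eq (h1.trans hd)
  obtain ⟨w, hw, c, hc⟩ := HS.exists_sop (R := R ⧸ span {x}) d hd'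
  have hlift : ∀ i, ∃ y : R, Ideal.Quotient.mk (span {x}) y = w i := fun i =>
    Ideal.Quotient.mk_surjective _
  choose t ht using hlift
  have hmem : ∀ y : R, Ideal.Quotient.mk (span {x}) y ∈ maximalIdeal (R ⧸ span {x}) ↔
      y ∈ maximalIdeal R := by
    intro y
    have hloc' : IsLocalHom (Ideal.Quotient.mk (span {x})) :=
      IsLocalHom.of_surjective _ Ideal.Quotient.mk_surjective
    rw [mem_maximalIdeal, mem_maximalIdeal, mem_nonunits_iff, mem_nonunits_iff,
      isUnit_map_iff (Ideal.Quotient.mk (span {x}))]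
  refine ⟨t, fun i => (hmem _).1 (by rw [ht]; exact hw i), c, ?_⟩
  intro y hy
  have h2 : Ideal.Quotient.mk (span {x}) y ∈ span (Set.range w) := by
    apply hc
    have h3 : (maximalIdeal R).map (Ideal.Quotient.mk (span {x})) ≤
        maximalIdeal (R ⧸ span {x}) := by
      rw [Ideal.map_le_iff_le_comap]
      intro z hz
      exact (hmem z).2 hz
    apply Ideal.pow_right_mono h3 c
    rw [← Ideal.map_pow]
    exact Ideal.mem_map_of_mem _ hy
  have h4 : span (Set.range w) = (span (Set.range t)).map (Ideal.Quotient.mk (span {x})) := by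
    rw [Ideal.map_span, ← Set.range_comp]
    congr 2
    funext i
    exact (ht i).symm
  rw [h4, Ideal.mem_map_iff_of_surjective _ Ideal.Quotient.mk_surjective] at h2
  obtain ⟨z, hz, hzy⟩ := h2
  have h5 : y - z ∈ span {x} := Ideal.Quotient.eq.1 hzy.symm
  have h6 : y = (y - z) + z := by ring
  rw [h6]
  exact Submodule.add_mem_sup h5 hz

end Sop

section Noether

/-- **Noether normalisation**, mixed characteristic, given coefficient ring and parameters. -/
theorem noether_mixed {p : ℕ} {C : Type*} [CommRing C] [IsLocalRing C] (hC : IsCohen p C)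
    {R : Type*} [CommRing R] [IsLocalRing R] [IsNoetherianRing R]
    [IsAdicComplete (maximalIdeal R) R] (g : C →+* R) (hg : IsLocalHom g)
    (hres : ((residue R).comp g).Finite) {d : ℕ} (hd : ringKrullDim R = (d + 1 : ℕ))
    (t : Fin d → R) (ht : ∀ i, t i ∈ maximalIdeal R) {c : ℕ}
    (hc : maximalIdeal R ^ c ≤ span {(p : R)} ⊔ span (Set.range t)) :
    Function.Injective (psEval (maximalIdeal R) g t ht) ∧
      (psEval (maximalIdeal R) g t ht).Finite := by
  have := hC.isDVR_dom
  have := hC.isNoetherianRing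
  have hcomp : IsAdicComplete (maximalIdeal C) C := hC.complete
  have hpre : IsPrecomplete (maximalIdeal C) C := hcomp.toIsPrecomplete
  have hmap : (maximalIdeal C).map g = span {(p : R)} := by
    rw [hC.maximalIdeal_eq, Ideal.map_span, Set.image_singleton, map_natCast]
  have hc' : maximalIdeal R ^ c ≤ (maximalIdeal C).map g ⊔ span (Set.range t) := by
    rw [hmap]; exact hc
  refine ⟨psEval_injective g t hg hres ht c hc' ?_, psEval_finite g t hg hres ht c hc'⟩
  rw [hC.ringKrullDim_eq, hd]
  exact le_of_eq (by push_cast; ring)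

/-- **Noether normalisation**, mixed characteristic domain: existence. -/
theorem exists_noether_mixed (p : ℕ) [Fact p.Prime] (R : Type u) [CommRing R] [IsDomain R]
    [IsLocalRing R] [IsNoetherianRing R] [IsAdicComplete (maximalIdeal R) R]
    (hp : (p : R) ∈ maximalIdeal R) (hp0 : (p : R) ≠ 0) (d : ℕ)
    (hd : ringKrullDim R = (d + 1 : ℕ)) :
    ∃ (C : Type u) (_ : CommRing C) (_ : IsLocalRing C) (_ : IsCohen p C) (g : C →+* R)
      (_ : IsLocalHom g) (t : Fin d → R) (ht : ∀ i, t i ∈ maximalIdeal R),
      Function.Bijective (ResidueField.map g) ∧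
      (∃ c, maximalIdeal R ^ c ≤ span {(p : R)} ⊔ span (Set.range t)) ∧
      Function.Injective (psEval (maximalIdeal R) g t ht) ∧
      (psEval (maximalIdeal R) g t ht).Finite := by
  obtain ⟨C, _, _, hC, g, hg, hbij⟩ := exists_coefficientRing p R hp
  obtain ⟨t, ht, c, hc⟩ := exists_sop_mixed R (p : R) hp hp0 d hd
  have hres : ((residue R).comp g).Finite := by
    have h1 : (residue R).comp g = (ResidueField.map g).comp (residue C) := by
      ext x; rfl
    rw [h1]
    exact RingHom.Finite.of_surjective _ (hbij.2.comp residue_surjective)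
  exact ⟨C, inferInstance, inferInstance, hC, g, hg, t, ht, hbij, ⟨c, hc⟩,
    noether_mixed hC g hg hres hd t ht hc⟩

/-- **Noether normalisation**, equal characteristic, given coefficient field (or any field with
finite residue extension) and system of parameters. -/
theorem noether_equal {k : Type*} [Field k]
    {R : Type*} [CommRing R] [IsLocalRing R] [IsNoetherianRing R]
    [IsAdicComplete (maximalIdeal R) R] (g : k →+* R)
    (hres : ((residue R).comp g).Finite) {d : ℕ} (hd : ringKrullDim R = (d : ℕ))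
    (t : Fin d → R) (ht : ∀ i, t i ∈ maximalIdeal R) {c : ℕ}
    (hc : maximalIdeal R ^ c ≤ span (Set.range t)) :
    Function.Injective (psEval (maximalIdeal R) g t ht) ∧
      (psEval (maximalIdeal R) g t ht).Finite := by
  have hbot : maximalIdeal k = ⊥ := IsLocalRing.maximalIdeal_eq_bot
  have hpre : IsPrecomplete (maximalIdeal k) k := by
    rw [hbot]; infer_instance
  have hg : IsLocalHom g := inferInstance
  have hc' : maximalIdeal R ^ c ≤ (maximalIdeal k).map g ⊔ span (Set.range t) :=
    hc.trans le_sup_right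
  refine ⟨psEval_injective g t hg hres ht c hc' ?_, psEval_finite g t hg hres ht c hc'⟩
  rw [ringKrullDim_eq_zero_of_field, hd, zero_add]

end Noether

end Crest.Agent.R183.Cohen
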