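import Crest.Agent.R183.CohenExist2

/-!
# R183 (Lech), Cohen structure, part 5: Cohen rings (complete discrete valuation rings with
uniformizer `p` and given residue field)
-/

set_option autoImplicit false

namespace Crest.Agent.R183.Cohen

open Ideal IsLocalRing

universe u

section DVR

variable {C : Type*} [CommRing C] [IsLocalRing C] {π : C}

theorem exists_unit_mul_pow (hm : maximalIdeal C = span {π})
    [hH : IsHausdorff (maximalIdeal C) C] {x : C} (hx : x ≠ 0) :
    ∃ n : ℕ, ∃ u : Cˣ, x = π ^ n * u := by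
  classical
  have h1 : ∃ n : ℕ, x ∉ maximalIdeal C ^ n := by
    by_contra hcon
    push Not at hcon
    refine hx (hH.haus' x fun n => ?_)
    rw [SModEq.zero, smul_eq_mul, Ideal.mul_top]
    exact hcon n
  obtain ⟨N, h2, hmin⟩ : ∃ N, x ∉ maximalIdeal C ^ N ∧ ∀ M, x ∉ maximalIdeal C ^ M → N ≤ M :=
    ⟨Nat.find h1, Nat.find_spec h1, fun M hM => Nat.find_min' h1 hM⟩
  have hN0 : N ≠ 0 := by
    rintro rfl
    exact h2 (by simp)
  have h3 : x ∈ maximalIdeal C ^ (N - 1) := by
    by_contra h
    have := hmin _ h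
    omega
  rw [hm, Ideal.span_singleton_pow, Ideal.mem_span_singleton] at h3
  obtain ⟨y, rfl⟩ := h3
  have hy : IsUnit y := by
    by_contra hcon
    have hy' : y ∈ maximalIdeal C := (mem_maximalIdeal _).2 hcon
    rw [hm, Ideal.mem_span_singleton] at hy'
    obtain ⟨z, rfl⟩ := hy'
    apply h2
    rw [hm, Ideal.span_singleton_pow, Ideal.mem_span_singleton]
    refine ⟨z, ?_⟩
    obtain ⟨M, hM⟩ := Nat.exists_eq_succ_of_ne_zero hN0
    rw [hM, Nat.succ_sub_one, pow_succ]
    ring
  obtain ⟨u, rfl⟩ := hy
  exact ⟨N - 1, u, rfl⟩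

theorem isDomain_of_principal (hm : maximalIdeal C = span {π}) (hπ : ∀ x : C, π * x = 0 → x = 0)
    [hH : IsHausdorff (maximalIdeal C) C] : IsDomain C := by
  have hpow : ∀ (n : ℕ) (x : C), π ^ n * x = 0 → x = 0 := by
    intro n
    induction n with
    | zero => intro x hx; simpa using hx
    | succ n ih =>
      intro x hx
      rw [pow_succ', mul_assoc] at hx
      exact ih x (hπ _ hx)
  have hnt : NoZeroDivisors C := by
    refine ⟨fun {a b} hab => ?_⟩
    by_contra hcon
    push Not at hcon
    obtain ⟨n, u, rfl⟩ := exists_unit_mul_pow hm hcon.1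
    obtain ⟨m, v, rfl⟩ := exists_unit_mul_pow hm hcon.2
    have h1 : π ^ (n + m) * ((u * v : Cˣ) : C) = 0 := by
      rw [Units.val_mul, pow_add, ← hab]; ring
    have h2 := hpow _ _ h1
    exact (u * v).ne_zero h2
  exact NoZeroDivisors.to_isDomain C

theorem isDVR_of_principal [IsDomain C] (hm : maximalIdeal C = span {π}) (hπ0 : π ≠ 0)
    [hH : IsHausdorff (maximalIdeal C) C] : IsDiscreteValuationRing C := by
  apply IsDiscreteValuationRing.ofHasUnitMulPowIrreducibleFactorization
  have hprime : Prime π := by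
    rw [← Ideal.span_singleton_prime hπ0, ← hm]
    infer_instance
  refine ⟨π, hprime.irreducible, fun {x} hx => ?_⟩
  obtain ⟨n, u, rfl⟩ := exists_unit_mul_pow hm hx
  exact ⟨n, u, rfl⟩

end DVR

section Completion

variable {A : Type u} [CommRing A] [IsDomain A] [IsLocalRing A] {π : A}

theorem completion_torsionFree (hm : maximalIdeal A = span {π}) (hπ0 : π ≠ 0)
    (x : AdicCompletion (maximalIdeal A) A)
    (hx : algebraMap A (AdicCompletion (maximalIdeal A) A) π * x = 0) : x = 0 := by
  rw [← Algebra.smul_def] at hx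
  apply AdicCompletion.ext
  intro n
  obtain ⟨a, ha⟩ := Submodule.Quotient.mk_surjective _ (x.val (n + 1))
  have h1 : (π • x).val (n + 1) = 0 := by rw [hx]; rfl
  rw [AdicCompletion.val_smul_apply, ← ha, ← Submodule.Quotient.mk_smul,
    Submodule.Quotient.mk_eq_zero, smul_eq_mul, smul_eq_mul, Ideal.mul_top, hm,
    Ideal.span_singleton_pow, Ideal.mem_span_singleton] at h1
  obtain ⟨b, hb⟩ := h1
  have h2 : a = π ^ n * b := by
    apply mul_left_cancel₀ hπ0
    rw [hb, pow_succ']; ring
  have h3 : x.val n = Submodule.Quotient.mk a := by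
    have := AdicCompletion.transitionMap_comp_eval_apply (I := maximalIdeal A) (M := A)
      (Nat.le_succ n) x
    rw [← this, ← ha]
    rfl
  rw [h3, AdicCompletion.val_zero_apply, Submodule.Quotient.mk_eq_zero, smul_eq_mul,
    Ideal.mul_top, hm, Ideal.span_singleton_pow, Ideal.mem_span_singleton]
  exact ⟨b, h2⟩

end Completion

/-- `C` is a Cohen ring of residue characteristic `p`. -/
structure IsCohen (p : ℕ) (C : Type*) [CommRing C] [IsLocalRing C] : Prop where
  isDVR_dom : IsDomain C
  isDVR : IsDiscreteValuationRing C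
  complete : IsAdicComplete (maximalIdeal C) C
  maximalIdeal_eq : maximalIdeal C = span {(p : C)}

/-- **Existence of Cohen rings** for every field of characteristic `p`. -/
theorem exists_cohen (p : ℕ) [Fact p.Prime] (k : Type u) [Field k] [CharP k p] :
    ∃ (C : Type u) (_ : CommRing C) (_ : IsLocalRing C),
      IsCohen p C ∧ Nonempty (ResidueField C ≃+* k) := by
  obtain ⟨A, _, _, _, _, hm, ⟨e⟩⟩ := exists_cohen_local p k
  have hp0 : (p : A) ≠ 0 := Nat.cast_ne_zero.2 (Fact.out (p := p.Prime)).ne_zero
  have hfg : (maximalIdeal A).FG := hm ▸ ⟨{(p : A)}, by simp⟩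
  let C := AdicCompletion (maximalIdeal A) A
  have hC : IsLocalRing C := AdicCompletion.isLocalRing_of_fg hfg
  have hloc : IsLocalHom (algebraMap A C) := AdicCompletion.algebraMap_isLocalHom_of_fg hfg
  have hcomp : IsAdicComplete (maximalIdeal C) C := AdicCompletion.isAdicComplete_of_fg hfg
  have hbij := AdicCompletion.residueField_map_bijective_of_fg hfg
  have hmC : maximalIdeal C = span {(p : C)} := by
    have h1 : maximalIdeal C = (maximalIdeal A).map (algebraMap A C) :=
      AdicCompletion.maximalIdeal_eq_map_of_fg hfg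
    have h2 : ∀ J : Ideal A, J = span {(p : A)} → J.map (algebraMap A C) = span {(p : C)} := by
      rintro J rfl
      rw [Ideal.map_span, Set.image_singleton, map_natCast]
    rw [h1, h2 _ hm]
  have htf : ∀ x : C, (p : C) * x = 0 → x = 0 := by
    intro x hx
    apply completion_torsionFree hm hp0
    rw [map_natCast]
    exact hx
  have hdom : IsDomain C := isDomain_of_principal hmC htf
  have hpC : (p : C) ≠ 0 := by
    intro h0
    exact one_ne_zero (htf 1 (by rw [h0, zero_mul]))
  have hdvr : IsDiscreteValuationRing C := isDVR_of_principal hmC hpC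
  exact ⟨C, inferInstance, hC, ⟨hdom, hdvr, hcomp, hmC⟩,
    ⟨(RingEquiv.ofBijective _ hbij).symm.trans e⟩⟩

end Crest.Agent.R183.Cohen
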