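import Crest.Agent.R183.CohenRing

/-!
# R183 (Lech), Cohen structure, part 6: lifting homomorphisms out of Cohen rings,
existence of coefficient rings and coefficient fields
-/

set_option autoImplicit false

namespace Crest.Agent.R183.Cohen

open Ideal IsLocalRing

universe u

/-- version of `formallySmooth_zmod` over any quotient ring `R` of `ℤ` killed by `p`. -/
theorem formallySmooth_of_isField {R k : Type*} [CommRing R] [CommRing k] [Algebra R k]
    {p : ℕ} [hp : Fact p.Prime] (hk : IsField k) (hpR : (p : R) = 0)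
    (hs : Function.Surjective (Int.castRingHom R)) : Algebra.FormallySmooth R k := by
  let _ : Field k := hk.toField
  have hpk : (p : k) = 0 := by rw [← map_natCast (algebraMap R k), hpR, map_zero]
  have : CharP k p := by
    obtain ⟨q, hq⟩ := CharP.exists k
    have h1 : q ∣ p := (CharP.cast_eq_zero_iff k q p).1 hpk
    have h2 : q ≠ 1 := CharP.char_ne_one k q
    have h3 : q = p := ((Nat.dvd_prime hp.out).1 h1).resolve_left h2
    exact h3 ▸ hq
  apply Algebra.FormallySmooth.of_comp_surjective
  intro B _ _ I hI f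
  have hpB : (p : B) = 0 := by
    rw [← map_natCast (algebraMap R B), hpR, map_zero]
  obtain ⟨g, hg⟩ := exists_lift_of_ker_pow_eq_zero' hpB f.toRingHom (Ideal.Quotient.mk I)
    Ideal.Quotient.mk_surjective (fun b hb => by
      have hb' : b ∈ I := Ideal.Quotient.eq_zero_iff_mem.1 hb
      have : b ^ 2 ∈ I ^ 2 := Ideal.pow_mem_pow hb' 2
      rw [hI] at this
      have h2 : b ^ 2 = 0 := by simpa using this
      calc b ^ p = b ^ 2 * b ^ (p - 2) := by
            rw [← pow_add, Nat.add_sub_cancel' hp.out.two_le]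
        _ = 0 := by rw [h2, zero_mul])
  refine ⟨⟨g, fun r => ?_⟩, ?_⟩
  · obtain ⟨n, rfl⟩ := hs r
    change g (algebraMap R k (n : R)) = algebraMap R B (n : R)
    rw [map_intCast, map_intCast, map_intCast]
  · ext x
    exact RingHom.congr_fun hg x

namespace IsCohen

variable {p : ℕ} [hp : Fact p.Prime] {C : Type*} [CommRing C] [IsLocalRing C]

omit hp in
theorem natCast_ne_zero (hC : IsCohen p C) : (p : C) ≠ 0 := by
  have := hC.isDVR_dom
  have := hC.isDVR
  intro h0
  have h1 := hC.maximalIdeal_eq
  rw [h0, Ideal.span_singleton_eq_bot.2 rfl] at h1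
  exact IsDiscreteValuationRing.not_a_field C h1

theorem isUnit_natCast (hC : IsCohen p C) {n : ℕ} (hn : ¬ p ∣ n) : IsUnit (n : C) := by
  by_contra hcon
  have h1 : (n : C) ∈ maximalIdeal C := (mem_maximalIdeal _).2 hcon
  have h2 : (p : C) ∈ maximalIdeal C := by
    rw [hC.maximalIdeal_eq]; exact Ideal.mem_span_singleton_self _
  have h3 : IsCoprime (n : ℤ) (p : ℤ) := by
    rw [Nat.isCoprime_iff_coprime]
    exact ((Nat.Prime.coprime_iff_not_dvd hp.out).2 hn).symm
  obtain ⟨a, b, hab⟩ := h3
  have h4 : (a : C) * (n : C) + (b : C) * (p : C) = 1 := by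
    have := congrArg (Int.cast : ℤ → C) hab
    push_cast at this
    exact this
  have h5 : (1 : C) ∈ maximalIdeal C := by
    rw [← h4]
    exact add_mem (Ideal.mul_mem_left _ _ h1) (Ideal.mul_mem_left _ _ h2)
  exact (Ideal.ne_top_iff_one _).1 (maximalIdeal.isMaximal C).ne_top h5

theorem charZero (hC : IsCohen p C) : CharZero C := by
  have := hC.isDVR_dom
  refine charZero_of_inj_zero fun n hn => ?_
  by_contra hn0
  obtain ⟨a, m, hm, rfl⟩ := Nat.exists_eq_pow_mul_and_not_dvd hn0 p hp.out.ne_one
  have hu := hC.isUnit_natCast hm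
  rw [Nat.cast_mul, Nat.cast_pow] at hn
  rcases mul_eq_zero.1 hn with h | h
  · exact hC.natCast_ne_zero (eq_zero_of_pow_eq_zero h)
  · exact hu.ne_zero h

theorem flat_int (hC : IsCohen p C) : Module.Flat ℤ C := by
  have := hC.isDVR_dom
  have := hC.charZero
  infer_instance

theorem map_span (C : Type*) [CommRing C] (p : ℕ) :
    (span {(p : ℤ)}).map (algebraMap ℤ C) = span {(p : C)} := by
  rw [Ideal.map_span, Set.image_singleton, map_natCast]

theorem formallySmooth (hC : IsCohen p C) :
    Algebra.FormallySmooth (ℤ ⧸ span {(p : ℤ)}) (C ⧸ (span {(p : ℤ)}).map (algebraMap ℤ C)) := by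
  refine formallySmooth_of_isField (p := p) ?_ ?_ ?_
  · rw [← Ideal.Quotient.maximal_ideal_iff_isField_quotient, map_span, ← hC.maximalIdeal_eq]
    exact maximalIdeal.isMaximal C
  · have h1 : Ideal.Quotient.mk (span {(p : ℤ)}) (p : ℤ) = 0 :=
      Ideal.Quotient.eq_zero_iff_mem.2 (Ideal.mem_span_singleton_self _)
    simpa using h1
  · have h1 : Int.castRingHom (ℤ ⧸ span {(p : ℤ)}) = Ideal.Quotient.mk _ := RingHom.ext_int _ _
    rw [h1]
    exact Ideal.Quotient.mk_surjective

/-- **Lifting homomorphisms out of a Cohen ring** along `S → S/K`, `S` complete for `J ⊇ K`,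
`p ∈ J`, `K` closed. -/
theorem exists_lift (hC : IsCohen p C) {S : Type*} [CommRing S] (J K : Ideal S)
    [IsAdicComplete J S] (hpJ : (p : S) ∈ J) (hKJ : K ≤ J)
    (hK : ∀ x : S, (∀ m : ℕ, x ∈ J ^ m ⊔ K) → x ∈ K) (c : C →+* S ⧸ K) :
    ∃ g : C →+* S, (Ideal.Quotient.mk K).comp g = c := by
  have := hC.flat_int
  have hle : (span {(p : ℤ)}).map (algebraMap ℤ S) ≤ J := by
    rw [map_span, Ideal.span_singleton_le_iff_mem]
    exact hpJ
  obtain ⟨g, hg⟩ := exists_lift_complete (span {(p : ℤ)}) hC.formallySmooth J K hle hKJ hK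
    c.toIntAlgHom
  refine ⟨g.toRingHom, ?_⟩
  ext x
  exact AlgHom.congr_fun hg x

/-- Lifting along a surjection of rings, source complete Noetherian local. -/
theorem exists_lift_of_surjective (hC : IsCohen p C) {S T : Type*} [CommRing S] [CommRing T]
    [IsLocalRing S] [IsNoetherianRing S] [IsAdicComplete (maximalIdeal S) S] [Nontrivial T]
    (hpS : (p : S) ∈ maximalIdeal S) (π : S →+* T) (hπ : Function.Surjective π) (c : C →+* T) :
    ∃ g : C →+* S, π.comp g = c := by
  have hKJ : RingHom.ker π ≤ maximalIdeal S := le_maximalIdeal (RingHom.ker_ne_top π)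
  have hK : ∀ x : S, (∀ m : ℕ, x ∈ maximalIdeal S ^ m ⊔ RingHom.ker π) → x ∈ RingHom.ker π := by
    intro x hx
    have hH : IsHausdorff (maximalIdeal S) (S ⧸ RingHom.ker π) := inferInstance
    rw [← Ideal.Quotient.eq_zero_iff_mem]
    refine hH.haus' _ fun n => ?_
    rw [SModEq.zero]
    have h1 := hx n
    obtain ⟨a, ha, b, hb, rfl⟩ := Submodule.mem_sup.1 h1
    rw [map_add, Ideal.Quotient.eq_zero_iff_mem.2 hb, add_zero]
    have h2 : Ideal.Quotient.mk (RingHom.ker π) a = a • (1 : S ⧸ RingHom.ker π) := by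
      rw [Algebra.smul_def, mul_one]; rfl
    rw [h2]
    exact Submodule.smul_mem_smul ha Submodule.mem_top
  let e := RingHom.quotientKerEquivOfSurjective hπ
  obtain ⟨g, hg⟩ := hC.exists_lift (maximalIdeal S) (RingHom.ker π) hpS hKJ hK
    (e.symm.toRingHom.comp c)
  refine ⟨g, ?_⟩
  ext x
  have h1 := RingHom.congr_fun hg x
  have h2 : e (Ideal.Quotient.mk _ (g x)) = e (e.symm (c x)) := congrArg e h1
  rw [RingEquiv.apply_symm_apply] at h2
  exact h2

/-- Lifting of the residue map: every homomorphism from a Cohen ring to the residue field of a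
complete local ring (Noetherian or not) lifts. -/
theorem exists_lift_residue (hC : IsCohen p C) {S : Type*} [CommRing S]
    [IsLocalRing S] [IsAdicComplete (maximalIdeal S) S]
    (hpS : (p : S) ∈ maximalIdeal S) (c : C →+* ResidueField S) :
    ∃ g : C →+* S, (residue S).comp g = c :=
  hC.exists_lift (maximalIdeal S) (maximalIdeal S) hpS le_rfl
    (fun x hx => by simpa using hx 1) c

end IsCohen

/-- **Existence of coefficient rings**: residue characteristic `p`. -/
theorem exists_coefficientRing (p : ℕ) [Fact p.Prime] (S : Type u) [CommRing S] [IsLocalRing S]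
    [IsAdicComplete (maximalIdeal S) S] (hpS : (p : S) ∈ maximalIdeal S) :
    ∃ (C : Type u) (_ : CommRing C) (_ : IsLocalRing C) (_ : IsCohen p C) (g : C →+* S)
      (_ : IsLocalHom g), Function.Bijective (ResidueField.map g) := by
  have hchar : CharP (ResidueField S) p := by
    have h0 : (p : ResidueField S) = 0 := by
      rw [← map_natCast (residue S), residue_eq_zero_iff]
      exact hpS
    obtain ⟨q, hq⟩ := CharP.exists (ResidueField S)
    have h1 : q ∣ p := (CharP.cast_eq_zero_iff (ResidueField S) q p).1 h0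
    have h2 : q ≠ 1 := CharP.char_ne_one (ResidueField S) q
    have h3 : q = p := ((Nat.dvd_prime Fact.out).1 h1).resolve_left h2
    exact h3 ▸ hq
  obtain ⟨C, _, _, hC, ⟨e⟩⟩ := exists_cohen p (ResidueField S)
  obtain ⟨g, hg⟩ := hC.exists_lift_residue hpS (e.toRingHom.comp (residue C))
  have hloc : IsLocalHom g := by
    refine ⟨fun a ha => ?_⟩
    have h1 : IsUnit (residue S (g a)) := ha.map _
    have h2 : residue S (g a) = e (residue C a) := RingHom.congr_fun hg a
    rw [h2] at h1
    have h3 : residue C a ≠ 0 := by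
      intro h
      rw [h, map_zero] at h1
      exact not_isUnit_zero h1
    by_contra hcon
    exact h3 ((residue_eq_zero_iff a).2 ((mem_maximalIdeal _).2 hcon))
  refine ⟨C, inferInstance, inferInstance, hC, g, hloc, ?_⟩
  have h1 : ResidueField.map g = e.toRingHom := by
    ext x
    obtain ⟨y, rfl⟩ := residue_surjective x
    exact RingHom.congr_fun hg y
  rw [h1]
  exact e.bijective

end Crest.Agent.R183.Cohen
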