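import Crest.Agent.R183.CohenEval
import Crest.Agent.R183.CohenFieldZero

/-!
# R183 (Lech), Cohen structure, part 10: complete Noetherian local rings are finite over power
series rings over a coefficient ring
-/

set_option autoImplicit false

namespace Crest.Agent.R183.Cohen

open Ideal IsLocalRing MvPowerSeries

universe u

section CNRing

variable {A M : Type*} [CommRing A] [CommRing M] [Algebra A M] (I : Ideal A)

/-- Complete Nakayama for algebras. -/
theorem finite_algebra_of_finite_quotient [IsPrecomplete I A]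
    [hH : IsHausdorff (I.map (algebraMap A M)) M]
    (h : Module.Finite A (M ⧸ I.map (algebraMap A M))) : Module.Finite A M := by
  have hH' : IsHausdorff I M := IsHausdorff.map_algebraMap_iff.mp hH
  apply finite_of_finite_quotient I
  have heq : (I • ⊤ : Submodule A M) = (I.map (algebraMap A M)).restrictScalars A :=
    Ideal.smul_top_eq_map I
  rw [heq]
  exact Module.Finite.equiv (Submodule.Quotient.restrictScalarsEquiv A _).symm

end CNRing

section Finite

variable {σ Λ S : Type*} [Finite σ] [CommRing Λ] [IsLocalRing Λ] [CommRing S] [IsLocalRing S]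
  [IsNoetherianRing S] [IsAdicComplete (maximalIdeal S) S] (φ : Λ →+* S) (t : σ → S)

/-- **Finiteness over the power series ring.** -/
theorem psEval_finite [IsPrecomplete (maximalIdeal Λ) Λ] (hφ : IsLocalHom φ)
    (hres : ((residue S).comp φ).Finite) (ht : ∀ i, t i ∈ maximalIdeal S) (c : ℕ)
    (hc : maximalIdeal S ^ c ≤ (maximalIdeal Λ).map φ ⊔ span (Set.range t)) :
    (psEval (maximalIdeal S) φ t ht).Finite := by
  let _ : Algebra Λ S := φ.toAlgebra
  have hφm : (maximalIdeal Λ).map φ ≤ maximalIdeal S := by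
    rw [Ideal.map_le_iff_le_comap]
    exact ((local_hom_TFAE φ).out 0 3).1 hφ
  have htm : span (Set.range t) ≤ maximalIdeal S := by
    rw [Ideal.span_le]
    rintro _ ⟨i, rfl⟩
    exact ht i
  -- (a)
  have h1 : Module.Finite Λ (S ⧸ maximalIdeal S) := hres
  -- (b)
  have h2 : Module.Finite Λ (S ⧸ maximalIdeal S ^ c) :=
    finite_quotient_pow (maximalIdeal S) (maximalIdeal S).fg_of_isNoetherianRing h1 c
  -- (c), (d)
  let M₁ := S ⧸ span (Set.range t)
  have hM₁n : Nontrivial M₁ := Ideal.Quotient.nontrivial_iff.2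
    (fun h => (maximalIdeal.isMaximal S).ne_top (top_le_iff.1 (h ▸ htm)))
  have hM₁l : IsLocalRing M₁ := IsLocalRing.of_surjective' (Ideal.Quotient.mk _)
    Ideal.Quotient.mk_surjective
  have hmap : (maximalIdeal Λ).map (algebraMap Λ M₁) =
      ((maximalIdeal Λ).map φ).map (Ideal.Quotient.mk (span (Set.range t))) := by
    rw [Ideal.map_map]; rfl
  have hmapne : (maximalIdeal Λ).map (algebraMap Λ M₁) ≠ ⊤ := by
    rw [hmap]
    intro htop
    have h3 := (Ideal.eq_top_iff_one _).1 htop
    have h4 : ((maximalIdeal Λ).map φ).map (Ideal.Quotient.mk (span (Set.range t))) ≤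
        (maximalIdeal S).map (Ideal.Quotient.mk (span (Set.range t))) := Ideal.map_mono hφm
    have h5 := h4 h3
    rw [Ideal.mem_map_iff_of_surjective _ Ideal.Quotient.mk_surjective] at h5
    obtain ⟨y, hy, hy1⟩ := h5
    have h6 : y - 1 ∈ span (Set.range t) := by
      rw [← Ideal.Quotient.eq, hy1, map_one]
    have h7 : (1 : S) ∈ maximalIdeal S := by
      have : (1 : S) = y - (y - 1) := by ring
      rw [this]
      exact sub_mem hy (htm h6)
    exact (Ideal.ne_top_iff_one _).1 (maximalIdeal.isMaximal S).ne_top h7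
  have hfin1 : Module.Finite Λ (M₁ ⧸ (maximalIdeal Λ).map (algebraMap Λ M₁)) := by
    let q : (S ⧸ maximalIdeal S ^ c) →+* (M₁ ⧸ (maximalIdeal Λ).map (algebraMap Λ M₁)) :=
      Ideal.Quotient.lift _ ((Ideal.Quotient.mk _).comp (Ideal.Quotient.mk _)) (fun a ha => by
        rw [RingHom.comp_apply, Ideal.Quotient.eq_zero_iff_mem, hmap]
        obtain ⟨x, hx, y, hy, rfl⟩ := Submodule.mem_sup.1 (hc ha)
        rw [map_add, Ideal.Quotient.eq_zero_iff_mem.2 hy, add_zero]
        exact Ideal.mem_map_of_mem _ hx)
    have hq : Function.Surjective q := by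
      intro x
      obtain ⟨x, rfl⟩ := Ideal.Quotient.mk_surjective x
      obtain ⟨x, rfl⟩ := Ideal.Quotient.mk_surjective x
      exact ⟨Ideal.Quotient.mk _ x, rfl⟩
    let q' : (S ⧸ maximalIdeal S ^ c) →ₗ[Λ] (M₁ ⧸ (maximalIdeal Λ).map (algebraMap Λ M₁)) :=
      { q with
        map_smul' := fun a x => by
          obtain ⟨x, rfl⟩ := Ideal.Quotient.mk_surjective x
          rfl }
    exact Module.Finite.of_surjective q' hq
  have hH1 : IsHausdorff ((maximalIdeal Λ).map (algebraMap Λ M₁)) M₁ :=
    IsHausdorff.of_isLocalRing _ _ hmapne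
  have hfinM₁ : Module.Finite Λ M₁ := finite_algebra_of_finite_quotient (maximalIdeal Λ) hfin1
  -- (g)
  let ev := psEval (maximalIdeal S) φ t ht
  let _ : Algebra (MvPowerSeries σ Λ) S := ev.toAlgebra
  have hImap : (Ideal.span (Set.range (X : σ → MvPowerSeries σ Λ))).map
      (algebraMap (MvPowerSeries σ Λ) S) = span (Set.range t) := by
    rw [Ideal.map_span, ← Set.range_comp]
    congr 1
    congr 1
    funext i
    exact psEval_X _ _ _ ht i
  have hH2 : IsHausdorff ((Ideal.span (Set.range (X : σ → MvPowerSeries σ Λ))).map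
      (algebraMap (MvPowerSeries σ Λ) S)) S := by
    rw [hImap]
    exact IsHausdorff.of_isLocalRing _ _
      (fun h => (maximalIdeal.isMaximal S).ne_top (top_le_iff.1 (h ▸ htm)))
  have hfin2 : Module.Finite (MvPowerSeries σ Λ)
      (S ⧸ (Ideal.span (Set.range (X : σ → MvPowerSeries σ Λ))).map
        (algebraMap (MvPowerSeries σ Λ) S)) := by
    rw [hImap]
    have htower : IsScalarTower Λ (MvPowerSeries σ Λ) (S ⧸ span (Set.range t)) := by
      refine ⟨fun a f x => ?_⟩
      obtain ⟨x, rfl⟩ := Ideal.Quotient.mk_surjective x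
      have h3 : ∀ (g : MvPowerSeries σ Λ) (y : S),
          g • (Ideal.Quotient.mk (span (Set.range t)) y) =
            Ideal.Quotient.mk (span (Set.range t)) (ev g * y) := fun g y => rfl
      have h4 : ∀ (b : Λ) (y : S),
          b • (Ideal.Quotient.mk (span (Set.range t)) y) =
            Ideal.Quotient.mk (span (Set.range t)) (φ b * y) := fun g y => rfl
      have h5 : ev (C a) = φ a := psEval_C _ _ _ ht a
      have h6 : ev (a • f) * x = φ a * (ev f * x) := by
        rw [MvPowerSeries.smul_eq_C_mul, map_mul, h5, mul_assoc]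
      exact congrArg (Ideal.Quotient.mk (span (Set.range t))) h6
    exact Module.Finite.of_restrictScalars_finite Λ _ _
  exact finite_algebra_of_finite_quotient (Ideal.span (Set.range X)) hfin2

end Finite

end Crest.Agent.R183.Cohen
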