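import Mathlib
import Crest.Agent.R183.M0

/-!
# R183, block M: lengths of `M / J M`
-/

set_option autoImplicit false

namespace Crest.Agent.R183.M

open Filter Topology Pointwise

universe u v

section LenQ

variable {R : Type*} [CommRing R] {M : Type*} [AddCommGroup M] [Module R M]

/-- length of `M / J M`. -/
noncomputable def lenQ (J : Ideal R) (M : Type*) [AddCommGroup M] [Module R M] : ℕ∞ :=
  Module.length R (M ⧸ (J • ⊤ : Submodule R M))

theorem lenQ_mono {J J' : Ideal R} (h : J ≤ J') : lenQ J' M ≤ lenQ J M := by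
  unfold lenQ
  have hle : (J • ⊤ : Submodule R M) ≤ J' • ⊤ := Submodule.smul_mono_left h
  exact Module.length_le_of_surjective (Submodule.factor hle) (Submodule.factor_surjective hle)

theorem lenQ_top : lenQ (⊤ : Ideal R) M = 0 := by
  unfold lenQ
  rw [Module.length_eq_zero_iff, Submodule.Quotient.subsingleton_iff]
  simp

theorem lenQ_of_surjective {M' : Type*} [AddCommGroup M'] [Module R M'] (f : M →ₗ[R] M')
    (hf : Function.Surjective f) (J : Ideal R) : lenQ J M' ≤ lenQ J M := by
  unfold lenQ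
  refine Module.length_le_of_surjective
    (Submodule.mapQ (J • ⊤ : Submodule R M) (J • ⊤ : Submodule R M') f ?_) ?_
  · rw [← Submodule.map_le_iff_le_comap, Submodule.map_smul'']
    exact Submodule.smul_mono le_rfl le_top
  · intro x
    obtain ⟨y, rfl⟩ := Submodule.mkQ_surjective _ x
    obtain ⟨z, rfl⟩ := hf y
    exact ⟨Submodule.Quotient.mk z, by simp⟩

theorem lenQ_congr {M' : Type*} [AddCommGroup M'] [Module R M'] (e : M ≃ₗ[R] M')
    (J : Ideal R) : lenQ J M = lenQ J M' :=
  le_antisymm (lenQ_of_surjective e.symm.toLinearMap e.symm.surjective J)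
    (lenQ_of_surjective e.toLinearMap e.surjective J)

/-- Length of a middle term is at most the sum of the lengths of the outer terms
(right exact sequences). -/
theorem length_le_add_of_exact {A B C : Type*} [AddCommGroup A] [AddCommGroup B] [AddCommGroup C]
    [Module R A] [Module R B] [Module R C] (f : A →ₗ[R] B) (g : B →ₗ[R] C)
    (h : Function.Exact f g) :
    Module.length R B ≤ Module.length R A + Module.length R C := by
  have h1 : Module.length R B = Module.length R (LinearMap.range f) +
      Module.length R (B ⧸ LinearMap.range f) :=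
    Module.length_eq_add_of_exact (LinearMap.range f).subtype (LinearMap.range f).mkQ
      (Submodule.subtype_injective _) (Submodule.mkQ_surjective _)
      (LinearMap.exact_subtype_mkQ _)
  rw [h1]
  refine add_le_add ?_ ?_
  · exact Module.length_le_of_surjective f.rangeRestrict f.surjective_rangeRestrict
  · rw [LinearMap.exact_iff] at h
    refine Module.length_le_of_injective ((LinearMap.range f).liftQ g h.ge) ?_
    rw [← LinearMap.ker_eq_bot, Submodule.ker_liftQ_eq_bot]
    exact h.le

/-- `l(M/(J+(ab))M) ≤ l(M/(J+(a))M) + l(M/(J+(b))M)`. -/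
theorem lenQ_sup_mul_le (J : Ideal R) (a b : R) :
    lenQ (J ⊔ Ideal.span {a * b}) M ≤ lenQ (J ⊔ Ideal.span {a}) M + lenQ (J ⊔ Ideal.span {b}) M := by
  have hab : J ⊔ Ideal.span {a * b} ≤ J ⊔ Ideal.span {a} := by
    refine sup_le_sup_left ?_ J
    rw [Ideal.span_singleton_le_span_singleton]
    exact dvd_mul_right a b
  have hle : ((J ⊔ Ideal.span {a * b}) • ⊤ : Submodule R M) ≤ (J ⊔ Ideal.span {a}) • ⊤ :=
    Submodule.smul_mono_left hab
  have hcomap : ((J ⊔ Ideal.span {b}) • ⊤ : Submodule R M) ≤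
      ((J ⊔ Ideal.span {a * b}) • ⊤ : Submodule R M).comap (LinearMap.lsmul R M a) := by
    rw [← Submodule.map_le_iff_le_comap, Submodule.map_smul'', Submodule.sup_smul]
    refine sup_le ?_ ?_
    · exact Submodule.smul_mono le_sup_left le_top
    · rw [Submodule.smul_le]
      intro r hr m hm
      obtain ⟨m', -, rfl⟩ := Submodule.mem_map.1 hm
      obtain ⟨s, rfl⟩ := Ideal.mem_span_singleton'.1 hr
      have h1 : (s * b) • (LinearMap.lsmul R M a) m' = (a * b) • (s • m') := by
        simp only [LinearMap.lsmul_apply, smul_smul]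
        congr 1
        ring
      rw [h1]
      exact Submodule.smul_mem_smul (Ideal.mem_sup_right (Ideal.mem_span_singleton_self _))
        Submodule.mem_top
  let φ := Submodule.mapQ ((J ⊔ Ideal.span {b}) • ⊤ : Submodule R M)
    ((J ⊔ Ideal.span {a * b}) • ⊤ : Submodule R M) (LinearMap.lsmul R M a) hcomap
  let ψ := Submodule.factor hle
  have hex : Function.Exact φ ψ := by
    rw [LinearMap.exact_iff]
    apply le_antisymm
    · intro x hx
      obtain ⟨m, rfl⟩ := Submodule.mkQ_surjective _ x
      have hm : m ∈ ((J ⊔ Ideal.span {a}) • ⊤ : Submodule R M) := by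
        have : ψ ((Submodule.mkQ _) m) = Submodule.Quotient.mk m := rfl
        rw [LinearMap.mem_ker, this, Submodule.Quotient.mk_eq_zero] at hx
        exact hx
      rw [Submodule.sup_smul, Submodule.ideal_span_singleton_smul] at hm
      obtain ⟨m1, hm1, m2, hm2, rfl⟩ := Submodule.mem_sup.1 hm
      obtain ⟨m3, -, rfl⟩ := (Submodule.mem_smul_pointwise_iff_exists _ _ _).1 hm2
      refine ⟨Submodule.Quotient.mk m3, ?_⟩
      have h1 : φ (Submodule.Quotient.mk m3) = Submodule.Quotient.mk (a • m3) := rfl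
      rw [h1, Submodule.mkQ_apply, eq_comm, Submodule.Quotient.eq]
      have h2 : m1 + a • m3 - a • m3 = m1 := by abel
      rw [h2]
      exact Submodule.smul_mono_left le_sup_left hm1
    · rintro x ⟨y, rfl⟩
      obtain ⟨m, rfl⟩ := Submodule.mkQ_surjective _ y
      rw [LinearMap.mem_ker]
      have : ψ (φ ((Submodule.mkQ _) m)) = Submodule.Quotient.mk (a • m) := rfl
      rw [this, Submodule.Quotient.mk_eq_zero]
      exact Submodule.smul_mem_smul (Ideal.mem_sup_right (Ideal.mem_span_singleton_self _))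
        Submodule.mem_top
  have := length_le_add_of_exact φ ψ hex
  rw [add_comm] at this
  exact this

theorem lenQ_sup_pow_le (J : Ideal R) (a : R) (N : ℕ) :
    lenQ (J ⊔ Ideal.span {a ^ N}) M ≤ N * lenQ (J ⊔ Ideal.span {a}) M := by
  induction N with
  | zero =>
    have : J ⊔ Ideal.span {a ^ 0} = (⊤ : Ideal R) := by
      rw [pow_zero, Ideal.span_singleton_one, sup_top_eq]
    rw [this, lenQ_top]
    exact zero_le
  | succ N ih =>
    rw [pow_succ]
    refine (lenQ_sup_mul_le J (a ^ N) a).trans ?_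
    rw [Nat.cast_succ, add_mul, one_mul]
    gcongr

theorem lenQ_finset_pow_le [DecidableEq R] (s : Finset R) (J : Ideal R) (N : ℕ) :
    lenQ (J ⊔ Ideal.span ((s.image (· ^ N) : Finset R) : Set R)) M ≤
      (N : ℕ∞) ^ s.card * lenQ (J ⊔ Ideal.span (s : Set R)) M := by
  induction s using Finset.induction_on generalizing J with
  | empty => simp
  | insert a s ha ih =>
    rw [Finset.card_insert_of_notMem ha, Finset.image_insert, Finset.coe_insert,
      Ideal.span_insert, ← sup_assoc, Finset.coe_insert, Ideal.span_insert, ← sup_assoc]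
    refine (ih (J ⊔ Ideal.span {a ^ N})).trans ?_
    have h1 : J ⊔ Ideal.span {a ^ N} ⊔ Ideal.span (s : Set R)
        = (J ⊔ Ideal.span (s : Set R)) ⊔ Ideal.span {a ^ N} := by
      rw [sup_assoc, sup_assoc, sup_comm (Ideal.span {a ^ N})]
    have h2 : J ⊔ Ideal.span {a} ⊔ Ideal.span (s : Set R)
        = (J ⊔ Ideal.span (s : Set R)) ⊔ Ideal.span {a} := by
      rw [sup_assoc, sup_assoc, sup_comm (Ideal.span {a})]
    rw [h1, h2, pow_succ, mul_assoc]
    gcongr
    exact lenQ_sup_pow_le _ _ _

theorem lenQ_restrict {A : Type*} [CommRing A] [Algebra R A] [Module A M] [IsScalarTower R A M]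
    (h : Function.Surjective (algebraMap R A)) (J : Ideal R) :
    lenQ J M = lenQ (J.map (algebraMap R A)) M := by
  unfold lenQ
  have h1 : (J • ⊤ : Submodule R M) =
      ((J.map (algebraMap R A) • ⊤ : Submodule A M)).restrictScalars R := by
    have := Ideal.smul_restrictScalars J (⊤ : Submodule A M)
    rw [this, Submodule.restrictScalars_top]
  rw [h1, (Submodule.Quotient.restrictScalarsEquiv R
    (J.map (algebraMap R A) • ⊤ : Submodule A M)).length_eq]
  exact Module.length_eq_of_surjective h

/-- Subadditivity of `l(M/JM)`. -/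
theorem lenQ_le_add {N P : Type*} [AddCommGroup N] [Module R N] [AddCommGroup P] [Module R P]
    (f : N →ₗ[R] M) (g : M →ₗ[R] P) (hfg : Function.Exact f g) (hg : Function.Surjective g)
    (J : Ideal R) : lenQ J M ≤ lenQ J N + lenQ J P := by
  unfold lenQ
  have hf1 : (J • ⊤ : Submodule R N) ≤ (J • ⊤ : Submodule R M).comap f := by
    rw [← Submodule.map_le_iff_le_comap, Submodule.map_smul'']
    exact Submodule.smul_mono le_rfl le_top
  have hg1 : (J • ⊤ : Submodule R M) ≤ (J • ⊤ : Submodule R P).comap g := by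
    rw [← Submodule.map_le_iff_le_comap, Submodule.map_smul'']
    exact Submodule.smul_mono le_rfl le_top
  refine length_le_add_of_exact (Submodule.mapQ _ _ f hf1) (Submodule.mapQ _ _ g hg1) ?_
  rw [LinearMap.exact_iff]
  apply le_antisymm
  · intro x hx
    obtain ⟨m, rfl⟩ := Submodule.mkQ_surjective _ x
    rw [LinearMap.mem_ker, Submodule.mkQ_apply, Submodule.mapQ_apply,
      Submodule.Quotient.mk_eq_zero] at hx
    have h2 : (J • ⊤ : Submodule R P) = (J • ⊤ : Submodule R M).map g := by
      rw [Submodule.map_smul'', Submodule.map_top, LinearMap.range_eq_top.2 hg]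
    rw [h2] at hx
    obtain ⟨m', hm', h3⟩ := Submodule.mem_map.1 hx
    have h4 : g (m - m') = 0 := by rw [map_sub, h3, sub_self]
    obtain ⟨n, hn⟩ := (hfg _).1 h4
    refine ⟨Submodule.Quotient.mk n, ?_⟩
    rw [Submodule.mapQ_apply, hn, Submodule.mkQ_apply, eq_comm, Submodule.Quotient.eq]
    have : m - (m - m') = m' := by abel
    rw [this]
    exact hm'
  · rintro x ⟨y, rfl⟩
    obtain ⟨m, rfl⟩ := Submodule.mkQ_surjective _ y
    rw [LinearMap.mem_ker, Submodule.mkQ_apply, Submodule.mapQ_apply, Submodule.mapQ_apply,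
      hfg.apply_apply_eq_zero]
    rfl

/-- Superadditivity (Artin--Rees). -/
theorem exists_lenQ_add_le {N P : Type*} [AddCommGroup N] [Module R N] [AddCommGroup P] [Module R P]
    [IsNoetherianRing R] [Module.Finite R M]
    (f : N →ₗ[R] M) (g : M →ₗ[R] P) (hf : Function.Injective f)
    (hfg : Function.Exact f g) (hg : Function.Surjective g)
    (I : Ideal R) : ∃ k : ℕ, ∀ n : ℕ, lenQ (I ^ n) N + lenQ (I ^ (n + k)) P ≤ lenQ (I ^ (n + k)) M := by
  obtain ⟨k, hk⟩ := Ideal.exists_pow_inf_eq_pow_smul I (LinearMap.range f)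
  refine ⟨k, fun n => ?_⟩
  have hk1 := hk (n + k) (by omega)
  rw [Nat.add_sub_cancel] at hk1
  unfold lenQ
  set U : Submodule R M := I ^ (n + k) • ⊤ with hU
  -- the map `N / comap f U → M / U` is injective with cokernel `P / I^{n+k} P`
  have hg1 : U ≤ (I ^ (n + k) • ⊤ : Submodule R P).comap g := by
    rw [hU, ← Submodule.map_le_iff_le_comap, Submodule.map_smul'']
    exact Submodule.smul_mono le_rfl le_top
  let φ : (N ⧸ U.comap f) →ₗ[R] (M ⧸ U) := Submodule.mapQ _ _ f le_rfl
  let ψ : (M ⧸ U) →ₗ[R] (P ⧸ (I ^ (n + k) • ⊤ : Submodule R P)) := Submodule.mapQ _ _ g hg1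
  have hφ : Function.Injective φ := by
    rw [← LinearMap.ker_eq_bot, Submodule.ker_mapQ, ← le_bot_iff]
    rintro x ⟨y, hy, rfl⟩
    rw [Submodule.mem_bot]
    exact (Submodule.Quotient.mk_eq_zero _).2 hy
  have hψ : Function.Surjective ψ := by
    intro x
    obtain ⟨p, rfl⟩ := Submodule.mkQ_surjective _ x
    obtain ⟨m, rfl⟩ := hg p
    exact ⟨Submodule.Quotient.mk m, by simp [ψ]⟩
  have hex : Function.Exact φ ψ := by
    rw [LinearMap.exact_iff]
    apply le_antisymm
    · intro x hx
      obtain ⟨m, rfl⟩ := Submodule.mkQ_surjective _ x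
      have hx' : g m ∈ (I ^ (n + k) • ⊤ : Submodule R P) := by
        rw [LinearMap.mem_ker, Submodule.mkQ_apply, Submodule.mapQ_apply,
          Submodule.Quotient.mk_eq_zero] at hx
        exact hx
      have h2 : (I ^ (n + k) • ⊤ : Submodule R P) = U.map g := by
        rw [hU, Submodule.map_smul'', Submodule.map_top, LinearMap.range_eq_top.2 hg]
      rw [h2] at hx'
      obtain ⟨m', hm', h3⟩ := Submodule.mem_map.1 hx'
      have h4 : g (m - m') = 0 := by rw [map_sub, h3, sub_self]
      obtain ⟨n', hn'⟩ := (hfg _).1 h4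
      refine ⟨Submodule.Quotient.mk n', ?_⟩
      change (Submodule.mapQ _ _ f le_rfl) (Submodule.Quotient.mk n') = _
      rw [Submodule.mapQ_apply, hn', Submodule.mkQ_apply, eq_comm, Submodule.Quotient.eq]
      have : m - (m - m') = m' := by abel
      rw [this]
      exact hm'
    · rintro x ⟨y, rfl⟩
      obtain ⟨m, rfl⟩ := Submodule.mkQ_surjective _ y
      change ψ (φ (Submodule.Quotient.mk m)) = 0
      change (Submodule.Quotient.mk (g (f m)) : P ⧸ (I ^ (n + k) • ⊤ : Submodule R P)) = 0
      rw [hfg.apply_apply_eq_zero]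
      rfl
  rw [Module.length_eq_add_of_exact φ ψ hφ hψ hex]
  gcongr
  -- `comap f U ≤ I^n • ⊤`
  have hle : U.comap f ≤ (I ^ n • ⊤ : Submodule R N) := by
    intro x hx
    have h1 : f x ∈ I ^ n • (I ^ k • ⊤ ⊓ LinearMap.range f : Submodule R M) := by
      rw [← hk1]
      exact ⟨hx, LinearMap.mem_range_self f x⟩
    have h2 : f x ∈ (I ^ n • ⊤ : Submodule R N).map f := by
      rw [Submodule.map_smul'', Submodule.map_top]
      exact Submodule.smul_mono le_rfl inf_le_right h1
    obtain ⟨y, hy, h3⟩ := Submodule.mem_map.1 h2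
    rwa [← hf h3]
  exact Module.length_le_of_surjective (Submodule.factor hle) (Submodule.factor_surjective hle)

theorem lenQ_le_card_mul {A : Type*} [AddCommGroup A] [Module R A] (k : ℕ)
    (f : (Fin k → A) →ₗ[R] M) (hf : Function.Surjective f) (J : Ideal R) :
    lenQ J M ≤ k * lenQ J A := by
  classical
  let fi : Fin k → (A →ₗ[R] M) := fun i => f ∘ₗ LinearMap.single R (fun _ => A) i
  have hfi : ∀ i, (J • ⊤ : Submodule R A) ≤ (J • ⊤ : Submodule R M).comap (fi i) := by
    intro i
    rw [← Submodule.map_le_iff_le_comap, Submodule.map_smul'']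
    exact Submodule.smul_mono le_rfl le_top
  let q : (Fin k → A ⧸ (J • ⊤ : Submodule R A)) →ₗ[R] (M ⧸ (J • ⊤ : Submodule R M)) :=
    LinearMap.lsum R (fun _ => A ⧸ (J • ⊤ : Submodule R A)) R
      (fun i => Submodule.mapQ _ _ (fi i) (hfi i))
  have hq : Function.Surjective q := by
    intro x
    obtain ⟨m, rfl⟩ := Submodule.mkQ_surjective _ x
    obtain ⟨a, rfl⟩ := hf m
    refine ⟨fun i => Submodule.Quotient.mk (a i), ?_⟩
    have h1 : f a = ∑ i, fi i (a i) := by
      conv_lhs => rw [← LinearMap.sum_single_apply (fun _ : Fin k => A) a]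
      rw [map_sum]
      rfl
    rw [h1, map_sum]
    simp only [q, LinearMap.lsum_apply, LinearMap.sum_apply, LinearMap.comp_apply,
      LinearMap.proj_apply, Submodule.mapQ_apply, Submodule.mkQ_apply]
  unfold lenQ
  refine (Module.length_le_of_surjective q hq).trans ?_
  rw [Module.length_pi, ENat.card_eq_coe_fintype_card, Fintype.card_fin]

end LenQ

section Growth

open IsLocalRing

theorem growth_ring (A : Type*) [CommRing A] [IsLocalRing A] [IsNoetherianRing A] (D : ℕ)
    (hD : ringKrullDim A ≤ D) :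
    ∃ C : ℕ, ∀ N : ℕ, lenQ (maximalIdeal A ^ N) A ≤ C * (N : ℕ∞) ^ D := by
  classical
  obtain ⟨s, hs, hcard⟩ :=
    Ideal.exists_finset_card_eq_height_of_isNoetherianRing (maximalIdeal A)
  have hart := IsLocalRing.quotient_artinian_of_mem_minimalPrimes_of_isLocalRing _ hs
  have hsD : s.card ≤ D := by
    have h1 : ((s.card : ℕ∞) : WithBot ℕ∞) ≤ (D : ℕ∞) := by
      have h2 : ((s.card : ℕ∞) : WithBot ℕ∞) = ringKrullDim A := by
        rw [hcard]
        exact IsLocalRing.maximalIdeal_height_eq_ringKrullDim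
      rw [h2]
      exact_mod_cast hD
    exact_mod_cast h1
  have hsm : Ideal.span (s : Set A) ≤ maximalIdeal A := hs.1.2
  have hfin : lenQ (Ideal.span (s : Set A)) A ≠ ⊤ := by
    have h0 : IsArtinian A (A ⧸ Ideal.span (s : Set A)) := by
      have : IsArtinian (A ⧸ Ideal.span (s : Set A)) (A ⧸ Ideal.span (s : Set A)) := hart
      exact isArtinian_of_surjective_algebraMap
        (S := A) (R := A ⧸ Ideal.span (s : Set A)) Ideal.Quotient.mk_surjective
    have h1 := Module.length_ne_top (R := A) (M := A ⧸ Ideal.span (s : Set A))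
    unfold lenQ
    have h2 : (Ideal.span (s : Set A) • ⊤ : Submodule A A) = Ideal.span (s : Set A) := by
      rw [smul_eq_mul, Ideal.mul_top]
    rw [h2]
    exact h1
  obtain ⟨C, hC⟩ := ENat.ne_top_iff_exists.1 hfin
  refine ⟨C, fun N => ?_⟩
  rcases Nat.eq_zero_or_pos N with rfl | hN
  · rw [pow_zero, Ideal.one_eq_top, lenQ_top]
    exact zero_le
  have h3 : Ideal.span ((s.image (· ^ N) : Finset A) : Set A) ≤ maximalIdeal A ^ N := by
    rw [Ideal.span_le]
    intro x hx
    rw [Finset.mem_coe, Finset.mem_image] at hx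
    obtain ⟨y, hy, rfl⟩ := hx
    exact Ideal.pow_mem_pow (hsm (Ideal.subset_span hy)) N
  calc lenQ (maximalIdeal A ^ N) A
      ≤ lenQ (Ideal.span ((s.image (· ^ N) : Finset A) : Set A)) A := lenQ_mono h3
    _ = lenQ (⊥ ⊔ Ideal.span ((s.image (· ^ N) : Finset A) : Set A)) A := by rw [bot_sup_eq]
    _ ≤ (N : ℕ∞) ^ s.card * lenQ (⊥ ⊔ Ideal.span (s : Set A)) A := lenQ_finset_pow_le s ⊥ N
    _ = (N : ℕ∞) ^ s.card * C := by rw [bot_sup_eq, ← hC]
    _ ≤ (N : ℕ∞) ^ D * C := by
        gcongr
        exact_mod_cast hN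
    _ = C * (N : ℕ∞) ^ D := mul_comm _ _

theorem growth_module (R : Type*) [CommRing R] [IsLocalRing R] [IsNoetherianRing R]
    (M : Type*) [AddCommGroup M] [Module R M] [Module.Finite R M] (D : ℕ)
    (hD : Module.supportDim R M ≤ D) :
    ∃ C : ℕ, ∀ N : ℕ, lenQ (maximalIdeal R ^ N) M ≤ C * (N : ℕ∞) ^ D := by
  rcases subsingleton_or_nontrivial M with hM | hM
  · refine ⟨0, fun N => ?_⟩
    unfold lenQ
    rw [Module.length_eq_zero]
    exact zero_le
  let A := R ⧸ Module.annihilator R M
  have hsurj : Function.Surjective (algebraMap R A) := Ideal.Quotient.mk_surjective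
  have hne : Module.annihilator R M ≠ ⊤ := by
    rw [Ne, Module.annihilator_eq_top_iff, not_subsingleton_iff_nontrivial]
    exact hM
  have : Nontrivial A := Ideal.Quotient.nontrivial_iff.2 hne
  have : IsLocalRing A := IsLocalRing.of_surjective' (algebraMap R A) hsurj
  have hdim : ringKrullDim A ≤ D := by
    rw [← Module.supportDim_eq_ringKrullDim_quotient_annihilator]
    exact hD
  obtain ⟨C, hC⟩ := growth_ring A D hdim
  have hmax : (maximalIdeal R).map (algebraMap R A) = maximalIdeal A :=
    IsLocalRing.map_maximalIdeal_of_surjective _ hsurj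
  obtain ⟨k, f, hf⟩ := Module.Finite.exists_fin' R M
  -- the induced surjection from `A^k`
  let gi : Fin k → (A →ₗ[R] M) := fun i =>
    (Module.annihilator R M).liftQ (LinearMap.toSpanSingleton R M (f (Pi.single i 1)))
      (by
        intro r hr
        rw [LinearMap.mem_ker, LinearMap.toSpanSingleton_apply]
        exact Module.mem_annihilator.1 hr _)
  let g : (Fin k → A) →ₗ[R] M := LinearMap.lsum R (fun _ => A) R gi
  have hg : Function.Surjective g := by
    intro x
    obtain ⟨a, rfl⟩ := hf x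
    refine ⟨fun i => Ideal.Quotient.mk _ (a i), ?_⟩
    have h1 : f a = ∑ i, a i • f (Pi.single i 1) := by
      conv_lhs => rw [pi_eq_sum_univ' a, map_sum]
      refine Finset.sum_congr rfl fun i _ => ?_
      rw [map_smul]
    rw [h1]
    simp only [g, LinearMap.lsum_apply, LinearMap.sum_apply, LinearMap.comp_apply,
      LinearMap.proj_apply]
    refine Finset.sum_congr rfl fun i _ => ?_
    exact Submodule.liftQ_apply _ _ _
  refine ⟨k * C, fun N => ?_⟩
  refine (lenQ_le_card_mul k g hg _).trans ?_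
  rw [lenQ_restrict (M := A) hsurj, Ideal.map_pow, hmax]
  calc (k : ℕ∞) * lenQ (maximalIdeal A ^ N) A ≤ k * (C * (N : ℕ∞) ^ D) := by
        gcongr
        exact hC N
    _ = ((k * C : ℕ) : ℕ∞) * (N : ℕ∞) ^ D := by push_cast; ring

end Growth

end Crest.Agent.R183.M
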