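import Mathlib
import Crest.Agent.R183.M1

/-!
# R183, block M: Hilbert--Samuel functions, `UB`/`LB` and the reduction to domains

`hs R M N = l_R(M / m^N M)`.
* `UBf (hs R M) D c`  is "e_D(M) ≤ c", `LBf (hs R M) D c` is "e_D(M) ≥ c".
* `UB_of_exact`, `LB_of_exact` : additivity.
* `domain_reduction` : the reduction of Lech's inequality to domains.
-/

set_option autoImplicit false

namespace Crest.Agent.R183.M

open Filter Topology IsLocalRing TensorProduct

/-- `hs R M N = l_R(M / m^N M)` as a natural number. -/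
noncomputable def hs (R : Type*) [CommRing R] [IsLocalRing R] (M : Type*) [AddCommGroup M]
    [Module R M] (N : ℕ) : ℕ := (lenQ (maximalIdeal R ^ N) M).toNat

section

variable {R : Type*} [CommRing R] [IsLocalRing R] [IsNoetherianRing R]
variable {M : Type*} [AddCommGroup M] [Module R M] [Module.Finite R M]

omit [IsNoetherianRing R] in
theorem exists_nat_ringKrullDim (R : Type*) [CommRing R] [IsLocalRing R] [IsNoetherianRing R] :
    ∃ n : ℕ, ringKrullDim R = n := by
  have h : ringKrullDim R ≠ ⊤ := ringKrullDim_ne_top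
  have h' : ringKrullDim R ≠ ⊥ := ringKrullDim_ne_bot
  obtain ⟨a, ha⟩ := WithBot.ne_bot_iff_exists.1 h'
  rw [← ha] at h ⊢
  have : a ≠ ⊤ := by
    rintro rfl
    exact h rfl
  obtain ⟨n, rfl⟩ := ENat.ne_top_iff_exists.1 this
  exact ⟨n, rfl⟩

theorem lenQ_pow_ne_top (N : ℕ) : lenQ (maximalIdeal R ^ N) M ≠ ⊤ := by
  obtain ⟨D, hD⟩ := exists_nat_ringKrullDim R
  obtain ⟨C, hC⟩ := growth_module R M D (by rw [← hD]; exact Module.supportDim_le_ringKrullDim R M)
  refine ne_top_of_le_ne_top ?_ (hC N)
  exact_mod_cast ENat.natCast_ne_top (C * N ^ D)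

theorem coe_hs (N : ℕ) : (hs R M N : ℕ∞) = lenQ (maximalIdeal R ^ N) M :=
  ENat.natCast_toNat (lenQ_pow_ne_top N)

theorem hs_growth (D : ℕ) (hD : Module.supportDim R M ≤ D) :
    ∃ C : ℕ, ∀ N : ℕ, hs R M N ≤ C * N ^ D := by
  obtain ⟨C, hC⟩ := growth_module R M D hD
  refine ⟨C, fun N => ?_⟩
  have := hC N
  rw [← coe_hs] at this
  exact_mod_cast this

/-- If `dim M < D` then `e_D(M) ≤ 0`. -/
theorem UB_of_supportDim_lt (D : ℕ) (hD : Module.supportDim R M < D) : UBf (hs R M) D 0 := by
  rcases Nat.eq_zero_or_pos D with rfl | hpos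
  · have h1 : Module.supportDim R M = ⊥ := by
      rcases h : Module.supportDim R M with _ | a
      · rfl
      · exfalso
        rw [h] at hD
        have : (a : WithBot ℕ∞) < ((0 : ℕ) : WithBot ℕ∞) := hD
        have h2 : a < 0 := by exact_mod_cast this
        exact not_lt_zero h2
    rw [Module.supportDim_eq_bot_iff_subsingleton] at h1
    have : hs R M = fun _ => 0 := by
      funext N
      unfold hs lenQ
      rw [Module.length_eq_zero]
      rfl
    rw [this]
    exact UBf.zero 0
  · have h1 : Module.supportDim R M ≤ (D - 1 : ℕ) := by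
      rcases h : Module.supportDim R M with _ | a
      · exact bot_le
      · rw [h] at hD
        have h2 : (a : WithBot ℕ∞) < ((D : ℕ) : WithBot ℕ∞) := hD
        have h3 : a < (D : ℕ∞) := by exact_mod_cast h2
        have h4 : a ≠ ⊤ := ne_top_of_lt h3
        obtain ⟨n, rfl⟩ := ENat.ne_top_iff_exists.1 h4
        have h5 : n < D := by exact_mod_cast h3
        have h6 : n ≤ D - 1 := by omega
        have : ((n : ℕ∞) : WithBot ℕ∞) ≤ (((D - 1 : ℕ) : ℕ∞) : WithBot ℕ∞) := by
          exact_mod_cast h6
        exact this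
    obtain ⟨C, hC⟩ := hs_growth (R := R) (M := M) (D - 1) h1
    refine UBf.of_growth (D' := D - 1) (by omega) (C : ℝ) (Eventually.of_forall fun N => ?_)
    exact_mod_cast hC N

variable {N P : Type*} [AddCommGroup N] [Module R N] [Module.Finite R N]
  [AddCommGroup P] [Module R P] [Module.Finite R P]

theorem UB_of_exact (f : N →ₗ[R] M) (g : M →ₗ[R] P) (hfg : Function.Exact f g)
    (hg : Function.Surjective g) {D : ℕ} {c c' : ℝ} (h : UBf (hs R N) D c)
    (h' : UBf (hs R P) D c') : UBf (hs R M) D (c + c') := by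
  refine (h.add h').mono_left fun n => ?_
  have := lenQ_le_add f g hfg hg (maximalIdeal R ^ n)
  rw [← coe_hs, ← coe_hs, ← coe_hs] at this
  exact_mod_cast this

theorem LB_of_exact (f : N →ₗ[R] M) (g : M →ₗ[R] P) (hf : Function.Injective f)
    (hfg : Function.Exact f g) (hg : Function.Surjective g) {D : ℕ} {c c' : ℝ}
    (h : LBf (hs R N) D c) (h' : LBf (hs R P) D c') : LBf (hs R M) D (c + c') := by
  obtain ⟨k, hk⟩ := exists_lenQ_add_le f g hf hfg hg (maximalIdeal R)
  refine (h.add (h'.shift k)).of_shift k (Eventually.of_forall fun n => ?_)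
  have := hk n
  rw [← coe_hs, ← coe_hs, ← coe_hs] at this
  exact_mod_cast this

end

/-- `hs` is invariant under linear equivalences. -/
theorem hs_congr {R : Type*} [CommRing R] [IsLocalRing R] {M M' : Type*} [AddCommGroup M]
    [Module R M] [AddCommGroup M'] [Module R M'] (e : M ≃ₗ[R] M') : hs R M = hs R M' := by
  funext N
  unfold hs
  rw [lenQ_congr e]

/-- change of rings along a surjection of local rings -/
theorem hs_of_surjective {R A : Type*} [CommRing R] [IsLocalRing R] [CommRing A] [IsLocalRing A]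
    [Algebra R A] (h : Function.Surjective (algebraMap R A)) (M : Type*) [AddCommGroup M]
    [Module R M] [Module A M] [IsScalarTower R A M] : hs R M = hs A M := by
  funext N
  unfold hs
  rw [lenQ_restrict (A := A) h, Ideal.map_pow, IsLocalRing.map_maximalIdeal_of_surjective _ h]

/-- The Hilbert--Samuel function of the ring is `l_R(R/m^N)`. -/
theorem hs_self (R : Type*) [CommRing R] [IsLocalRing R] (N : ℕ) :
    hs R R N = (Module.length R (R ⧸ maximalIdeal R ^ N)).toNat := by
  unfold hs lenQ
  have h2 : (maximalIdeal R ^ N • ⊤ : Submodule R R) = maximalIdeal R ^ N := by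
    rw [smul_eq_mul, Ideal.mul_top]
  rw [h2]

end Crest.Agent.R183.M
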