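import Mathlib
import Crest.Agent.R183.M2
import Crest.Agent.R183.HSRed

/-!
# R183 (Lech), block HS: M4-lower

* `UBf_of_mult` : interpolation between multiples of `N`.
* `UB_quot_pow` : `e_d(R) ≤ l(R/(z_1^N,..,z_d^N)) / N^d` for every `N ≥ 1`, and every
  system `z_1..z_d` in `m` generating an `m`-primary ideal.
-/

set_option autoImplicit false
set_option linter.unusedSectionVars false

namespace Crest.Agent.R183.HS

open IsLocalRing Filter Topology Crest.Agent.R183.M

universe u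

/-- Interpolation between multiples of `N`. -/
theorem UBf_of_mult {f : ℕ → ℕ} (hf : Monotone f) {d N L : ℕ} (hN : 0 < N)
    (h : ∀ j, f (N * j) ≤ cc d j * L) : UBf f d ((L : ℝ) / (N : ℝ) ^ d) := by
  intro ε hε
  set k : ℕ := N * (1 + d) with hk
  have hNr : (0 : ℝ) < (N : ℝ) ^ d := by positivity
  set c : ℝ := (L : ℝ) / (N : ℝ) ^ d with hc
  have hc0 : 0 ≤ c := by positivity
  have h1 : ∀ᶠ n : ℕ in atTop, (((n + k : ℕ) : ℝ) ^ d) / (n : ℝ) ^ d < (c + ε) / (c + ε / 2) := by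
    refine (tendsto_order.1 (tendsto_shift_ratio k d)).2 _ ?_
    rw [gt_iff_lt, lt_div_iff₀ (by positivity : (0:ℝ) < c + ε / 2)]
    linarith
  filter_upwards [h1, eventually_gt_atTop 0] with n h2 h3
  have hn : (0 : ℝ) < (n : ℝ) ^ d := by positivity
  rw [div_lt_div_iff₀ hn (by positivity)] at h2
  set j := n / N + 1 with hj
  have hnj : n ≤ N * j := by
    have := Nat.div_add_mod n N
    have h4 := Nat.mod_lt n hN
    rw [hj, mul_add, mul_one]
    omega
  have hjN : N * (j + d) ≤ n + k := by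
    have h4 : N * (n / N) ≤ n := Nat.mul_div_le n N
    have : N * (j + d) = N * (n / N) + k := by rw [hj, hk]; ring
    omega
  have h5 : d.factorial * f n ≤ (j + d) ^ d * L := by
    calc d.factorial * f n ≤ d.factorial * (cc d j * L) :=
          Nat.mul_le_mul_left _ ((hf hnj).trans (h j))
      _ = d.factorial * cc d j * L := by ring
      _ ≤ (j + d) ^ d * L := Nat.mul_le_mul_right _ (factorial_mul_cc_le d j)
  have h6 : (Nat.factorial d : ℝ) * (f n : ℝ) ≤ ((j + d : ℕ) : ℝ) ^ d * L := by exact_mod_cast h5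
  have h7 : ((j + d : ℕ) : ℝ) ^ d * L ≤ ((n + k : ℕ) : ℝ) ^ d * c := by
    have h8 : (N : ℝ) ^ d * ((j + d : ℕ) : ℝ) ^ d ≤ ((n + k : ℕ) : ℝ) ^ d := by
      rw [← mul_pow]
      have : (N : ℝ) * ((j + d : ℕ) : ℝ) ≤ ((n + k : ℕ) : ℝ) := by exact_mod_cast hjN
      gcongr
    rw [hc, ← mul_div_assoc, le_div_iff₀ hNr]
    calc ((j + d : ℕ) : ℝ) ^ d * L * (N : ℝ) ^ d = (N : ℝ) ^ d * ((j + d : ℕ) : ℝ) ^ d * L := by ring
      _ ≤ ((n + k : ℕ) : ℝ) ^ d * L := by gcongr
  refine h6.trans (h7.trans ?_)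
  have h9 : 0 ≤ ((n + k : ℕ) : ℝ) ^ d := by positivity
  nlinarith

variable {R : Type u} [CommRing R] [IsLocalRing R]

theorem lenQ_self (J : Ideal R) : lenQ J R = Module.length R (R ⧸ J) := by
  unfold lenQ
  have : J • (⊤ : Submodule R R) = J := by
    rw [smul_eq_mul, Ideal.mul_top]
  rw [this]

theorem hs_self (N : ℕ) : hs R R N = (Module.length R (R ⧸ maximalIdeal R ^ N)).toNat := by
  rw [hs, lenQ_self]

variable [IsNoetherianRing R]

theorem length_pow_ne_top (N : ℕ) : Module.length R (R ⧸ maximalIdeal R ^ N) ≠ ⊤ := by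
  rw [← lenQ_self]
  exact lenQ_pow_ne_top N

theorem coe_hs_self (N : ℕ) : (hs R R N : ℕ∞) = Module.length R (R ⧸ maximalIdeal R ^ N) := by
  rw [coe_hs, lenQ_self]

theorem hs_mono : Monotone (hs R R) := by
  intro a b hab
  have h : (hs R R a : ℕ∞) ≤ hs R R b := by
    rw [coe_hs_self, coe_hs_self]
    exact length_quot_mono (Ideal.pow_le_pow_right hab)
  exact_mod_cast h

/-- powers of `z` still generate an `m`-primary ideal -/
theorem pow_le_span_pow {ι : Type*} [Finite ι] (z : ι → R) (I : Ideal R) {t : ℕ}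
    (ht : I ^ t ≤ Ideal.span (Set.range z)) (N : ℕ) :
    ∃ s, I ^ s ≤ Ideal.span (Set.range fun i => z i ^ N) := by
  classical
  have := Fintype.ofFinite ι
  obtain ⟨k, hk⟩ : ∃ k, Ideal.span (Set.range z) ^ k ≤ Ideal.span (Set.range fun i => z i ^ N) := by
    have h1 := Ideal.exists_pow_le_of_le_radical_of_fg (I := Ideal.span (Set.range z))
      (J := Ideal.span (Set.range fun i => z i ^ N)) ?_ ⟨Finset.univ.image z, by simp⟩
    · exact h1
    · rw [Ideal.span_le]
      rintro _ ⟨i, rfl⟩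
      exact ⟨N, Ideal.subset_span ⟨i, rfl⟩⟩
  refine ⟨t * k, ?_⟩
  rw [pow_mul]
  exact (Ideal.pow_right_mono ht k).trans hk

/-- length of `R / (z^N)` is finite -/
theorem length_quot_pow_ne_top {ι : Type*} [Finite ι] (z : ι → R) {t : ℕ}
    (ht : maximalIdeal R ^ t ≤ Ideal.span (Set.range z)) (N : ℕ) :
    Module.length R (R ⧸ Ideal.span (Set.range fun i => z i ^ N)) ≠ ⊤ := by
  obtain ⟨s, hs⟩ := pow_le_span_pow z (maximalIdeal R) ht N
  exact ne_top_of_le_ne_top (length_pow_ne_top s) (length_quot_mono hs)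

/-- **M4, lower half.** `e_d(R) ≤ l(R/(z_1^N,…,z_d^N))/N^d`. -/
theorem UB_quot_pow {d : ℕ} (z : Fin d → R) (hz : ∀ i, z i ∈ maximalIdeal R) {t : ℕ}
    (ht : maximalIdeal R ^ t ≤ Ideal.span (Set.range z)) {N : ℕ} (hN : 0 < N) :
    UBf (hs R R) d
      (((Module.length R (R ⧸ Ideal.span (Set.range fun i => z i ^ N))).toNat : ℝ) / (N : ℝ) ^ d) := by
  refine UBf_of_mult hs_mono hN fun j => ?_
  have hL : ((Module.length R (R ⧸ Ideal.span (Set.range fun i => z i ^ N))).toNat : ℕ∞) =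
      Module.length R (R ⧸ Ideal.span (Set.range fun i => z i ^ N)) :=
    ENat.natCast_toNat (length_quot_pow_ne_top z ht N)
  have h : (hs R R (N * j) : ℕ∞) ≤
      cc d j * (Module.length R (R ⧸ Ideal.span (Set.range fun i => z i ^ N))).toNat := by
    rw [coe_hs_self, hL]
    refine le_trans (length_quot_mono ?_) (length_quot_pow_le (fun i => z i ^ N) j)
    rw [pow_mul]
    refine Ideal.pow_right_mono ?_ j
    rw [Ideal.span_le]
    rintro _ ⟨i, rfl⟩
    exact Ideal.pow_mem_pow (hz i) N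
  exact_mod_cast h

end Crest.Agent.R183.HS
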