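import Mathlib
import Crest.Agent.R183.HSLechUp

/-!
# R183 (Lech), block HS: M4

`rank_theorem` : for `y_1..y_d ∈ m` with `m^(c+1) = (y) m^c` there is `r : ℕ` with
`e_d(R) = r` (as `UBf`/`LBf`) and `r N^d ≤ l(R/(y_1^N..y_d^N)) ≤ r N^d + C N^(d-1)`.
-/

set_option autoImplicit false
set_option linter.unusedSectionVars false

namespace Crest.Agent.R183.HS

open IsLocalRing Filter Topology Crest.Agent.R183.M

universe u

variable {R : Type u} [CommRing R] [IsLocalRing R] [IsNoetherianRing R]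

theorem UBf_of_forall {f : ℕ → ℕ} {D : ℕ} {c : ℝ} (h : ∀ ε > (0:ℝ), UBf f D (c + ε)) : UBf f D c := by
  intro ε hε
  filter_upwards [h (ε / 2) (by positivity) (ε / 2) (by positivity)] with N hN
  refine hN.trans (le_of_eq ?_)
  ring

theorem LBf_of_forall {f : ℕ → ℕ} {D : ℕ} {c : ℝ} (h : ∀ ε > (0:ℝ), LBf f D (c - ε)) : LBf f D c := by
  intro ε hε
  filter_upwards [h (ε / 2) (by positivity) (ε / 2) (by positivity)] with N hN
  refine (le_of_eq ?_).trans hN
  ring

theorem isRed_pow {d : ℕ} (y : Fin d → R) (c : ℕ)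
    (hc : maximalIdeal R ^ (c + 1) = Ideal.span (Set.range y) * maximalIdeal R ^ c) (k : ℕ) :
    maximalIdeal R ^ (c + k) = Ideal.span (Set.range y) ^ k * maximalIdeal R ^ c := by
  induction k with
  | zero => simp
  | succ k ih =>
    have h1 : maximalIdeal R ^ (c + (k + 1)) = maximalIdeal R ^ (c + 1) * maximalIdeal R ^ k := by
      rw [← pow_add]; congr 1; ring
    rw [h1, hc, mul_assoc, ← pow_add, ih, pow_succ']
    rw [mul_assoc]

/-- **M4.** -/
theorem rank_theorem {d : ℕ} (y : Fin d → R) (hy : ∀ i, y i ∈ maximalIdeal R) (c : ℕ)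
    (hc : maximalIdeal R ^ (c + 1) = Ideal.span (Set.range y) * maximalIdeal R ^ c) :
    ∃ r C : ℕ, UBf (hs R R) d r ∧ LBf (hs R R) d r ∧
      (∀ N, Module.length R (R ⧸ Ideal.span (Set.range fun i => y i ^ N)) ≤
        (r * N ^ d + C * N ^ (d - 1) : ℕ)) ∧
      ∀ N, 0 < N → ((r * N ^ d : ℕ) : ℕ∞) ≤
        Module.length R (R ⧸ Ideal.span (Set.range fun i => y i ^ N)) := by
  have ht : maximalIdeal R ^ (c + 1) ≤ Ideal.span (Set.range y) := by
    rw [hc]
    exact Ideal.mul_le_left
  have hred := isRed_pow y c hc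
  rcases Nat.eq_zero_or_pos d with rfl | hd
  · have hspan : ∀ z : Fin 0 → R, Ideal.span (Set.range z) = ⊥ := by
      intro z
      rw [Set.range_eq_empty, Ideal.span_empty]
    have hbot : maximalIdeal R ^ (c + 1) = ⊥ := by
      rw [hc, hspan, Ideal.bot_mul]
    have hlen : ∀ N, c + 1 ≤ N → hs R R N = (Module.length R (R ⧸ (⊥ : Ideal R))).toNat := by
      intro N hN
      rw [hs_self]
      have : maximalIdeal R ^ N = ⊥ := by
        rw [eq_bot_iff, ← hbot]
        exact Ideal.pow_le_pow_right hN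
      rw [this]
    have htop : Module.length R (R ⧸ (⊥ : Ideal R)) ≠ ⊤ := by
      rw [← hbot]
      exact length_pow_ne_top _
    refine ⟨(Module.length R (R ⧸ (⊥ : Ideal R))).toNat, 0, ?_, ?_, fun N => ?_, fun N _ => ?_⟩
    · intro ε hε
      filter_upwards [eventually_ge_atTop (c + 1)] with N hN
      rw [hlen N hN]
      simp [hε.le]
    · intro ε hε
      filter_upwards [eventually_ge_atTop (c + 1)] with N hN
      rw [hlen N hN]
      simp [hε.le]
    · rw [hspan]
      simp only [pow_zero, mul_one, zero_mul, add_zero]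
      rw [ENat.natCast_toNat htop]
    · rw [hspan]
      simp only [pow_zero, mul_one]
      rw [ENat.natCast_toNat htop]
  obtain ⟨r, C, hup, hlow⟩ := exists_rank y ht
  have hLB : LBf (hs R R) d r := by
    have h1 : LBf (fun N => r * cc d N) d r := by
      intro ε hε
      filter_upwards [eventually_gt_atTop 0] with N hN
      have h2 : r * N ^ d ≤ d.factorial * (r * cc d N) := by
        have := pow_le_factorial_mul_cc d N hN
        nlinarith
      have h3 : (r : ℝ) * (N : ℝ) ^ d ≤ (d.factorial : ℝ) * ((r * cc d N : ℕ) : ℝ) := by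
        exact_mod_cast h2
      have h4 : (0 : ℝ) ≤ ε * (N : ℝ) ^ d := by positivity
      linarith
    refine h1.of_shift c (Eventually.of_forall fun N => ?_)
    have h2 : ((r * cc d N : ℕ) : ℕ∞) ≤ (hs R R (N + c) : ℕ∞) := by
      rw [coe_hs_self]
      push_cast
      refine (hlow N).trans (length_quot_mono ?_)
      rw [add_comm, hred N]
      exact Ideal.mul_le_left
    exact_mod_cast h2
  have hUB : UBf (hs R R) d r := by
    refine UBf_of_forall fun ε hε => ?_
    obtain ⟨N, hN⟩ := exists_nat_gt ((C : ℝ) / ε)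
    have hN0 : (0 : ℝ) < N := lt_of_le_of_lt (by positivity) hN
    have hN0' : 0 < N := by exact_mod_cast hN0
    have h1 := UB_quot_pow y hy ht hN0'
    refine h1.mono ?_
    have h2 : (Module.length R (R ⧸ Ideal.span (Set.range fun i => y i ^ N))).toNat ≤
        r * N ^ d + C * N ^ (d - 1) := by
      exact ENat.toNat_le_of_le_natCast (hup N)
    have h3 : ((Module.length R (R ⧸ Ideal.span (Set.range fun i => y i ^ N))).toNat : ℝ) ≤
        r * (N : ℝ) ^ d + C * (N : ℝ) ^ (d - 1) := by exact_mod_cast h2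
    rw [div_le_iff₀ (by positivity)]
    refine h3.trans ?_
    rw [add_mul]
    have h4 : (N : ℝ) ^ d = (N : ℝ) * (N : ℝ) ^ (d - 1) := by
      rw [← pow_succ']
      congr 1
      omega
    have h5 : (C : ℝ) ≤ ε * N := by
      rw [div_lt_iff₀ hε] at hN
      linarith
    have h6 : (C : ℝ) * (N : ℝ) ^ (d - 1) ≤ ε * (N : ℝ) ^ d := by
      rw [h4, ← mul_assoc]
      gcongr
    linarith
  refine ⟨r, C, hUB, hLB, hup, fun N hN => ?_⟩
  have h1 := hLB.le_of_UBf (UB_quot_pow y hy ht hN)
  rw [le_div_iff₀ (by positivity)] at h1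
  have h2 : r * N ^ d ≤ (Module.length R (R ⧸ Ideal.span (Set.range fun i => y i ^ N))).toNat := by
    exact_mod_cast h1
  rw [← ENat.natCast_toNat (length_quot_pow_ne_top y ht N)]
  exact_mod_cast h2

/-- the limit form of M4. -/
theorem tendsto_length_quot_pow {d : ℕ} (y : Fin d → R) (r C : ℕ) (hd : 0 < d)
    (hup : ∀ N, Module.length R (R ⧸ Ideal.span (Set.range fun i => y i ^ N)) ≤
        (r * N ^ d + C * N ^ (d - 1) : ℕ))
    (hlow : ∀ N, 0 < N → ((r * N ^ d : ℕ) : ℕ∞) ≤
        Module.length R (R ⧸ Ideal.span (Set.range fun i => y i ^ N))) :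
    Tendsto (fun N : ℕ => ((Module.length R (R ⧸ Ideal.span (Set.range fun i => y i ^ N))).toNat : ℝ)
      / (N : ℝ) ^ d) atTop (𝓝 (r : ℝ)) := by
  have h1 : Tendsto (fun N : ℕ => (r : ℝ) + (C : ℝ) / (N : ℝ)) atTop (𝓝 ((r : ℝ) + 0)) :=
    tendsto_const_nhds.add (tendsto_const_div_atTop_nhds_zero_nat (C : ℝ))
  rw [add_zero] at h1
  refine tendsto_of_tendsto_of_tendsto_of_le_of_le' tendsto_const_nhds h1 ?_ ?_
  · filter_upwards [eventually_gt_atTop 0] with N hN
    rw [le_div_iff₀ (by positivity)]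
    have htop : Module.length R (R ⧸ Ideal.span (Set.range fun i => y i ^ N)) ≠ ⊤ :=
      ne_top_of_le_ne_top (ENat.natCast_ne_top _) (hup N)
    have h2 : ((r * N ^ d : ℕ) : ℕ∞) ≤
      ((Module.length R (R ⧸ Ideal.span (Set.range fun i => y i ^ N))).toNat : ℕ∞) := by
      rw [ENat.natCast_toNat htop]
      exact hlow N hN
    exact_mod_cast h2
  · filter_upwards [eventually_gt_atTop 0] with N hN
    have hN0 : (0 : ℝ) < N := by exact_mod_cast hN
    have h2 : (Module.length R (R ⧸ Ideal.span (Set.range fun i => y i ^ N))).toNat ≤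
        r * N ^ d + C * N ^ (d - 1) := ENat.toNat_le_of_le_natCast (hup N)
    have h3 : ((Module.length R (R ⧸ Ideal.span (Set.range fun i => y i ^ N))).toNat : ℝ) ≤
        r * (N : ℝ) ^ d + C * (N : ℝ) ^ (d - 1) := by exact_mod_cast h2
    rw [div_le_iff₀ (by positivity)]
    refine h3.trans (le_of_eq ?_)
    have h4 : (N : ℝ) ^ d = (N : ℝ) * (N : ℝ) ^ (d - 1) := by
      rw [← pow_succ']
      congr 1
      omega
    rw [h4]
    field_simp

end Crest.Agent.R183.HS
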