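import Mathlib
import Crest.Agent.R183.HSRank

/-!
# R183 (Lech), block HS: M5, growth of `l(M/(z_1^N,…)M)` for modules of small dimension
-/

set_option autoImplicit false
set_option linter.unusedSectionVars false

namespace Crest.Agent.R183.HS

open IsLocalRing Filter Topology Crest.Agent.R183.M

universe u v

section
variable {R : Type u} [CommRing R]

/-- `(z)^((d+1) N) ≤ (z^N)` for `d` elements, `N > 0`. -/
theorem span_pow_le_span_pow {d : ℕ} (z : Fin d → R) (N : ℕ) (hN : 0 < N) :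
    Ideal.span (Set.range z) ^ ((d + 1) * N) ≤ Ideal.span (Set.range fun i => z i ^ N) := by
  rw [span_pow_eq_span_monomials, Ideal.span_le]
  rintro _ ⟨⟨s, hs⟩, rfl⟩
  rw [mem_AD] at hs
  have h1 : ∃ j, N ≤ s j := by
    by_contra h
    push Not at h
    have h2 : s.degree ≤ d * N := by
      rw [Finsupp.degree_eq_sum]
      refine (Finset.sum_le_card_nsmul Finset.univ _ N fun j _ => (h j).le).trans ?_
      simp
    rw [hs, add_mul] at h2
    omega
  obtain ⟨j, hj⟩ := h1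
  show mono z s ∈ _
  rw [mono, ← Finset.mul_prod_erase Finset.univ _ (Finset.mem_univ j), ← Nat.add_sub_cancel' hj,
    pow_add]
  exact Ideal.mul_mem_right _ _ (Ideal.mul_mem_right _ _ (Ideal.subset_span ⟨j, rfl⟩))

end

variable {R : Type u} [CommRing R] [IsLocalRing R] [IsNoetherianRing R]

/-- **M5.** `l(M/(z_1^N,…,z_d^N)M) ≤ C N^D` if `dim M ≤ D`. -/
theorem growth_quot_pow (M : Type v) [AddCommGroup M] [Module R M] [Module.Finite R M] (D : ℕ)
    (hD : Module.supportDim R M ≤ D) {d : ℕ} (z : Fin d → R) {t : ℕ}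
    (ht : maximalIdeal R ^ t ≤ Ideal.span (Set.range z)) :
    ∃ C : ℕ, ∀ N : ℕ, 0 < N → lenQ (Ideal.span (Set.range fun i => z i ^ N)) M ≤
      C * (N : ℕ∞) ^ D := by
  obtain ⟨C, hC⟩ := growth_module R M D hD
  refine ⟨C * (t * (d + 1)) ^ D, fun N hN => ?_⟩
  have h1 : maximalIdeal R ^ (t * (d + 1) * N) ≤ Ideal.span (Set.range fun i => z i ^ N) := by
    rw [mul_assoc, pow_mul]
    exact (Ideal.pow_right_mono ht _).trans (span_pow_le_span_pow z N hN)
  refine ((lenQ_mono h1).trans (hC _)).trans (le_of_eq ?_)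
  push_cast
  rw [mul_pow, mul_assoc]

/-- **M5** for `S/(Δ^k)`, `Δ` regular: `l(S/(Δ^k, z_1^N,…,z_d^N)) ≤ C N^(d'-1)`, `dim S = d'`. -/
theorem growth_quot_regular (Δ : R) (hΔ : Δ ∈ nonZeroDivisors R) (k : ℕ) (d' : ℕ)
    (hd' : ringKrullDim R = d') {d : ℕ} (z : Fin d → R) {t : ℕ}
    (ht : maximalIdeal R ^ t ≤ Ideal.span (Set.range z)) :
    ∃ C : ℕ, ∀ N : ℕ, 0 < N →
      Module.length R (R ⧸ (Ideal.span {Δ ^ k} ⊔ Ideal.span (Set.range fun i => z i ^ N))) ≤
      (C * N ^ (d' - 1) : ℕ) := by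
  by_cases hunit : IsUnit (Δ ^ k)
  · refine ⟨0, fun N _ => ?_⟩
    rw [Ideal.span_singleton_eq_top.2 hunit, top_sup_eq]
    have : Subsingleton (R ⧸ (⊤ : Ideal R)) := Ideal.Quotient.subsingleton_iff.2 rfl
    rw [Module.length_eq_zero]
    exact zero_le
  have hne : Ideal.span {Δ ^ k} ≠ ⊤ := fun h => hunit (Ideal.span_singleton_eq_top.1 h)
  have : Nontrivial (R ⧸ Ideal.span {Δ ^ k}) := Ideal.Quotient.nontrivial_iff.2 hne
  have hdim := ringKrullDim_quotient_succ_le_of_nonZeroDivisor (pow_mem hΔ k)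
  have hdim2 : Module.supportDim R (R ⧸ Ideal.span {Δ ^ k}) ≤ (d' - 1 : ℕ) := by
    rw [Module.supportDim_quotient_eq_ringKrullDim]
    rw [hd'] at hdim
    have hloc : IsLocalRing (R ⧸ Ideal.span {Δ ^ k}) :=
      IsLocalRing.of_surjective' _ Ideal.Quotient.mk_surjective
    have hnb : ringKrullDim (R ⧸ Ideal.span {Δ ^ k}) ≠ ⊥ := ringKrullDim_ne_bot
    obtain ⟨a, ha⟩ := WithBot.ne_bot_iff_exists.1 hnb
    rw [← ha] at hdim ⊢
    have h2 : a + 1 ≤ (d' : ℕ∞) := by exact_mod_cast hdim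
    have h3 : a ≤ ((d' - 1 : ℕ) : ℕ∞) := by
      have : a ≠ ⊤ := by
        rintro rfl
        simp at h2
      obtain ⟨n, rfl⟩ := ENat.ne_top_iff_exists.1 this
      have h4 : n + 1 ≤ d' := by exact_mod_cast h2
      exact_mod_cast (by omega : n ≤ d' - 1)
    exact WithBot.coe_le_coe.2 h3
  obtain ⟨C, hC⟩ := growth_quot_pow (R ⧸ Ideal.span {Δ ^ k}) (d' - 1) hdim2 z ht
  refine ⟨C, fun N hN => ?_⟩
  refine le_trans (le_of_eq ?_) ((hC N hN).trans (le_of_eq (by push_cast; rfl)))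
  unfold lenQ
  refine (LinearEquiv.length_eq ?_).symm
  have h1 : (Ideal.span (Set.range fun i => z i ^ N) • (⊤ : Submodule R (R ⧸ Ideal.span {Δ ^ k}))) =
      Submodule.map (Submodule.mkQ (Ideal.span {Δ ^ k}))
        (Ideal.span {Δ ^ k} ⊔ Ideal.span (Set.range fun i => z i ^ N)) := by
    rw [Submodule.map_sup, Submodule.mkQ_map_self, bot_sup_eq, ← Submodule.range_mkQ
      (Ideal.span {Δ ^ k}), LinearMap.range_eq_map, ← Submodule.map_smul'', smul_eq_mul,
      Ideal.mul_top]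
  exact (Submodule.quotEquivOfEq _ _ h1).trans
    (Submodule.quotientQuotientEquivQuotient _ _ le_sup_left)

end Crest.Agent.R183.HS
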