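import Mathlib
import Crest.Agent.R183.M2

/-!
# R183, block M: reduction of Lech's inequality to domains
-/

set_option autoImplicit false

namespace Crest.Agent.R183.M

open Filter Topology IsLocalRing TensorProduct

universe u v

/-- Dimension formula for flat local homomorphisms. -/
theorem ringKrullDim_eq_add_of_flat (R : Type u) (S : Type v) [CommRing R] [IsLocalRing R]
    [IsNoetherianRing R] [CommRing S] [IsLocalRing S] [IsNoetherianRing S] [Algebra R S]
    [Module.Flat R S] [IsLocalHom (algebraMap R S)] :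
    ringKrullDim S = ringKrullDim R + ringKrullDim (S ⧸ (maximalIdeal R).map (algebraMap R S)) := by
  have hlo : (maximalIdeal S).LiesOver (maximalIdeal R) :=
    ⟨(IsLocalRing.maximalIdeal_comap (algebraMap R S)).symm⟩
  have hne : (maximalIdeal R).map (algebraMap R S) ≠ ⊤ :=
    (IsLocalRing.map_maximalIdeal_lt_top (algebraMap R S)).ne
  have : Nontrivial (S ⧸ (maximalIdeal R).map (algebraMap R S)) :=
    Ideal.Quotient.nontrivial_iff.2 hne
  have : IsLocalRing (S ⧸ (maximalIdeal R).map (algebraMap R S)) :=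
    IsLocalRing.of_surjective' _ Ideal.Quotient.mk_surjective
  have h := Ideal.height_eq_height_add_of_liesOver_of_hasGoingDown (maximalIdeal R)
    (maximalIdeal S)
  rw [IsLocalRing.map_maximalIdeal_of_surjective _ Ideal.Quotient.mk_surjective] at h
  rw [← IsLocalRing.maximalIdeal_height_eq_ringKrullDim (R := S),
    ← IsLocalRing.maximalIdeal_height_eq_ringKrullDim (R := R),
    ← IsLocalRing.maximalIdeal_height_eq_ringKrullDim
      (R := S ⧸ (maximalIdeal R).map (algebraMap R S)), h]
  rfl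

/-- `S ⊗ R/P ≃ S/PS` as `S`-modules. -/
noncomputable def tensorQuotEquiv (R : Type u) (S : Type v) [CommRing R] [CommRing S] [Algebra R S]
    (P : Ideal R) : (S ⊗[R] (R ⧸ P)) ≃ₗ[S] (S ⧸ P.map (algebraMap R S)) :=
  (Algebra.TensorProduct.quotIdealMapEquivTensorQuot S P).symm.toLinearEquiv

/-- Reduction of Lech's inequality to domains, version for modules. -/
theorem domain_reduction_module (R : Type u) (S : Type v) [CommRing R] [IsLocalRing R]
    [IsNoetherianRing R] [CommRing S] [IsLocalRing S] [IsNoetherianRing S] [Algebra R S]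
    [Module.Flat R S] [IsLocalHom (algebraMap R S)] (d d' : ℕ) (hd : ringKrullDim R ≤ d)
    (H : ∀ P : Ideal R, P.IsPrime → ringKrullDim (R ⧸ P) = d →
      ∃ c : ℝ, UBf (hs R (R ⧸ P)) d c ∧ LBf (hs S (S ⧸ P.map (algebraMap R S))) d' c)
    (M : Type u) [AddCommGroup M] [Module R M] [Module.Finite R M] :
    ∃ c : ℝ, UBf (hs R M) d c ∧ LBf (hs S (S ⊗[R] M)) d' c := by
  induction ‹Module.Finite R M› using
    IsNoetherianRing.induction_on_isQuotientEquivQuotientPrime R with
  | subsingleton N =>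
    refine ⟨0, ?_, LBf.zero _ _⟩
    have : hs R N = fun _ => 0 := by
      funext n
      unfold hs lenQ
      rw [Module.length_eq_zero]
      rfl
    rw [this]
    exact UBf.zero d
  | quotient N P e =>
    have hP := P.2
    rw [hs_congr e, hs_congr ((e.baseChange R S N (R ⧸ P.1)).trans (tensorQuotEquiv R S P.1))]
    rcases lt_or_eq_of_le ((Module.supportDim_le_ringKrullDim R (R ⧸ P.1)).trans hd) with hlt | heq
    · exact ⟨0, UB_of_supportDim_lt d hlt, LBf.zero _ _⟩
    · rw [Module.supportDim_quotient_eq_ringKrullDim] at heq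
      exact H P.1 hP heq
  | exact N₁ N₂ N₃ f g hf hg hfg h₁ h₃ =>
    obtain ⟨c₁, h1, h1'⟩ := h₁
    obtain ⟨c₃, h3, h3'⟩ := h₃
    refine ⟨c₁ + c₃, UB_of_exact f g hfg hg h1 h3, ?_⟩
    refine LB_of_exact (f.baseChange S) (g.baseChange S) ?_ ?_ ?_ h1' h3'
    · exact Module.Flat.lTensor_preserves_injective_linearMap f hf
    · exact lTensor_exact S hfg hg
    · exact LinearMap.lTensor_surjective S hg

/-- `UBf`/`LBf` form of Lech's inequality. -/
def LechC (R : Type u) (S : Type v) [CommRing R] [IsLocalRing R] [CommRing S] [IsLocalRing S]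
    (d d' : ℕ) : Prop :=
  ∃ c : ℝ, UBf (hs R R) d c ∧ LBf (hs S S) d' c

/-- Reduction of Lech's inequality to domains. -/
theorem domain_reduction (R : Type u) (S : Type v) [CommRing R] [IsLocalRing R]
    [IsNoetherianRing R] [CommRing S] [IsLocalRing S] [IsNoetherianRing S] [Algebra R S]
    [Module.Flat R S] [IsLocalHom (algebraMap R S)] (d d' : ℕ) (hd : ringKrullDim R = d)
    (hd' : ringKrullDim S = d')
    (H : ∀ P : Ideal R, P.IsPrime → ∀ _ : IsLocalRing (R ⧸ P),
      ∀ _ : IsLocalRing (S ⧸ P.map (algebraMap R S)),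
      ∀ _ : Module.Flat (R ⧸ P) (S ⧸ P.map (algebraMap R S)),
      ∀ _ : IsLocalHom (algebraMap (R ⧸ P) (S ⧸ P.map (algebraMap R S))),
      ringKrullDim (R ⧸ P) = d → ringKrullDim (S ⧸ P.map (algebraMap R S)) = d' →
        LechC (R ⧸ P) (S ⧸ P.map (algebraMap R S)) d d') :
    LechC R S d d' := by
  suffices h : ∀ P : Ideal R, P.IsPrime → ringKrullDim (R ⧸ P) = d →
      ∃ c : ℝ, UBf (hs R (R ⧸ P)) d c ∧ LBf (hs S (S ⧸ P.map (algebraMap R S))) d' c by
    obtain ⟨c, hc, hc'⟩ := domain_reduction_module R S d d' hd.le h R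
    refine ⟨c, hc, ?_⟩
    have he : hs S (S ⊗[R] R) = hs S S := hs_congr (AlgebraTensorModule.rid R S S)
    exact he ▸ hc'
  intro P hP hdP
  have hPne : P ≠ ⊤ := hP.ne_top
  have hPm : P ≤ maximalIdeal R := IsLocalRing.le_maximalIdeal hPne
  have hPmap : P.map (algebraMap R S) ≤ maximalIdeal S :=
    (Ideal.map_mono hPm).trans (IsLocalRing.map_maximalIdeal_le (algebraMap R S))
  have hPmapne : P.map (algebraMap R S) ≠ ⊤ := by
    intro h
    rw [h, top_le_iff] at hPmap
    exact (maximalIdeal.isMaximal S).ne_top hPmap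
  have i1 : Nontrivial (R ⧸ P) := Ideal.Quotient.nontrivial_iff.2 hPne
  have i2 : Nontrivial (S ⧸ P.map (algebraMap R S)) := Ideal.Quotient.nontrivial_iff.2 hPmapne
  have i3 : IsLocalRing (R ⧸ P) := IsLocalRing.of_surjective' _ Ideal.Quotient.mk_surjective
  have i4 : IsLocalRing (S ⧸ P.map (algebraMap R S)) :=
    IsLocalRing.of_surjective' _ Ideal.Quotient.mk_surjective
  have i5 : Module.Flat (R ⧸ P) (S ⧸ P.map (algebraMap R S)) :=
    Module.Flat.of_linearEquiv
      (Algebra.TensorProduct.quotIdealMapEquivQuotTensor S P).toLinearEquiv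
  have i6 : IsLocalHom (algebraMap (R ⧸ P) (S ⧸ P.map (algebraMap R S))) := by
    constructor
    intro x hx
    obtain ⟨r, rfl⟩ := Ideal.Quotient.mk_surjective x
    have h1 : algebraMap (R ⧸ P) (S ⧸ P.map (algebraMap R S)) (Ideal.Quotient.mk P r)
        = Ideal.Quotient.mk _ (algebraMap R S r) := rfl
    rw [h1] at hx
    have h2 : IsLocalHom (Ideal.Quotient.mk (P.map (algebraMap R S))) :=
      IsLocalHom.of_surjective _ Ideal.Quotient.mk_surjective
    have h3 : IsUnit (algebraMap R S r) := h2.map_nonunit _ hx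
    have h4 : IsUnit r := isUnit_of_map_unit (algebraMap R S) r h3
    exact h4.map _
  -- dimension of `S/PS`
  have hdim := ringKrullDim_eq_add_of_flat R S
  have hdim' := ringKrullDim_eq_add_of_flat (R ⧸ P) (S ⧸ P.map (algebraMap R S))
  have hfib : ringKrullDim (S ⧸ (maximalIdeal R).map (algebraMap R S)) =
      ringKrullDim ((S ⧸ P.map (algebraMap R S)) ⧸
        (maximalIdeal (R ⧸ P)).map (algebraMap (R ⧸ P) (S ⧸ P.map (algebraMap R S)))) := by
    have h1 : (maximalIdeal (R ⧸ P)).map (algebraMap (R ⧸ P) (S ⧸ P.map (algebraMap R S)))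
        = ((maximalIdeal R).map (algebraMap R S)).map
          (Ideal.Quotient.mk (P.map (algebraMap R S))) := by
      rw [← IsLocalRing.map_maximalIdeal_of_surjective (Ideal.Quotient.mk P)
        Ideal.Quotient.mk_surjective, Ideal.map_map, Ideal.map_map]
      rfl
    rw [h1]
    refine ringKrullDim_eq_of_ringEquiv (DoubleQuot.quotQuotEquivQuotOfLE
      (Ideal.map_mono hPm)).symm
  have hdimP : ringKrullDim (S ⧸ P.map (algebraMap R S)) = d' := by
    rw [hdim', ← hfib, hdP, ← hd, ← hdim, hd']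
  obtain ⟨c, hc, hc'⟩ := H P hP i3 i4 i5 i6 hdP hdimP
  refine ⟨c, ?_, ?_⟩
  · rw [hs_of_surjective (A := R ⧸ P) Ideal.Quotient.mk_surjective]
    exact hc
  · rw [hs_of_surjective (A := S ⧸ P.map (algebraMap R S)) Ideal.Quotient.mk_surjective]
    exact hc'

/-- `hs` is invariant under flat local extensions with `m R' = m'` (completion, gonflement). -/
theorem hs_eq_of_flat (R : Type u) (R' : Type v) [CommRing R] [IsLocalRing R]
    [CommRing R'] [IsLocalRing R'] [Algebra R R'] [Module.Flat R R']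
    [IsLocalHom (algebraMap R R')]
    (hm : (maximalIdeal R).map (algebraMap R R') = maximalIdeal R') : hs R R = hs R' R' := by
  funext N
  rw [hs_self, hs_self]
  congr 1
  have h1 := IsLocalRing.length_baseChange R R' (R ⧸ maximalIdeal R ^ N)
  have h2 : Module.length R' (R' ⧸ (maximalIdeal R).map (algebraMap R R')) = 1 := by
    rw [hm, Module.length_eq_one_iff]
    exact isSimpleModule_iff_isCoatom.2 (maximalIdeal.isMaximal R').out
  rw [h2, mul_one] at h1
  rw [← h1, (tensorQuotEquiv R R' (maximalIdeal R ^ N)).length_eq, Ideal.map_pow, hm]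

/-- Passing from `R'` back to `R` (e.g. `R'` the completion). -/
theorem LechC.of_flat_left {R R' S : Type*} [CommRing R] [IsLocalRing R]
    [CommRing R'] [IsLocalRing R'] [CommRing S] [IsLocalRing S] {d d' : ℕ}
    (h : hs R R = hs R' R') (hL : LechC R' S d d') : LechC R S d d' := by
  obtain ⟨c, hc, hc'⟩ := hL
  exact ⟨c, h ▸ hc, hc'⟩

theorem LechC.of_flat_right {R S S' : Type*} [CommRing R] [IsLocalRing R]
    [CommRing S] [IsLocalRing S] [CommRing S'] [IsLocalRing S'] {d d' : ℕ}
    (h : hs S S = hs S' S') (hL : LechC R S' d d') : LechC R S d d' := by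
  obtain ⟨c, hc, hc'⟩ := hL
  exact ⟨c, hc, h ▸ hc'⟩

/-- The final step: from `LechC` to the inequality of the two limits. -/
theorem le_of_LechC {R S : Type*} [CommRing R] [IsLocalRing R] [CommRing S] [IsLocalRing S]
    {d d' : ℕ} (hL : LechC R S d d') {e e' : ℝ}
    (he : Filter.Tendsto (fun N : ℕ => (Nat.factorial d : ℝ) *
        ((Module.length R (R ⧸ IsLocalRing.maximalIdeal R ^ N)).toNat : ℝ) / (N : ℝ) ^ d)
      Filter.atTop (nhds e))
    (he' : Filter.Tendsto (fun N : ℕ => (Nat.factorial d' : ℝ) *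
        ((Module.length S (S ⧸ IsLocalRing.maximalIdeal S ^ N)).toNat : ℝ) / (N : ℝ) ^ d')
      Filter.atTop (nhds e')) : e ≤ e' := by
  obtain ⟨c, hc, hc'⟩ := hL
  have h1 : LBf (hs R R) d e := by
    refine LBf.of_tendsto ?_
    simpa only [hs_self] using he
  have h2 : UBf (hs S S) d' e' := by
    refine UBf.of_tendsto ?_
    simpa only [hs_self] using he'
  exact (h1.le_of_UBf hc).trans (hc'.le_of_UBf h2)

end Crest.Agent.R183.M
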