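import Mathlib
import Crest.Agent.R183.M3

/-!
# R183, block M: summation lemmas and the extension with infinite residue field
-/

set_option autoImplicit false

namespace Crest.Agent.R183.M

open Filter Topology IsLocalRing TensorProduct

universe u v

/-- partial sums `Sg f N = ∑_{i ≤ N} f i`. -/
def Sg (f : ℕ → ℕ) (N : ℕ) : ℕ := ∑ i ∈ Finset.range (N + 1), f i

theorem Sg_mono {f g : ℕ → ℕ} (h : ∀ n, f n ≤ g n) (n : ℕ) : Sg f n ≤ Sg g n :=
  Finset.sum_le_sum fun i _ => h i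

theorem Sg_iterate_mono {f g : ℕ → ℕ} (h : ∀ n, f n ≤ g n) (r n : ℕ) : Sg^[r] f n ≤ Sg^[r] g n := by
  induction r generalizing n with
  | zero => exact h n
  | succ r ih =>
    rw [Function.iterate_succ_apply', Function.iterate_succ_apply']
    exact Sg_mono ih n

theorem sum_pow_le (D N : ℕ) :
    ((D : ℝ) + 1) * ∑ i ∈ Finset.range (N + 1), (i : ℝ) ^ D ≤ ((N : ℝ) + 1) ^ (D + 1) := by
  induction N with
  | zero =>
    simp only [zero_add, Finset.range_one, Finset.sum_singleton, Nat.cast_zero, one_pow]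
    rcases Nat.eq_zero_or_pos D with rfl | hD
    · simp
    · rw [zero_pow hD.ne']; simp
  | succ N ih =>
    rw [Finset.sum_range_succ, mul_add]
    have h1 : ((D : ℝ) + 1) * ((N + 1 : ℕ) : ℝ) ^ D ≤
        ((N : ℝ) + 1 + 1) ^ (D + 1) - ((N : ℝ) + 1) ^ (D + 1) := by
      have h2 := one_add_mul_le_pow_of_nonneg_aux D ((N : ℝ) + 1) (by positivity)
      push_cast
      linarith
    push_cast at h1 ⊢
    linarith
where
  one_add_mul_le_pow_of_nonneg_aux (D : ℕ) (x : ℝ) (hx : 0 ≤ x) :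
      x ^ (D + 1) + ((D : ℝ) + 1) * x ^ D ≤ (x + 1) ^ (D + 1) := by
    induction D with
    | zero => simp
    | succ D ih =>
      have h1 : (x + 1) * (x ^ (D + 1) + ((D : ℝ) + 1) * x ^ D) ≤ (x + 1) * (x + 1) ^ (D + 1) := by
        gcongr
      have h2 : (x + 1) * (x + 1) ^ (D + 1) = (x + 1) ^ (D + 1 + 1) := by ring
      rw [h2] at h1
      refine le_trans ?_ h1
      push_cast
      have h3 : 0 ≤ ((D : ℝ) + 1) * x ^ D := by positivity
      have h4 : (x + 1) * (x ^ (D + 1) + ((D : ℝ) + 1) * x ^ D)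
          = x ^ (D + 1 + 1) + ((D : ℝ) + 1 + 1) * x ^ (D + 1) + ((D : ℝ) + 1) * x ^ D := by ring
      linarith

theorem le_sum_pow (D N : ℕ) :
    (N : ℝ) ^ (D + 1) ≤ ((D : ℝ) + 1) * ∑ i ∈ Finset.range (N + 1), (i : ℝ) ^ D := by
  induction N with
  | zero => simp; positivity
  | succ N ih =>
    rw [Finset.sum_range_succ, mul_add]
    have h1 := aux D (N : ℝ) (by positivity)
    push_cast
    linarith
where
  aux (D : ℕ) (x : ℝ) (hx : 0 ≤ x) :
      (x + 1) ^ (D + 1) ≤ x ^ (D + 1) + ((D : ℝ) + 1) * (x + 1) ^ D := by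
    induction D with
    | zero => simp
    | succ D ih =>
      have h1 : (x + 1) * (x + 1) ^ (D + 1) ≤
          (x + 1) * (x ^ (D + 1) + ((D : ℝ) + 1) * (x + 1) ^ D) := by gcongr
      have h2 : (x + 1) * (x + 1) ^ (D + 1) = (x + 1) ^ (D + 1 + 1) := by ring
      rw [h2] at h1
      refine le_trans h1 ?_
      push_cast
      have h3 : x ^ (D + 1) ≤ (x + 1) ^ (D + 1) := by gcongr; linarith
      have h4 : (x + 1) * (x ^ (D + 1) + ((D : ℝ) + 1) * (x + 1) ^ D)
          = x ^ (D + 1 + 1) + ((D : ℝ) + 1) * (x + 1) ^ (D + 1) + x ^ (D + 1) := by ring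
      linarith

/-- Partial sums, upper bound. -/
theorem UBf.Sg {f : ℕ → ℕ} {D : ℕ} {c : ℝ} (h : UBf f D c) : UBf (Sg f) (D + 1) c := by
  intro ε hε
  have hc := h.nonneg
  obtain ⟨N0, hN0⟩ := eventually_atTop.1 (h (ε / 2) (by positivity))
  set K : ℝ := ∑ i ∈ Finset.range N0, (Nat.factorial D : ℝ) * (f i : ℝ) with hK
  have hK0 : 0 ≤ K := Finset.sum_nonneg fun i _ => by positivity
  -- pointwise bound
  have h1 : ∀ N : ℕ, (Nat.factorial D : ℝ) * (M.Sg f N : ℝ) ≤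
      K + (c + ε / 2) * ∑ i ∈ Finset.range (N + 1), (i : ℝ) ^ D := by
    intro N
    unfold M.Sg
    push_cast
    rw [Finset.mul_sum, Finset.mul_sum]
    have h2 : ∀ i ∈ Finset.range (N + 1), (Nat.factorial D : ℝ) * (f i : ℝ) ≤
        (if i ∈ Finset.range N0 then (Nat.factorial D : ℝ) * (f i : ℝ) else 0) +
          (c + ε / 2) * (i : ℝ) ^ D := by
      intro i _
      by_cases hi : i ∈ Finset.range N0
      · rw [if_pos hi]
        have : 0 ≤ (c + ε / 2) * (i : ℝ) ^ D := by positivity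
        linarith
      · rw [if_neg hi, zero_add]
        exact hN0 i (by simpa using hi)
    refine (Finset.sum_le_sum h2).trans ?_
    rw [Finset.sum_add_distrib]
    gcongr
    rw [← Finset.sum_filter]
    exact Finset.sum_le_sum_of_subset_of_nonneg
      (fun i hi => (Finset.mem_filter.1 hi).2) fun i _ _ => by positivity
  have h3 : ∀ᶠ N : ℕ in atTop, (c + ε / 2) * ((N : ℝ) + 1) ^ (D + 1) ≤
      (c + 3 * ε / 4) * (N : ℝ) ^ (D + 1) := by
    have h4 : ∀ᶠ N : ℕ in atTop, (((N + 1 : ℕ) : ℝ) ^ (D + 1)) / (N : ℝ) ^ (D + 1) <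
        (c + 3 * ε / 4) / (c + ε / 2) := by
      refine (tendsto_order.1 (tendsto_shift_ratio 1 (D + 1))).2 _ ?_
      rw [gt_iff_lt, lt_div_iff₀ (by positivity : (0:ℝ) < c + ε / 2)]
      linarith
    filter_upwards [h4, eventually_gt_atTop 0] with N h5 h6
    have hN : (0 : ℝ) < (N : ℝ) ^ (D + 1) := by positivity
    rw [div_lt_div_iff₀ hN (by positivity)] at h5
    push_cast at h5
    linarith
  have h7 : ∀ᶠ N : ℕ in atTop, ((D : ℝ) + 1) * K ≤ ε / 4 * (N : ℝ) ^ (D + 1) := by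
    have h8 : Tendsto (fun N : ℕ => (N : ℝ) ^ (D + 1)) atTop atTop :=
      (tendsto_pow_atTop (by omega)).comp tendsto_natCast_atTop_atTop
    filter_upwards [h8.eventually_ge_atTop (((D : ℝ) + 1) * K / (ε / 4))] with N h9
    rw [div_le_iff₀ (by positivity)] at h9
    linarith
  filter_upwards [h3, h7] with N h4 h5
  have h6 := h1 N
  have h8 := sum_pow_le D N
  have h9 : ((Nat.factorial (D + 1) : ℕ) : ℝ) * (M.Sg f N : ℝ) =
      ((D : ℝ) + 1) * ((Nat.factorial D : ℝ) * (M.Sg f N : ℝ)) := by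
    rw [Nat.factorial_succ]
    push_cast
    ring
  rw [h9]
  calc ((D : ℝ) + 1) * ((Nat.factorial D : ℝ) * (M.Sg f N : ℝ))
      ≤ ((D : ℝ) + 1) * (K + (c + ε / 2) * ∑ i ∈ Finset.range (N + 1), (i : ℝ) ^ D) := by gcongr
    _ = ((D : ℝ) + 1) * K +
        (c + ε / 2) * (((D : ℝ) + 1) * ∑ i ∈ Finset.range (N + 1), (i : ℝ) ^ D) := by ring
    _ ≤ ε / 4 * (N : ℝ) ^ (D + 1) + (c + ε / 2) * ((N : ℝ) + 1) ^ (D + 1) := by gcongr
    _ ≤ ε / 4 * (N : ℝ) ^ (D + 1) + (c + 3 * ε / 4) * (N : ℝ) ^ (D + 1) := by gcongr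
    _ = (c + ε) * (N : ℝ) ^ (D + 1) := by ring

/-- Partial sums, lower bound. -/
theorem LBf.Sg {f : ℕ → ℕ} {D : ℕ} {c : ℝ} (h : LBf f D c) : LBf (Sg f) (D + 1) c := by
  intro ε hε
  rcases le_total (c - ε / 2) 0 with hce | hce
  · filter_upwards with N
    have h2 : (0 : ℝ) ≤ (Nat.factorial (D + 1) : ℝ) * (M.Sg f N : ℝ) := by positivity
    have h3 : (c - ε) * (N : ℝ) ^ (D + 1) ≤ 0 :=
      mul_nonpos_of_nonpos_of_nonneg (by linarith) (by positivity)
    linarith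
  obtain ⟨N0, hN0⟩ := eventually_atTop.1 (h (ε / 2) (by positivity))
  set K : ℝ := ∑ i ∈ Finset.range N0, (c - ε / 2) * (i : ℝ) ^ D with hK
  have hK0 : 0 ≤ K := Finset.sum_nonneg fun i _ => by positivity
  have h1 : ∀ N : ℕ, (c - ε / 2) * ∑ i ∈ Finset.range (N + 1), (i : ℝ) ^ D - K ≤
      (Nat.factorial D : ℝ) * (M.Sg f N : ℝ) := by
    intro N
    unfold M.Sg
    push_cast
    rw [Finset.mul_sum, Finset.mul_sum, sub_le_iff_le_add']
    have h2 : ∀ i ∈ Finset.range (N + 1), (c - ε / 2) * (i : ℝ) ^ D ≤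
        (if i ∈ Finset.range N0 then (c - ε / 2) * (i : ℝ) ^ D else 0) +
          (Nat.factorial D : ℝ) * (f i : ℝ) := by
      intro i _
      by_cases hi : i ∈ Finset.range N0
      · rw [if_pos hi]
        have : 0 ≤ (Nat.factorial D : ℝ) * (f i : ℝ) := by positivity
        linarith
      · rw [if_neg hi, zero_add]
        exact hN0 i (by simpa using hi)
    refine (Finset.sum_le_sum h2).trans ?_
    rw [Finset.sum_add_distrib]
    gcongr
    rw [← Finset.sum_filter]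
    exact Finset.sum_le_sum_of_subset_of_nonneg
      (fun i hi => (Finset.mem_filter.1 hi).2) fun i _ _ => by positivity
  have h7 : ∀ᶠ N : ℕ in atTop, ((D : ℝ) + 1) * K ≤ ε / 2 * (N : ℝ) ^ (D + 1) := by
    have h8 : Tendsto (fun N : ℕ => (N : ℝ) ^ (D + 1)) atTop atTop :=
      (tendsto_pow_atTop (by omega)).comp tendsto_natCast_atTop_atTop
    filter_upwards [h8.eventually_ge_atTop (((D : ℝ) + 1) * K / (ε / 2))] with N h9
    rw [div_le_iff₀ (by positivity)] at h9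
    linarith
  filter_upwards [h7] with N h5
  have h6 := h1 N
  have h8 := le_sum_pow D N
  have h9 : ((Nat.factorial (D + 1) : ℕ) : ℝ) * (M.Sg f N : ℝ) =
      ((D : ℝ) + 1) * ((Nat.factorial D : ℝ) * (M.Sg f N : ℝ)) := by
    rw [Nat.factorial_succ]
    push_cast
    ring
  rw [h9]
  calc (c - ε) * (N : ℝ) ^ (D + 1)
      = (c - ε / 2) * (N : ℝ) ^ (D + 1) - ε / 2 * (N : ℝ) ^ (D + 1) := by ring
    _ ≤ (c - ε / 2) * (((D : ℝ) + 1) * ∑ i ∈ Finset.range (N + 1), (i : ℝ) ^ D)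
        - ((D : ℝ) + 1) * K := by gcongr
    _ = ((D : ℝ) + 1) * ((c - ε / 2) * ∑ i ∈ Finset.range (N + 1), (i : ℝ) ^ D - K) := by ring
    _ ≤ ((D : ℝ) + 1) * ((Nat.factorial D : ℝ) * (M.Sg f N : ℝ)) := by gcongr

theorem UBf.Sg_iterate {f : ℕ → ℕ} {D : ℕ} {c : ℝ} (h : UBf f D c) (r : ℕ) :
    UBf (M.Sg^[r] f) (D + r) c := by
  induction r with
  | zero => exact h
  | succ r ih =>
    rw [Function.iterate_succ_apply']
    exact ih.Sg

theorem LBf.Sg_iterate {f : ℕ → ℕ} {D : ℕ} {c : ℝ} (h : LBf f D c) (r : ℕ) :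
    LBf (M.Sg^[r] f) (D + r) c := by
  induction r with
  | zero => exact h
  | succ r ih =>
    rw [Function.iterate_succ_apply']
    exact ih.Sg

/-- If `Sg^{r+f} g ≤ Sg^r h` pointwise, `g ≥ c` (dimension `D`) and `h ≤ e` (dimension `D + f`),
then `c ≤ e`. -/
theorem le_of_Sg_iterate_le {g h : ℕ → ℕ} {D r s : ℕ} {c e : ℝ}
    (hle : ∀ N, M.Sg^[r + s] g N ≤ M.Sg^[r] h N) (hg : LBf g D c) (hh : UBf h (D + s) e) :
    c ≤ e := by
  have h1 := hg.Sg_iterate (r + s)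
  have h2 := (hh.Sg_iterate r).mono_left hle
  have h3 : D + s + r = D + (r + s) := by ring
  rw [h3] at h2
  exact h1.le_of_UBf h2

/-- Passing back from `T` to `R`: if the limit `e` of `f` exists in dimension `D`, `Sg^n f ≤ g`
and `g ≤ c` in dimension `D + n`, then `f ≤ c` in dimension `D`. -/
theorem UBf.of_Sg_iterate_le {f g : ℕ → ℕ} {D n : ℕ} {c e : ℝ}
    (hfU : UBf f D e) (hfL : LBf f D e) (hle : ∀ N, M.Sg^[n] f N ≤ g N) (hg : UBf g (D + n) c) :
    UBf f D c := by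
  have h1 := hfL.Sg_iterate n
  have h2 := hg.mono_left hle
  exact hfU.mono (h1.le_of_UBf h2)

end Crest.Agent.R183.M
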