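import Mathlib
import Crest.Agent.R183.M4

/-!
# R183, block M: a flat local extension with infinite residue field
-/

set_option autoImplicit false

namespace Crest.Agent.R183.M

open Filter Topology IsLocalRing TensorProduct Polynomial

universe u v

section RX

variable (R : Type u) [CommRing R] [IsLocalRing R]

/-- the prime `m R[X]` -/
noncomputable def mX : Ideal R[X] := (maximalIdeal R).map C

instance mX_isPrime : (mX R).IsPrime := Ideal.isPrime_map_C_of_isPrime

/-- `R(X) = R[X]_{m R[X]}` -/
abbrev RX : Type u := Localization.AtPrime (mX R)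

theorem algebraMap_RX : algebraMap R (RX R) = (algebraMap R[X] (RX R)).comp C := by
  rw [IsScalarTower.algebraMap_eq R R[X] (RX R)]
  rfl

instance [IsNoetherianRing R] : IsNoetherianRing (RX R) :=
  IsLocalization.isNoetherianRing (mX R).primeCompl (RX R) inferInstance

instance : Module.Flat R (RX R) := by
  have h1 : Module.Flat R[X] (RX R) := IsLocalization.flat _ (mX R).primeCompl
  exact Module.Flat.trans R R[X] (RX R)

theorem map_maximalIdeal_RX :
    (maximalIdeal R).map (algebraMap R (RX R)) = maximalIdeal (RX R) := by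
  have h1 : (mX R).map (algebraMap R[X] (RX R)) = maximalIdeal (RX R) :=
    Localization.AtPrime.map_eq_maximalIdeal
  rw [← h1, algebraMap_RX, ← Ideal.map_map]
  rfl

instance : IsLocalHom (algebraMap R (RX R)) := by
  constructor
  intro a ha
  by_contra hna
  have h1 : a ∈ maximalIdeal R := (mem_maximalIdeal _).2 hna
  have h2 : algebraMap R (RX R) a ∈ maximalIdeal (RX R) := by
    rw [← map_maximalIdeal_RX]
    exact Ideal.mem_map_of_mem _ h1
  exact (mem_maximalIdeal _).1 h2 ha

instance : Infinite (ResidueField (RX R)) := by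
  have hinj : Function.Injective
      (fun n : ℕ => residue (RX R) (algebraMap R[X] (RX R) (X ^ n))) := by
    intro i j hij
    by_contra hne
    have h1 : algebraMap R[X] (RX R) (X ^ i - X ^ j) ∈ maximalIdeal (RX R) := by
      rw [← residue_eq_zero_iff, map_sub, map_sub, sub_eq_zero]
      exact hij
    have h2 : (X ^ i - X ^ j : R[X]) ∈ mX R := by
      have h3 : (maximalIdeal (RX R)).comap (algebraMap R[X] (RX R)) = mX R :=
        Localization.AtPrime.under_maximalIdeal
      rw [← h3]
      exact h1
    rw [mX, Ideal.mem_map_C_iff] at h2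
    have h4 := h2 i
    rw [coeff_sub, coeff_X_pow, coeff_X_pow, if_pos rfl, if_neg hne, sub_zero] at h4
    exact (maximalIdeal.isMaximal R).ne_top ((Ideal.eq_top_iff_one _).2 h4)
  exact Infinite.of_injective _ hinj

theorem hs_RX : hs (RX R) (RX R) = hs R R :=
  (hs_eq_of_flat R (RX R) (map_maximalIdeal_RX R)).symm

theorem ringKrullDim_RX [IsNoetherianRing R] : ringKrullDim (RX R) = ringKrullDim R := by
  rw [ringKrullDim_eq_add_of_flat R (RX R), map_maximalIdeal_RX]
  have h1 : ringKrullDim (RX R ⧸ maximalIdeal (RX R)) = 0 :=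
    ringKrullDim_eq_zero_of_isField
      ((Ideal.Quotient.maximal_ideal_iff_isField_quotient _).1 (maximalIdeal.isMaximal _))
  rw [h1, add_zero]

end RX

end Crest.Agent.R183.M
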