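import Mathlib
import Crest.Agent.R183.M5

/-!
# R183, block M: Hilbert functions and primes of coheight one, regular closed fibres
-/

set_option autoImplicit false

namespace Crest.Agent.R183.M

open Filter Topology IsLocalRing TensorProduct

universe u v

section L0

variable {A : Type u} [CommRing A] [IsLocalRing A] [IsNoetherianRing A]

/-- (L0) `l_{A_q}(A_q / I A_q) ≤ l_A(A / (I + xA))` for `x ∈ m \ q`. -/
theorem length_localization_le (q : Ideal A) [q.IsPrime] (x : A) (hxm : x ∈ maximalIdeal A)
    (hxq : x ∉ q) (I : Ideal A) :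
    Module.length (Localization.AtPrime q)
        (Localization.AtPrime q ⧸ I.map (algebraMap A (Localization.AtPrime q))) ≤
      Module.length A (A ⧸ (I ⊔ Ideal.span {x})) := by
  rw [Module.length_quotient, Module.length_quotient]
  set Aq := Localization.AtPrime q
  let F : Ideal Aq → Ideal A := fun L => L.comap (algebraMap A Aq) ⊔ Ideal.span {x}
  have hxu : IsUnit (algebraMap A Aq x) :=
    IsLocalization.map_units Aq (⟨x, hxq⟩ : q.primeCompl)
  have hF : StrictMono F := by
    intro L L' hLL'
    refine lt_of_le_of_ne (sup_le_sup_right (Ideal.comap_mono hLL'.le) _) ?_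
    intro heq
    -- Nakayama
    set N := L.comap (algebraMap A Aq) with hN
    set N' := L'.comap (algebraMap A Aq) with hN'
    have hNN' : N ≤ N' := Ideal.comap_mono hLL'.le
    have h1 : N' ≤ N ⊔ (maximalIdeal A) • N' := by
      intro a ha
      have h2 : a ∈ N ⊔ Ideal.span {x} := by
        have : a ∈ F L' := Ideal.mem_sup_left ha
        rw [← heq] at this
        exact this
      obtain ⟨b, hb, c, hc, rfl⟩ := Submodule.mem_sup.1 h2
      obtain ⟨r, rfl⟩ := Ideal.mem_span_singleton'.1 hc
      have h3 : r * x ∈ N' := by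
        have := N'.sub_mem ha (hNN' hb)
        rwa [add_sub_cancel_left] at this
      have h4 : r ∈ N' := by
        rw [hN', Ideal.mem_comap, map_mul] at h3
        rw [hN', Ideal.mem_comap]
        exact (Ideal.mul_unit_mem_iff_mem L' hxu).1 h3
      refine Submodule.add_mem_sup hb ?_
      rw [mul_comm]
      exact Submodule.smul_mem_smul hxm h4
    have h5 : N' ≤ N := by
      refine Submodule.le_of_le_smul_of_le_jacobson_bot (IsNoetherian.noetherian N') ?_ h1
      exact (IsLocalRing.jacobson_eq_maximalIdeal ⊥ bot_ne_top).ge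
    have h6 : L' ≤ L := by
      rw [← IsLocalization.map_under q.primeCompl Aq L', ← IsLocalization.map_under q.primeCompl Aq L]
      exact Ideal.map_mono h5
    exact absurd h6 (not_le_of_gt hLL')
  refine (Order.coheight_le_coheight_apply_of_strictMono F hF _).trans ?_
  refine Order.coheight_anti ?_
  exact sup_le_sup_right Ideal.le_comap_map _

theorem sup_pow_le {A : Type*} [CommRing A] (I J : Ideal A) {a b N : ℕ} (h : a + b ≤ N + 1) :
    (I ⊔ J) ^ N ≤ I ^ a ⊔ J ^ b := by
  rw [← Ideal.add_eq_sup, ← Ideal.add_eq_sup, add_pow, Ideal.sum_eq_sup]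
  refine Finset.sup_le fun m hm => ?_
  have hm' : m ≤ N := by
    rw [Finset.mem_range] at hm
    omega
  refine (Ideal.mul_le_left).trans ?_
  by_cases hma : a ≤ m
  · exact (Ideal.mul_le_left.trans (Ideal.pow_le_pow_right hma)).trans le_sup_left
  · exact (Ideal.mul_le_right.trans (Ideal.pow_le_pow_right (by omega))).trans le_sup_right

/-- one step of (F1) -/
theorem length_step (q : Ideal A) [q.IsPrime] (x : A) (hxq : x ∉ q)
    (hmax : q ⊔ Ideal.span {x} = maximalIdeal A) (N j : ℕ) (hj : j < N) :
    Module.length A (A ⧸ (maximalIdeal A ^ N ⊔ Ideal.span {x ^ j})) +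
        Module.length (Localization.AtPrime q)
          (Localization.AtPrime q ⧸ maximalIdeal (Localization.AtPrime q) ^ (N - j)) ≤
      Module.length A (A ⧸ (maximalIdeal A ^ N ⊔ Ideal.span {x ^ (j + 1)})) := by
  set Aq := Localization.AtPrime q with hAq
  set J0 : Ideal A := maximalIdeal A ^ N ⊔ Ideal.span {x ^ j} with hJ0
  set J1 : Ideal A := maximalIdeal A ^ N ⊔ Ideal.span {x ^ (j + 1)} with hJ1
  have hxm : x ∈ maximalIdeal A := by
    rw [← hmax]
    exact Ideal.mem_sup_right (Ideal.mem_span_singleton_self x)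
  have hJ10 : J1 ≤ J0 := by
    refine sup_le_sup_left ?_ _
    rw [Ideal.span_singleton_le_span_singleton]
    exact pow_dvd_pow x (Nat.le_succ j)
  let K : Submodule A A := Submodule.comap (LinearMap.lsmul A A (x ^ j)) J1
  let I' : Ideal A := Submodule.comap (LinearMap.lsmul A A (x ^ j)) (q ^ (N - j))
  -- exact sequence
  let φ : (A ⧸ K) →ₗ[A] (A ⧸ J1) := Submodule.mapQ K J1 (LinearMap.lsmul A A (x ^ j)) le_rfl
  let ψ : (A ⧸ J1) →ₗ[A] (A ⧸ J0) := Submodule.factor hJ10
  have hφ : Function.Injective φ := by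
    rw [← LinearMap.ker_eq_bot, Submodule.ker_mapQ, ← le_bot_iff]
    rintro a ⟨b, hb, rfl⟩
    rw [Submodule.mem_bot]
    exact (Submodule.Quotient.mk_eq_zero _).2 hb
  have hψ : Function.Surjective ψ := Submodule.factor_surjective hJ10
  have hex : Function.Exact φ ψ := by
    rw [LinearMap.exact_iff]
    apply le_antisymm
    · intro a ha
      obtain ⟨b, rfl⟩ := Submodule.mkQ_surjective _ a
      have hb : b ∈ J0 := by
        rw [LinearMap.mem_ker] at ha
        have h1 : ψ (Submodule.mkQ J1 b) = Submodule.Quotient.mk b := rfl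
        rw [h1, Submodule.Quotient.mk_eq_zero] at ha
        exact ha
      obtain ⟨c, hc, e, he, rfl⟩ := Submodule.mem_sup.1 hb
      obtain ⟨r, rfl⟩ := Ideal.mem_span_singleton'.1 he
      refine ⟨Submodule.Quotient.mk r, ?_⟩
      have h1 : φ (Submodule.Quotient.mk r) = Submodule.Quotient.mk (x ^ j * r) := rfl
      rw [h1, Submodule.mkQ_apply, eq_comm, Submodule.Quotient.eq]
      have h2 : c + r * x ^ j - x ^ j * r = c := by ring
      rw [h2]
      exact Ideal.mem_sup_left hc
    · rintro a ⟨b, rfl⟩
      obtain ⟨r, rfl⟩ := Submodule.mkQ_surjective _ b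
      rw [LinearMap.mem_ker]
      have h1 : ψ (φ (Submodule.mkQ K r)) = Submodule.Quotient.mk (x ^ j * r) := rfl
      rw [h1, Submodule.Quotient.mk_eq_zero]
      exact Ideal.mem_sup_right (Ideal.mul_mem_right _ _ (Ideal.mem_span_singleton_self _))
  rw [Module.length_eq_add_of_exact φ ψ hφ hψ hex, add_comm]
  gcongr
  -- the colon ideal
  have hKle : K ≤ I' ⊔ Ideal.span {x} := by
    intro a ha
    have h1 : x ^ j * a ∈ J1 := ha
    have h2 : J1 ≤ q ^ (N - j) ⊔ Ideal.span {x ^ (j + 1)} := by
      refine sup_le ?_ le_sup_right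
      rw [← hmax, ← Ideal.span_singleton_pow]
      exact sup_pow_le q _ (by omega)
    obtain ⟨b, hb, c, hc, h3⟩ := Submodule.mem_sup.1 (h2 h1)
    obtain ⟨r, rfl⟩ := Ideal.mem_span_singleton'.1 hc
    have h4 : a - r * x ∈ I' := by
      change x ^ j * (a - r * x) ∈ q ^ (N - j)
      have : x ^ j * (a - r * x) = b := by
        rw [mul_sub, ← h3]
        ring
      rw [this]
      exact hb
    have h5 : a = (a - r * x) + r * x := by ring
    rw [h5]
    exact Submodule.add_mem_sup h4 (Ideal.mem_span_singleton'.2 ⟨r, rfl⟩)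
  have h6 : Module.length A (A ⧸ (I' ⊔ Ideal.span {x})) ≤ Module.length A (A ⧸ K) :=
    Module.length_le_of_surjective (Submodule.factor hKle) (Submodule.factor_surjective hKle)
  refine le_trans ?_ h6
  refine le_trans ?_ (length_localization_le q x hxm hxq I')
  -- `I' A_q ≤ q^{N-j} A_q`
  have h7 : I'.map (algebraMap A Aq) ≤ maximalIdeal Aq ^ (N - j) := by
    rw [← Localization.AtPrime.map_eq_maximalIdeal, ← Ideal.map_pow, Ideal.map_le_iff_le_comap]
    intro a ha
    have h8 : x ^ j * a ∈ q ^ (N - j) := ha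
    have h9 := Ideal.mem_map_of_mem (algebraMap A Aq) h8
    rw [map_mul, map_pow] at h9
    have hxu : IsUnit (algebraMap A Aq x ^ j) :=
      (IsLocalization.map_units Aq (⟨x, hxq⟩ : q.primeCompl)).pow j
    exact (Ideal.unit_mul_mem_iff_mem _ hxu).1 h9
  exact Module.length_le_of_surjective (Submodule.factor h7) (Submodule.factor_surjective h7)

theorem hs_zero' (R : Type*) [CommRing R] [IsLocalRing R] : hs R R 0 = 0 := by
  unfold hs
  rw [pow_zero, Ideal.one_eq_top, lenQ_top]
  rfl

theorem coe_hs_self (R : Type*) [CommRing R] [IsLocalRing R] [IsNoetherianRing R] (N : ℕ) :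
    (hs R R N : ℕ∞) = Module.length R (R ⧸ maximalIdeal R ^ N) := by
  rw [coe_hs]
  unfold lenQ
  have h2 : (maximalIdeal R ^ N • ⊤ : Submodule R R) = maximalIdeal R ^ N := by
    rw [smul_eq_mul, Ideal.mul_top]
  rw [h2]

/-- (F1) `∑_{k ≤ N} l(A_q/q^k A_q) ≤ l(A/m^N)` if `m = q + xA`, `x ∉ q`. -/
theorem Sg_hs_localization_le (q : Ideal A) [q.IsPrime] (x : A) (hxq : x ∉ q)
    (hmax : q ⊔ Ideal.span {x} = maximalIdeal A) (N : ℕ) :
    Sg (hs (Localization.AtPrime q) (Localization.AtPrime q)) N ≤ hs A A N := by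
  have hxm : x ∈ maximalIdeal A := by
    rw [← hmax]
    exact Ideal.mem_sup_right (Ideal.mem_span_singleton_self x)
  have key : ∀ j ≤ N, ((∑ i ∈ Finset.range j,
      hs (Localization.AtPrime q) (Localization.AtPrime q) (N - i) : ℕ) : ℕ∞) ≤
        Module.length A (A ⧸ (maximalIdeal A ^ N ⊔ Ideal.span {x ^ j})) := by
    intro j
    induction j with
    | zero => intro _; simp
    | succ j ih =>
      intro hj
      refine le_trans ?_ (length_step q x hxq hmax N j (by omega))
      rw [Finset.sum_range_succ, Nat.cast_add]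
      refine add_le_add (ih (by omega)) ?_
      rw [coe_hs_self]
  have h1 := key N le_rfl
  have h2 : maximalIdeal A ^ N ⊔ Ideal.span {x ^ N} = maximalIdeal A ^ N := by
    rw [sup_eq_left, Ideal.span_singleton_le_iff_mem]
    exact Ideal.pow_mem_pow hxm N
  rw [h2, ← coe_hs_self] at h1
  have h3 : Sg (hs (Localization.AtPrime q) (Localization.AtPrime q)) N =
      ∑ i ∈ Finset.range N, hs (Localization.AtPrime q) (Localization.AtPrime q) (N - i) := by
    unfold Sg
    rw [Finset.sum_range_succ', hs_zero', add_zero, ← Finset.sum_range_reflect]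
    refine Finset.sum_congr rfl fun i hi => ?_
    rw [Finset.mem_range] at hi
    congr 1
    omega
  rw [h3]
  exact_mod_cast h1

end L0

section Chain

variable (R : Type u) [CommRing R] [IsLocalRing R] [IsNoetherianRing R]

/-- the ideal `m_R T + (Y_0, …, Y_{i-1})` -/
noncomputable def pr (T : Type v) [CommRing T] [Algebra R T] (Y : ℕ → T) (i : ℕ) : Ideal T :=
  (maximalIdeal R).map (algebraMap R T) ⊔ Ideal.span (Y '' Set.Iio i)

omit [IsNoetherianRing R] in
theorem pr_succ (T : Type v) [CommRing T] [Algebra R T] (Y : ℕ → T) (i : ℕ) :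
    pr R T Y (i + 1) = pr R T Y i ⊔ Ideal.span {Y i} := by
  unfold pr
  rw [sup_assoc, ← Ideal.span_union]
  congr 2
  rw [← Set.image_singleton, ← Set.image_union]
  congr 1
  ext j
  simp only [Set.mem_Iio, Set.mem_union, Set.mem_singleton_iff]
  omega

/-- For a flat local map `R → T` with regular closed fibre of dimension `n`:
`Sg^n (hs R) ≤ hs T`. -/
theorem Sg_iterate_hs_le (n : ℕ) : ∀ (T : Type v) [CommRing T] [IsLocalRing T]
    [IsNoetherianRing T] [Algebra R T] [Module.Flat R T] [IsLocalHom (algebraMap R T)] (Y : ℕ → T)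
    (_ : ∀ i ≤ n, (pr R T Y i).IsPrime) (_ : ∀ i < n, Y i ∉ pr R T Y i)
    (_ : pr R T Y n = maximalIdeal T) (N : ℕ), Sg^[n] (hs R R) N ≤ hs T T N := by
  induction n with
  | zero =>
    intro T _ _ _ _ _ _ Y hprime hnot hmax N
    have h1 : (maximalIdeal R).map (algebraMap R T) = maximalIdeal T := by
      rw [← hmax]
      unfold pr
      have : Set.Iio 0 = (∅ : Set ℕ) := by ext j; simp
      rw [this, Set.image_empty, Ideal.span_empty, sup_bot_eq]
    rw [Function.iterate_zero, id, hs_eq_of_flat R T h1]
  | succ n ih =>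
    intro T _ _ _ _ _ _ Y hprime hnot hmax N
    set q := pr R T Y n with hq
    have hqp : q.IsPrime := hprime n (Nat.le_succ n)
    have hqmax : q ⊔ Ideal.span {Y n} = maximalIdeal T := by rw [← hmax, pr_succ]
    refine le_trans ?_ (Sg_hs_localization_le q (Y n) (hnot n (Nat.lt_succ_self n)) hqmax N)
    rw [Function.iterate_succ_apply']
    refine Sg_mono ?_ N
    -- the localisation
    set Tq := Localization.AtPrime q with hTq
    have i1 : IsNoetherianRing Tq := IsLocalization.isNoetherianRing q.primeCompl Tq inferInstance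
    have i2 : Module.Flat T Tq := IsLocalization.flat _ q.primeCompl
    have i3 : Module.Flat R Tq := Module.Flat.trans R T Tq
    have hmR : (maximalIdeal R).map (algebraMap R T) ≤ q := le_sup_left
    have i4 : IsLocalHom (algebraMap R Tq) := by
      constructor
      intro a ha
      by_contra hna
      have h1 : algebraMap R T a ∈ q := hmR (Ideal.mem_map_of_mem _ ((mem_maximalIdeal _).2 hna))
      have h2 : algebraMap T Tq (algebraMap R T a) ∈ maximalIdeal Tq := by
        rw [← Localization.AtPrime.map_eq_maximalIdeal]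
        exact Ideal.mem_map_of_mem _ h1
      rw [← IsScalarTower.algebraMap_apply R T Tq] at h2
      exact (mem_maximalIdeal _).1 h2 ha
    have hpr : ∀ i, pr R Tq (fun j => algebraMap T Tq (Y j)) i = (pr R T Y i).map (algebraMap T Tq) := by
      intro i
      unfold pr
      rw [Ideal.map_sup, Ideal.map_map, Ideal.map_span, ← IsScalarTower.algebraMap_eq R T Tq]
      congr 2
      rw [← Set.image_comp]
      rfl
    have hle : ∀ i ≤ n, pr R T Y i ≤ q := by
      intro i hi
      unfold pr at hq ⊢
      rw [hq]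
      refine sup_le_sup_left (Ideal.span_mono (Set.image_mono ?_)) _
      exact fun j hj => lt_of_lt_of_le hj hi
    refine ih Tq (fun j => algebraMap T Tq (Y j)) ?_ ?_ ?_
    · intro i hi
      rw [hpr i]
      have := hprime i (hi.trans (Nat.le_succ n))
      exact Ideal.isPrime_map_of_isLocalizationAtPrime q (hle i hi)
    · intro i hi
      rw [hpr i]
      intro hmem
      have := hprime i (hi.le.trans (Nat.le_succ n))
      have h1 : ((pr R T Y i).map (algebraMap T Tq)).under T = pr R T Y i :=
        Ideal.under_map_of_isLocalizationAtPrime q (hle i hi.le)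
      have h2 : Y i ∈ ((pr R T Y i).map (algebraMap T Tq)).under T := hmem
      rw [h1] at h2
      exact hnot i (hi.trans (Nat.lt_succ_self n)) h2
    · rw [hpr n, ← hq]
      exact Localization.AtPrime.map_eq_maximalIdeal

end Chain

end Crest.Agent.R183.M
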