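import Mathlib
import Crest.Agent.R183.M6
import Crest.Agent.R183.HSRed
import Crest.Agent.R183.HSRank

/-!
# R183, block M: existence of the multiplicity; `R(X) → S(X)` is flat local
-/

set_option autoImplicit false

namespace Crest.Agent.R183.M

open Filter Topology IsLocalRing TensorProduct Polynomial

universe u v

/-- The multiplicity of a Noetherian local ring exists (and is a natural number). -/
theorem exists_mult (R : Type u) [CommRing R] [IsLocalRing R] [IsNoetherianRing R] {d : ℕ}
    (hd : ringKrullDim R = d) : ∃ e : ℕ, UBf (hs R R) d e ∧ LBf (hs R R) d e := by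
  have hd' : ringKrullDim (RX R) = d := by rw [ringKrullDim_RX, hd]
  obtain ⟨z, hz, c, hc⟩ := HS.exists_minimal_reduction (R := RX R) hd'
    (I := maximalIdeal (RX R)) le_rfl (t := 1) (by rw [pow_one])
  obtain ⟨r, C, h1, h2, -, -⟩ := HS.rank_theorem z hz c hc
  rw [hs_RX] at h1 h2
  exact ⟨r, h1, h2⟩

/-- From `T` back to `R`. -/
theorem UB_of_Sg_iterate_le (R : Type u) (T : Type v) [CommRing R] [IsLocalRing R]
    [IsNoetherianRing R] [CommRing T] [IsLocalRing T] {d n : ℕ} (hd : ringKrullDim R = d) {c : ℝ}
    (hle : ∀ N, Sg^[n] (hs R R) N ≤ hs T T N) (hT : UBf (hs T T) (d + n) c) :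
    UBf (hs R R) d c := by
  obtain ⟨e, h1, h2⟩ := exists_mult R hd
  exact UBf.of_Sg_iterate_le h1 h2 hle hT

section RXmap

variable (R : Type u) (S : Type v) [CommRing R] [IsLocalRing R] [CommRing S] [IsLocalRing S]
  [Algebra R S] [IsLocalHom (algebraMap R S)]

theorem mX_eq_comap : mX R = (mX S).comap (Polynomial.mapRingHom (algebraMap R S)) := by
  ext f
  rw [Ideal.mem_comap, mX, mX, Ideal.mem_map_C_iff, Ideal.mem_map_C_iff]
  refine forall_congr' fun n => ?_
  rw [coe_mapRingHom, coeff_map]
  constructor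
  · intro h
    exact (IsLocalRing.map_maximalIdeal_le (algebraMap R S)) (Ideal.mem_map_of_mem _ h)
  · intro h
    rw [mem_maximalIdeal] at h ⊢
    intro hu
    exact h (hu.map _)

/-- the map `R(X) → S(X)` -/
noncomputable def RXmap : RX R →+* RX S :=
  Localization.localRingHom (mX R) (mX S) (Polynomial.mapRingHom (algebraMap R S)) (mX_eq_comap R S)

theorem RXmap_isLocalHom : IsLocalHom (RXmap R S) :=
  Localization.isLocalHom_localRingHom _ _ _ _

theorem RXmap_algebraMap (r : R) : RXmap R S (algebraMap R (RX R) r) =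
    algebraMap S (RX S) (algebraMap R S r) := by
  unfold RXmap
  rw [algebraMap_RX, algebraMap_RX, RingHom.comp_apply, Localization.localRingHom_to_map,
    coe_mapRingHom, map_C]
  rfl

theorem RXmap_flat [Module.Flat R S] : (RXmap R S).Flat := by
  refine RingHom.Flat.localRingHom ?_ (mX S) (mX R) (mX_eq_comap R S)
  let _ := Polynomial.algebra R S
  have h3 : IsBaseChange R[X] (IsScalarTower.toAlgHom R S S[X]).toLinearMap :=
    Algebra.IsPushout.out (R := R) (S := R[X]) (R' := S) (S' := S[X])
  have h2 : Module.Flat R[X] S[X] := Module.Flat.isBaseChange R R[X] S S[X] h3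
  exact RingHom.flat_algebraMap_iff.2 h2

end RXmap

end Crest.Agent.R183.M
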