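/-
R183 (Lech): the core theorem for Noetherian local rings.

* `cont_ofTower`, `cont_restrict` : continuity of the normalised length.
* `core_sop` : `core_main` with the growth hypotheses discharged.
* `lechC_of_stages` : `LechC R S d d` from stages over `T ->> S` (generically etale case).
helper811
-/
import Crest.Agent.R183.CoreMain
import Crest.Agent.R183.M7
import Crest.Agent.R183.HSGrowth
import Crest.Agent.R183.Lam2
import Crest.Agent.R183.AddLenInst
import Crest.Agent.R183.Res7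

set_option autoImplicit false

namespace Crest.Agent.R183.Core

open scoped ENNReal nonZeroDivisors
open Crest.Agent.R183 Crest.Agent.R183.Res Crest.Agent.R183.WG Crest.Agent.R183.Glue
open IsLocalRing Crest.Agent.R183.M

universe u

theorem cont_ofTower {A : Type u} [CommRing A] (T : Lam.Tower A) :
    Cont (AddLen.ofTower.{u, u} T) := by
  intro M _ _ c h
  rw [AddLen.ofTower_L, T.lam_eq_iSup_span]
  refine iSup_le fun E => ?_
  exact h _ ⟨E, rfl⟩

theorem cont_restrict {A B : Type u} [CommRing A] [CommRing B] (Λ : AddLen.{u, u} A) (h : Cont Λ)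
    (f : A →+* B) : Cont (Λ.restrict f) := by
  intro M _ _ c hc
  let _ : Algebra A B := f.toAlgebra
  let _ : Module A M := Module.compHom M f
  have hsm : ∀ (a : A) (x : M), a • x = f a • x := fun a x => rfl
  have _ : IsScalarTower A B M := ⟨fun a b x => by
    rw [Algebra.smul_def, mul_smul]; rfl⟩
  rw [Λ.restrict_L f M hsm]
  refine h M c fun E hE => ?_
  obtain ⟨s, hs⟩ := hE
  have h1 := hc (Submodule.span B (s : Set M)) ⟨s, rfl⟩
  rw [Λ.restrict_L f _ (fun a x => rfl)] at h1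
  refine le_trans ?_ h1
  have hle : E ≤ (Submodule.span B (s : Set M)).restrictScalars A := by
    rw [← hs, Submodule.span_le]
    exact Submodule.subset_span
  exact Λ.L_le_of_injective (Submodule.inclusion hle) (Submodule.inclusion_injective hle)

/-- lengths of quotients along a surjection. -/
theorem length_quot_sup {T S : Type*} [CommRing T] [CommRing S] [Algebra T S]
    (hs : Function.Surjective (algebraMap T S)) (I : Ideal T) :
    Module.length T (T ⧸ (RingHom.ker (algebraMap T S) ⊔ I)) =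
      Module.length S (S ⧸ I.map (algebraMap T S)) := by
  have h1 : Module.length S (S ⧸ I.map (algebraMap T S)) =
      Module.length T (S ⧸ I.map (algebraMap T S)) :=
    (Module.length_eq_of_surjective hs).symm
  rw [h1]
  let φ : T →ₗ[T] (S ⧸ I.map (algebraMap T S)) :=
    ((I.map (algebraMap T S)).mkQ.restrictScalars T).comp (Algebra.linearMap T S)
  have hφ : Function.Surjective φ := (Submodule.mkQ_surjective _).comp hs
  have hk : LinearMap.ker φ = RingHom.ker (algebraMap T S) ⊔ I := by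
    ext x
    have h2 : x ∈ LinearMap.ker φ ↔ algebraMap T S x ∈ I.map (algebraMap T S) := by
      rw [LinearMap.mem_ker]
      exact Submodule.Quotient.mk_eq_zero _
    rw [h2, ← Ideal.mem_comap, Ideal.comap_map_of_surjective _ hs, sup_comm]
    rfl
  rw [← hk]
  exact (φ.quotKerEquivOfSurjective hφ).length_eq

section sop

variable {T To : Type u} [CommRing T] [IsLocalRing T] [IsNoetherianRing T] [CommRing To]
  [Algebra T To] (Λ : AddLen.{u, u} To)

/-- `core_main`, growth hypotheses discharged. -/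
theorem core_sop (hcont : Cont Λ)
    (hΛ : ∀ I : Ideal T, Module.length T (T ⧸ I) ≠ ⊤ →
      Λ.L (To ⧸ I.map (algebraMap T To)) = ((Module.length T (T ⧸ I) : ℕ∞) : ℝ≥0∞))
    (J0 : Ideal T) (hJ0 : J0 ≠ ⊤) {D d g : ℕ} (hD : ringKrullDim T = D)
    (hd : ringKrullDim (T ⧸ J0) = d) (hgd : g + d = D) (hd0 : 0 < d)
    (w t : Fin D → T) (z : Fin d → T) (hwm : ∀ i, w i ∈ maximalIdeal T)
    (htm : ∀ i, t i ∈ maximalIdeal T) {a b : ℕ}
    (hw : maximalIdeal T ^ a ≤ Ideal.span (Set.range w))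
    (hz : maximalIdeal T ^ b ≤ J0 ⊔ Ideal.span (Set.range z))
    (rT rT' CT rS CS : ℕ)
    (hrS : ∀ n : ℕ, 0 < n → Module.length T (T ⧸ (J0 ⊔ powIdeal z (fun _ => n)))
      ≤ ((rS * n ^ d + CS * n ^ (d - 1) : ℕ) : ℕ∞))
    (hrT : ∀ n : ℕ, 0 < n → ((rT * n ^ D : ℕ) : ℕ∞) ≤
      Module.length T (T ⧸ powIdeal w (fun _ => n)))
    (hrT' : ∀ n : ℕ, 0 < n → Module.length T (T ⧸ powIdeal w (fun _ => n))
      ≤ ((rT' * n ^ D + CT * n ^ (D - 1) : ℕ) : ℕ∞))
    (F : MCx T) (hF : F.Len g) (𝔞 : Ideal T) (hF𝔞 : F.EntriesIn 𝔞)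
    (hz𝔞 : ∀ i, z i ∈ 𝔞) (hnh : J0 ≤ F.nhI)
    (u0 : Unique (F.ι 0)) (hu0 : ∀ (M : Type u) [AddCommGroup M] [Module T M] (v : F.ι 0 → M),
        v ∈ F.bdyM M 0 ↔ v u0.default ∈ (J0 • ⊤ : Submodule T M))
    (hK : KHyp.{u} D (fun n => Fintype.card ((F.cones (List.ofFn z)).ι n)))
    (p : ℕ) (hp : 1 < p) (c' : ℕ)
    (hst : ∀ e : ℕ, c' < p ^ e → ∃ Δ : T, Δ ∈ T⁰ ∧ (∀ x, Δ * x ∈ J0 → x ∈ J0) ∧
      Nonempty (Stage T To w t Δ 𝔞 (p ^ e) (p ^ e - c'))) :
    rT ≤ rS := by
  have hpow : ∀ x ∈ maximalIdeal T, ∃ N : ℕ, x ^ N ∈ J0 ⊔ Ideal.span (Set.range z) :=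
    fun x hx => ⟨b, hz (Ideal.pow_mem_pow hx b)⟩
  -- growth on `S`
  have i1 : Nontrivial (T ⧸ J0) := Ideal.Quotient.nontrivial_iff.2 hJ0
  have i2 : IsLocalRing (T ⧸ J0) := IsLocalRing.of_surjective' _ Ideal.Quotient.mk_surjective
  have hsurj : Function.Surjective (algebraMap T (T ⧸ J0)) := Ideal.Quotient.mk_surjective
  have hmmap : (maximalIdeal T).map (algebraMap T (T ⧸ J0)) = maximalIdeal (T ⧸ J0) :=
    IsLocalRing.map_maximalIdeal_of_surjective _ hsurj
  have hker : RingHom.ker (algebraMap T (T ⧸ J0)) = J0 := Ideal.mk_ker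
  have hzS : maximalIdeal (T ⧸ J0) ^ b ≤
      Ideal.span (Set.range fun i => algebraMap T (T ⧸ J0) (z i)) := by
    have h1 := Ideal.map_mono (f := algebraMap T (T ⧸ J0)) hz
    rw [Ideal.map_pow, hmmap, Ideal.map_sup, Ideal.map_span, ← Set.range_comp] at h1
    refine h1.trans (sup_le ?_ le_rfl)
    rw [Ideal.map_le_iff_le_comap]
    intro x hx
    rw [Ideal.mem_comap]
    have : algebraMap T (T ⧸ J0) x = 0 := Ideal.Quotient.eq_zero_iff_mem.2 hx
    rw [this]
    exact zero_mem _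
  refine core_main Λ J0 w t z (by omega) hd0 hcont hΛ rT rT' CT rS CS
    hrS hrT hrT' hgd F hF 𝔞 hF𝔞 hz𝔞 hnh u0 hu0 ?_ ?_ ?_ hK p hp c' ?_
  · exact fun i => hpow _ (htm i)
  · exact fun i => hpow _ (hwm i)
  · exact fun i => ⟨a, hw (Ideal.pow_mem_pow (htm i) a)⟩
  intro e he
  obtain ⟨Δ, hΔT, hΔS, hst⟩ := hst e he
  -- growth on `T`
  obtain ⟨C1, hC1⟩ := HS.growth_quot_regular Δ hΔT 2 D hD w hw
  have hΔS' : algebraMap T (T ⧸ J0) Δ ∈ (T ⧸ J0)⁰ := by
    rw [mem_nonZeroDivisors_iff_right]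
    intro x hx
    obtain ⟨x, rfl⟩ := Ideal.Quotient.mk_surjective x
    rw [← Ideal.Quotient.algebraMap_eq, ← map_mul] at hx
    have h1 : x * Δ ∈ J0 := Ideal.Quotient.eq_zero_iff_mem.1 hx
    rw [mul_comm] at h1
    exact Ideal.Quotient.eq_zero_iff_mem.2 (hΔS x h1)
  obtain ⟨C2, hC2⟩ := HS.growth_quot_regular _ hΔS' 1 d hd _ hzS
  refine ⟨Δ, max C1 C2, ?_, ?_, hst⟩
  · intro n hn
    have h1 := hC1 n hn
    refine h1.trans ?_
    gcongr
    exact le_max_left _ _
  · intro n hn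
    have h1 := hC2 n hn
    have h2 := length_quot_sup hsurj (Ideal.span {Δ} ⊔ powIdeal z (fun _ => n))
    rw [hker, ← sup_assoc] at h2
    rw [h2, Ideal.map_sup, Ideal.map_span, Set.image_singleton]
    have h3 : (powIdeal z (fun _ => n)).map (algebraMap T (T ⧸ J0)) =
        Ideal.span (Set.range fun i => (algebraMap T (T ⧸ J0) (z i)) ^ n) := by
      rw [powIdeal_map]
      rfl
    rw [h3]
    rw [pow_one] at h1
    refine h1.trans ?_
    gcongr
    exact le_max_right _ _

end sop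


section lech

/-- **Lech's inequality from stages** (generically etale case: `w` reduces `m_T`). -/
theorem lechC_of_stages {R S T To : Type u} [CommRing R] [IsLocalRing R] [IsNoetherianRing R]
    [CommRing S] [IsLocalRing S] [IsNoetherianRing S] [CommRing T] [IsLocalRing T]
    [IsNoetherianRing T] [CommRing To] [Algebra R S] [Algebra R T] [Algebra T S]
    [IsScalarTower R T S] [Algebra T To] [Module.Flat R S] [Module.Flat R T]
    [IsLocalHom (algebraMap R T)] [Infinite (ResidueField S)]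
    (hsurj : Function.Surjective (algebraMap T S)) {D d g : ℕ} (hdR : ringKrullDim R = d)
    (hdS : ringKrullDim S = d) (hdT : ringKrullDim T = D) (hgd : g + d = D) (hd0 : 0 < d)
    (Y : ℕ → T) (hprime : ∀ i ≤ g, (pr R T Y i).IsPrime) (hnot : ∀ i < g, Y i ∉ pr R T Y i)
    (hmax : pr R T Y g = maximalIdeal T)
    (Λ : AddLen.{u, u} To) (hcont : Cont Λ)
    (hΛ : ∀ I : Ideal T, Module.length T (T ⧸ I) ≠ ⊤ →
      Λ.L (To ⧸ I.map (algebraMap T To)) = ((Module.length T (T ⧸ I) : ℕ∞) : ℝ≥0∞))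
    (w t : Fin D → T) (hwm : ∀ i, w i ∈ maximalIdeal T) (htm : ∀ i, t i ∈ maximalIdeal T) (c : ℕ)
    (hw : maximalIdeal T ^ (c + 1) = Ideal.span (Set.range w) * maximalIdeal T ^ c)
    (hK : ∀ (D : ℕ) (β : ℕ → ℕ), 0 < D → KHyp.{u} D β) (p : ℕ) (hp : 1 < p) (c' : ℕ)
    (hst : ∀ e : ℕ, c' < p ^ e → ∃ Δ : R, Δ ∈ R⁰ ∧
      Nonempty (Stage T To w t (algebraMap R T Δ) (maximalIdeal T) (p ^ e) (p ^ e - c'))) :
    LechC R S d d := by
  set J0 : Ideal T := RingHom.ker (algebraMap T S) with hJ0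
  have hJne : J0 ≠ ⊤ := RingHom.ker_ne_top _
  have hJm : J0 ≤ maximalIdeal T := IsLocalRing.le_maximalIdeal hJne
  -- `T/J0 = S`
  let eS : (T ⧸ J0) ≃ₐ[T] S := Ideal.quotientKerAlgEquivOfSurjective (f := Algebra.ofId T S) hsurj
  have _ : Module.Flat R (T ⧸ J0) := Module.Flat.of_linearEquiv (eS.toLinearEquiv.restrictScalars R)
  have hdJ : ringKrullDim (T ⧸ J0) = d := by
    rw [← hdS]
    exact ringKrullDim_eq_of_ringEquiv eS.toRingEquiv
  -- the resolution
  obtain ⟨F, hF, hFent, hnh, u0, hu0⟩ := exists_resolution (R := R) J0 hJm g Y (by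
    intro i hi a ha
    have h1 := hprime i hi.le
    exact (h1.mem_or_mem ha).resolve_left (hnot i hi)) hmax
  -- a minimal reduction of `m_S`
  obtain ⟨zs, hzs, cs, hcs⟩ := HS.exists_minimal_reduction (R := S) hdS (I := maximalIdeal S) le_rfl
    (t := 1) (by rw [pow_one])
  choose z hz using fun i => hsurj (zs i)
  have hmmap : (maximalIdeal T).map (algebraMap T S) = maximalIdeal S :=
    IsLocalRing.map_maximalIdeal_of_surjective _ hsurj
  have hlocTS : IsLocalHom (algebraMap T S) := IsLocalHom.of_surjective _ hsurj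
  have hzm : ∀ i, z i ∈ maximalIdeal T := by
    intro i
    have h1 : algebraMap T S (z i) ∈ maximalIdeal S := by rw [hz i]; exact hzs i
    rw [mem_maximalIdeal, mem_nonunits_iff] at h1 ⊢
    exact fun h2 => h1 (h2.map _)
  have hpmap : ∀ n : ℕ, (powIdeal z (fun _ => n)).map (algebraMap T S) =
      Ideal.span (Set.range fun i => (zs i) ^ n) := by
    intro n
    rw [powIdeal_map]
    have h1 : (fun i => algebraMap T S (z i)) = zs := funext hz
    rw [h1]
    rfl
  obtain ⟨rS, CS, hS1, hS2, hS3, hS4⟩ := HS.rank_theorem zs hzs cs hcs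
  obtain ⟨rT, CT, hT1, hT2, hT3, hT4⟩ := HS.rank_theorem w hwm c hw
  have hwpow : maximalIdeal T ^ (c + 1) ≤ Ideal.span (Set.range w) := by
    rw [hw]; exact Ideal.mul_le_left
  have hspanzs : Ideal.span (Set.range zs) = (Ideal.span (Set.range z)).map (algebraMap T S) := by
    rw [Ideal.map_span, ← Set.range_comp]
    congr 2
    exact (funext hz).symm
  have hzpow : maximalIdeal T ^ (cs + 1) ≤ J0 ⊔ Ideal.span (Set.range z) := by
    have h1 : maximalIdeal S ^ (cs + 1) ≤ Ideal.span (Set.range zs) := by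
      rw [hcs]; exact Ideal.mul_le_left
    rw [hspanzs, ← hmmap, ← Ideal.map_pow, Ideal.map_le_iff_le_comap,
      Ideal.comap_map_of_surjective _ hsurj, sup_comm] at h1
    exact h1
  have key : rT ≤ rS := by
    refine core_sop Λ hcont hΛ J0 hJne hdT hdJ hgd hd0 w t z hwm htm hwpow hzpow
      rT rT CT rS CS ?_ ?_ ?_ F hF (maximalIdeal T) hFent hzm hnh u0 hu0
      (hK _ _ (by omega)) p hp c' ?_
    · intro n hn
      rw [length_quot_sup hsurj, hpmap]
      exact hS3 n
    · exact fun n hn => hT4 n hn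
    · exact fun n hn => hT3 n
    intro e he
    obtain ⟨Δ, hΔ, hst⟩ := hst e he
    have hΔT : algebraMap R T Δ ∈ T⁰ := by
      rw [mem_nonZeroDivisors_iff_right]
      intro x hx
      have hinj : Function.Injective (LinearMap.lsmul R T Δ) := by
        have h1 := Module.Flat.isSMulRegular_of_nonZeroDivisors (M := T) hΔ
        exact h1
      apply hinj
      rw [map_zero, LinearMap.lsmul_apply, Algebra.smul_def, mul_comm]
      exact hx
    have hΔS : ∀ x, algebraMap R T Δ * x ∈ J0 → x ∈ J0 := by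
      intro x hx
      rw [hJ0, RingHom.mem_ker] at hx ⊢
      rw [map_mul, ← IsScalarTower.algebraMap_apply, ← Algebra.smul_def] at hx
      have h1 := Module.Flat.isSMulRegular_of_nonZeroDivisors (M := S) hΔ
      apply h1
      show Δ • algebraMap T S x = Δ • (0 : S)
      rw [smul_zero]
      exact hx
    exact ⟨algebraMap R T Δ, hΔT, hΔS, hst⟩
  refine ⟨rS, ?_, hS2⟩
  refine UB_of_Sg_iterate_le R T (n := g) hdR ?_ ?_
  · exact Sg_iterate_hs_le R g T Y hprime hnot hmax
  · rw [add_comm d g, hgd]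
    exact hT1.mono (by exact_mod_cast key)

end lech


end Crest.Agent.R183.Core
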