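/-
R183 (Lech), Theorem K: homology calculus "in submodule form" for an additive length.
(G4) of helper389's note.    helper685
-/
import Mathlib
import Crest.Agent.R183.AddLen

set_option autoImplicit false

namespace Crest.Agent.R183

open scoped ENNReal

universe u v

namespace AddLen

variable {A : Type u} [CommRing A] (Λ : AddLen.{u, v} A)
variable {M N : Type v} [AddCommGroup M] [Module A M] [AddCommGroup N] [Module A N]

/-- relative length `L((T+S)/S)`. -/
noncomputable def rel (S T : Submodule A M) : ℝ≥0∞ := Λ.L (T.map S.mkQ)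

lemma rel_eq_zero_iff {S T : Submodule A M} : Λ.rel S T = 0 ↔ Λ.le0 T S := Iff.rfl

lemma rel_of_le {S T : Submodule A M} (h : T ≤ S) : Λ.rel S T = 0 := Λ.le0_of_le h

lemma rel_self (S : Submodule A M) : Λ.rel S S = 0 := Λ.rel_of_le le_rfl

lemma rel_mono {S S' T T' : Submodule A M} (hS : S' ≤ S) (hT : T ≤ T') :
    Λ.rel S T ≤ Λ.rel S' T' := by
  unfold rel
  have h1 : T.map S.mkQ = (T.map S'.mkQ).map (Submodule.factor hS) := by
    rw [← Submodule.map_comp, Submodule.factor_comp_mk]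
  rw [h1]
  refine (Λ.L_le_of_surjective ((Submodule.factor hS).submoduleMap (T.map S'.mkQ))
    ((Submodule.factor hS).submoduleMap_surjective _)).trans ?_
  exact Λ.L_le_of_injective (Submodule.inclusion (Submodule.map_mono hT))
    (Submodule.inclusion_injective _)

lemma rel_comap (f : M →ₗ[A] N) (S : Submodule A N) (T : Submodule A M) :
    Λ.rel (S.comap f) T = Λ.rel S (T.map f) := by
  unfold rel
  have hinj : Function.Injective (Submodule.mapQ (S.comap f) S f le_rfl) := by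
    rw [← LinearMap.ker_eq_bot, Submodule.ker_mapQ]; simp
  have h1 : (T.map f).map S.mkQ = (T.map (S.comap f).mkQ).map (Submodule.mapQ (S.comap f) S f le_rfl) := by
    rw [← Submodule.map_comp, ← Submodule.map_comp, Submodule.mapQ_mkQ]
  rw [h1]
  exact Λ.L_congr (Submodule.equivMapOfInjective _ hinj _)

lemma rel_map (f : M →ₗ[A] N) (S T : Submodule A M) :
    Λ.rel (S.map f) (T.map f) = Λ.rel (S ⊔ LinearMap.ker f) T := by
  rw [← rel_comap, Submodule.comap_map_eq]

lemma rel_sup_right (S T : Submodule A M) : Λ.rel S (T ⊔ S) = Λ.rel S T := by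
  unfold rel
  rw [Submodule.map_sup]
  have : S.map S.mkQ = ⊥ := by
    rw [eq_bot_iff, Submodule.map_le_iff_le_comap]
    intro x hx
    rw [Submodule.mem_comap, Submodule.mem_bot, Submodule.mkQ_apply, Submodule.Quotient.mk_eq_zero]
    exact hx
  rw [this, sup_bot_eq]

lemma rel_inf (S T : Submodule A M) : Λ.rel (S ⊓ T) T = Λ.rel S T := by
  have h1 := Λ.rel_comap T.subtype S ⊤
  have h2 := Λ.rel_comap T.subtype (S ⊓ T) ⊤
  rw [Submodule.map_top, Submodule.range_subtype] at h1 h2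
  rw [← h1, ← h2, Submodule.comap_inf]
  congr 1
  rw [Submodule.comap_subtype_self, inf_top_eq]

lemma rel_bot (T : Submodule A M) : Λ.rel ⊥ T = Λ.L T := by
  unfold rel
  have e : T ≃ₗ[A] T.map (⊥ : Submodule A M).mkQ :=
    Submodule.equivMapOfInjective _ (by rw [← LinearMap.ker_eq_bot, Submodule.ker_mkQ]) T
  rw [Λ.L_congr e]

lemma rel_top (S : Submodule A M) : Λ.rel S ⊤ = Λ.L (M ⧸ S) := by
  unfold rel
  rw [Submodule.map_top, Submodule.range_mkQ]
  exact Λ.L_congr (Submodule.topEquiv (R := A) (M := M ⧸ S))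

/-- additivity in chains. -/
lemma rel_add {S T U : Submodule A M} (hST : S ≤ T) (hTU : T ≤ U) :
    Λ.rel S U = Λ.rel S T + Λ.rel T U := by
  -- reduce to the case `S = ⊥` by passing to `M/S`
  unfold rel
  let N' := T.map S.mkQ
  let U' := U.map S.mkQ
  have hle : N' ≤ U' := Submodule.map_mono hTU
  let f : N' →ₗ[A] U' := Submodule.inclusion hle
  let g0 : U' →ₗ[A] M ⧸ T := (Submodule.factor hST).comp U'.subtype
  have hg0 : LinearMap.range g0 = U.map T.mkQ := by
    rw [LinearMap.range_comp, Submodule.range_subtype, ← Submodule.map_comp,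
      Submodule.factor_comp_mk]
  rw [← hg0]
  refine Λ.add' f g0.rangeRestrict (Submodule.inclusion_injective hle)
    g0.surjective_rangeRestrict ?_
  intro x
  constructor
  · intro hx
    have hx' : g0 x = 0 := by
      have := congrArg Subtype.val hx
      exact this
    obtain ⟨u, hu, hux⟩ := x.2
    have h1 : u ∈ T := by
      have : Submodule.factor hST (S.mkQ u) = 0 := by
        rw [hux]; exact hx'
      rwa [Submodule.factor_mk, Submodule.mkQ_apply, Submodule.Quotient.mk_eq_zero] at this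
    exact ⟨⟨x.1, ⟨u, h1, hux⟩⟩, rfl⟩
  · rintro ⟨y, rfl⟩
    obtain ⟨t, ht, hty⟩ := y.2
    refine Subtype.ext ?_
    change Submodule.factor hST (f y).1 = 0
    have : (f y).1 = S.mkQ t := hty.symm
    rw [this, Submodule.factor_mk, Submodule.mkQ_apply, Submodule.Quotient.mk_eq_zero]
    exact ht

end AddLen

namespace KHom

open AddLen

variable {A : Type u} [CommRing A] (Λ : AddLen.{u, v} A)
variable {U : Type v} [AddCommGroup U] [Module A U] (D : U →ₗ[A] U)

/-- `h_n(G/G')`. -/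
noncomputable def h (G G' : ℤ → Submodule A U) (n : ℤ) : ℝ≥0∞ :=
  Λ.rel ((G (n + 1)).map D ⊔ G' n) (G n ⊓ (G' (n - 1)).comap D)

/-- `D`-stable graded families. -/
def Stable (G : ℤ → Submodule A U) : Prop := ∀ n, (G (n + 1)).map D ≤ G n

variable {D}

lemma Stable.map_le {G : ℤ → Submodule A U} (hG : Stable D G) (n : ℤ) :
    (G n).map D ≤ G (n - 1) := by
  have := hG (n - 1)
  rwa [sub_add_cancel] at this

/-- `L(ker(H_n(G'/G'') → H_n(G/G'')))`. -/
noncomputable def Rr (D : U →ₗ[A] U) (G G' G'' : ℤ → Submodule A U) (n : ℤ) : ℝ≥0∞ :=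
  Λ.rel ((G' (n + 1)).map D ⊔ G'' n) (G' n ⊓ ((G (n + 1)).map D ⊔ G'' n))

/-- `L(im(H_n(G'/G'') → H_n(G/G'')))`. -/
noncomputable def Ii (D : U →ₗ[A] U) (G G' G'' : ℤ → Submodule A U) (n : ℤ) : ℝ≥0∞ :=
  Λ.rel ((G (n + 1)).map D ⊔ G'' n) (G' n ⊓ (G'' (n - 1)).comap D)

/-- `L(im(H_n(G/G'') → H_n(G/G')))`. -/
noncomputable def Jj (D : U →ₗ[A] U) (G G' G'' : ℤ → Submodule A U) (n : ℤ) : ℝ≥0∞ :=
  Λ.rel ((G (n + 1)).map D ⊔ G' n) (G n ⊓ (G'' (n - 1)).comap D)

variable {G G' G'' : ℤ → Submodule A U}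

section les

variable (hD : D ∘ₗ D = 0) (hG : Stable D G) (hG' : Stable D G') (hG'' : Stable D G'')
  (h1 : ∀ n, G' n ≤ G n) (h2 : ∀ n, G'' n ≤ G' n)

include hD hG' hG'' h1 h2 in
theorem les_sub (n : ℤ) : h Λ D G' G'' n = Rr Λ D G G' G'' n + Ii Λ D G G' G'' n := by
  unfold h Rr Ii
  have hDD : ∀ (T : Submodule A U) (S : Submodule A U), T.map D ≤ S.comap D := by
    rintro T S _ ⟨x, _, rfl⟩
    have : D (D x) = 0 := LinearMap.congr_fun hD x
    rw [Submodule.mem_comap, this]; exact S.zero_mem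
  have e1 : (G' (n + 1)).map D ⊔ G'' n ≤ G' n ⊓ ((G (n + 1)).map D ⊔ G'' n) :=
    le_inf (sup_le (hG' n) (h2 n)) (sup_le_sup_right (Submodule.map_mono (h1 _)) _)
  have e2 : G' n ⊓ ((G (n + 1)).map D ⊔ G'' n) ≤ G' n ⊓ (G'' (n - 1)).comap D :=
    inf_le_inf_left _ (sup_le (hDD _ _) (by
      rw [← Submodule.map_le_iff_le_comap]; exact hG''.map_le n))
  rw [Λ.rel_add e1 e2]
  congr 1
  rw [← Λ.rel_inf ((G (n + 1)).map D ⊔ G'' n)]
  congr 1
  apply le_antisymm
  · refine le_inf inf_le_right (le_inf inf_le_left (inf_le_right.trans ?_))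
    exact sup_le (hDD _ _) (by rw [← Submodule.map_le_iff_le_comap]; exact hG''.map_le n)
  · exact le_inf (inf_le_right.trans inf_le_left) inf_le_left

include hD hG hG'' h1 h2 in
theorem les_mid (n : ℤ) : h Λ D G G'' n = Ii Λ D G G' G'' n + Jj Λ D G G' G'' n := by
  unfold h Ii Jj
  have hDD : ∀ (T : Submodule A U) (S : Submodule A U), T.map D ≤ S.comap D := by
    rintro T S _ ⟨x, _, rfl⟩
    have : D (D x) = 0 := LinearMap.congr_fun hD x
    rw [Submodule.mem_comap, this]; exact S.zero_mem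
  have hG''c : G'' n ≤ (G'' (n - 1)).comap D := by
    rw [← Submodule.map_le_iff_le_comap]; exact hG''.map_le n
  set B := (G (n + 1)).map D ⊔ G'' n with hB
  set Z := G n ⊓ (G'' (n - 1)).comap D with hZ
  have hBZ : B ≤ Z := le_inf (sup_le (hG n) ((h2 n).trans (h1 n))) (sup_le (hDD _ _) hG''c)
  have e1 : B ≤ (G' n ⊓ (G'' (n - 1)).comap D) ⊔ B := le_sup_right
  have e2 : (G' n ⊓ (G'' (n - 1)).comap D) ⊔ B ≤ Z :=
    sup_le (inf_le_inf_right _ (h1 n)) hBZ
  rw [Λ.rel_add e1 e2, Λ.rel_sup_right]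
  congr 1
  rw [← Λ.rel_inf ((G (n + 1)).map D ⊔ G' n)]
  congr 1
  -- modular law
  apply le_antisymm
  · refine sup_le ?_ ?_
    · exact le_inf (inf_le_left.trans le_sup_right) (inf_le_inf_right _ (h1 n))
    · exact le_inf (sup_le_sup_left (h2 n) _) hBZ
  · rintro x ⟨hx1, hx2⟩
    obtain ⟨y, hy, z, hz, rfl⟩ := Submodule.mem_sup.1 hx1
    have hy' : y ∈ B := Submodule.mem_sup_left hy
    have hz' : z ∈ (G'' (n - 1)).comap D := by
      have h3 : y + z - y ∈ (G'' (n - 1)).comap D :=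
        Submodule.sub_mem _ hx2.2 (hBZ hy').2
      rwa [add_sub_cancel_left] at h3
    rw [add_comm]
    exact Submodule.add_mem_sup ⟨hz, hz'⟩ hy'

include hD hG hG' h1 h2 in
theorem les_quot (n : ℤ) : h Λ D G G' n = Jj Λ D G G' G'' n + Rr Λ D G G' G'' (n - 1) := by
  unfold h Jj Rr
  rw [sub_add_cancel]
  have hDD : ∀ (T : Submodule A U) (S : Submodule A U), T.map D ≤ S.comap D := by
    rintro T S _ ⟨x, _, rfl⟩
    have : D (D x) = 0 := LinearMap.congr_fun hD x
    rw [Submodule.mem_comap, this]; exact S.zero_mem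
  set B := (G (n + 1)).map D ⊔ G' n with hB
  have hG'c : G' n ≤ (G' (n - 1)).comap D := by
    rw [← Submodule.map_le_iff_le_comap]; exact hG'.map_le n
  have e1 : B ≤ (G n ⊓ (G'' (n - 1)).comap D) ⊔ B := le_sup_right
  have e2 : (G n ⊓ (G'' (n - 1)).comap D) ⊔ B ≤ G n ⊓ (G' (n - 1)).comap D := by
    refine sup_le (inf_le_inf_left _ (Submodule.comap_mono (h2 _))) ?_
    exact le_inf (sup_le (hG n) (h1 n)) (sup_le (hDD _ _) hG'c)
  rw [Λ.rel_add e1 e2, Λ.rel_sup_right]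
  congr 1
  -- the second quotient, via `D`
  have k1 : G' (n - 1) ⊓ ((G n).map D ⊔ G'' (n - 1)) =
      (G n ⊓ (G' (n - 1)).comap D).map D ⊔ G'' (n - 1) := by
    apply le_antisymm
    · rintro x ⟨hx1, hx2⟩
      obtain ⟨y, ⟨w, hw, rfl⟩, z, hz, rfl⟩ := Submodule.mem_sup.1 hx2
      refine Submodule.add_mem_sup ⟨w, ⟨hw, ?_⟩, rfl⟩ hz
      have h3 : D w + z - z ∈ G' (n - 1) := Submodule.sub_mem _ hx1 (h2 _ hz)
      rwa [add_sub_cancel_right] at h3
    · refine sup_le ?_ (le_inf (h2 _) le_sup_right)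
      rintro _ ⟨w, hw, rfl⟩
      exact ⟨hw.2, Submodule.mem_sup_left ⟨w, hw.1, rfl⟩⟩
  have k2 : Λ.rel ((G' n).map D ⊔ G'' (n - 1)) (G' (n - 1) ⊓ ((G n).map D ⊔ G'' (n - 1))) =
      Λ.rel (((G' n).map D ⊔ G'' (n - 1)).comap D) (G n ⊓ (G' (n - 1)).comap D) := by
    rw [Λ.rel_comap, k1]
    have := Λ.rel_sup_right ((G' n).map D ⊔ G'' (n - 1)) ((G n ⊓ (G' (n - 1)).comap D).map D)
    rw [← this, ← sup_assoc]
    have h4 : (G' n).map D ≤ (G n ⊓ (G' (n - 1)).comap D).map D :=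
      Submodule.map_mono (le_inf (h1 n) hG'c)
    rw [sup_eq_left.2 h4]
  rw [k2, ← Λ.rel_inf (((G' n).map D ⊔ G'' (n - 1)).comap D)]
  congr 1
  apply le_antisymm
  · refine le_inf ?_ e2
    refine sup_le ?_ (sup_le (hDD _ _) ?_)
    · refine inf_le_right.trans (Submodule.comap_mono le_sup_right)
    · rw [← Submodule.map_le_iff_le_comap]; exact le_sup_left
  · rintro x ⟨hx1, hx2⟩
    have hx1' : D x ∈ (G' n).map D ⊔ G'' (n - 1) := hx1
    obtain ⟨y, ⟨w, hw, rfl⟩, z, hz, hyz⟩ := Submodule.mem_sup.1 hx1'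
    have hxw : x = (x - w) + w := by abel
    rw [hxw]
    refine Submodule.add_mem_sup ⟨Submodule.sub_mem _ hx2.1 (h1 _ hw), ?_⟩
      (Submodule.mem_sup_right hw)
    change D (x - w) ∈ G'' (n - 1)
    rw [map_sub, ← hyz, add_sub_cancel_left]
    exact hz

end les

/-! ### two out of three -/

section null

variable (hD : D ∘ₗ D = 0) (hG : Stable D G) (hG' : Stable D G') (hG'' : Stable D G'')
  (h1 : ∀ n, G' n ≤ G n) (h2 : ∀ n, G'' n ≤ G' n)

include hD hG hG' hG'' h1 h2 in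
theorem null_mid {n : ℤ} (ha : h Λ D G' G'' n = 0) (hb : h Λ D G G' n = 0) :
    h Λ D G G'' n = 0 := by
  rw [les_sub Λ hD hG' hG'' h1 h2, add_eq_zero] at ha
  rw [les_quot Λ hD hG hG' h1 h2 (G'' := G''), add_eq_zero] at hb
  rw [les_mid Λ hD hG hG'' h1 h2, ha.2, hb.1, add_zero]

include hD hG hG' hG'' h1 h2 in
theorem null_sub {n : ℤ} (ha : h Λ D G G'' n = 0) (hb : h Λ D G G' (n + 1) = 0) :
    h Λ D G' G'' n = 0 := by
  rw [les_mid Λ hD hG hG'' h1 h2, add_eq_zero] at ha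
  rw [les_quot Λ hD hG hG' h1 h2 (G'' := G''), add_eq_zero, add_sub_cancel_right] at hb
  rw [les_sub Λ hD hG' hG'' h1 h2, ha.1, hb.2, add_zero]

include hD hG hG' hG'' h1 h2 in
theorem null_quot {n : ℤ} (ha : h Λ D G G'' n = 0) (hb : h Λ D G' G'' (n - 1) = 0) :
    h Λ D G G' n = 0 := by
  rw [les_mid Λ hD hG hG'' h1 h2, add_eq_zero] at ha
  rw [les_sub Λ hD hG' hG'' h1 h2, add_eq_zero] at hb
  rw [les_quot Λ hD hG hG' h1 h2 (G'' := G''), ha.2, hb.1, add_zero]

include hD hG hG' hG'' h1 h2 in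
/-- dimension shift: if `G/G''` is null in degrees `n`, `n+1`, then
`h_{n+1}(G/G') = h_n(G'/G'')`. -/
theorem shift_eq {n : ℤ} (ha : h Λ D G G'' n = 0) (ha' : h Λ D G G'' (n + 1) = 0) :
    h Λ D G G' (n + 1) = h Λ D G' G'' n := by
  rw [les_mid Λ hD hG hG'' h1 h2, add_eq_zero] at ha ha'
  rw [les_quot Λ hD hG hG' h1 h2 (G'' := G''), les_sub Λ hD hG' hG'' h1 h2, ha.1, ha'.2,
    add_zero, zero_add, add_sub_cancel_right]

end null

/-! ### Euler characteristics -/

/-- Euler characteristic of a family of lengths. -/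
noncomputable def chi (f : ℤ → ℝ≥0∞) : ℝ := ∑ᶠ n : ℤ, (-1 : ℝ) ^ n * (f n).toReal

/-- finite everywhere and finitely supported. -/
structure FinS (f : ℤ → ℝ≥0∞) : Prop where
  ne_top : ∀ n, f n ≠ ⊤
  fin : (Function.support f).Finite

lemma FinS.mono {f g : ℤ → ℝ≥0∞} (hg : FinS g) (h : ∀ n, f n ≤ g n) : FinS f :=
  ⟨fun n => ne_top_of_le_ne_top (hg.ne_top n) (h n), hg.fin.subset fun n hn => by
    rw [Function.mem_support] at hn ⊢
    intro h0
    exact hn (le_antisymm ((h n).trans h0.le) zero_le)⟩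

lemma FinS.add {f g : ℤ → ℝ≥0∞} (hf : FinS f) (hg : FinS g) : FinS (fun n => f n + g n) :=
  ⟨fun n => ENNReal.add_ne_top.2 ⟨hf.ne_top n, hg.ne_top n⟩,
    (hf.fin.union hg.fin).subset (Function.support_add f g)⟩

lemma FinS.shift {f : ℤ → ℝ≥0∞} (hf : FinS f) : FinS (fun n => f (n - 1)) :=
  ⟨fun n => hf.ne_top _, by
    have := hf.fin.preimage (f := fun n : ℤ => n - 1) (fun a _ b _ hab => by simpa using hab)
    exact this.subset fun n hn => hn⟩

lemma FinS.unshift {f : ℤ → ℝ≥0∞} (hf : FinS (fun n => f (n - 1))) : FinS f :=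
  ⟨fun n => by simpa using hf.ne_top (n + 1), by
    have := hf.fin.preimage (f := fun n : ℤ => n + 1) (fun a _ b _ hab => by simpa using hab)
    exact this.subset fun n hn => by
      rw [Set.mem_preimage, Function.mem_support]; simpa using hn⟩

lemma finS_support {f : ℤ → ℝ≥0∞} (hf : FinS f) :
    (Function.support fun n : ℤ => (-1 : ℝ) ^ n * (f n).toReal).Finite :=
  hf.fin.subset fun n hn => by
    rw [Function.mem_support] at hn ⊢
    intro h0
    exact hn (by simp [h0])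

lemma chi_add {f g : ℤ → ℝ≥0∞} (hf : FinS f) (hg : FinS g) :
    chi (fun n => f n + g n) = chi f + chi g := by
  unfold chi
  rw [← finsum_add_distrib (finS_support hf) (finS_support hg)]
  refine finsum_congr fun n => ?_
  rw [ENNReal.toReal_add (hf.ne_top n) (hg.ne_top n), mul_add]

lemma chi_shift (f : ℤ → ℝ≥0∞) : chi (fun n => f (n - 1)) = - chi f := by
  unfold chi
  rw [← finsum_neg_distrib]
  refine Eq.trans (finsum_congr fun n => ?_)
    (finsum_comp_equiv (f := fun n : ℤ => -((-1 : ℝ) ^ n * (f n).toReal)) (Equiv.subRight (1 : ℤ)))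
  simp only [Equiv.subRight_apply]
  have : (-1 : ℝ) ^ n = - (-1 : ℝ) ^ (n - 1) := by
    rw [zpow_sub_one₀ (by norm_num : (-1 : ℝ) ≠ 0)]; norm_num
  rw [this]; ring

lemma chi_zero : chi (fun _ => 0) = 0 := by
  unfold chi; simp

section chi

variable (hD : D ∘ₗ D = 0) (hG : Stable D G) (hG' : Stable D G') (hG'' : Stable D G'')
  (h1 : ∀ n, G' n ≤ G n) (h2 : ∀ n, G'' n ≤ G' n)

include hD hG hG' hG'' h1 h2 in
theorem finS_mid (ha : FinS (h Λ D G' G'')) (hb : FinS (h Λ D G G')) : FinS (h Λ D G G'') := by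
  refine (ha.add hb).mono fun n => ?_
  rw [les_mid Λ hD hG hG'' h1 h2, les_sub Λ hD hG' hG'' h1 h2,
    les_quot Λ hD hG hG' h1 h2 (G'' := G'')]
  exact add_le_add le_add_self le_self_add

include hD hG hG' hG'' h1 h2 in
theorem finS_sub (ha : FinS (h Λ D G G'')) (hb : FinS (h Λ D G G')) : FinS (h Λ D G' G'') := by
  have hb' : FinS (fun n => h Λ D G G' (n + 1)) := by
    refine FinS.unshift ?_
    simpa using hb
  refine (ha.add hb').mono fun n => ?_
  rw [les_mid Λ hD hG hG'' h1 h2, les_sub Λ hD hG' hG'' h1 h2,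
    les_quot Λ hD hG hG' h1 h2 (G'' := G''), add_sub_cancel_right, add_comm]
  exact add_le_add le_self_add le_add_self

include hD hG hG' hG'' h1 h2 in
theorem finS_quot (ha : FinS (h Λ D G G'')) (hb : FinS (h Λ D G' G'')) : FinS (h Λ D G G') := by
  refine (ha.add hb.shift).mono fun n => ?_
  rw [les_mid Λ hD hG hG'' h1 h2, les_sub Λ hD hG' hG'' h1 h2,
    les_quot Λ hD hG hG' h1 h2 (G'' := G'')]
  exact add_le_add le_add_self le_self_add

include hD hG hG' hG'' h1 h2 in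
theorem chi_les (ha : FinS (h Λ D G' G'')) (hb : FinS (h Λ D G G')) :
    chi (h Λ D G G'') = chi (h Λ D G' G'') + chi (h Λ D G G') := by
  have e1 : h Λ D G' G'' = fun n => Rr Λ D G G' G'' n + Ii Λ D G G' G'' n :=
    funext fun n => les_sub Λ hD hG' hG'' h1 h2 n
  have e2 : h Λ D G G'' = fun n => Ii Λ D G G' G'' n + Jj Λ D G G' G'' n :=
    funext fun n => les_mid Λ hD hG hG'' h1 h2 n
  have e3 : h Λ D G G' = fun n => Jj Λ D G G' G'' n + Rr Λ D G G' G'' (n - 1) :=
    funext fun n => les_quot Λ hD hG hG' h1 h2 (G'' := G'') n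
  have fR : FinS (Rr Λ D G G' G'') := ha.mono fun n => by
    rw [les_sub Λ hD hG' hG'' h1 h2]; exact le_self_add
  have fI : FinS (Ii Λ D G G' G'') := ha.mono fun n => by
    rw [les_sub Λ hD hG' hG'' h1 h2]; exact le_add_self
  have fJ : FinS (Jj Λ D G G' G'') := hb.mono fun n => by
    rw [les_quot Λ hD hG hG' h1 h2 (G'' := G'')]; exact le_self_add
  rw [e1, e2, e3, chi_add fR fI, chi_add fI fJ, chi_add fJ fR.shift, chi_shift]
  ring

end chi

end KHom

end Crest.Agent.R183
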