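/-
R183 (Lech), Theorem K: the interface between the combinatorics of `(P^1)^n` (helper389) and the
total complex (helper685).   helper389
-/
import Mathlib
import Crest.Agent.R183.KHom
import Crest.Agent.R183.KFree

set_option autoImplicit false

namespace Crest.Agent.R183.KF

open scoped ENNReal

universe u v

variable {n : ℕ}

/-- number of roots above `k`. -/
def Jd0 (ρ : Fin n → ℤ) (k : ℤ) : ℤ := ((Finset.univ.filter fun l => k < ρ l).card : ℤ)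

/-- `|∏ (k - ρ_l)|`. -/
def rk (ρ : Fin n → ℤ) (k : ℤ) : ℕ := ∏ l, (k - ρ l).natAbs

/-- The Čech package: all that the total complex needs to know about the Čech complexes
`⨁_k RΓ((P^1)^n, O(k-1-ρ_1,..,k-1-ρ_n)) ⊗_Λ W`.
`V` = cochains, `δ` = Čech differential, `FF ρ k j` = cochains of cohomological degree `j`, of
internal degree `≥ k` modulo the relations; `ZZ ρ j` = the relations. -/
structure Pkg {A : Type u} [CommRing A] (Λ : AddLen.{u, v} A) (W : Type v) [AddCommGroup W]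
    [Module A W] (X : Fin (n + 1) → A) (V : Type v) [AddCommGroup V] [Module A V]
    (δ : V →ₗ[A] V) (FF : (Fin n → ℤ) → ℤ → ℤ → Submodule A V)
    (ZZ : (Fin n → ℤ) → ℤ → Submodule A V) : Prop where
  δδ : δ ∘ₗ δ = 0
  δFF : ∀ ρ k j, (FF ρ k j).map δ ≤ FF ρ k (j + 1)
  δZZ : ∀ ρ j, (ZZ ρ j).map δ ≤ ZZ ρ (j + 1)
  anti : ∀ ρ k j, FF ρ (k + 1) j ≤ FF ρ k j
  ZZ_le : ∀ ρ k j, ZZ ρ j ≤ FF ρ k j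
  neg : ∀ ρ k j, j < 0 → FF ρ k j = ⊥
  gt : ∀ ρ k j, (n : ℤ) < j → FF ρ k j = ⊥
  /-- elements of `A` mapping `W` into `(X)^N W` raise the internal degree by `N` -/
  raise : ∀ (r : A) (N : ℕ), (∀ w : W, r • w ∈ (Ideal.span (Set.range X)) ^ N • (⊤ : Submodule A W)) →
    ∀ ρ k j, ∀ y ∈ FF ρ k j, r • y ∈ FF ρ (k + N) j
  /-- graded pieces are exact outside the degree `J` -/
  piece_null : ∀ ρ k j, j ≠ Jd0 ρ k → ∀ y ∈ FF ρ k j, δ y ∈ FF ρ (k + 1) (j + 1) →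
    ∃ y' ∈ FF ρ k (j - 1), y - δ y' ∈ FF ρ (k + 1) j
  /-- and have the homology `(W/XW)^r` in the degree `J` -/
  piece_len : ∀ ρ k, Λ.rel ((FF ρ k (Jd0 ρ k - 1)).map δ ⊔ FF ρ (k + 1) (Jd0 ρ k))
      (FF ρ k (Jd0 ρ k) ⊓ (FF ρ (k + 1) (Jd0 ρ k + 1)).comap δ) =
    rk ρ k * Λ.L (W ⧸ ((Ideal.span (Set.range X)) • (⊤ : Submodule A W)))
  /-- unit ideal on the charts (the `c ν` do NOT commute with `δ`) -/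
  contr : ∀ N' : ℕ, ∃ (M' : ℕ) (c : Fin (n + 1) → V →ₗ[A] V), ∀ ρ,
    (∀ ν k j, (FF ρ k j).map (c ν) ≤ FF ρ (k - M') j) ∧ (∀ ν j, (ZZ ρ j).map (c ν) ≤ ZZ ρ j) ∧
    (∀ k j, ∀ y ∈ FF ρ k j, (∑ ν, c ν (X ν ^ N' • y)) - y ∈ ZZ ρ j)
  /-- affinity in the root `ρ_l` -/
  aff : ∀ l : Fin n, ∃ U : V →ₗ[A] V, U ∘ₗ δ = δ ∘ₗ U ∧ ∀ ρ ρ1 ρ2 : Fin n → ℤ,
    ρ1 = Function.update ρ l (ρ l + 1) → ρ2 = Function.update ρ l (ρ l + 2) →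
    (∀ k j, FF ρ1 k j ≤ FF ρ k j) ∧ (∀ j, ZZ ρ1 j ≤ ZZ ρ j) ∧
    (∀ k j, (FF ρ1 k j).map U ≤ FF ρ k j) ∧ (∀ j, (ZZ ρ1 j).map U ≤ ZZ ρ j) ∧
    (∀ k j, ∀ w ∈ FF ρ k j, ∃ x ∈ FF ρ1 k j, ∃ y ∈ FF ρ1 k j, w - (x + U y) ∈ ZZ ρ j) ∧
    (∀ k j, ∀ x ∈ FF ρ1 k j, ∀ y ∈ FF ρ1 k j, x + U y ∈ ZZ ρ j →
      ∃ z ∈ FF ρ2 k j, x - U z ∈ ZZ ρ1 j ∧ y + z ∈ ZZ ρ1 j) ∧
    (∀ k j, ∀ z ∈ FF ρ2 k j, U z ∈ ZZ ρ1 j → z ∈ ZZ ρ1 j → z ∈ ZZ ρ2 j)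
  /-- shift of all roots -/
  shift : ∃ T T' : V →ₗ[A] V, T ∘ₗ δ = δ ∘ₗ T ∧ T' ∘ₗ δ = δ ∘ₗ T' ∧ T ∘ₗ T' = LinearMap.id ∧
    T' ∘ₗ T = LinearMap.id ∧ (∀ ρ k j, (FF ρ k j).map T = FF (fun l => ρ l + 1) (k + 1) j) ∧
    (∀ ρ j, (ZZ ρ j).map T = ZZ (fun l => ρ l + 1) j)
  /-- staircases -/
  stair : ∀ σ : Equiv.Perm (Fin n), ∃ ψ : (Fin n.factorial → W) →ₗ[A] V, ∀ ρ : Fin n → ℤ,
    (∀ l, ρ l = -((σ l : ℕ) : ℤ) - 1) → (∀ w, ψ w ∈ FF ρ 0 0) ∧ (∀ w, δ (ψ w) = 0) ∧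
    (∀ k : ℤ, 0 ≤ k → ∀ y ∈ FF ρ k 0, δ y ∈ FF ρ (k + 1) 1 → ∃ w, y - ψ w ∈ FF ρ (k + 1) 0)

end Crest.Agent.R183.KF
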