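/-
R183 (Lech), Theorem K: Laurent polynomials with coefficients in a module, relations, the
leading form lemma (K1).   helper389
-/
import Mathlib
import Crest.Agent.R183.KPkg

set_option autoImplicit false

namespace Crest.Agent.R183.KF

open Finset

universe u v

section act

variable {A : Type u} [CommRing A] {W : Type v} [AddCommGroup W] [Module A W] {n : ℕ}

/-- `W`-valued Laurent polynomials. -/
abbrev WL (W : Type v) [AddCommGroup W] (n : ℕ) : Type v := Ex n →₀ W

/-- shift by an exponent. -/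
noncomputable def sh (A : Type u) [CommRing A] {W : Type v} [AddCommGroup W] [Module A W] {n : ℕ}
    (e : Ex n) : WL W n →ₗ[A] WL W n := Finsupp.lmapDomain W A (fun x => e + x)

@[simp] lemma sh_single (e x : Ex n) (w : W) :
    sh A e (Finsupp.single x w) = Finsupp.single (e + x) w := by
  simp [sh]

lemma sh_zero : sh A (0 : Ex n) = (LinearMap.id : WL W n →ₗ[A] WL W n) := by
  apply Finsupp.lhom_ext
  intro x w
  simp

lemma sh_add (e e' : Ex n) : (sh A (e + e') : WL W n →ₗ[A] WL W n) = sh A e ∘ₗ sh A e' := by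
  apply Finsupp.lhom_ext
  intro x w
  simp [add_assoc]

variable (A W) in
/-- the shifts as a monoid hom. -/
noncomputable def actHom : Multiplicative (Ex n) →* Module.End A (WL W n) where
  toFun e := sh A e.toAdd
  map_one' := sh_zero
  map_mul' _ _ := sh_add _ _

variable (A W) in
/-- Laurent polynomials with integer coefficients act. -/
noncomputable def act : LL n →ₐ[ℤ] Module.End A (WL W n) :=
  AddMonoidAlgebra.lift ℤ (Module.End A (WL W n)) (Ex n) (actHom A W)

lemma act_mo (j : Fin n → ℤ) (k : ℤ) : act A W (mo j k) = sh A (j, k) := by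
  unfold act mo
  rw [AddMonoidAlgebra.lift_single]
  simp [actHom]

lemma act_mul_apply (f g : LL n) (x : WL W n) : act A W (f * g) x = act A W f (act A W g x) := by
  rw [map_mul]; rfl

lemma act_comm (f g : LL n) (x : WL W n) :
    act A W f (act A W g x) = act A W g (act A W f x) := by
  rw [← act_mul_apply, mul_comm, act_mul_apply]

lemma act_one_apply (x : WL W n) : act A W (1 : LL n) x = x := by
  rw [map_one]; rfl

lemma act_add_apply (f g : LL n) (x : WL W n) :
    act A W (f + g) x = act A W f x + act A W g x := by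
  rw [map_add]; rfl

lemma act_sum_apply {ι : Type*} (s : Finset ι) (f : ι → LL n) (x : WL W n) :
    act A W (∑ i ∈ s, f i) x = ∑ i ∈ s, act A W (f i) x := by
  rw [map_sum, LinearMap.sum_apply]

variable (A W) in
/-- Laurent polynomials supported in `P`. -/
noncomputable abbrev WS (P : Set (Ex n)) : Submodule A (WL W n) := Finsupp.supported W A P

lemma single_mem {P : Set (Ex n)} {e : Ex n} (he : e ∈ P) (w : W) :
    Finsupp.single e w ∈ WS A W P := Finsupp.single_mem_supported A w he

lemma WS_mono {P P' : Set (Ex n)} (h : P ⊆ P') : WS A W P ≤ WS A W P' :=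
  Finsupp.supported_mono h

/-- induction on `WS P`. -/
lemma WS_induction {P : Set (Ex n)} {p : WL W n → Prop} {x : WL W n} (hx : x ∈ WS A W P)
    (h0 : p 0) (hadd : ∀ x y, p x → p y → p (x + y))
    (hs : ∀ e ∈ P, ∀ w : W, p (Finsupp.single e w)) : p x := by
  classical
  have h1 : ∀ (s : Finset (Ex n)) (f : WL W n), f.support ⊆ s → (∀ e ∈ s, e ∈ P ∨ f e = 0) → p f := by
    intro s
    induction s using Finset.induction_on with
    | empty =>
      intro f hf _
      have : f = 0 := Finsupp.support_eq_empty.1 (Finset.subset_empty.1 hf)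
      rw [this]; exact h0
    | insert a s ha ih =>
      intro f hf hP
      have h2 : f = Finsupp.single a (f a) + f.erase a := (Finsupp.single_add_erase a f).symm
      rw [h2]
      refine hadd _ _ ?_ (ih _ ?_ ?_)
      · rcases hP a (Finset.mem_insert_self _ _) with h | h
        · exact hs a h _
        · rw [h, Finsupp.single_zero]; exact h0
      · intro e he
        rw [Finsupp.support_erase, Finset.mem_erase] at he
        exact (Finset.mem_insert.1 (hf he.2)).resolve_left he.1
      · intro e he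
        by_cases hea : e = a
        · right; subst hea; simp
        · rcases hP e (Finset.mem_insert_of_mem he) with h | h
          · exact Or.inl h
          · right; rw [Finsupp.erase_ne hea]; exact h
  refine h1 x.support x subset_rfl fun e he => Or.inl ?_
  exact hx he

lemma sh_mem {P P' : Set (Ex n)} {e : Ex n} (h : ∀ x ∈ P, e + x ∈ P') {x : WL W n}
    (hx : x ∈ WS A W P) : sh A e x ∈ WS A W P' := by
  refine WS_induction (p := fun x => sh A e x ∈ WS A W P') hx ?_ ?_ ?_
  · rw [map_zero]; exact zero_mem _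
  · intro x y h1 h2; rw [map_add]; exact add_mem h1 h2
  · intro y hy w
    rw [sh_single]
    exact single_mem (h y hy) w

lemma act_mem {Q P P' : Set (Ex n)} (h : ∀ e ∈ Q, ∀ x ∈ P, e + x ∈ P') {g : LL n}
    (hg : g ∈ Sub Q) {x : WL W n} (hx : x ∈ WS A W P) : act A W g x ∈ WS A W P' := by
  rw [Sub_eq_span] at hg
  induction hg using Submodule.span_induction with
  | mem y hy =>
    obtain ⟨e, he, rfl⟩ := hy
    rw [act_mo]
    exact sh_mem (h e he) hx
  | zero => rw [map_zero]; exact zero_mem _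
  | add y z _ _ hy hz => rw [act_add_apply]; exact add_mem hy hz
  | smul r y _ hy =>
    rw [map_smul]
    have : (r • act A W y) x = r • act A W y x := rfl
    rw [this]
    exact zsmul_mem hy r

/-- `θ_i` = multiplication by `τ e_i(u)`. -/
noncomputable def th (A : Type u) [CommRing A] {W : Type v} [AddCommGroup W] [Module A W] {n : ℕ}
    (i : Fin (n + 1)) : WL W n →ₗ[A] WL W n := act A W (xs univ i)

lemma th_comm (g : LL n) (i : Fin (n + 1)) (x : WL W n) :
    act A W g (th A i x) = th A i (act A W g x) := act_comm _ _ _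

lemma xs_mem (S : Finset (Fin n)) (i : ℕ) :
    xs S i ∈ Sub {e : Ex n | e.2 = 1 ∧ ∃ B : Finset (Fin n), e.1 = ind B} := by
  have h := xs_mul_mem (S := S) (P := {0})
    (P' := {e : Ex n | e.2 = 1 ∧ ∃ B : Finset (Fin n), e.1 = ind B}) (i := i) (f := 1) ?_ ?_
  · simpa using h
  · rintro e he B _
    rw [Set.mem_singleton_iff] at he
    subst he
    exact ⟨by simp, B, by simp⟩
  · rw [← mo_zero]
    exact mo_mem rfl

/-- sets of exponents stable under `(j,k) ↦ (1_B + j, k+1)`. -/
lemma th_mem {P P' : Set (Ex n)} (h : ∀ e ∈ P, ∀ B : Finset (Fin n), (ind B + e.1, e.2 + 1) ∈ P')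
    (i : Fin (n + 1)) {x : WL W n} (hx : x ∈ WS A W P) : th A i x ∈ WS A W P' := by
  refine act_mem (Q := {e : Ex n | e.2 = 1 ∧ ∃ B : Finset (Fin n), e.1 = ind B}) ?_
    (xs_mem univ i) hx
  rintro e ⟨he, B, hB⟩ x hx
  have := h x hx B
  have h2 : e + x = (ind B + x.1, x.2 + 1) := by
    refine Prod.ext ?_ ?_
    · simp [hB]
    · simp [he, add_comm]
  rw [h2]; exact this

end act


section rel

variable {A : Type u} [CommRing A] {W : Type v} [AddCommGroup W] [Module A W] {n : ℕ}
variable (X : Fin (n + 1) → A)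

/-- the relations `∑ (X_i - θ_i) w_i`, `w_i` supported in `P`. -/
def RR (W : Type v) [AddCommGroup W] [Module A W] (P : Set (Ex n)) : Submodule A (WL W n) where
  carrier := {x | ∃ w : Fin (n + 1) → WL W n, (∀ i, w i ∈ WS A W P) ∧
    x = ∑ i, (X i • w i - th A i (w i))}
  add_mem' := by
    rintro x y ⟨w, hw, rfl⟩ ⟨w', hw', rfl⟩
    refine ⟨w + w', fun i => add_mem (hw i) (hw' i), ?_⟩
    rw [← Finset.sum_add_distrib]
    refine Finset.sum_congr rfl fun i _ => ?_
    rw [Pi.add_apply, smul_add, map_add]; abel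
  zero_mem' := ⟨0, fun i => zero_mem _, by simp⟩
  smul_mem' := by
    rintro r x ⟨w, hw, rfl⟩
    refine ⟨r • w, fun i => Submodule.smul_mem _ r (hw i), ?_⟩
    rw [Finset.smul_sum]
    refine Finset.sum_congr rfl fun i _ => ?_
    rw [Pi.smul_apply, map_smul, smul_sub, smul_comm]

variable {X}

lemma RR_mono {P P' : Set (Ex n)} (h : P ⊆ P') : RR X W P ≤ RR X W P' := by
  rintro x ⟨w, hw, rfl⟩
  exact ⟨w, fun i => WS_mono h (hw i), rfl⟩

lemma sub_th_mem {P : Set (Ex n)} (i : Fin (n + 1)) {w : WL W n} (hw : w ∈ WS A W P) :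
    X i • w - th A i w ∈ RR X W P := by
  refine ⟨Pi.single i w, fun j => ?_, ?_⟩
  · by_cases h : j = i
    · subst h; simpa using hw
    · rw [Pi.single_eq_of_ne h]; exact zero_mem _
  · rw [Finset.sum_eq_single i]
    · simp
    · intro j _ h; simp [Pi.single_eq_of_ne h]
    · intro h; exact absurd (mem_univ _) h

lemma RR_le {P P' : Set (Ex n)} (hPP : P ⊆ P')
    (h : ∀ e ∈ P, ∀ B : Finset (Fin n), (ind B + e.1, e.2 + 1) ∈ P') : RR X W P ≤ WS A W P' := by
  rintro x ⟨w, hw, rfl⟩
  exact Submodule.sum_mem _ fun i _ =>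
    sub_mem (Submodule.smul_mem _ _ (WS_mono hPP (hw i))) (th_mem h i (hw i))

lemma act_RR {Q P P' : Set (Ex n)} (h : ∀ e ∈ Q, ∀ x ∈ P, e + x ∈ P') {g : LL n}
    (hg : g ∈ Sub Q) {x : WL W n} (hx : x ∈ RR X W P) : act A W g x ∈ RR X W P' := by
  obtain ⟨w, hw, rfl⟩ := hx
  refine ⟨fun i => act A W g (w i), fun i => act_mem h hg (hw i), ?_⟩
  rw [map_sum]
  refine Finset.sum_congr rfl fun i _ => ?_
  rw [map_sub, map_smul, th_comm]

/-- `H_1(X;W) = 0`. -/
def H1 {A : Type u} [CommRing A] {n : ℕ} (X : Fin (n + 1) → A) (W : Type v) [AddCommGroup W]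
    [Module A W] : Prop := ∀ w : Fin (n + 1) → W, ∑ i, X i • w i = 0 →
  ∃ a : Fin (n + 1) → Fin (n + 1) → W, (∀ i j, a i j = - a j i) ∧ (∀ i, a i i = 0) ∧
    ∀ i, w i = ∑ j, X j • a i j

lemma H1.lift (hH : H1 X W) {Q : Set (Ex n)} {w : Fin (n + 1) → WL W n}
    (hw : ∀ i, w i ∈ WS A W Q) (h : ∑ i, X i • w i = 0) :
    ∃ a : Fin (n + 1) → Fin (n + 1) → WL W n, (∀ i j, a i j = - a j i) ∧ (∀ i, a i i = 0) ∧
      (∀ i j, a i j ∈ WS A W Q) ∧ ∀ i, w i = ∑ j, X j • a i j := by
  classical
  have h1 : ∀ e : Ex n, ∑ i, X i • (w i e) = 0 := by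
    intro e
    have := DFunLike.congr_fun h e
    simpa using this
  choose α hα1 hα2 hα3 using fun e => hH (fun i => w i e) (h1 e)
  let s : Finset (Ex n) := Finset.univ.biUnion fun i => (w i).support
  have hs : ∀ e ∉ s, ∀ i, w i e = 0 := by
    intro e he i
    by_contra hne
    exact he (Finset.mem_biUnion.2 ⟨i, mem_univ i, Finsupp.mem_support_iff.2 hne⟩)
  have hsQ : ∀ e ∈ s, e ∈ Q := by
    intro e he
    obtain ⟨i, _, hi⟩ := Finset.mem_biUnion.1 he
    exact hw i hi
  refine ⟨fun i j => Finsupp.onFinset s (fun e => if e ∈ s then α e i j else 0) (fun e he => ?_),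
    fun i j => ?_, fun i => ?_, fun i j => ?_, fun i => ?_⟩
  · by_contra hne
    exact he (by simp [hne])
  · ext e
    simp only [Finsupp.onFinset_apply, Finsupp.neg_apply]
    split_ifs
    · exact hα1 e i j
    · simp
  · ext e
    simp only [Finsupp.onFinset_apply, Finsupp.zero_apply]
    split_ifs
    · exact hα2 e i
    · rfl
  · intro e he
    refine hsQ e ?_
    by_contra hne
    rw [Finset.mem_coe, Finsupp.mem_support_iff, Finsupp.onFinset_apply, if_neg hne] at he
    exact he rfl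
  · ext e
    rw [Finsupp.finsetSum_apply]
    simp only [Finsupp.smul_apply, Finsupp.onFinset_apply]
    by_cases he : e ∈ s
    · simp only [he, if_true]
      exact hα3 e i
    · simp [he, hs e he i]

lemma antisymm_sum {M : Type*} [AddCommGroup M] {m : ℕ} (f : Fin m → Fin m → M)
    (h1 : ∀ i j, f i j = - f j i) (h2 : ∀ i, f i i = 0) : ∑ i, ∑ j, f i j = 0 := by
  rw [← Finset.sum_product']
  refine Finset.sum_involution (fun p _ => (p.2, p.1)) ?_ ?_ ?_ ?_
  · intro p _
    rw [h1]; simp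
  · intro p _ hp h
    have : p.1 = p.2 := (congrArg Prod.snd h)
    apply hp
    rw [this]; exact h2 _
  · intro p _; simp
  · intro p _; rfl

variable (A W) in
/-- degree `k` part. -/
noncomputable def pr (k : ℤ) : WL W n →ₗ[A] WL W n where
  toFun := Finsupp.filter (fun e => e.2 = k)
  map_add' _ _ := Finsupp.filter_add
  map_smul' _ _ := Finsupp.filter_smul

lemma pr_apply (k : ℤ) (x : WL W n) (e : Ex n) :
    pr A W k x e = if e.2 = k then x e else 0 := by
  show Finsupp.filter _ x e = _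
  rw [Finsupp.filter_apply]

lemma pr_mem {P : Set (Ex n)} (k : ℤ) {x : WL W n} (hx : x ∈ WS A W P) :
    pr A W k x ∈ WS A W (P ∩ {e | e.2 = k}) := by
  intro e he
  rw [Finset.mem_coe, Finsupp.mem_support_iff, pr_apply] at he
  by_cases h : e.2 = k
  · rw [if_pos h] at he
    exact ⟨hx (Finsupp.mem_support_iff.2 he), h⟩
  · rw [if_neg h] at he; exact absurd rfl he

lemma sub_pr_mem {P : Set (Ex n)} {k : ℤ} {x : WL W n} (hx : x ∈ WS A W (P ∩ {e | k ≤ e.2})) :
    x - pr A W k x ∈ WS A W (P ∩ {e | k + 1 ≤ e.2}) := by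
  intro e he
  rw [Finset.mem_coe, Finsupp.mem_support_iff, Finsupp.sub_apply, pr_apply] at he
  by_cases h : e.2 = k
  · rw [if_pos h, sub_self] at he; exact absurd rfl he
  · rw [if_neg h, sub_zero] at he
    obtain ⟨h1, h2⟩ := hx (Finsupp.mem_support_iff.2 he)
    refine ⟨h1, ?_⟩
    have : k ≤ e.2 := h2
    show k + 1 ≤ e.2
    omega

lemma pr_eq_self {k : ℤ} {x : WL W n} (hx : x ∈ WS A W {e | e.2 = k}) : pr A W k x = x := by
  ext e
  rw [pr_apply]
  split_ifs with h
  · rfl
  · by_contra hne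
    exact h (hx (Finsupp.mem_support_iff.2 (Ne.symm hne)))

lemma pr_eq_zero {k : ℤ} {x : WL W n} (hx : x ∈ WS A W {e | k + 1 ≤ e.2}) : pr A W k x = 0 := by
  ext e
  rw [pr_apply]
  split_ifs with h
  · by_contra hne
    have : k + 1 ≤ e.2 := hx (Finsupp.mem_support_iff.2 hne)
    omega
  · rfl

lemma lead_aux (hH : H1 X W) {P : Set (Ex n)} (hP : Stable P) (k : ℤ) : ∀ (t : ℕ)
    (w : Fin (n + 1) → WL W n), (∀ i, w i ∈ WS A W (P ∩ {e | k - t ≤ e.2})) →
    (∑ i, (X i • w i - th A i (w i))) ∈ WS A W {e | k ≤ e.2} →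
    ∃ w' : Fin (n + 1) → WL W n, (∀ i, w' i ∈ WS A W (P ∩ {e | k ≤ e.2})) ∧
      ∑ i, (X i • w' i - th A i (w' i)) = ∑ i, (X i • w i - th A i (w i)) := by
  intro t
  induction t with
  | zero => intro w hw _; exact ⟨w, by simpa using hw, rfl⟩
  | succ t ih =>
    intro w hw hsum
    set k0 : ℤ := k - ((t + 1 : ℕ) : ℤ) with hk0
    have hk1 : k0 + 1 = k - t := by rw [hk0]; push_cast; ring
    set w0 : Fin (n + 1) → WL W n := fun i => pr A W k0 (w i) with hw0
    have hw0m : ∀ i, w0 i ∈ WS A W (P ∩ {e | e.2 = k0}) := by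
      intro i
      refine WS_mono ?_ (pr_mem k0 (hw i))
      rintro e ⟨⟨h1, _⟩, h3⟩
      exact ⟨h1, h3⟩
    have hw1m : ∀ i, w i - w0 i ∈ WS A W (P ∩ {e | k - t ≤ e.2}) := by
      intro i
      rw [← hk1]
      exact sub_pr_mem (hw i)
    have hzero : ∑ i, X i • w0 i = 0 := by
      have h1 : pr A W k0 (∑ i, (X i • w i - th A i (w i))) = 0 := by
        refine pr_eq_zero (WS_mono ?_ hsum)
        intro e he
        have : k ≤ e.2 := he
        show k0 + 1 ≤ e.2
        omega
      rw [map_sum] at h1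
      rw [← h1]
      refine Finset.sum_congr rfl fun i _ => ?_
      rw [map_sub, map_smul]
      have h2 : pr A W k0 (th A i (w i)) = 0 := by
        refine pr_eq_zero (th_mem (P := P ∩ {e | k0 ≤ e.2}) ?_ i (hw i))
        rintro e ⟨_, he⟩ B
        have : k0 ≤ e.2 := he
        show k0 + 1 ≤ e.2 + 1
        omega
      rw [h2, sub_zero]
    obtain ⟨a, ha1, ha2, ha3, ha4⟩ := hH.lift hw0m hzero
    have hth : ∀ i j, th A i (a i j) ∈ WS A W (P ∩ {e | k - t ≤ e.2}) := by
      intro i j
      refine th_mem (P := P ∩ {e | e.2 = k0}) ?_ i (ha3 i j)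
      rintro e ⟨he1, he2⟩ B
      refine ⟨hP e he1 B, ?_⟩
      have : e.2 = k0 := he2
      show k - t ≤ e.2 + 1
      omega
    let w2 : Fin (n + 1) → WL W n := fun j => (w j - w0 j) - ∑ i, th A i (a i j)
    have hw2 : ∀ j, w2 j ∈ WS A W (P ∩ {e | k - t ≤ e.2}) := by
      intro j
      refine sub_mem (hw1m j) (Submodule.sum_mem _ fun i _ => ?_)
      exact hth i j
    have hsum2 : ∑ i, (X i • w2 i - th A i (w2 i)) = ∑ i, (X i • w i - th A i (w i)) := by
      have e1 : ∑ i, (X i • w i - th A i (w i)) =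
          ∑ i, (X i • (w i - w0 i) - th A i (w i - w0 i)) + (∑ i, X i • w0 i - ∑ i, th A i (w0 i)) := by
        rw [← Finset.sum_sub_distrib, ← Finset.sum_add_distrib]
        refine Finset.sum_congr rfl fun i _ => ?_
        rw [smul_sub, map_sub]; abel
      have e2 : ∑ i, th A i (w0 i) = ∑ j, X j • ∑ i, th A i (a i j) := by
        have : ∀ i, th A i (w0 i) = ∑ j, X j • th A i (a i j) := by
          intro i
          rw [show w0 i = ∑ j, X j • a i j from ha4 i, map_sum]
          exact Finset.sum_congr rfl fun j _ => by rw [map_smul]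
        rw [Finset.sum_congr rfl fun i _ => this i, Finset.sum_comm]
        exact Finset.sum_congr rfl fun j _ => by rw [Finset.smul_sum]
      have e3 : ∑ j, th A j (∑ i, th A i (a i j)) = 0 := by
        have : ∀ j, th A j (∑ i, th A i (a i j)) = ∑ i, th A j (th A i (a i j)) := fun j => by
          rw [map_sum]
        rw [Finset.sum_congr rfl fun j _ => this j]
        refine antisymm_sum _ (fun i j => ?_) (fun i => ?_)
        · rw [ha1, map_neg, map_neg]
          rw [show th A i (th A j (a i j)) = th A j (th A i (a i j)) from act_comm _ _ _]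
        · rw [ha2, map_zero, map_zero]
      rw [e1, hzero, zero_sub, e2]
      have e4 : ∑ i, (X i • w2 i - th A i (w2 i)) =
          ∑ i, (X i • (w i - w0 i) - th A i (w i - w0 i)) -
            (∑ j, X j • ∑ i, th A i (a i j) - ∑ j, th A j (∑ i, th A i (a i j))) := by
        rw [← Finset.sum_sub_distrib, ← Finset.sum_sub_distrib]
        refine Finset.sum_congr rfl fun i _ => ?_
        simp only [w2]
        rw [smul_sub (X i) (w i - w0 i), map_sub (th A i) (w i - w0 i)]; abel
      rw [e4, e3, sub_zero]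
      abel
    obtain ⟨w', h1, h2⟩ := ih w2 hw2 (by rw [hsum2]; exact hsum)
    exact ⟨w', h1, h2.trans hsum2⟩

lemma exists_bound {w : Fin (n + 1) → WL W n} (k : ℤ) {P : Set (Ex n)}
    (hw : ∀ i, w i ∈ WS A W P) : ∃ t : ℕ, ∀ i, w i ∈ WS A W (P ∩ {e | k - t ≤ e.2}) := by
  classical
  let s : Finset (Ex n) := Finset.univ.biUnion fun i => (w i).support
  refine ⟨s.sup fun e => (k - e.2).toNat, fun i e he => ⟨hw i he, ?_⟩⟩
  have h1 : e ∈ s := Finset.mem_biUnion.2 ⟨i, mem_univ i, he⟩
  have h2 : (k - e.2).toNat ≤ s.sup fun e => (k - e.2).toNat :=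
    Finset.le_sup (f := fun e : Ex n => (k - e.2).toNat) h1
  show k - _ ≤ e.2
  omega

/-- **(K1)** leading forms: an element of degree `k` which is a relation modulo higher degree is
in `(X) WS`. -/
theorem lead (hH : H1 X W) {P : Set (Ex n)} (hP : Stable P) {k : ℤ} {x : WL W n}
    (hx : x ∈ WS A W (P ∩ {e | e.2 = k}))
    (hx' : x ∈ WS A W (P ∩ {e | k + 1 ≤ e.2}) ⊔ RR X W P) :
    x ∈ (Ideal.span (Set.range X)) • WS A W (P ∩ {e | e.2 = k}) := by
  obtain ⟨y, hy, r, ⟨w, hw, hr⟩, hxy⟩ := Submodule.mem_sup.1 hx'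
  obtain ⟨t, ht⟩ := exists_bound k hw
  have hr2 : r = x - y := by rw [← hxy]; abel
  have hr3 : (∑ i, (X i • w i - th A i (w i))) ∈ WS A W {e | k ≤ e.2} := by
    rw [← hr, hr2]
    refine sub_mem (WS_mono ?_ hx) (WS_mono ?_ hy)
    · rintro e ⟨_, he⟩
      have : e.2 = k := he
      show k ≤ e.2
      omega
    · rintro e ⟨_, he⟩
      have : k + 1 ≤ e.2 := he
      show k ≤ e.2
      omega
  obtain ⟨w', hw', hsum⟩ := lead_aux hH hP k t w ht hr3
  have h1 : x = ∑ i, X i • pr A W k (w' i) := by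
    have h2 : pr A W k x = x := pr_eq_self (WS_mono (fun e he => he.2) hx)
    have h3 : pr A W k y = 0 := pr_eq_zero (WS_mono (fun e he => he.2) hy)
    have h4 : pr A W k r = x := by rw [hr2, map_sub, h2, h3, sub_zero]
    rw [← h4, hr, ← hsum, map_sum]
    refine Finset.sum_congr rfl fun i _ => ?_
    rw [map_sub, map_smul]
    have h5 : pr A W k (th A i (w' i)) = 0 := by
      refine pr_eq_zero (th_mem (P := P ∩ {e | k ≤ e.2}) ?_ i (hw' i))
      rintro e ⟨_, he⟩ B
      have : k ≤ e.2 := he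
      show k + 1 ≤ e.2 + 1
      omega
    rw [h5, sub_zero]
  rw [h1]
  refine Submodule.sum_mem _ fun i _ => ?_
  refine Submodule.smul_mem_smul (Ideal.subset_span ⟨i, rfl⟩) ?_
  refine WS_mono ?_ (pr_mem k (hw' i))
  rintro e ⟨⟨h6, _⟩, h7⟩
  exact ⟨h6, h7⟩

end rel

end Crest.Agent.R183.KF
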