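import Crest.Agent.R183.Res1

/-!
# R183 (Lech), block [4]: cones, Koszul complexes, null-homotopies
-/

set_option autoImplicit false

namespace Crest.Agent.R183.Res

universe u v w

section Cone

variable {A : Type u} [CommRing A]

/-- Index types of the cone. -/
def coneι (ι : ℕ → Type) : ℕ → Type
  | 0 => ι 0
  | (n + 1) => ι (n + 1) ⊕ ι n

instance coneFin (ι : ℕ → Type) [h : ∀ n, Fintype (ι n)] : ∀ n, Fintype (coneι ι n)
  | 0 => h 0
  | (n + 1) => inferInstanceAs (Fintype (ι (n + 1) ⊕ ι n))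

instance coneDec (ι : ℕ → Type) [h : ∀ n, DecidableEq (ι n)] : ∀ n, DecidableEq (coneι ι n)
  | 0 => h 0
  | (n + 1) => inferInstanceAs (DecidableEq (ι (n + 1) ⊕ ι n))

/-- Differentials of the cone. -/
def coned (C : MCx A) (x : A) : ∀ n, Matrix (coneι C.ι n) (coneι C.ι (n + 1)) A
  | 0 => Matrix.fromCols (C.d 0) (x • (1 : Matrix (C.ι 0) (C.ι 0) A))
  | (n + 1) => Matrix.fromBlocks (C.d (n + 1)) (x • (1 : Matrix (C.ι (n + 1)) (C.ι (n + 1)) A)) 0
      (- C.d n)

/-- The cone of multiplication by `x` on `C`, i.e. `C ⊗ K(x)`. -/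
def MCx.cone (C : MCx A) (x : A) : MCx A where
  ι := coneι C.ι
  fin := fun n => coneFin C.ι n
  dec := fun n => coneDec C.ι n
  d := coned C x
  dd := by
    intro n
    cases n with
    | zero =>
      show Matrix.fromCols (C.d 0) (x • (1 : Matrix (C.ι 0) (C.ι 0) A)) *
        (Matrix.fromBlocks (C.d 1) (x • (1 : Matrix (C.ι 1) (C.ι 1) A)) 0 (- C.d 0) :
          Matrix (C.ι 1 ⊕ C.ι 0) (C.ι 2 ⊕ C.ι 1) A) = 0
      rw [Matrix.fromCols_mul_fromBlocks]
      simp [C.dd 0]
    | succ k =>
      show (Matrix.fromBlocks (C.d (k + 1)) (x • (1 : Matrix (C.ι (k + 1)) (C.ι (k + 1)) A)) 0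
        (- C.d k) : Matrix (C.ι (k + 1) ⊕ C.ι k) (C.ι (k + 2) ⊕ C.ι (k + 1)) A) *
        (Matrix.fromBlocks (C.d (k + 2)) (x • (1 : Matrix (C.ι (k + 2)) (C.ι (k + 2)) A)) 0
        (- C.d (k + 1)) : Matrix (C.ι (k + 2) ⊕ C.ι (k + 1)) (C.ι (k + 3) ⊕ C.ι (k + 2)) A) = 0
      rw [Matrix.fromBlocks_multiply]
      simp [C.dd]

@[simp] theorem MCx.cone_d_zero (C : MCx A) (x : A) : (C.cone x).d 0 =
    Matrix.fromCols (C.d 0) (x • (1 : Matrix (C.ι 0) (C.ι 0) A)) := rfl

@[simp] theorem MCx.cone_d_succ (C : MCx A) (x : A) (n : ℕ) : (C.cone x).d (n + 1) =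
    Matrix.fromBlocks (C.d (n + 1)) (x • (1 : Matrix (C.ι (n + 1)) (C.ι (n + 1)) A)) 0
      (- C.d n) := rfl

/-- All the entries of the differentials lie in `I`. -/
def MCx.EntriesIn (C : MCx A) (I : Ideal A) : Prop := ∀ n a b, C.d n a b ∈ I

/-- `C` lives in degrees `≤ D`. -/
def MCx.Len (C : MCx A) (D : ℕ) : Prop := ∀ n, D < n → IsEmpty (C.ι n)

theorem MCx.EntriesIn.cone {C : MCx A} {I : Ideal A} (h : C.EntriesIn I) {x : A} (hx : x ∈ I) :
    (C.cone x).EntriesIn I := by
  have h1 : ∀ (n : ℕ) (a b : C.ι n), (x • (1 : Matrix (C.ι n) (C.ι n) A)) a b ∈ I := by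
    intro n a b
    rw [Matrix.smul_apply, smul_eq_mul]
    exact I.mul_mem_right _ hx
  intro n
  cases n with
  | zero =>
    intro a b
    rw [MCx.cone_d_zero]
    rcases b with b | b
    · exact h 0 a b
    · exact h1 0 a b
  | succ k =>
    intro a b
    rw [MCx.cone_d_succ]
    rcases a with a | a <;> rcases b with b | b
    · exact h (k + 1) a b
    · exact h1 (k + 1) a b
    · exact I.zero_mem
    · show - (C.d k a b) ∈ I
      exact I.neg_mem (h k a b)

theorem MCx.Len.cone {C : MCx A} {D : ℕ} (h : C.Len D) (x : A) : (C.cone x).Len (D + 1) := by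
  intro n hn
  cases n with
  | zero => omega
  | succ k =>
    have h1 := h (k + 1) (by omega)
    have h2 := h k (by omega)
    show IsEmpty (C.ι (k + 1) ⊕ C.ι k)
    exact isEmpty_sum.mpr ⟨h1, h2⟩

/-- The complex `A` in degree zero. -/
def MCx.one (A : Type u) [CommRing A] : MCx A where
  ι := fun n => match n with
    | 0 => Unit
    | (_ + 1) => Empty
  fin := fun n => match n with
    | 0 => inferInstanceAs (Fintype Unit)
    | (_ + 1) => inferInstanceAs (Fintype Empty)
  dec := fun n => match n with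
    | 0 => inferInstanceAs (DecidableEq Unit)
    | (_ + 1) => inferInstanceAs (DecidableEq Empty)
  d := fun n => 0
  dd := by intro n; simp

theorem MCx.one_entries (I : Ideal A) : (MCx.one A).EntriesIn I := by
  intro n a b
  exact I.zero_mem

theorem MCx.one_len : (MCx.one A).Len 0 := by
  intro n hn
  cases n with
  | zero => omega
  | succ k => exact inferInstanceAs (IsEmpty Empty)

/-- Iterated cone. -/
def MCx.cones (C : MCx A) : List A → MCx A
  | [] => C
  | (x :: l) => (C.cones l).cone x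

/-- The Koszul complex. -/
def kos (l : List A) : MCx A := (MCx.one A).cones l

theorem MCx.EntriesIn.cones {C : MCx A} {I : Ideal A} (h : C.EntriesIn I) :
    ∀ (l : List A), (∀ x ∈ l, x ∈ I) → (C.cones l).EntriesIn I
  | [], _ => h
  | (x :: l), hl => (MCx.EntriesIn.cones h l (fun y hy => hl y (List.mem_cons_of_mem _ hy))).cone
      (hl x List.mem_cons_self)

theorem MCx.Len.cones {C : MCx A} {D : ℕ} (h : C.Len D) :
    ∀ (l : List A), (C.cones l).Len (D + l.length)
  | [] => h
  | (x :: l) => by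
    have := (MCx.Len.cones h l).cone x
    exact this

theorem MCx.cones_top_nonempty (C : MCx A) {D : ℕ} (h : Nonempty (C.ι D)) :
    ∀ (l : List A), Nonempty ((C.cones l).ι (D + l.length))
  | [] => h
  | (x :: l) => by
    have h1 := MCx.cones_top_nonempty C h l
    show Nonempty ((C.cones l).ι (D + l.length + 1) ⊕ (C.cones l).ι (D + l.length))
    exact ⟨Sum.inr h1.some⟩

theorem kos_len (l : List A) : (kos l).Len l.length := by
  have := (MCx.one_len (A := A)).cones l
  rwa [Nat.zero_add] at this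

theorem kos_top (l : List A) : Nonempty ((kos l).ι l.length) := by
  have := MCx.cones_top_nonempty (MCx.one A) (D := 0) ⟨()⟩ l
  rwa [Nat.zero_add] at this

theorem kos_entries (l : List A) : (kos l).EntriesIn (Ideal.span {x | x ∈ l}) :=
  (MCx.one_entries _).cones l (fun _ hx => Ideal.subset_span hx)

theorem kos_top_null (N : NullF A) {M : Type v} [AddCommGroup M] [Module A M] (l : List A)
    (h : (kos l).NullM N M l.length) (hl : ∀ x ∈ l, ∀ m : M, x • m = 0) (m : M) :
    m ∈ N.sat (⊥ : Submodule A M) := by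
  have h0 : ∀ a ∈ Ideal.span {x | x ∈ l}, ∀ m : M, a • m = 0 := by
    intro a ha
    have : Ideal.span {x | x ∈ l} ≤ Module.annihilator A M := by
      rw [Ideal.span_le]
      intro x hx
      exact Module.mem_annihilator.mpr (hl x hx)
    exact Module.mem_annihilator.mp (this ha)
  have hd : ∀ n (v : (kos l).ι (n + 1) → M), (kos l).dM M n v = 0 := by
    intro n v
    funext a
    show ∑ b, (kos l).d n a b • v b = 0
    exact Finset.sum_eq_zero (fun b _ => h0 _ (kos_entries l n a b) _)
  have hc : (fun _ => m : (kos l).ι l.length → M) ∈ (kos l).cycM M l.length := by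
    have : ∀ n, ∀ v : (kos l).ι n → M, v ∈ (kos l).cycM M n := by
      intro n
      cases n with
      | zero => intro v; trivial
      | succ k => intro v; exact hd k v
    exact this _ _
  have h1 := h hc
  refine N.mono ?_ h1
  intro a ha
  obtain ⟨w, hw⟩ := ha
  have h2 : (kos l).dM M l.length w = a • (fun _ => m : (kos l).ι l.length → M) := hw
  rw [hd] at h2
  have h3 := congrFun h2 (kos_top l).some
  rw [mem_col, Submodule.mem_bot]
  exact h3.symm

end Cone

/-! ## The null-tolerant acyclicity lemma -/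

section Acyclic

variable {A : Type u} [CommRing A] (N : NullF A)

theorem acyclic_step (l : List A)
    {Q : Type v} [AddCommGroup Q] [Module A Q] (B Z : Submodule A Q) (hBZ : B ≤ Z)
    (hl : 1 ≤ l.length)
    (hQ : (kos l).NullM N Q l.length)
    (hB : ∀ j, l.length ≤ j + 1 → (kos l).NullM N B j)
    (hkill : ∀ x ∈ l, ∀ v ∈ Z, x • v ∈ B) :
    Z ≤ N.sat B ∧ ∀ j, (kos l).NullM N B j → (kos l).NullM N Z j := by
  obtain ⟨i, hi⟩ : ∃ i, l.length = i + 1 := ⟨l.length - 1, by omega⟩
  set f := Submodule.inclusion hBZ with hf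
  have hfi : Function.Injective f := Submodule.inclusion_injective hBZ
  let g : Z →ₗ[A] (Z ⧸ LinearMap.range f) := (LinearMap.range f).mkQ
  have hg : Function.Surjective g := Submodule.mkQ_surjective _
  have hfg : Function.Exact f g := by
    intro y
    show (LinearMap.range f).mkQ y = 0 ↔ _
    rw [Submodule.mkQ_apply, Submodule.Quotient.mk_eq_zero]
    rfl
  have hZ : (kos l).NullM N Z l.length := by
    refine MCx.null_top N (kos l) (f := Z.subtype) Z.injective_subtype _ ?_ hQ
    exact kos_len l _ (Nat.lt_succ_self _)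
  have hH : (kos l).NullM N (Z ⧸ LinearMap.range f) l.length := by
    rw [hi] at hZ ⊢
    exact MCx.null_of_quot N (kos l) hfi hg hfg i hZ (hB i (by omega))
  have hkillH : ∀ x ∈ l, ∀ m : (Z ⧸ LinearMap.range f), x • m = 0 := by
    intro x hx m
    obtain ⟨z, rfl⟩ := hg m
    rw [← map_smul]
    apply (hfg _).mpr
    exact ⟨⟨x • z.1, hkill x hx z.1 z.2⟩, Subtype.ext rfl⟩
  have hnull := kos_top_null N l hH hkillH
  constructor
  · intro v hv
    have := hnull (g ⟨v, hv⟩)
    refine N.mono ?_ this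
    intro a ha
    rw [mem_col, Submodule.mem_bot, ← map_smul] at ha
    obtain ⟨b, hb⟩ := (hfg _).mp ha
    rw [mem_col]
    have h2 : (b : Q) = a • v := congrArg Subtype.val hb
    rw [← h2]
    exact b.2
  · intro j hj
    exact MCx.null_of_ext N (kos l) hfi hg hfg j hj (MCx.null_of_null N (kos l) hnull j)

/-- **Null-tolerant acyclicity lemma.** -/
theorem acyclic (l : List A) {X : ℕ → Type v} [∀ n, AddCommGroup (X n)] [∀ n, Module A (X n)]
    (d : ∀ n, X (n + 1) →ₗ[A] X n) (hd : ∀ n x, d n (d (n + 1) x) = 0)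
    (hlen : ∀ n, l.length < n → Subsingleton (X n))
    (hX : ∀ n j, 1 ≤ j → (kos l).NullM N (X n) j)
    (hkill : ∀ n, 1 ≤ n → ∀ x ∈ l, ∀ v ∈ cyc d n, x • v ∈ bdy d n) :
    ∀ n, 1 ≤ n → NullAt N d n := by
  have hBZ : ∀ n, bdy d n ≤ cyc d n := by
    intro n
    cases n with
    | zero => exact le_top
    | succ k =>
      rintro _ ⟨w, rfl⟩
      exact hd k w
  -- the step
  have step : ∀ k, k + 1 ≤ l.length → (∀ j, l.length ≤ j + (k + 1) → (kos l).NullM N (bdy d (k + 1)) j) →
      NullAt N d (k + 1) ∧ ∀ j, l.length ≤ j + k → (kos l).NullM N (bdy d k) j := by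
    intro k hk hS
    obtain ⟨h1, h2⟩ := acyclic_step N l (bdy d (k + 1)) (cyc d (k + 1)) (hBZ _) (by omega)
      (hX _ _ (by omega)) (fun j hj => hS j (by omega)) (hkill _ (by omega))
    refine ⟨h1, ?_⟩
    intro j hj
    obtain ⟨i, rfl⟩ : ∃ i, j = i + 1 := ⟨j - 1, by omega⟩
    have hZ : (kos l).NullM N (LinearMap.ker (d k)) i := h2 i (hS i (by omega))
    refine MCx.null_of_quot N (kos l) (f := (LinearMap.ker (d k)).subtype)
      (g := (d k).rangeRestrict) (Submodule.injective_subtype _)
      (LinearMap.surjective_rangeRestrict _) ?_ i (hX (k + 1) (i + 1) (by omega)) hZ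
    intro y
    constructor
    · intro hy
      refine ⟨⟨y, ?_⟩, rfl⟩
      exact congrArg Subtype.val hy
    · rintro ⟨⟨z, hz⟩, rfl⟩
      exact Subtype.ext hz
  have hS : ∀ r k, k + r = l.length → ∀ j, l.length ≤ j + k → (kos l).NullM N (bdy d k) j := by
    intro r
    induction r with
    | zero =>
      intro k hk j _
      have hsub : Subsingleton (X (k + 1)) := hlen _ (by omega)
      refine MCx.null_of_null N (kos l) ?_ j
      intro m
      have : m = 0 := by
        obtain ⟨m, w, hw⟩ := m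
        apply Subtype.ext
        show m = 0
        rw [← hw, Subsingleton.elim w 0, map_zero]
      rw [this]
      exact Submodule.zero_mem _
    | succ r ih =>
      intro k hk
      exact (step k (by omega) (ih (k + 1) (by omega))).2
  intro n hn
  rcases Nat.lt_or_ge l.length n with h | h
  · have := hlen n h
    intro v _
    rw [Subsingleton.elim v 0]
    exact Submodule.zero_mem _
  · obtain ⟨k, rfl⟩ : ∃ k, n = k + 1 := ⟨n - 1, by omega⟩
    exact (step k h (hS (l.length - (k + 1)) (k + 1) (by omega))).1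

end Acyclic

end Crest.Agent.R183.Res
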