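/-
R183 (Lech): from the exactness of the Koszul complex `kos` in degree one to `KF.H1`.
helper685
-/
import Mathlib
import Crest.Agent.R183.Res2
import Crest.Agent.R183.KAct

set_option autoImplicit false

namespace Crest.Agent.R183.KF

open Crest.Agent.R183.Res

universe u v

variable {A : Type u} [CommRing A]

/-- coordinates of the Koszul complex in degrees `0, 1, 2`. -/
def KC (W : Type v) [AddCommGroup W] [Module A W] (C : MCx A) (m : ℕ) (X : Fin m → A) : Prop :=
  ∃ (o : C.ι 0) (e : Fin m ≃ C.ι 1), (∀ o', o' = o) ∧ (∀ i, C.d 0 o (e i) = X i) ∧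
    ∀ v : C.ι 2 → W, ∃ a : Fin m → Fin m → W, (∀ i j, a i j = - a j i) ∧
      (∀ i, a i i = 0) ∧ ∀ i, C.dM W 1 v (e i) = ∑ j, X j • a i j

theorem KC.cone {W : Type v} [AddCommGroup W] [Module A W] {C : MCx A} {m : ℕ}
    {X : Fin (m + 1) → A} (h : KC W C m fun i => X i.succ) : KC W (C.cone (X 0)) (m + 1) X := by
    obtain ⟨o, e, ho, he, ha⟩ := h
    -- the equivalence
    let f : Fin (m + 1) → C.ι 1 ⊕ C.ι 0 := Fin.cases (Sum.inr o) fun i => Sum.inl (e i)
    have hf : Function.Bijective f := by
      constructor
      · intro i j hij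
        induction i using Fin.cases with
        | zero =>
          induction j using Fin.cases with
          | zero => rfl
          | succ j => exact absurd hij (by simp [f])
        | succ i =>
          induction j using Fin.cases with
          | zero => exact absurd hij (by simp [f])
          | succ j =>
            have h1 : (Sum.inl (e i) : C.ι 1 ⊕ C.ι 0) = Sum.inl (e j) := hij
            rw [Sum.inl.injEq] at h1
            rw [e.injective h1]
      · intro b
        rcases b with b | b
        · exact ⟨(e.symm b).succ, by simp [f]⟩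
        · exact ⟨0, by rw [ho b]; rfl⟩
    have hf0 : f 0 = Sum.inr o := rfl
    have hf1 : ∀ i : Fin m, f i.succ = Sum.inl (e i) := fun i => rfl
    refine ⟨o, Equiv.ofBijective f hf, ho, ?_, ?_⟩
    · intro i
      induction i using Fin.cases with
      | zero =>
        change (Matrix.fromCols (C.d 0) (X 0 • (1 : Matrix (C.ι 0) (C.ι 0) A))) o (Sum.inr o) = X 0
        simp
      | succ i =>
        change (Matrix.fromCols (C.d 0) (X 0 • (1 : Matrix (C.ι 0) (C.ι 0) A))) o (Sum.inl (e i)) =
          X i.succ
        exact he i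
    · intro v
      let v' : C.ι 2 ⊕ C.ι 1 → W := v
      obtain ⟨a, ha1, ha2, ha3⟩ := ha fun c => v' (Sum.inl c)
      let u : Fin m → W := fun i => v' (Sum.inr (e i))
      refine ⟨Fin.cases (Fin.cases 0 fun j => - u j) fun i => Fin.cases (u i) fun j => a i j,
        ?_, ?_, ?_⟩
      · intro i j
        induction i using Fin.cases with
        | zero =>
          induction j using Fin.cases with
          | zero => simp
          | succ j => simp
        | succ i =>
          induction j using Fin.cases with
          | zero => simp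
          | succ j => simpa using ha1 i j
      · intro i
        induction i using Fin.cases with
        | zero => simp
        | succ i => simpa using ha2 i
      · intro i
        rw [Fin.sum_univ_succ]
        induction i using Fin.cases with
        | zero =>
          simp only [Fin.cases_zero, Fin.cases_succ, smul_zero, zero_add]
          have e1 : (MCx.dM (C.cone (X 0)) W 1 v) (Sum.inr o : C.ι 1 ⊕ C.ι 0) =
              ∑ b : C.ι 2 ⊕ C.ι 1, (Matrix.fromBlocks (C.d 1)
                (X 0 • (1 : Matrix (C.ι 1) (C.ι 1) A)) 0 (- C.d 0)) (Sum.inr o) b • v' b := rfl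
          refine e1.trans ?_
          rw [Fintype.sum_sum_type]
          simp only [Matrix.fromBlocks_apply₂₁, Matrix.fromBlocks_apply₂₂, Matrix.zero_apply,
            zero_smul, Finset.sum_const_zero, zero_add, Matrix.neg_apply]
          rw [← e.sum_comp]
          refine Finset.sum_congr rfl fun j _ => ?_
          rw [he j, neg_smul, smul_neg]
        | succ i =>
          simp only [Fin.cases_zero, Fin.cases_succ]
          have e1 : (MCx.dM (C.cone (X 0)) W 1 v) (Sum.inl (e i) : C.ι 1 ⊕ C.ι 0) =
              ∑ b : C.ι 2 ⊕ C.ι 1, (Matrix.fromBlocks (C.d 1)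
                (X 0 • (1 : Matrix (C.ι 1) (C.ι 1) A)) 0 (- C.d 0)) (Sum.inl (e i)) b • v' b := rfl
          refine e1.trans ?_
          rw [Fintype.sum_sum_type]
          simp only [Matrix.fromBlocks_apply₁₁, Matrix.fromBlocks_apply₁₂, Matrix.smul_apply,
            Matrix.one_apply, smul_eq_mul, mul_ite, mul_one, mul_zero, ite_smul, zero_smul,
            Finset.sum_ite_eq, Finset.mem_univ, if_true]
          rw [add_comm]
          congr 1
          exact ha3 i

theorem kos_coord (W : Type v) [AddCommGroup W] [Module A W] :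
    ∀ (m : ℕ) (X : Fin m → A), KC W (kos (List.ofFn X)) m X := by
  intro m
  induction m with
  | zero =>
    intro X
    rw [List.ofFn_zero]
    refine ⟨(() : Unit), ?_, fun o' => ?_, fun i => i.elim0, fun v => ?_⟩
    · exact (Equiv.equivOfIsEmpty (Fin 0) Empty)
    · rfl
    · exact ⟨fun i => i.elim0, fun i => i.elim0, fun i => i.elim0, fun i => i.elim0⟩
  | succ m ih =>
    intro X
    rw [List.ofFn_succ]
    exact (ih fun i => X i.succ).cone

/-- **conversion**. -/
theorem H1_of_kos {n : ℕ} (X : Fin (n + 1) → A) (W : Type v) [AddCommGroup W] [Module A W]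
    (h : (kos (List.ofFn X)).cycM W 1 ≤ (kos (List.ofFn X)).bdyM W 1) : H1 X W := by
  intro w hw
  obtain ⟨o, e, ho, he, ha⟩ := kos_coord W (n + 1) X
  have h1 : (fun b => w (e.symm b)) ∈ (kos (List.ofFn X)).cycM W 1 := by
    change (kos (List.ofFn X)).dM W 0 (fun b => w (e.symm b)) = 0
    funext o'
    rw [ho o']
    change ∑ b, (kos (List.ofFn X)).d 0 o b • w (e.symm b) = 0
    rw [← e.sum_comp]
    simp only [Equiv.symm_apply_apply, he]
    exact hw
  obtain ⟨u, hu⟩ := h h1
  obtain ⟨a, ha1, ha2, ha3⟩ := ha u
  refine ⟨a, ha1, ha2, fun i => ?_⟩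
  rw [← ha3 i]
  have h2 := congrFun hu (e i)
  simp only [Equiv.symm_apply_apply] at h2
  exact h2.symm

end Crest.Agent.R183.KF
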