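/-
R183 (Lech), Theorem K: sign calculus on the cube of charts, Čech differential, contractions.
helper389
-/
import Mathlib
import Crest.Agent.R183.KAct

set_option autoImplicit false

namespace Crest.Agent.R183.KF

open Finset

universe u v

section op

variable {A : Type u} [CommRing A] {M : Type v} [AddCommGroup M] [Module A M] {n : ℕ}

/-- sign of a chart. -/
def sg : Ch → ℤ
  | Ch.s => 1
  | Ch.t => 1
  | Ch.st => -1

lemma sg_mul_self (c : Ch) : sg c * sg c = 1 := by cases c <;> simp [sg]

/-- Koszul sign: number of `st` before `l`. -/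
def eps (l : Fin n) (σ : Fin n → Ch) : ℤ := ∏ x ∈ Finset.Iio l, sg (σ x)

lemma eps_mul_self (l : Fin n) (σ : Fin n → Ch) : eps l σ * eps l σ = 1 := by
  unfold eps
  rw [← Finset.prod_mul_distrib]
  exact Finset.prod_eq_one fun x _ => sg_mul_self _

lemma eps_update_of_le {l l' : Fin n} (h : l' ≤ l) (σ : Fin n → Ch) (c : Ch) :
    eps l' (Function.update σ l c) = eps l' σ := by
  unfold eps
  refine Finset.prod_congr rfl fun x hx => ?_
  rw [Finset.mem_Iio] at hx
  rw [Function.update_of_ne (by rintro rfl; exact absurd (lt_of_lt_of_le hx h) (lt_irrefl _))]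

lemma eps_update_of_lt {l l' : Fin n} (h : l < l') (σ : Fin n → Ch) (c : Ch) :
    eps l' (Function.update σ l c) = sg (σ l) * sg c * eps l' σ := by
  unfold eps
  have hl : l ∈ Finset.Iio l' := Finset.mem_Iio.2 h
  rw [← Finset.mul_prod_erase _ _ hl, ← Finset.mul_prod_erase (Finset.Iio l') (fun x => sg (σ x)) hl]
  rw [Function.update_self]
  have h2 : ∏ x ∈ (Finset.Iio l').erase l, sg (Function.update σ l c x)
      = ∏ x ∈ (Finset.Iio l').erase l, sg (σ x) := by
    refine Finset.prod_congr rfl fun x hx => ?_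
    rw [Function.update_of_ne (Finset.ne_of_mem_erase hx)]
  rw [h2]
  have := sg_mul_self (σ l)
  linear_combination (-(sg c * ∏ x ∈ (Finset.Iio l').erase l, sg (σ x))) * this

/-- operator on the `l`-th factor of the cube given by a matrix. -/
noncomputable def Op (l : Fin n) (a : Ch → Ch → M →ₗ[A] M) :
    ((Fin n → Ch) → M) →ₗ[A] ((Fin n → Ch) → M) where
  toFun y σ := eps l σ • ∑ c : Ch, a (σ l) c (y (Function.update σ l c))
  map_add' x y := by
    funext σ
    simp [Finset.sum_add_distrib, smul_add]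
  map_smul' r y := by
    funext σ
    simp only [Pi.smul_apply, map_smul, RingHom.id_apply]
    rw [← Finset.smul_sum, smul_comm]

lemma Op_apply (l : Fin n) (a : Ch → Ch → M →ₗ[A] M) (y : (Fin n → Ch) → M) (σ : Fin n → Ch) :
    Op l a y σ = eps l σ • ∑ c : Ch, a (σ l) c (y (Function.update σ l c)) := rfl

lemma Op_Op_same (l : Fin n) (a b : Ch → Ch → M →ₗ[A] M) (y : (Fin n → Ch) → M) (σ : Fin n → Ch) :
    Op l a (Op l b y) σ = ∑ c : Ch, ∑ c' : Ch, a (σ l) c (b c c' (y (Function.update σ l c'))) := by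
  rw [Op_apply]
  simp only [Op_apply, Function.update_self, Function.update_idem, eps_update_of_le le_rfl]
  rw [Finset.smul_sum]
  refine Finset.sum_congr rfl fun c _ => ?_
  rw [map_zsmul, smul_smul, eps_mul_self, one_smul, map_sum]

/-- odd matrices. -/
def Odd' (a : Ch → Ch → M →ₗ[A] M) : Prop := ∀ c c', sg c * sg c' = 1 → a c c' = 0

lemma Op_anti_lt {l l' : Fin n} (h : l < l') {a b : Ch → Ch → M →ₗ[A] M} (ha : Odd' a)
    (hab : ∀ c1 c2 c3 c4 x, a c1 c2 (b c3 c4 x) = b c3 c4 (a c1 c2 x)) (y : (Fin n → Ch) → M) :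
    Op l a (Op l' b y) = - Op l' b (Op l a y) := by
  funext σ
  have hne : l ≠ l' := h.ne
  rw [Pi.neg_apply, Op_apply, Op_apply]
  simp only [Op_apply, Function.update_of_ne hne, Function.update_of_ne hne.symm,
    eps_update_of_le h.le, eps_update_of_lt h]
  have e1 : ∀ c : Ch, a (σ l) c ((sg (σ l) * sg c * eps l' σ) • ∑ c', b (σ l') c'
      (y (Function.update (Function.update σ l c) l' c'))) =
      -(eps l' σ • ∑ c', b (σ l') c' (a (σ l) c (y (Function.update (Function.update σ l c) l' c')))) := by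
    intro c
    by_cases hc : sg (σ l) * sg c = 1
    · rw [ha _ _ hc]; simp
    · have hc' : sg (σ l) * sg c = -1 := by
        revert hc
        cases σ l <;> cases c <;> simp [sg]
      rw [hc', neg_one_mul, neg_smul, map_neg, map_zsmul, map_sum]
      congr 2
      exact Finset.sum_congr rfl fun c' _ => hab _ _ _ _ _
  simp only [e1]
  rw [Finset.sum_neg_distrib, smul_neg]
  congr 1
  rw [← Finset.smul_sum, smul_smul, mul_comm, mul_smul]
  congr 1
  simp only [map_zsmul, map_sum]
  rw [← Finset.smul_sum]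
  congr 1
  rw [Finset.sum_comm]
  refine Finset.sum_congr rfl fun c _ => Finset.sum_congr rfl fun c' _ => ?_
  rw [Function.update_comm hne]

lemma Op_anti {l l' : Fin n} (h : l ≠ l') {a b : Ch → Ch → M →ₗ[A] M} (ha : Odd' a) (hb : Odd' b)
    (hab : ∀ c1 c2 c3 c4 x, a c1 c2 (b c3 c4 x) = b c3 c4 (a c1 c2 x)) (y : (Fin n → Ch) → M) :
    Op l a (Op l' b y) = - Op l' b (Op l a y) := by
  rcases lt_or_gt_of_ne h with h1 | h1
  · exact Op_anti_lt h1 ha hab y
  · rw [Op_anti_lt h1 hb (fun c1 c2 c3 c4 x => (hab c3 c4 c1 c2 x).symm), neg_neg]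

/-- the matrix of the Čech differential of `P^1`. -/
noncomputable def dm : Ch → Ch → M →ₗ[A] M
  | Ch.st, Ch.s => LinearMap.id
  | Ch.st, Ch.t => -LinearMap.id
  | _, _ => 0

lemma dm_odd : Odd' (dm : Ch → Ch → M →ₗ[A] M) := by
  intro c c' h
  cases c <;> cases c' <;> simp_all [sg, dm]

lemma dm_comm (c1 c2 : Ch) (f : M →ₗ[A] M) (x : M) :
    (dm c1 c2 : M →ₗ[A] M) (f x) = f ((dm c1 c2 : M →ₗ[A] M) x) := by
  cases c1 <;> cases c2 <;> simp [dm]

lemma sum_Ch {N : Type*} [AddCommMonoid N] (f : Ch → N) : ∑ c : Ch, f c = f Ch.s + f Ch.t + f Ch.st := by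
  have : (Finset.univ : Finset Ch) = {Ch.s, Ch.t, Ch.st} := rfl
  rw [this, Finset.sum_insert (by decide), Finset.sum_insert (by decide), Finset.sum_singleton,
    add_assoc]

variable (A M n) in
/-- Čech differential in direction `l`. -/
noncomputable def dl (l : Fin n) : ((Fin n → Ch) → M) →ₗ[A] ((Fin n → Ch) → M) := Op l dm

variable (A M n) in
/-- the Čech differential. -/
noncomputable def dC : ((Fin n → Ch) → M) →ₗ[A] ((Fin n → Ch) → M) := ∑ l, dl A M n l

lemma dl_dl (l : Fin n) (y : (Fin n → Ch) → M) : dl A M n l (dl A M n l y) = 0 := by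
  funext σ
  unfold dl
  rw [Op_Op_same]
  simp only [sum_Ch]
  cases σ l <;> simp [dm]

lemma dl_anti {l l' : Fin n} (h : l ≠ l') (y : (Fin n → Ch) → M) :
    dl A M n l (dl A M n l' y) = - dl A M n l' (dl A M n l y) :=
  Op_anti h dm_odd dm_odd (fun _ _ _ _ _ => dm_comm _ _ _ _) y

lemma dC_dC : (dC A M n) ∘ₗ (dC A M n) = 0 := by
  have h : ∀ S : Finset (Fin n), (∑ l ∈ S, dl A M n l) ∘ₗ (∑ l ∈ S, dl A M n l) = 0 := by
    intro S
    induction S using Finset.induction_on with
    | empty => simp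
    | insert a S ha ih =>
      rw [Finset.sum_insert ha]
      apply LinearMap.ext
      intro y
      have ih' := LinearMap.congr_fun ih y
      simp only [LinearMap.comp_apply, LinearMap.zero_apply] at ih'
      simp only [LinearMap.comp_apply, LinearMap.add_apply, map_add, LinearMap.zero_apply]
      rw [ih', dl_dl]
      have : dl A M n a ((∑ l ∈ S, dl A M n l) y) = - (∑ l ∈ S, dl A M n l) (dl A M n a y) := by
        rw [LinearMap.sum_apply, LinearMap.sum_apply, map_sum, ← Finset.sum_neg_distrib]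
        refine Finset.sum_congr rfl fun l hl => dl_anti (by rintro rfl; exact ha hl) y
      rw [this]; abel
  exact h univ

lemma dC_dC_apply (y : (Fin n → Ch) → M) : dC A M n (dC A M n y) = 0 :=
  LinearMap.congr_fun dC_dC y

lemma dl_apply (l : Fin n) (y : (Fin n → Ch) → M) (σ : Fin n → Ch) :
    dl A M n l y σ = if σ l = Ch.st then
      eps l σ • (y (Function.update σ l Ch.s) - y (Function.update σ l Ch.t)) else 0 := by
  unfold dl
  rw [Op_apply, sum_Ch]
  cases h : σ l <;> simp [dm, sub_eq_add_neg]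

lemma dC_apply (y : (Fin n → Ch) → M) (σ : Fin n → Ch) :
    dC A M n y σ = ∑ l, dl A M n l y σ := by
  unfold dC
  rw [LinearMap.sum_apply, Finset.sum_apply]

/-- post-composition commutes with the differential. -/
lemma dC_post {M' : Type*} [AddCommGroup M'] [Module A M'] (f : M →ₗ[A] M')
    (y : (Fin n → Ch) → M) : dC A M' n (fun σ => f (y σ)) = fun σ => f (dC A M n y σ) := by
  funext σ
  rw [dC_apply, dC_apply, map_sum]
  refine Finset.sum_congr rfl fun l _ => ?_
  rw [dl_apply, dl_apply]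
  split_ifs
  · rw [map_zsmul, map_sub]
  · rw [map_zero]

end op

end Crest.Agent.R183.KF
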