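/-
R183 (Lech), Theorem K: the families `FF`, `ZZ` and the easy fields of `Pkg`.   helper389
-/
import Mathlib
import Crest.Agent.R183.KCube

set_option autoImplicit false

namespace Crest.Agent.R183.KF

open Finset

universe u v

section gr

variable {A : Type u} [CommRing A] {W : Type v} [AddCommGroup W] [Module A W] {n : ℕ}

/-- number of `st`. -/
def cnt (σ : Fin n → Ch) : ℤ := ((univ.filter fun l => σ l = Ch.st).card : ℤ)

lemma cnt_nonneg (σ : Fin n → Ch) : 0 ≤ cnt σ := by unfold cnt; positivity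

lemma cnt_le (σ : Fin n → Ch) : cnt σ ≤ n := by
  unfold cnt
  have := Finset.card_le_univ (univ.filter fun l : Fin n => σ l = Ch.st)
  rw [Fintype.card_fin] at this
  exact_mod_cast this

lemma cnt_update {σ : Fin n → Ch} {l : Fin n} (h : σ l = Ch.st) {c : Ch} (hc : c ≠ Ch.st) :
    cnt (Function.update σ l c) = cnt σ - 1 := by
  unfold cnt
  have h1 : (univ.filter fun x => σ x = Ch.st)
      = insert l (univ.filter fun x => Function.update σ l c x = Ch.st) := by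
    ext x
    rw [Finset.mem_insert, Finset.mem_filter, Finset.mem_filter]
    by_cases hx : x = l
    · subst hx; simp [h]
    · simp [hx]
  rw [h1, Finset.card_insert_of_notMem]
  · push_cast; ring
  · simp [hc]

lemma cnt_update' {σ : Fin n → Ch} {l : Fin n} (h : σ l ≠ Ch.st) :
    cnt (Function.update σ l Ch.st) = cnt σ + 1 := by
  have := cnt_update (σ := Function.update σ l Ch.st) (l := l) (by simp) h
  rw [Function.update_idem, Function.update_eq_self] at this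
  omega

/-- the exponents of the chart `σ`. -/
def cs (ρ : Fin n → ℤ) (σ : Fin n → Ch) : Set (Ex n) :=
  {e | ∀ l, (σ l = Ch.s → 0 ≤ e.1 l) ∧ (σ l = Ch.t → e.1 l ≤ e.2 - 1 - ρ l)}

lemma ind_nonneg (B : Finset (Fin n)) (l : Fin n) : 0 ≤ ind B l := by
  unfold ind; split_ifs <;> norm_num

lemma ind_le (B : Finset (Fin n)) (l : Fin n) : ind B l ≤ 1 := by
  unfold ind; split_ifs <;> norm_num

lemma cs_stable (ρ : Fin n → ℤ) (σ : Fin n → Ch) : Stable (cs ρ σ) := by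
  intro e he B l
  have h1 := he l
  have h2 := ind_nonneg B l
  have h3 := ind_le B l
  refine ⟨fun h => ?_, fun h => ?_⟩
  · have := h1.1 h
    show 0 ≤ ind B l + e.1 l
    omega
  · have := h1.2 h
    show ind B l + e.1 l ≤ e.2 + 1 - 1 - ρ l
    omega

lemma cs_update_subset (ρ : Fin n → ℤ) {σ : Fin n → Ch} {l : Fin n} (h : σ l = Ch.st) (c : Ch) :
    cs ρ (Function.update σ l c) ⊆ cs ρ σ := by
  intro e he x
  by_cases hx : x = l
  · subst hx
    rw [h]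
    exact ⟨fun h => by simp at h, fun h => by simp at h⟩
  · have := he x
    rwa [Function.update_of_ne hx] at this

/-- cochains. -/
abbrev VV (W : Type v) [AddCommGroup W] (n : ℕ) : Type v := (Fin n → Ch) → WL W n

/-- cochains of degree `j` with values in the family `S`. -/
def Gr (j : ℤ) (S : (Fin n → Ch) → Submodule A (WL W n)) : Submodule A (VV W n) where
  carrier := {y | ∀ σ, (cnt σ = j → y σ ∈ S σ) ∧ (cnt σ ≠ j → y σ = 0)}
  add_mem' := by
    intro x y hx hy σ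
    refine ⟨fun h => add_mem ((hx σ).1 h) ((hy σ).1 h), fun h => ?_⟩
    rw [Pi.add_apply, (hx σ).2 h, (hy σ).2 h, add_zero]
  zero_mem' := fun σ => ⟨fun _ => zero_mem _, fun _ => rfl⟩
  smul_mem' := by
    intro r x hx σ
    refine ⟨fun h => Submodule.smul_mem _ r ((hx σ).1 h), fun h => ?_⟩
    rw [Pi.smul_apply, (hx σ).2 h, smul_zero]

lemma mem_Gr {j : ℤ} {S : (Fin n → Ch) → Submodule A (WL W n)} {y : VV W n} :
    y ∈ Gr j S ↔ ∀ σ, (cnt σ = j → y σ ∈ S σ) ∧ (cnt σ ≠ j → y σ = 0) := Iff.rfl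

lemma Gr_mono {j : ℤ} {S S' : (Fin n → Ch) → Submodule A (WL W n)} (h : ∀ σ, S σ ≤ S' σ) :
    Gr j S ≤ Gr j S' := fun _ hy σ => ⟨fun e => h σ ((hy σ).1 e), (hy σ).2⟩

lemma Gr_eq_bot {j : ℤ} (hj : j < 0 ∨ (n : ℤ) < j) (S : (Fin n → Ch) → Submodule A (WL W n)) :
    Gr j S = ⊥ := by
  rw [eq_bot_iff]
  intro y hy
  rw [Submodule.mem_bot]
  funext σ
  refine (hy σ).2 ?_
  have h1 := cnt_nonneg σ
  have h2 := cnt_le σ
  omega

lemma Gr_of_mem {j : ℤ} {S S' : (Fin n → Ch) → Submodule A (WL W n)} {y : VV W n}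
    (hy : y ∈ Gr j S) (h : ∀ σ, cnt σ = j → y σ ∈ S' σ) : y ∈ Gr j S' :=
  fun σ => ⟨h σ, (hy σ).2⟩

lemma dC_mem {j : ℤ} {S S' : (Fin n → Ch) → Submodule A (WL W n)}
    (h : ∀ σ l, σ l = Ch.st → ∀ c, S (Function.update σ l c) ≤ S' σ) {y : VV W n}
    (hy : y ∈ Gr j S) : dC A (WL W n) n y ∈ Gr (j + 1) S' := by
  intro σ
  rw [dC_apply]
  refine ⟨fun hc => Submodule.sum_mem _ fun l _ => ?_, fun hc => Finset.sum_eq_zero fun l _ => ?_⟩
  · rw [dl_apply]
    split_ifs with hl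
    · refine zsmul_mem (sub_mem ?_ ?_) _
      · exact h σ l hl _ ((hy _).1 (by rw [cnt_update hl (by decide)]; omega))
      · exact h σ l hl _ ((hy _).1 (by rw [cnt_update hl (by decide)]; omega))
    · exact zero_mem _
  · rw [dl_apply]
    split_ifs with hl
    · rw [(hy _).2 (by rw [cnt_update hl (by decide)]; omega),
        (hy _).2 (by rw [cnt_update hl (by decide)]; omega), sub_zero, smul_zero]
    · rfl

variable (X : Fin (n + 1) → A)

/-- `F^k` of the chart `σ`, modulo relations. -/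
noncomputable def Bk (W : Type v) [AddCommGroup W] [Module A W] (ρ : Fin n → ℤ) (k : ℤ)
    (σ : Fin n → Ch) : Submodule A (WL W n) := WS A W (cs ρ σ ∩ {e | k ≤ e.2}) ⊔ RR X W (cs ρ σ)

/-- cochains of degree `j`, internal degree `≥ k`, modulo relations. -/
noncomputable def FF (W : Type v) [AddCommGroup W] [Module A W] (ρ : Fin n → ℤ) (k j : ℤ) :
    Submodule A (VV W n) := Gr j (Bk X W ρ k)

/-- relations. -/
noncomputable def ZZ (W : Type v) [AddCommGroup W] [Module A W] (ρ : Fin n → ℤ) (j : ℤ) :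
    Submodule A (VV W n) := Gr j (fun σ => RR X W (cs ρ σ))

variable {X}

lemma Bk_le_WS (ρ : Fin n → ℤ) (k : ℤ) (σ : Fin n → Ch) : Bk X W ρ k σ ≤ WS A W (cs ρ σ) :=
  sup_le (WS_mono Set.inter_subset_left) (RR_le subset_rfl (cs_stable ρ σ))

lemma Bk_update_le (ρ : Fin n → ℤ) (k : ℤ) (σ : Fin n → Ch) (l : Fin n) (h : σ l = Ch.st) (c : Ch) :
    Bk X W ρ k (Function.update σ l c) ≤ Bk X W ρ k σ :=
  sup_le_sup (WS_mono (Set.inter_subset_inter_left _ (cs_update_subset ρ h c)))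
    (RR_mono (cs_update_subset ρ h c))

lemma Bk_anti (ρ : Fin n → ℤ) {k k' : ℤ} (h : k ≤ k') (σ : Fin n → Ch) :
    Bk X W ρ k' σ ≤ Bk X W ρ k σ :=
  sup_le_sup_right (WS_mono (Set.inter_subset_inter_right _ fun e (he : k' ≤ e.2) =>
    (le_trans h he : k ≤ e.2))) _

lemma RR_le_Bk (ρ : Fin n → ℤ) (k : ℤ) (σ : Fin n → Ch) : RR X W (cs ρ σ) ≤ Bk X W ρ k σ :=
  le_sup_right

lemma X_smul_Bk (ρ : Fin n → ℤ) (k : ℤ) (σ : Fin n → Ch) (i : Fin (n + 1)) {y : WL W n}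
    (hy : y ∈ Bk X W ρ k σ) : X i • y ∈ Bk X W ρ (k + 1) σ := by
  obtain ⟨a, ha, b, hb, rfl⟩ := Submodule.mem_sup.1 hy
  rw [smul_add]
  refine add_mem ?_ (Submodule.mem_sup_right (Submodule.smul_mem _ _ hb))
  have h1 : X i • a = th A i a + (X i • a - th A i a) := by abel
  rw [h1]
  refine Submodule.add_mem_sup ?_ (sub_th_mem i (WS_mono Set.inter_subset_left ha))
  refine th_mem (P := cs ρ σ ∩ {e | k ≤ e.2}) ?_ i ha
  rintro e ⟨he1, he2⟩ B
  refine ⟨cs_stable ρ σ e he1 B, ?_⟩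
  have : k ≤ e.2 := he2
  show k + 1 ≤ e.2 + 1
  omega

lemma I_smul_Bk (ρ : Fin n → ℤ) (k : ℤ) (σ : Fin n → Ch) :
    (Ideal.span (Set.range X)) • Bk X W ρ k σ ≤ Bk X W ρ (k + 1) σ := by
  rw [Submodule.smul_le]
  intro r hr y hy
  induction hr using Submodule.span_induction with
  | mem x hx =>
    obtain ⟨i, rfl⟩ := hx
    exact X_smul_Bk ρ k σ i hy
  | zero => rw [zero_smul]; exact zero_mem _
  | add a b _ _ ha hb => rw [add_smul]; exact add_mem ha hb
  | smul a b _ hb => rw [smul_assoc]; exact Submodule.smul_mem _ _ hb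

lemma I_pow_smul_Bk (ρ : Fin n → ℤ) (k : ℤ) (σ : Fin n → Ch) (N : ℕ) :
    (Ideal.span (Set.range X)) ^ N • Bk X W ρ k σ ≤ Bk X W ρ (k + N) σ := by
  induction N with
  | zero => simp
  | succ N ih =>
    rw [pow_succ', mul_smul]
    refine (smul_mono_right _ ih).trans ?_
    refine (I_smul_Bk ρ (k + N) σ).trans (le_of_eq ?_)
    congr 1
    push_cast; ring

lemma smul_WS {r : A} {N : ℕ} {I : Ideal A}
    (hr : ∀ w : W, r • w ∈ I ^ N • (⊤ : Submodule A W)) {P : Set (Ex n)} {y : WL W n}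
    (hy : y ∈ WS A W P) : r • y ∈ I ^ N • WS A W P := by
  refine WS_induction (p := fun y => r • y ∈ I ^ N • WS A W P) hy ?_ ?_ ?_
  · rw [smul_zero]; exact zero_mem _
  · intro x y hx hy; rw [smul_add]; exact add_mem hx hy
  · intro e he w
    have h1 : r • Finsupp.single e w = Finsupp.lsingle (R := A) e (r • w) := by simp
    rw [h1]
    have h2 : (I ^ N • (⊤ : Submodule A W)).map (Finsupp.lsingle (R := A) e) ≤ I ^ N • WS A W P := by
      rw [Submodule.map_smul'']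
      refine smul_mono_right _ ?_
      rintro _ ⟨x, _, rfl⟩
      exact single_mem he x
    exact h2 ⟨_, hr w, rfl⟩

lemma FF_raise (r : A) (N : ℕ)
    (hr : ∀ w : W, r • w ∈ (Ideal.span (Set.range X)) ^ N • (⊤ : Submodule A W))
    (ρ : Fin n → ℤ) (k j : ℤ) (y : VV W n) (hy : y ∈ FF X W ρ k j) : r • y ∈ FF X W ρ (k + N) j := by
  refine Gr_of_mem (Submodule.smul_mem _ r hy) fun σ hσ => ?_
  have h1 := (hy σ).1 hσ
  rw [Pi.smul_apply]
  obtain ⟨a, ha, b, hb, hab⟩ := Submodule.mem_sup.1 h1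
  rw [← hab, smul_add]
  refine add_mem ?_ (Submodule.mem_sup_right (Submodule.smul_mem _ _ hb))
  refine I_pow_smul_Bk ρ k σ N ?_
  exact (Submodule.smul_mono le_rfl le_sup_left :
    (Ideal.span (Set.range X)) ^ N • WS A W (cs ρ σ ∩ {e | k ≤ e.2}) ≤
      (Ideal.span (Set.range X)) ^ N • Bk X W ρ k σ) (smul_WS hr ha)

/-! ### unit ideals -/

/-- the cone of the chart. -/
def Qc (σ : Fin n → Ch) : Set (Ex n) :=
  {e | ∀ l, (σ l = Ch.s → 0 ≤ e.1 l) ∧ (σ l = Ch.t → e.1 l ≤ e.2)}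

lemma Qc_add {σ : Fin n → Ch} {e e' : Ex n} (h : e ∈ Qc σ) (h' : e' ∈ Qc σ) : e + e' ∈ Qc σ := by
  intro l
  refine ⟨fun hl => ?_, fun hl => ?_⟩
  · have h1 := (h l).1 hl
    have h2 := (h' l).1 hl
    show 0 ≤ e.1 l + e'.1 l
    omega
  · have h1 := (h l).2 hl
    have h2 := (h' l).2 hl
    show e.1 l + e'.1 l ≤ e.2 + e'.2
    omega

lemma Qc_cs {ρ : Fin n → ℤ} {σ : Fin n → Ch} {e e' : Ex n} (h : e ∈ Qc σ) (h' : e' ∈ cs ρ σ) :
    e + e' ∈ cs ρ σ := by
  intro l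
  refine ⟨fun hl => ?_, fun hl => ?_⟩
  · have h1 := (h l).1 hl
    have h2 := (h' l).1 hl
    show 0 ≤ e.1 l + e'.1 l
    omega
  · have h1 := (h l).2 hl
    have h2 := (h' l).2 hl
    show e.1 l + e'.1 l ≤ e.2 + e'.2 - 1 - ρ l
    omega

/-- the ring of the chart. -/
noncomputable def RQ (σ : Fin n → Ch) : Subring (LL n) where
  carrier := {f | f ∈ Sub (Qc σ)}
  mul_mem' := by
    intro f g hf hg
    change f ∈ Sub (Qc σ) at hf
    rw [Sub_eq_span] at hf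
    show f * g ∈ Sub (Qc σ)
    induction hf using Submodule.span_induction with
    | mem x hx =>
      obtain ⟨e, he, rfl⟩ := hx
      exact mo_mul_mem (P := Qc σ) (fun e' he' => Qc_add he he') hg
    | zero => rw [zero_mul]; exact zero_mem _
    | add x y _ _ hx hy => rw [add_mul]; exact add_mem hx hy
    | smul r x _ hx => rw [smul_mul_assoc]; exact Submodule.smul_mem _ _ hx
  one_mem' := by
    show (1 : LL n) ∈ Sub (Qc σ)
    rw [← mo_zero]
    exact mo_mem fun l => ⟨fun _ => le_rfl, fun _ => le_rfl⟩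
  add_mem' := fun hf hg => (Sub (Qc σ)).add_mem hf hg
  zero_mem' := (Sub (Qc σ)).zero_mem
  neg_mem' := fun hf => (Sub (Qc σ)).neg_mem hf

lemma mem_RQ {σ : Fin n → Ch} {f : LL n} : f ∈ RQ σ ↔ f ∈ Sub (Qc σ) := Iff.rfl

lemma xs_mem_RQ (σ : Fin n → Ch) (i : ℕ) : xs univ i ∈ RQ σ := by
  rw [mem_RQ]
  refine AddMonoidAlgebra.supported_mono ?_ (xs_mem univ i)
  rintro e ⟨he, B, hB⟩ l
  have h2 := ind_nonneg B l
  have h3 := ind_le B l
  rw [hB, he]
  exact ⟨fun _ => h2, fun _ => h3⟩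

lemma exists_bound_LL {m : ℕ} {P : Set (Ex n)} (c : Fin m → LL n) (hc : ∀ i, c i ∈ Sub P) :
    ∃ t : ℕ, ∀ i, c i ∈ Sub (P ∩ {e | -(t : ℤ) ≤ e.2}) := by
  classical
  let s : Finset (Ex n) := Finset.univ.biUnion fun i => (c i).coeff.support
  refine ⟨s.sup fun e => (-e.2).toNat, fun i => ?_⟩
  rw [AddMonoidAlgebra.mem_supported]
  intro e he
  refine ⟨(AddMonoidAlgebra.mem_supported.1 (hc i)) he, ?_⟩
  have h1 : e ∈ s := Finset.mem_biUnion.2 ⟨i, mem_univ i, he⟩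
  have h2 : (-e.2).toNat ≤ s.sup fun e => (-e.2).toNat :=
    Finset.le_sup (f := fun e : Ex n => (-e.2).toNat) h1
  show -_ ≤ e.2
  omega

/-- unit ideal for the powers. -/
lemma unit_pow (σ : Fin n → Ch) (N' : ℕ) : ∃ (M' : ℕ) (c : Fin (n + 1) → LL n),
    (∀ i, c i ∈ Sub (Qc σ ∩ {e | -(M' : ℤ) ≤ e.2})) ∧ ∑ i, c i * xs univ (i : ℕ) ^ N' = 1 := by
  obtain ⟨g, hg, hsum⟩ := unit_chart σ
  let x : Fin (n + 1) → RQ σ := fun i => ⟨xs univ i, xs_mem_RQ σ i⟩
  have hgR : ∀ i, g i ∈ RQ σ := by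
    intro i
    rw [mem_RQ]
    refine AddMonoidAlgebra.supported_mono ?_ (hg i)
    rintro e ⟨he1, he2⟩ l
    refine ⟨(he2 l).1, fun h => ?_⟩
    rw [he1]; exact (he2 l).2 h
  have h1 : Ideal.span (Set.range x) = ⊤ := by
    rw [Ideal.eq_top_iff_one]
    have : (1 : RQ σ) = ∑ i, (⟨g i, hgR i⟩ : RQ σ) * x i := by
      apply Subtype.ext
      rw [AddSubmonoidClass.coe_finsetSum]
      show (1 : LL n) = ∑ i, g i * xs univ i
      rw [← hsum]
      exact Finset.sum_congr rfl fun i _ => by rw [ev_X, mul_comm]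
    rw [this]
    exact Ideal.sum_mem _ fun i _ => Ideal.mul_mem_left _ _ (Ideal.subset_span ⟨i, rfl⟩)
  have h2 := Ideal.span_pow_eq_top _ h1 N'
  rw [← Set.range_comp, Ideal.eq_top_iff_one, Ideal.mem_span_range_iff_exists_fun] at h2
  obtain ⟨c, hc⟩ := h2
  obtain ⟨t, ht⟩ := exists_bound_LL (P := Qc σ) (fun i => (c i : LL n)) (fun i => (c i).2)
  refine ⟨t, fun i => (c i : LL n), ht, ?_⟩
  have h3 := congrArg Subtype.val hc
  rw [AddSubmonoidClass.coe_finsetSum] at h3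
  exact h3

lemma th_pow_sub {P : Set (Ex n)} (hP : Stable P) (i : Fin (n + 1)) (m : ℕ) {z : WL W n}
    (hz : z ∈ WS A W P) : X i ^ m • z - act A W (xs univ i ^ m) z ∈ RR X W P := by
  induction m generalizing z with
  | zero => rw [pow_zero, pow_zero, one_smul, act_one_apply, sub_self]; exact zero_mem _
  | succ m ih =>
    have h1 : th A i z ∈ WS A W P := th_mem (P := P) hP i hz
    have h2 := ih h1
    have h3 := Submodule.smul_mem _ (X i ^ m) (sub_th_mem (X := X) i hz)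
    have h4 := add_mem h3 h2
    convert h4 using 1
    rw [pow_succ (xs univ (i : ℕ)), act_mul_apply, smul_sub, pow_succ, mul_smul]
    show _ - act A W (xs univ (i : ℕ) ^ m) (th A i z) = _
    abel

theorem contr (N' : ℕ) : ∃ (M' : ℕ) (c : Fin (n + 1) → VV W n →ₗ[A] VV W n),
    ∀ ρ : Fin n → ℤ, (∀ ν k j, (FF X W ρ k j).map (c ν) ≤ FF X W ρ (k - M') j) ∧
    (∀ ν j, (ZZ X W ρ j).map (c ν) ≤ ZZ X W ρ j) ∧
    (∀ k j, ∀ y ∈ FF X W ρ k j, (∑ ν, c ν (X ν ^ N' • y)) - y ∈ ZZ X W ρ j) := by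
  classical
  choose M c hc hsum using fun σ : Fin n → Ch => unit_pow σ N'
  let M' : ℕ := Finset.univ.sup M
  have hM : ∀ σ, M σ ≤ M' := fun σ => Finset.le_sup (mem_univ σ)
  refine ⟨M', fun ν => LinearMap.pi fun σ => (act A W (c σ ν)) ∘ₗ LinearMap.proj σ, fun ρ => ⟨?_, ?_, ?_⟩⟩
  · rintro ν k j _ ⟨y, hy, rfl⟩ σ
    refine ⟨fun h => ?_, fun h => ?_⟩
    · show act A W (c σ ν) (y σ) ∈ _
      obtain ⟨a, ha, b, hb, hab⟩ := Submodule.mem_sup.1 ((hy σ).1 h)
      rw [← hab, map_add]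
      refine Submodule.add_mem_sup ?_ ?_
      · refine act_mem (Q := Qc σ ∩ {e | -(M σ : ℤ) ≤ e.2}) (P := cs ρ σ ∩ {e | k ≤ e.2}) ?_ (hc σ ν) ha
        rintro e ⟨he1, he2⟩ x ⟨hx1, hx2⟩
        refine ⟨Qc_cs he1 hx1, ?_⟩
        have h3 : -(M σ : ℤ) ≤ e.2 := he2
        have h4 : k ≤ x.2 := hx2
        have h5 := hM σ
        show k - (M' : ℤ) ≤ e.2 + x.2
        omega
      · exact act_RR (Q := Qc σ ∩ {e | -(M σ : ℤ) ≤ e.2}) (P := cs ρ σ)
          (fun e he x hx => Qc_cs he.1 hx) (hc σ ν) hb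
    · show act A W (c σ ν) (y σ) = 0
      rw [(hy σ).2 h, map_zero]
  · rintro ν j _ ⟨y, hy, rfl⟩ σ
    refine ⟨fun h => ?_, fun h => ?_⟩
    · show act A W (c σ ν) (y σ) ∈ _
      exact act_RR (Q := Qc σ ∩ {e | -(M σ : ℤ) ≤ e.2}) (P := cs ρ σ)
          (fun e he x hx => Qc_cs he.1 hx) (hc σ ν) ((hy σ).1 h)
    · show act A W (c σ ν) (y σ) = 0
      rw [(hy σ).2 h, map_zero]
  · intro k j y hy σ
    have e0 : ((∑ ν, (LinearMap.pi fun σ => (act A W (c σ ν)) ∘ₗ LinearMap.proj σ : VV W n →ₗ[A] VV W n)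
        (X ν ^ N' • y)) - y) σ = (∑ ν, act A W (c σ ν) (X ν ^ N' • y σ)) - y σ := by
      rw [Pi.sub_apply, Finset.sum_apply]; rfl
    rw [e0]
    refine ⟨fun h => ?_, fun h => ?_⟩
    · have hz : y σ ∈ WS A W (cs ρ σ) := Bk_le_WS ρ k σ ((hy σ).1 h)
      have e1 : (∑ ν, act A W (c σ ν) (X ν ^ N' • y σ)) - y σ =
          ∑ ν, act A W (c σ ν) (X ν ^ N' • y σ - act A W (xs univ (ν : ℕ) ^ N') (y σ)) := by
        simp only [map_sub]
        rw [Finset.sum_sub_distrib]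
        congr 1
        simp only [← act_mul_apply]
        rw [← act_sum_apply, hsum, act_one_apply]
      rw [e1]
      refine Submodule.sum_mem _ fun ν _ => ?_
      exact act_RR (Q := Qc σ ∩ {e | -(M σ : ℤ) ≤ e.2}) (P := cs ρ σ)
          (fun e he x hx => Qc_cs he.1 hx) (hc σ ν) (th_pow_sub (cs_stable ρ σ) ν N' hz)
    · rw [(hy σ).2 h]; simp

/-! ### shifts by monomials, affinity and shift fields -/

lemma sh_eq_act (q : Ex n) (x : WL W n) : sh A q x = act A W (mo q.1 q.2) x := by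
  rw [act_mo]

lemma sh_RR {P P' : Set (Ex n)} {q : Ex n} (h : ∀ x ∈ P, q + x ∈ P') {x : WL W n}
    (hx : x ∈ RR X W P) : sh A q x ∈ RR X W P' := by
  rw [sh_eq_act]
  refine act_RR (Q := {q}) (P := P) ?_ (mo_mem rfl) hx
  intro e he x hx
  rw [Set.mem_singleton_iff] at he
  subst he
  exact h x hx

lemma sh_Bk {ρ ρ' : Fin n → ℤ} {σ : Fin n → Ch} {q : Ex n}
    (h : ∀ x ∈ cs ρ σ, q + x ∈ cs ρ' σ) {k : ℤ} {x : WL W n} (hx : x ∈ Bk X W ρ k σ) :
    sh A q x ∈ Bk X W ρ' (k + q.2) σ := by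
  obtain ⟨a, ha, b, hb, rfl⟩ := Submodule.mem_sup.1 hx
  rw [map_add]
  refine Submodule.add_mem_sup (sh_mem (P := cs ρ σ ∩ {e | k ≤ e.2}) ?_ ha) (sh_RR h hb)
  rintro e ⟨he1, he2⟩
  refine ⟨h e he1, ?_⟩
  have : k ≤ e.2 := he2
  show k + q.2 ≤ q.2 + e.2
  omega

lemma sh_sh_neg (q : Ex n) (x : WL W n) : sh A q (sh A (-q) x) = x := by
  rw [← LinearMap.comp_apply, ← sh_add, add_neg_cancel, sh_zero]; rfl

lemma sh_neg_sh (q : Ex n) (x : WL W n) : sh A (-q) (sh A q x) = x := by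
  rw [← LinearMap.comp_apply, ← sh_add, neg_add_cancel, sh_zero]; rfl

variable (A W) in
/-- shift of cochains. -/
noncomputable def ps (q : Ex n) : VV W n →ₗ[A] VV W n :=
  LinearMap.pi fun σ => (sh A q) ∘ₗ LinearMap.proj σ

lemma ps_apply (q : Ex n) (y : VV W n) (σ : Fin n → Ch) : ps A W q y σ = sh A q (y σ) := rfl

lemma ps_dC (q : Ex n) : (ps A W q) ∘ₗ (dC A (WL W n) n) = (dC A (WL W n) n) ∘ₗ (ps A W q) := by
  apply LinearMap.ext
  intro y
  show (fun σ => sh A q (dC A (WL W n) n y σ)) = dC A (WL W n) n (fun σ => sh A q (y σ))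
  rw [dC_post]

lemma ps_Gr {q : Ex n} {j : ℤ} {S S' : (Fin n → Ch) → Submodule A (WL W n)}
    (h : ∀ σ, ∀ x ∈ S σ, sh A q x ∈ S' σ) {y : VV W n} (hy : y ∈ Gr j S) :
    ps A W q y ∈ Gr j S' := by
  intro σ
  rw [ps_apply]
  refine ⟨fun hc => h σ _ ((hy σ).1 hc), fun hc => ?_⟩
  rw [(hy σ).2 hc, map_zero]

/-- the exponent of `u_l`. -/
def ue (l : Fin n) : Ex n := (Pi.single l 1, 0)

lemma cs_upd_subset (ρ : Fin n → ℤ) (l : Fin n) (σ : Fin n → Ch) :
    cs (Function.update ρ l (ρ l + 1)) σ ⊆ cs ρ σ := by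
  intro e he x
  refine ⟨(he x).1, fun h => ?_⟩
  have := (he x).2 h
  by_cases hx : x = l
  · subst hx; rw [Function.update_self] at this; omega
  · rwa [Function.update_of_ne hx] at this

lemma cs_upd_eq (ρ : Fin n → ℤ) {l : Fin n} {σ : Fin n → Ch} (h : σ l ≠ Ch.t) (a : ℤ) :
    cs (Function.update ρ l a) σ = cs ρ σ := by
  ext e
  refine forall_congr' fun x => ?_
  by_cases hx : x = l
  · subst hx; simp [h]
  · rw [Function.update_of_ne hx]

lemma cs_ue (ρ : Fin n → ℤ) (l : Fin n) (σ : Fin n → Ch) :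
    ∀ e ∈ cs (Function.update ρ l (ρ l + 1)) σ, ue l + e ∈ cs ρ σ := by
  intro e he x
  have := he x
  by_cases hx : x = l
  · subst hx
    rw [Function.update_self] at this
    refine ⟨fun h => ?_, fun h => ?_⟩
    · have := this.1 h
      show 0 ≤ (Pi.single x 1 : Fin n → ℤ) x + e.1 x
      rw [Pi.single_eq_same]; omega
    · have := this.2 h
      show (Pi.single x 1 : Fin n → ℤ) x + e.1 x ≤ 0 + e.2 - 1 - ρ x
      rw [Pi.single_eq_same]; omega
  · rw [Function.update_of_ne hx] at this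
    refine ⟨fun h => ?_, fun h => ?_⟩
    · have := this.1 h
      show 0 ≤ (Pi.single l 1 : Fin n → ℤ) x + e.1 x
      rw [Pi.single_eq_of_ne hx]; omega
    · have := this.2 h
      show (Pi.single l 1 : Fin n → ℤ) x + e.1 x ≤ 0 + e.2 - 1 - ρ x
      rw [Pi.single_eq_of_ne hx]; omega

lemma cs_neg_ue (ρ : Fin n → ℤ) {l : Fin n} {σ : Fin n → Ch} (hσ : σ l = Ch.t) :
    ∀ e ∈ cs ρ σ, -ue l + e ∈ cs (Function.update ρ l (ρ l + 1)) σ := by
  intro e he x
  have := he x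
  by_cases hx : x = l
  · subst hx
    rw [Function.update_self, hσ]
    refine ⟨fun h => by simp at h, fun _ => ?_⟩
    have := this.2 hσ
    show -(Pi.single x 1 : Fin n → ℤ) x + e.1 x ≤ -0 + e.2 - 1 - (ρ x + 1)
    rw [Pi.single_eq_same]; omega
  · rw [Function.update_of_ne hx]
    refine ⟨fun h => ?_, fun h => ?_⟩
    · have := this.1 h
      show 0 ≤ -(Pi.single l 1 : Fin n → ℤ) x + e.1 x
      rw [Pi.single_eq_of_ne hx]; omega
    · have := this.2 h
      show -(Pi.single l 1 : Fin n → ℤ) x + e.1 x ≤ -0 + e.2 - 1 - ρ x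
      rw [Pi.single_eq_of_ne hx]; omega

/-- field `aff`. -/
theorem aff (l : Fin n) : ∃ U : VV W n →ₗ[A] VV W n,
    U ∘ₗ dC A (WL W n) n = dC A (WL W n) n ∘ₗ U ∧ ∀ ρ ρ1 ρ2 : Fin n → ℤ,
    ρ1 = Function.update ρ l (ρ l + 1) → ρ2 = Function.update ρ l (ρ l + 2) →
    (∀ k j, FF X W ρ1 k j ≤ FF X W ρ k j) ∧ (∀ j, ZZ X W ρ1 j ≤ ZZ X W ρ j) ∧
    (∀ k j, (FF X W ρ1 k j).map U ≤ FF X W ρ k j) ∧ (∀ j, (ZZ X W ρ1 j).map U ≤ ZZ X W ρ j) ∧
    (∀ k j, ∀ w ∈ FF X W ρ k j, ∃ x ∈ FF X W ρ1 k j, ∃ y ∈ FF X W ρ1 k j, w - (x + U y) ∈ ZZ X W ρ j) ∧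
    (∀ k j, ∀ x ∈ FF X W ρ1 k j, ∀ y ∈ FF X W ρ1 k j, x + U y ∈ ZZ X W ρ j →
      ∃ z ∈ FF X W ρ2 k j, x - U z ∈ ZZ X W ρ1 j ∧ y + z ∈ ZZ X W ρ1 j) ∧
    (∀ k j, ∀ z ∈ FF X W ρ2 k j, U z ∈ ZZ X W ρ1 j → z ∈ ZZ X W ρ1 j → z ∈ ZZ X W ρ2 j) := by
  classical
  refine ⟨ps A W (ue l), ps_dC _, ?_⟩
  intro ρ ρ1 ρ2 h1 h2
  have h2' : ρ2 = Function.update ρ1 l (ρ1 l + 1) := by
    rw [h1, h2, Function.update_idem, Function.update_self]
    congr 1; ring
  have key : ∀ (ρ : Fin n → ℤ) (σ : Fin n → Ch) (k : ℤ) (x : WL W n),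
      x ∈ Bk X W (Function.update ρ l (ρ l + 1)) k σ → sh A (ue l) x ∈ Bk X W ρ k σ := by
    intro ρ σ k x hx
    have := sh_Bk (cs_ue ρ l σ) hx
    simpa [ue] using this
  have keyinv : ∀ (ρ : Fin n → ℤ) (σ : Fin n → Ch) (_ : σ l = Ch.t) (k : ℤ) (x : WL W n),
      x ∈ Bk X W ρ k σ → sh A (-ue l) x ∈ Bk X W (Function.update ρ l (ρ l + 1)) k σ := by
    intro ρ σ hσ k x hx
    have := sh_Bk (cs_neg_ue ρ hσ) hx
    simpa [ue] using this
  refine ⟨?_, ?_, ?_, ?_, ?_, ?_, ?_⟩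
  · intro k j
    rw [h1]
    exact Gr_mono fun σ => sup_le_sup
      (WS_mono (Set.inter_subset_inter_left _ (cs_upd_subset ρ l σ))) (RR_mono (cs_upd_subset ρ l σ))
  · intro j
    rw [h1]
    exact Gr_mono fun σ => RR_mono (cs_upd_subset ρ l σ)
  · rintro k j _ ⟨y, hy, rfl⟩
    rw [h1] at hy
    exact ps_Gr (fun σ x hx => key ρ σ k x hx) hy
  · rintro j _ ⟨y, hy, rfl⟩
    rw [h1] at hy
    exact ps_Gr (fun σ x hx => sh_RR (cs_ue ρ l σ) hx) hy
  · intro k j w hw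
    refine ⟨fun σ => if σ l = Ch.t then 0 else w σ, ?_,
      fun σ => if σ l = Ch.t then sh A (-ue l) (w σ) else 0, ?_, ?_⟩
    · intro σ
      refine ⟨fun hc => ?_, fun hc => ?_⟩
      · dsimp only
        split_ifs with h
        · exact zero_mem _
        · have := (hw σ).1 hc
          rw [h1]
          unfold Bk at this ⊢
          rw [cs_upd_eq ρ h]; exact this
      · dsimp only
        rw [(hw σ).2 hc, ite_self]
    · intro σ
      refine ⟨fun hc => ?_, fun hc => ?_⟩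
      · dsimp only
        split_ifs with h
        · rw [h1]
          exact keyinv ρ σ h k _ ((hw σ).1 hc)
        · exact zero_mem _
      · dsimp only
        rw [(hw σ).2 hc, map_zero, ite_self]
    · have : w - ((fun σ => if σ l = Ch.t then 0 else w σ) +
          ps A W (ue l) (fun σ => if σ l = Ch.t then sh A (-ue l) (w σ) else 0)) = 0 := by
        funext σ
        rw [Pi.sub_apply, Pi.add_apply, ps_apply]
        split_ifs with h
        · rw [sh_sh_neg]; simp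
        · simp
      rw [this]; exact zero_mem _
  · intro k j x hx y hy hxy
    refine ⟨fun σ => if σ l = Ch.t then sh A (-ue l) (x σ) else -(y σ), ?_, ?_, ?_⟩
    · intro σ
      refine ⟨fun hc => ?_, fun hc => ?_⟩
      · dsimp only
        split_ifs with h
        · rw [h2']
          exact keyinv ρ1 σ h k _ ((hx σ).1 hc)
        · have := neg_mem ((hy σ).1 hc)
          rw [h2']
          unfold Bk at this ⊢
          rw [cs_upd_eq ρ1 h]; exact this
      · dsimp only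
        rw [(hx σ).2 hc, (hy σ).2 hc, map_zero, neg_zero, ite_self]
    · intro σ
      rw [Pi.sub_apply, ps_apply]
      refine ⟨fun hc => ?_, fun hc => ?_⟩
      · split_ifs with h
        · rw [sh_sh_neg, sub_self]; exact zero_mem _
        · have := (hxy σ).1 hc
          rw [Pi.add_apply, ps_apply] at this
          rw [map_neg, sub_neg_eq_add]
          show _ ∈ RR X W (cs ρ1 σ)
          rw [h1, cs_upd_eq ρ h]
          exact this
      · rw [(hx σ).2 hc, (hy σ).2 hc, map_zero, neg_zero, ite_self, map_zero, sub_zero]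
    · intro σ
      rw [Pi.add_apply]
      refine ⟨fun hc => ?_, fun hc => ?_⟩
      · split_ifs with h
        · have := (hxy σ).1 hc
          rw [Pi.add_apply, ps_apply] at this
          have h3 := sh_RR (X := X) (cs_neg_ue ρ h) this
          rw [map_add, sh_neg_sh] at h3
          rw [add_comm (y σ)]
          show _ ∈ RR X W (cs ρ1 σ)
          rw [h1]; exact h3
        · rw [add_neg_cancel]; exact zero_mem _
      · rw [(hx σ).2 hc, (hy σ).2 hc, map_zero, neg_zero, ite_self, add_zero]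
  · intro k j z hz hUz hz1 σ
    refine ⟨fun hc => ?_, fun hc => (hz σ).2 hc⟩
    by_cases h : σ l = Ch.t
    · have := (hUz σ).1 hc
      rw [ps_apply] at this
      have h3 := sh_RR (X := X) (cs_neg_ue ρ1 h) this
      rw [sh_neg_sh] at h3
      rw [h2']; exact h3
    · have := (hz1 σ).1 hc
      show _ ∈ RR X W (cs ρ2 σ)
      rw [h2', cs_upd_eq ρ1 h]; exact this

/-- field `shift`. -/
theorem shift : ∃ T T' : VV W n →ₗ[A] VV W n, T ∘ₗ dC A (WL W n) n = dC A (WL W n) n ∘ₗ T ∧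
    T' ∘ₗ dC A (WL W n) n = dC A (WL W n) n ∘ₗ T' ∧ T ∘ₗ T' = LinearMap.id ∧
    T' ∘ₗ T = LinearMap.id ∧
    (∀ ρ k j, (FF X W ρ k j).map T = FF X W (fun l => ρ l + 1) (k + 1) j) ∧
    (∀ ρ j, (ZZ X W ρ j).map T = ZZ X W (fun l => ρ l + 1) j) := by
  let q : Ex n := (0, 1)
  have hTT : (ps A W q : VV W n →ₗ[A] VV W n) ∘ₗ (ps A W (-q) : VV W n →ₗ[A] VV W n)
      = LinearMap.id := by
    apply LinearMap.ext; intro y; funext σ
    exact sh_sh_neg (A := A) q (y σ)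
  have hTT' : (ps A W (-q) : VV W n →ₗ[A] VV W n) ∘ₗ (ps A W q : VV W n →ₗ[A] VV W n)
      = LinearMap.id := by
    apply LinearMap.ext; intro y; funext σ
    exact sh_neg_sh (A := A) q (y σ)
  have c1 : ∀ (ρ : Fin n → ℤ) (σ : Fin n → Ch), ∀ e ∈ cs ρ σ, q + e ∈ cs (fun l => ρ l + 1) σ := by
    intro ρ σ e he l
    refine ⟨fun h => ?_, fun h => ?_⟩
    · have := (he l).1 h
      show 0 ≤ (0 : ℤ) + e.1 l
      omega
    · have := (he l).2 h
      show (0 : ℤ) + e.1 l ≤ 1 + e.2 - 1 - (ρ l + 1)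
      omega
  have c2 : ∀ (ρ : Fin n → ℤ) (σ : Fin n → Ch), ∀ e ∈ cs (fun l => ρ l + 1) σ, -q + e ∈ cs ρ σ := by
    intro ρ σ e he l
    refine ⟨fun h => ?_, fun h => ?_⟩
    · have := (he l).1 h
      show 0 ≤ -(0 : ℤ) + e.1 l
      omega
    · have : e.1 l ≤ e.2 - 1 - (ρ l + 1) := (he l).2 h
      show -(0 : ℤ) + e.1 l ≤ -1 + e.2 - 1 - ρ l
      omega
  refine ⟨ps A W q, ps A W (-q), ps_dC _, ps_dC _, hTT, hTT', ?_, ?_⟩
  · intro ρ k j
    apply le_antisymm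
    · rintro _ ⟨y, hy, rfl⟩
      exact ps_Gr (fun σ x hx => sh_Bk (c1 ρ σ) hx) hy
    · intro y hy
      refine ⟨ps A W (-q) y, ?_, LinearMap.congr_fun hTT y⟩
      refine ps_Gr (fun σ x hx => ?_) hy
      have := sh_Bk (c2 ρ σ) hx
      have e : k + 1 + (-q).2 = k := by show k + 1 + -1 = k; ring
      rw [e] at this
      exact this
  · intro ρ j
    apply le_antisymm
    · rintro _ ⟨y, hy, rfl⟩
      exact ps_Gr (fun σ x hx => sh_RR (c1 ρ σ) hx) hy
    · intro y hy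
      exact ⟨ps A W (-q) y, ps_Gr (fun σ x hx => sh_RR (c2 ρ σ) hx) hy, LinearMap.congr_fun hTT y⟩

end gr

end Crest.Agent.R183.KF
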