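/-
R183 (Lech), Theorem K: homology of the graded pieces of the Čech complexes.   helper389
-/
import Mathlib
import Crest.Agent.R183.KGr

set_option autoImplicit false

namespace Crest.Agent.R183.KF

open Finset
open scoped Classical

universe u v

section piece

variable {A : Type u} [CommRing A] {W : Type v} [AddCommGroup W] [Module A W] {n : ℕ}

variable (A W) in
/-- restriction of the support. -/
noncomputable def flt (p : Ex n → Prop) : WL W n →ₗ[A] WL W n where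
  toFun := Finsupp.filter p
  map_add' _ _ := Finsupp.filter_add
  map_smul' _ _ := Finsupp.filter_smul

lemma flt_apply (p : Ex n → Prop) (x : WL W n) (e : Ex n) :
    flt A W p x e = if p e then x e else 0 := by
  show Finsupp.filter _ x e = _
  rw [Finsupp.filter_apply]

variable (A W) in
/-- matrix of the contraction in direction `a`. -/
noncomputable def hm (ρ : Fin n → ℤ) (a : Fin n) : Ch → Ch → WL W n →ₗ[A] WL W n
  | Ch.s, Ch.st => flt A W (fun e => 0 ≤ e.1 a)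
  | Ch.t, Ch.st => - flt A W (fun e => e.1 a < 0 ∧ e.1 a ≤ e.2 - 1 - ρ a)
  | _, _ => 0

lemma hm_odd (ρ : Fin n → ℤ) (a : Fin n) : Odd' (hm A W ρ a) := by
  intro c c' h
  cases c <;> cases c' <;> simp_all [sg, hm]

variable (A W) in
/-- contraction in direction `a`. -/
noncomputable def ha (ρ : Fin n → ℤ) (a : Fin n) : VV W n →ₗ[A] VV W n := Op a (hm A W ρ a)

lemma dl_ha {ρ : Fin n → ℤ} {a l : Fin n} (h : l ≠ a) (y : VV W n) :
    dl A (WL W n) n l (ha A W ρ a y) = - ha A W ρ a (dl A (WL W n) n l y) :=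
  Op_anti h dm_odd (hm_odd ρ a) (fun _ _ _ _ _ => dm_comm _ _ _ _) y

lemma dC_ha_add (ρ : Fin n → ℤ) (a : Fin n) (y : VV W n) :
    dC A (WL W n) n (ha A W ρ a y) + ha A W ρ a (dC A (WL W n) n y) =
      dl A (WL W n) n a (ha A W ρ a y) + ha A W ρ a (dl A (WL W n) n a y) := by
  unfold dC
  rw [LinearMap.sum_apply, LinearMap.sum_apply, map_sum, ← Finset.sum_add_distrib,
    Finset.sum_eq_single a]
  · intro l _ hl
    rw [dl_ha hl, neg_add_cancel]
  · intro h; exact absurd (mem_univ _) h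

lemma pa_st {ρ : Fin n → ℤ} {a : Fin n} (y : VV W n) {σ : Fin n → Ch} (h : σ a = Ch.st) (e : Ex n) :
    (dC A (WL W n) n (ha A W ρ a y) + ha A W ρ a (dC A (WL W n) n y)) σ e =
      (if 0 ≤ e.1 a then y σ e else 0) +
        (if e.1 a < 0 ∧ e.1 a ≤ e.2 - 1 - ρ a then y σ e else 0) := by
  rw [dC_ha_add, Pi.add_apply]
  unfold dl ha
  rw [Op_Op_same, Op_Op_same]
  simp only [sum_Ch, h]
  have hu : Function.update σ a Ch.st = σ := by rw [← h]; exact Function.update_eq_self _ _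
  simp [dm, hm, hu, flt_apply]
  congr!

lemma pa_s {ρ : Fin n → ℤ} {a : Fin n} (y : VV W n) {σ : Fin n → Ch} (h : σ a = Ch.s) (e : Ex n) :
    (dC A (WL W n) n (ha A W ρ a y) + ha A W ρ a (dC A (WL W n) n y)) σ e =
      (if 0 ≤ e.1 a then y σ e else 0) -
        (if 0 ≤ e.1 a then y (Function.update σ a Ch.t) e else 0) := by
  rw [dC_ha_add, Pi.add_apply]
  unfold dl ha
  rw [Op_Op_same, Op_Op_same]
  simp only [sum_Ch, h]
  have hu : Function.update σ a Ch.s = σ := by rw [← h]; exact Function.update_eq_self _ _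
  simp [dm, hm, hu, flt_apply, sub_eq_add_neg]
  congr!

lemma pa_t {ρ : Fin n → ℤ} {a : Fin n} (y : VV W n) {σ : Fin n → Ch} (h : σ a = Ch.t) (e : Ex n) :
    (dC A (WL W n) n (ha A W ρ a y) + ha A W ρ a (dC A (WL W n) n y)) σ e =
      (if e.1 a < 0 ∧ e.1 a ≤ e.2 - 1 - ρ a then y σ e else 0) -
        (if e.1 a < 0 ∧ e.1 a ≤ e.2 - 1 - ρ a then y (Function.update σ a Ch.s) e else 0) := by
  rw [dC_ha_add, Pi.add_apply]
  unfold dl ha
  rw [Op_Op_same, Op_Op_same]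
  simp only [sum_Ch, h]
  have hu : Function.update σ a Ch.t = σ := by rw [← h]; exact Function.update_eq_self _ _
  simp only [dm, hm, hu, flt_apply, sub_eq_add_neg, LinearMap.zero_apply, map_zero, LinearMap.neg_apply,
    LinearMap.id_apply, map_neg, zero_add, add_zero, neg_neg, Finsupp.add_apply, Finsupp.neg_apply, neg_zero]
  rw [add_comm]
  congr!

/-- box conditions for the directions in `S`. -/
def bx (ρ : Fin n → ℤ) (S : Finset (Fin n)) (σ : Fin n → Ch) (e : Ex n) : Prop :=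
  ∀ l ∈ S, (σ l = Ch.st → e.1 l < 0 ∧ e.2 - 1 - ρ l < e.1 l) ∧
    (σ l ≠ Ch.st → 0 ≤ e.1 l ∧ e.1 l ≤ e.2 - 1 - ρ l)

/-- replace `s` by `t` in the directions of `S`. -/
def tS (S : Finset (Fin n)) (σ : Fin n → Ch) : Fin n → Ch :=
  fun l => if l ∈ S ∧ σ l = Ch.s then Ch.t else σ l

/-- projection to harmonic cochains in the directions of `S`. -/
noncomputable def PS (ρ : Fin n → ℤ) (S : Finset (Fin n)) (y : VV W n) : VV W n :=
  fun σ => flt ℤ W (bx ρ S σ) (y (tS S σ))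

lemma PS_apply (ρ : Fin n → ℤ) (S : Finset (Fin n)) (y : VV W n) (σ : Fin n → Ch) (e : Ex n) :
    PS ρ S y σ e = if bx ρ S σ e then y (tS S σ) e else 0 := by
  unfold PS
  rw [flt_apply]

lemma bx_insert_st {ρ : Fin n → ℤ} {S : Finset (Fin n)} {a : Fin n} {σ : Fin n → Ch}
    (h : σ a = Ch.st) (e : Ex n) : bx ρ (insert a S) σ e ↔
      (e.1 a < 0 ∧ e.2 - 1 - ρ a < e.1 a) ∧ bx ρ S σ e := by
  unfold bx
  rw [Finset.forall_mem_insert, h]
  simp

lemma bx_insert_ne {ρ : Fin n → ℤ} {S : Finset (Fin n)} {a : Fin n} {σ : Fin n → Ch}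
    (h : σ a ≠ Ch.st) (e : Ex n) : bx ρ (insert a S) σ e ↔
      (0 ≤ e.1 a ∧ e.1 a ≤ e.2 - 1 - ρ a) ∧ bx ρ S σ e := by
  unfold bx
  rw [Finset.forall_mem_insert]
  simp [h]

lemma bx_update {ρ : Fin n → ℤ} {S : Finset (Fin n)} {a : Fin n} (ha : a ∉ S) {σ : Fin n → Ch}
    (c : Ch) (e : Ex n) : bx ρ S (Function.update σ a c) e ↔ bx ρ S σ e := by
  unfold bx
  refine forall₂_congr fun l hl => ?_
  have : l ≠ a := by rintro rfl; exact ha hl
  rw [Function.update_of_ne this]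

lemma tS_insert_ne {S : Finset (Fin n)} {a : Fin n} {σ : Fin n → Ch} (h : σ a ≠ Ch.s) :
    tS (insert a S) σ = tS S σ := by
  funext l
  unfold tS
  by_cases hl : l = a
  · subst hl; simp [h]
  · simp [hl]

lemma tS_insert_s {S : Finset (Fin n)} {a : Fin n} (ha : a ∉ S) {σ : Fin n → Ch} (h : σ a = Ch.s) :
    tS (insert a S) σ = tS S (Function.update σ a Ch.t) := by
  funext l
  unfold tS
  by_cases hl : l = a
  · subst hl; simp [h, ha]
  · simp [hl]

lemma cs_of_bx {ρ : Fin n → ℤ} {S : Finset (Fin n)} {σ : Fin n → Ch} {e : Ex n}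
    (h1 : bx ρ S σ e) (h2 : e ∈ cs ρ (tS S σ)) : e ∈ cs ρ σ := by
  intro l
  by_cases hl : l ∈ S
  · have := h1 l hl
    refine ⟨fun h => ?_, fun h => ?_⟩
    · exact (this.2 (by rw [h]; decide)).1
    · exact (this.2 (by rw [h]; decide)).2
  · have := h2 l
    have h3 : tS S σ l = σ l := by simp [tS, hl]
    rwa [h3] at this

/-- support of cochains. -/
def Sup' (ρ : Fin n → ℤ) (y : VV W n) : Prop := ∀ σ e, y σ e ≠ 0 → e ∈ cs ρ σ

lemma PS_sup {ρ : Fin n → ℤ} {S : Finset (Fin n)} {y : VV W n} (hy : Sup' ρ y) :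
    Sup' ρ (PS ρ S y) := by
  intro σ e he
  rw [PS_apply] at he
  split_ifs at he with h
  · exact cs_of_bx h (hy _ _ he)
  · exact absurd rfl he

lemma PS_step {ρ : Fin n → ℤ} {S : Finset (Fin n)} {a : Fin n} (haS : a ∉ S) {y : VV W n}
    (hy : Sup' ρ y) :
    PS ρ S y - (dC A (WL W n) n (ha A W ρ a (PS ρ S y)) + ha A W ρ a (dC A (WL W n) n (PS ρ S y))) =
      PS ρ (insert a S) y := by
  have hy' := PS_sup (S := S) hy
  funext σ
  ext e
  rw [Pi.sub_apply, Finsupp.sub_apply]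
  cases h : σ a
  · -- `s`
    rw [pa_s _ h]
    have h1 : (if 0 ≤ e.1 a then PS ρ S y σ e else 0) = PS ρ S y σ e := by
      by_cases h2 : PS ρ S y σ e = 0
      · simp [h2]
      · rw [if_pos ((hy' σ e h2 a).1 h)]
    rw [h1, sub_sub_cancel, PS_apply, PS_apply, bx_update haS, tS_insert_s haS h]
    rw [if_congr (bx_insert_ne (by rw [h]; decide) e) rfl rfl]
    by_cases h3 : y (tS S (Function.update σ a Ch.t)) e = 0
    · simp [h3]
    · have h4 := (hy _ _ h3 a).2 (by simp [tS, haS])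
      by_cases h5 : 0 ≤ e.1 a <;> by_cases h6 : bx ρ S σ e <;> simp [h4, h5, h6]
  · -- `t`
    rw [pa_t _ h]
    have h1 : (if e.1 a < 0 ∧ e.1 a ≤ e.2 - 1 - ρ a then PS ρ S y (Function.update σ a Ch.s) e
        else 0) = 0 := by
      by_cases h2 : PS ρ S y (Function.update σ a Ch.s) e = 0
      · simp [h2]
      · have h3 := (hy' _ _ h2 a).1 (by simp)
        rw [if_neg (by omega)]
    rw [h1, sub_zero, PS_apply, PS_apply, tS_insert_ne (by rw [h]; decide)]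
    rw [if_congr (bx_insert_ne (by rw [h]; decide) e) rfl rfl]
    by_cases h3 : bx ρ S σ e
    · by_cases h4 : y (tS S σ) e = 0
      · simp [h4]
      · have h5 := (hy' σ e (by rw [PS_apply, if_pos h3]; exact h4) a).2 h
        by_cases h6 : 0 ≤ e.1 a
        · have h7 : ¬ (e.1 a < 0) := by omega
          simp [h3, h5, h6, h7]
        · have h7 : e.1 a < 0 := by omega
          simp [h3, h5, h6, h7]
    · simp [h3]
  · -- `st`
    rw [pa_st _ h, PS_apply, PS_apply, tS_insert_ne (by rw [h]; decide)]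
    rw [if_congr (bx_insert_st h e) rfl rfl]
    by_cases h3 : bx ρ S σ e
    · by_cases h6 : 0 ≤ e.1 a
      · have h7 : ¬ (e.1 a < 0) := by omega
        simp [h3, h6, h7]
      · have h7 : e.1 a < 0 := by omega
        by_cases h8 : e.1 a ≤ e.2 - 1 - ρ a
        · have h9 : ¬ (e.2 - 1 - ρ a < e.1 a) := by omega
          simp [h3, h6, h7, h8, h9]
        · have h9 : e.2 - 1 - ρ a < e.1 a := by omega
          simp [h3, h6, h7, h8, h9]
    · simp [h3]


/-- homogeneous cochains of degree `j`, internal degree `k`. -/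
noncomputable def Cl (A : Type u) [CommRing A] (W : Type v) [AddCommGroup W] [Module A W]
    (ρ : Fin n → ℤ) (k j : ℤ) : Submodule A (VV W n) :=
  Gr j (fun σ => WS A W (cs ρ σ ∩ {e | e.2 = k}))

lemma Cl_sup {ρ : Fin n → ℤ} {k j : ℤ} {y : VV W n} (hy : y ∈ Cl A W ρ k j) : Sup' ρ y := by
  intro σ e he
  by_cases h : cnt σ = j
  · exact ((hy σ).1 h (Finsupp.mem_support_iff.2 he)).1
  · rw [(hy σ).2 h] at he; exact absurd rfl he

lemma Cl_deg {ρ : Fin n → ℤ} {k j : ℤ} {y : VV W n} (hy : y ∈ Cl A W ρ k j) {σ : Fin n → Ch}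
    {e : Ex n} (he : y σ e ≠ 0) : cnt σ = j ∧ e.2 = k := by
  by_cases h : cnt σ = j
  · exact ⟨h, ((hy σ).1 h (Finsupp.mem_support_iff.2 he)).2⟩
  · rw [(hy σ).2 h] at he; exact absurd rfl he

lemma mem_Cl_of {ρ : Fin n → ℤ} {k j : ℤ} {y : VV W n}
    (h : ∀ σ e, y σ e ≠ 0 → cnt σ = j ∧ e.2 = k ∧ e ∈ cs ρ σ) : y ∈ Cl A W ρ k j := by
  intro σ
  refine ⟨fun _ e he => ?_, fun hc => ?_⟩
  · have := h σ e (Finsupp.mem_support_iff.1 he)
    exact ⟨this.2.2, this.2.1⟩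
  · ext e
    by_contra hne
    exact hc (h σ e hne).1

lemma dC_Cl {ρ : Fin n → ℤ} {k j : ℤ} {y : VV W n} (hy : y ∈ Cl A W ρ k j) :
    dC A (WL W n) n y ∈ Cl A W ρ k (j + 1) :=
  dC_mem (fun _ _ h c => WS_mono (Set.inter_subset_inter_left _ (cs_update_subset ρ h c))) hy

lemma ha_Cl {ρ : Fin n → ℤ} {k j : ℤ} (a : Fin n) {y : VV W n} (hy : y ∈ Cl A W ρ k j) :
    ha A W ρ a y ∈ Cl A W ρ k (j - 1) := by
  refine mem_Cl_of fun σ e he => ?_
  have hs := Cl_sup hy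
  unfold ha at he
  rw [Op_apply, sum_Ch] at he
  cases h : σ a
  · rw [h] at he
    simp only [hm, LinearMap.zero_apply, zero_add] at he
    have h1 : y (Function.update σ a Ch.st) e ≠ 0 ∧ 0 ≤ e.1 a := by
      by_contra hcon
      apply he
      rw [Finsupp.smul_apply, flt_apply]
      by_cases h2 : 0 ≤ e.1 a
      · rw [if_pos h2]
        have h3 : y (Function.update σ a Ch.st) e = 0 := by
          by_contra h4; exact hcon ⟨h4, h2⟩
        rw [h3, smul_zero]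
      · rw [if_neg h2, smul_zero]
    obtain ⟨h2, h3⟩ := Cl_deg hy h1.1
    rw [cnt_update' (by rw [h]; decide)] at h2
    refine ⟨by omega, h3, ?_⟩
    intro l
    have h4 := hs _ _ h1.1 l
    by_cases hl : l = a
    · subst hl
      rw [h]
      exact ⟨fun _ => h1.2, fun h5 => by simp at h5⟩
    · rwa [Function.update_of_ne hl] at h4
  · rw [h] at he
    simp only [hm, LinearMap.zero_apply, zero_add, LinearMap.neg_apply] at he
    have h1 : y (Function.update σ a Ch.st) e ≠ 0 ∧ (e.1 a < 0 ∧ e.1 a ≤ e.2 - 1 - ρ a) := by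
      by_contra hcon
      apply he
      rw [Finsupp.smul_apply, Finsupp.neg_apply, flt_apply]
      by_cases h2 : e.1 a < 0 ∧ e.1 a ≤ e.2 - 1 - ρ a
      · rw [if_pos h2]
        have h3 : y (Function.update σ a Ch.st) e = 0 := by
          by_contra h4; exact hcon ⟨h4, h2⟩
        rw [h3, neg_zero, smul_zero]
      · rw [if_neg h2, neg_zero, smul_zero]
    obtain ⟨h2, h3⟩ := Cl_deg hy h1.1
    rw [cnt_update' (by rw [h]; decide)] at h2
    refine ⟨by omega, h3, ?_⟩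
    intro l
    have h4 := hs _ _ h1.1 l
    by_cases hl : l = a
    · subst hl
      rw [h]
      exact ⟨fun h5 => by simp at h5, fun _ => h1.2.2⟩
    · rwa [Function.update_of_ne hl] at h4
  · rw [h] at he
    simp [hm] at he

variable (X : Fin (n + 1) → A)

/-- `(X)`. -/
abbrev IX : Ideal A := Ideal.span (Set.range X)

variable {X}

lemma dC_ICl {ρ : Fin n → ℤ} {k j : ℤ} {y : VV W n} (hy : y ∈ IX X • Cl A W ρ k j) :
    dC A (WL W n) n y ∈ IX X • Cl A W ρ k (j + 1) := by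
  have h1 : (IX X • Cl A W ρ k j).map (dC A (WL W n) n) ≤ IX X • Cl A W ρ k (j + 1) := by
    rw [Submodule.map_smul'']
    refine smul_mono_right _ ?_
    rintro _ ⟨z, hz, rfl⟩
    exact dC_Cl hz
  exact h1 ⟨y, hy, rfl⟩

lemma ha_ICl {ρ : Fin n → ℤ} {k j : ℤ} (a : Fin n) {y : VV W n} (hy : y ∈ IX X • Cl A W ρ k j) :
    ha A W ρ a y ∈ IX X • Cl A W ρ k (j - 1) := by
  have h1 : (IX X • Cl A W ρ k j).map (ha A W ρ a) ≤ IX X • Cl A W ρ k (j - 1) := by
    rw [Submodule.map_smul'']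
    refine smul_mono_right _ ?_
    rintro _ ⟨z, hz, rfl⟩
    exact ha_Cl a hz
  exact h1 ⟨y, hy, rfl⟩

lemma PS_empty (ρ : Fin n → ℤ) (y : VV W n) : PS ρ ∅ y = y := by
  funext σ
  ext e
  have : tS (∅ : Finset (Fin n)) σ = σ := by
    funext l
    simp [tS]
  rw [PS_apply, if_pos (by intro l hl; simp at hl), this]

/-- **main homotopy lemma.** -/
lemma PS_main {ρ : Fin n → ℤ} {k : ℤ} (S : Finset (Fin n)) {j : ℤ} {y : VV W n}
    (hy : y ∈ Cl A W ρ k j) (hdy : dC A (WL W n) n y ∈ IX X • Cl A W ρ k (j + 1)) :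
    PS ρ S y ∈ Cl A W ρ k j ∧ dC A (WL W n) n (PS ρ S y) ∈ IX X • Cl A W ρ k (j + 1) ∧
      ∃ u ∈ Cl A W ρ k (j - 1), y - PS ρ S y - dC A (WL W n) n u ∈ IX X • Cl A W ρ k j := by
  induction S using Finset.induction_on with
  | empty =>
    rw [PS_empty]
    exact ⟨hy, hdy, 0, zero_mem _, by rw [map_zero, sub_self, sub_zero]; exact zero_mem _⟩
  | insert a S haS ih =>
    obtain ⟨h1, h2, u, hu, h3⟩ := ih
    have hstep := PS_step haS (Cl_sup hy) (A := A)
    have k1 : ha A W ρ a (PS ρ S y) ∈ Cl A W ρ k (j - 1) := ha_Cl a h1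
    have k2 : ha A W ρ a (dC A (WL W n) n (PS ρ S y)) ∈ IX X • Cl A W ρ k j := by
      have := ha_ICl a h2
      rwa [add_sub_cancel_right] at this
    have k3 : dC A (WL W n) n (ha A W ρ a (PS ρ S y)) ∈ Cl A W ρ k j := by
      have := dC_Cl k1
      rwa [sub_add_cancel] at this
    have k4 : ha A W ρ a (dC A (WL W n) n (PS ρ S y)) ∈ Cl A W ρ k j := Submodule.smul_le_right k2
    rw [← hstep]
    refine ⟨sub_mem h1 (add_mem k3 k4), ?_, u + ha A W ρ a (PS ρ S y), add_mem hu k1, ?_⟩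
    · rw [map_sub, map_add, dC_dC_apply, zero_add]
      exact sub_mem h2 (dC_ICl k2)
    · have e1 : y - (PS ρ S y - (dC A (WL W n) n (ha A W ρ a (PS ρ S y)) +
          ha A W ρ a (dC A (WL W n) n (PS ρ S y)))) - dC A (WL W n) n (u + ha A W ρ a (PS ρ S y)) =
          (y - PS ρ S y - dC A (WL W n) n u) + ha A W ρ a (dC A (WL W n) n (PS ρ S y)) := by
        rw [map_add]; abel
      rw [e1]
      exact add_mem h3 k2

/-! ### from `FF` to `Cl` -/

lemma exists_Gr_add {j : ℤ} {S S' : (Fin n → Ch) → Submodule A (WL W n)} {y : VV W n}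
    (hy : y ∈ Gr j (fun σ => S σ ⊔ S' σ)) : ∃ y0 ∈ Gr j S, ∃ y1 ∈ Gr j S', y = y0 + y1 := by
  have h : ∀ σ, ∃ a b : WL W n, (cnt σ = j → a ∈ S σ) ∧ (cnt σ = j → b ∈ S' σ) ∧
      (cnt σ ≠ j → a = 0) ∧ (cnt σ ≠ j → b = 0) ∧ y σ = a + b := by
    intro σ
    by_cases hc : cnt σ = j
    · obtain ⟨a, ha, b, hb, hab⟩ := Submodule.mem_sup.1 ((hy σ).1 hc)
      exact ⟨a, b, fun _ => ha, fun _ => hb, fun h => absurd hc h, fun h => absurd hc h, hab.symm⟩
    · exact ⟨0, 0, fun h => absurd h hc, fun h => absurd h hc, fun _ => rfl, fun _ => rfl, by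
        rw [(hy σ).2 hc, add_zero]⟩
  choose a b h1 h2 h3 h4 h5 using h
  exact ⟨a, fun σ => ⟨h1 σ, h3 σ⟩, b, fun σ => ⟨h2 σ, h4 σ⟩, funext h5⟩

lemma Bk_decomp (ρ : Fin n → ℤ) (k : ℤ) (σ : Fin n → Ch) :
    Bk X W ρ k σ ≤ WS A W (cs ρ σ ∩ {e | e.2 = k}) ⊔ Bk X W ρ (k + 1) σ := by
  refine sup_le ?_ ((RR_le_Bk ρ (k + 1) σ).trans le_sup_right)
  intro x hx
  have h1 : x = pr A W k x + (x - pr A W k x) := by abel
  rw [h1]
  refine Submodule.add_mem_sup ?_ (Submodule.mem_sup_left (sub_pr_mem hx))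
  refine WS_mono ?_ (pr_mem k hx)
  rintro e ⟨⟨h2, _⟩, h3⟩
  exact ⟨h2, h3⟩

lemma FF_decomp {ρ : Fin n → ℤ} {k j : ℤ} {y : VV W n} (hy : y ∈ FF X W ρ k j) :
    ∃ y0 ∈ Cl A W ρ k j, ∃ y1 ∈ FF X W ρ (k + 1) j, y = y0 + y1 :=
  exists_Gr_add (Gr_mono (fun σ => Bk_decomp ρ k σ) hy)

lemma smul_Gr_le {I : Ideal A} {j : ℤ} {S : (Fin n → Ch) → Submodule A (WL W n)} :
    I • Gr j S ≤ Gr j (fun σ => I • S σ) := by
  intro y hy σ
  have h1 : y σ ∈ I • (Gr j S).map (LinearMap.proj (R := A) (φ := fun _ : Fin n → Ch => WL W n) σ) := by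
    rw [← Submodule.map_smul'']
    exact ⟨y, hy, rfl⟩
  refine ⟨fun hc => ?_, fun hc => ?_⟩
  · refine (smul_mono_right I ?_ : _ ≤ I • S σ) h1
    rintro _ ⟨z, hz, rfl⟩
    exact (hz σ).1 hc
  · have h2 : (Gr j S).map (LinearMap.proj (R := A) (φ := fun _ : Fin n → Ch => WL W n) σ) = ⊥ := by
      rw [eq_bot_iff]
      rintro _ ⟨z, hz, rfl⟩
      exact (hz σ).2 hc
    rw [h2, Submodule.smul_bot] at h1
    exact h1

lemma Gr_smul_le {I : Ideal A} {j : ℤ} {S : (Fin n → Ch) → Submodule A (WL W n)} :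
    Gr j (fun σ => I • S σ) ≤ I • Gr j S := by
  intro y hy
  have h1 : y = ∑ σ, Pi.single σ (y σ) := (Finset.univ_sum_single y).symm
  rw [h1]
  refine Submodule.sum_mem _ fun σ _ => ?_
  by_cases hc : cnt σ = j
  · have h2 := (hy σ).1 hc
    have h3 : (I • S σ).map (LinearMap.single A (fun _ : Fin n → Ch => WL W n) σ) ≤ I • Gr j S := by
      rw [Submodule.map_smul'']
      refine smul_mono_right _ ?_
      rintro _ ⟨z, hz, rfl⟩ τ
      by_cases h : τ = σ
      · subst h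
        refine ⟨fun _ => ?_, fun h4 => absurd hc h4⟩
        rw [LinearMap.coe_single, Pi.single_eq_same]; exact hz
      · refine ⟨fun _ => ?_, fun _ => ?_⟩
        · rw [LinearMap.coe_single, Pi.single_eq_of_ne h]; exact zero_mem _
        · rw [LinearMap.coe_single, Pi.single_eq_of_ne h]
    exact h3 ⟨_, h2, rfl⟩
  · rw [(hy σ).2 hc, Pi.single_zero]; exact zero_mem _

lemma ICl_le_FF {ρ : Fin n → ℤ} {k j : ℤ} : IX X • Cl A W ρ k j ≤ FF X W ρ (k + 1) j := by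
  refine smul_Gr_le.trans (Gr_mono fun σ => ?_)
  refine (smul_mono_right _ ?_ : _ ≤ IX X • Bk X W ρ k σ).trans (I_smul_Bk ρ k σ)
  refine (WS_mono ?_).trans le_sup_left
  rintro e ⟨h1, h2⟩
  exact ⟨h1, le_of_eq (Eq.symm h2)⟩

lemma Cl_le_FF {ρ : Fin n → ℤ} {k j : ℤ} : Cl A W ρ k j ≤ FF X W ρ k j := by
  refine Gr_mono fun σ => (WS_mono ?_).trans le_sup_left
  rintro e ⟨h1, h2⟩
  exact ⟨h1, le_of_eq (Eq.symm h2)⟩

/-- (K1) for cochains. -/
lemma Cl_inf_FF (hH : H1 X W) {ρ : Fin n → ℤ} {k j : ℤ} {y : VV W n} (hy : y ∈ Cl A W ρ k j)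
    (hy' : y ∈ FF X W ρ (k + 1) j) : y ∈ IX X • Cl A W ρ k j := by
  refine Gr_smul_le fun σ => ⟨fun hc => ?_, fun hc => (hy σ).2 hc⟩
  exact lead hH (cs_stable ρ σ) ((hy σ).1 hc) ((hy' σ).1 hc)

lemma dC_FF {ρ : Fin n → ℤ} {k j : ℤ} {y : VV W n} (hy : y ∈ FF X W ρ k j) :
    dC A (WL W n) n y ∈ FF X W ρ k (j + 1) :=
  dC_mem (fun σ l h c => Bk_update_le ρ k σ l h c) hy

lemma dC_ZZ {ρ : Fin n → ℤ} {j : ℤ} {y : VV W n} (hy : y ∈ ZZ X W ρ j) :
    dC A (WL W n) n y ∈ ZZ X W ρ (j + 1) :=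
  dC_mem (fun _ _ h c => RR_mono (cs_update_subset ρ h c)) hy

lemma FF_anti {ρ : Fin n → ℤ} {k k' j : ℤ} (h : k ≤ k') : FF X W ρ k' j ≤ FF X W ρ k j :=
  Gr_mono fun σ => Bk_anti ρ h σ

/-- harmonic cochains live in degree `J` only. -/
lemma cnt_of_bx {ρ : Fin n → ℤ} {σ : Fin n → Ch} {e : Ex n} (h : bx ρ univ σ e) :
    (∀ l, σ l = Ch.st ↔ e.2 < ρ l) := by
  intro l
  have := h l (mem_univ l)
  constructor
  · intro h1
    have := this.1 h1
    omega
  · intro h1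
    by_contra h2
    have := this.2 h2
    omega

lemma cnt_eq_Jd0 {ρ : Fin n → ℤ} {σ : Fin n → Ch} {k : ℤ} (h : ∀ l, σ l = Ch.st ↔ k < ρ l) :
    cnt σ = Jd0 ρ k := by
  unfold cnt Jd0
  congr 2
  ext l
  simp [h l]

/-- field `piece_null`. -/
theorem piece_null (hH : H1 X W) (ρ : Fin n → ℤ) (k j : ℤ) (hj : j ≠ Jd0 ρ k) (y : VV W n)
    (hy : y ∈ FF X W ρ k j) (hdy : dC A (WL W n) n y ∈ FF X W ρ (k + 1) (j + 1)) :
    ∃ y' ∈ FF X W ρ k (j - 1), y - dC A (WL W n) n y' ∈ FF X W ρ (k + 1) j := by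
  obtain ⟨y0, h0, y1, h1, rfl⟩ := FF_decomp hy
  have h2 : dC A (WL W n) n y0 ∈ FF X W ρ (k + 1) (j + 1) := by
    have : dC A (WL W n) n y0 = dC A (WL W n) n (y0 + y1) - dC A (WL W n) n y1 := by
      rw [map_add]; abel
    rw [this]
    exact sub_mem hdy (dC_FF h1)
  have h3 := Cl_inf_FF hH (dC_Cl h0) h2
  obtain ⟨h4, _, u, hu, h5⟩ := PS_main (X := X) univ h0 h3
  have h6 : PS ρ univ y0 = 0 := by
    funext σ
    ext e
    by_contra hne
    obtain ⟨h7, h8⟩ := Cl_deg h4 hne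
    rw [PS_apply] at hne
    have hb : bx ρ univ σ e := by
      by_contra hb
      rw [if_neg hb] at hne
      exact hne rfl
    have h9 := cnt_eq_Jd0 (cnt_of_bx hb)
    rw [h8] at h9
    exact hj (h7.symm.trans h9)
  rw [h6, sub_zero] at h5
  refine ⟨u, Cl_le_FF hu, ?_⟩
  have : y0 + y1 - dC A (WL W n) n u = (y0 - dC A (WL W n) n u) + y1 := by abel
  rw [this]
  exact add_mem (ICl_le_FF h5) h1

end piece

end Crest.Agent.R183.KF
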