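/-
R183 (Lech), Theorem K: length of the homology of the graded pieces.   helper389
-/
import Mathlib
import Crest.Agent.R183.KPiece

set_option autoImplicit false

namespace Crest.Agent.R183.KF

open Finset
open scoped Classical ENNReal

universe u v

section len

variable {A : Type u} [CommRing A] {W : Type v} [AddCommGroup W] [Module A W] {n : ℕ}

/-- index type of the box. -/
abbrev BT (ρ : Fin n → ℤ) (k : ℤ) : Type := (l : Fin n) → Fin ((k - ρ l).natAbs)

lemma card_BT (ρ : Fin n → ℤ) (k : ℤ) : Fintype.card (BT ρ k) = rk ρ k := by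
  rw [Fintype.card_pi]
  simp only [Fintype.card_fin]
  rfl

/-- exponents of the box. -/
def bval {ρ : Fin n → ℤ} {k : ℤ} (b : BT ρ k) : Fin n → ℤ :=
  fun l => if k < ρ l then ((b l : ℕ) : ℤ) - (ρ l - k) else ((b l : ℕ) : ℤ)

lemma bval_lt {ρ : Fin n → ℤ} {k : ℤ} (b : BT ρ k) {l : Fin n} (h : k < ρ l) :
    bval b l < 0 ∧ k - 1 - ρ l < bval b l := by
  have := (b l).2
  unfold bval
  rw [if_pos h]
  omega

lemma bval_ge {ρ : Fin n → ℤ} {k : ℤ} (b : BT ρ k) {l : Fin n} (h : ¬ k < ρ l) :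
    0 ≤ bval b l ∧ bval b l ≤ k - 1 - ρ l := by
  have := (b l).2
  unfold bval
  rw [if_neg h]
  omega

lemma bval_inj {ρ : Fin n → ℤ} {k : ℤ} : Function.Injective (bval (ρ := ρ) (k := k)) := by
  intro b b' h
  funext l
  have := congrFun h l
  unfold bval at this
  apply Fin.ext
  split_ifs at this <;> omega

lemma exists_bval {ρ : Fin n → ℤ} {k : ℤ} {j : Fin n → ℤ}
    (h : ∀ l, (k < ρ l → j l < 0 ∧ k - 1 - ρ l < j l) ∧ (¬ k < ρ l → 0 ≤ j l ∧ j l ≤ k - 1 - ρ l)) :
    ∃ b : BT ρ k, bval b = j := by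
  refine ⟨fun l => ⟨(if k < ρ l then j l + (ρ l - k) else j l).toNat, ?_⟩, ?_⟩
  · have := h l
    split_ifs with h1
    · have := this.1 h1
      omega
    · have := this.2 h1
      omega
  · funext l
    have := h l
    unfold bval
    split_ifs with h1
    · have := this.1 h1
      dsimp only
      rw [if_pos h1]
      omega
    · have := this.2 h1
      dsimp only
      rw [if_neg h1]
      omega

/-- the condition on the charts. -/
def cond (ρ : Fin n → ℤ) (k : ℤ) (σ : Fin n → Ch) : Prop := ∀ l, σ l = Ch.st ↔ k < ρ l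

/-- the reference chart. -/
noncomputable def sstar (ρ : Fin n → ℤ) (k : ℤ) : Fin n → Ch := fun l => if k < ρ l then Ch.st else Ch.t

lemma cond_sstar (ρ : Fin n → ℤ) (k : ℤ) : cond ρ k (sstar ρ k) := by
  intro l
  unfold sstar
  split_ifs with h <;> simp [h]

variable (A W) in
/-- harmonic cochains. -/
noncomputable def Th (ρ : Fin n → ℤ) (k : ℤ) : (BT ρ k → W) →ₗ[A] VV W n :=
  LinearMap.pi fun σ => if cond ρ k σ then
    ∑ b : BT ρ k, (Finsupp.lsingle (bval b, k)) ∘ₗ LinearMap.proj b else 0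

lemma Th_apply_pos {ρ : Fin n → ℤ} {k : ℤ} (w : BT ρ k → W) {σ : Fin n → Ch} (h : cond ρ k σ) :
    Th A W ρ k w σ = ∑ b : BT ρ k, Finsupp.single (bval b, k) (w b) := by
  unfold Th
  rw [LinearMap.pi_apply, if_pos h, LinearMap.sum_apply]
  rfl

lemma Th_apply_neg {ρ : Fin n → ℤ} {k : ℤ} (w : BT ρ k → W) {σ : Fin n → Ch} (h : ¬ cond ρ k σ) :
    Th A W ρ k w σ = 0 := by
  unfold Th
  rw [LinearMap.pi_apply, if_neg h]
  rfl

lemma Th_eval {ρ : Fin n → ℤ} {k : ℤ} (w : BT ρ k → W) {σ : Fin n → Ch} (h : cond ρ k σ)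
    (b : BT ρ k) : Th A W ρ k w σ (bval b, k) = w b := by
  rw [Th_apply_pos w h, Finsupp.finsetSum_apply, Finset.sum_eq_single b]
  · simp
  · intro b' _ hb
    rw [Finsupp.single_eq_of_ne]
    intro h1
    apply hb
    apply bval_inj
    exact (congrArg Prod.fst h1).symm
  · intro h; exact absurd (mem_univ _) h

lemma Th_ne {ρ : Fin n → ℤ} {k : ℤ} {w : BT ρ k → W} {σ : Fin n → Ch} {e : Ex n}
    (h : Th A W ρ k w σ e ≠ 0) : cond ρ k σ ∧ ∃ b : BT ρ k, e = (bval b, k) := by
  by_cases hc : cond ρ k σ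
  · refine ⟨hc, ?_⟩
    rw [Th_apply_pos w hc, Finsupp.finsetSum_apply] at h
    obtain ⟨b, _, hb⟩ := Finset.exists_ne_zero_of_sum_ne_zero h
    refine ⟨b, ?_⟩
    by_contra hne
    rw [Finsupp.single_eq_of_ne hne] at hb
    exact hb rfl
  · rw [Th_apply_neg w hc] at h
    exact absurd rfl h

lemma Th_mem (ρ : Fin n → ℤ) (k : ℤ) (w : BT ρ k → W) :
    Th A W ρ k w ∈ Cl A W ρ k (Jd0 ρ k) := by
  refine mem_Cl_of fun σ e he => ?_
  obtain ⟨hc, b, rfl⟩ := Th_ne he
  refine ⟨cnt_eq_Jd0 hc, rfl, fun l => ?_⟩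
  by_cases h : k < ρ l
  · have := (hc l).2 h
    rw [this]
    exact ⟨fun h => by simp at h, fun h => by simp at h⟩
  · have := bval_ge b h
    exact ⟨fun _ => this.1, fun _ => this.2⟩

lemma Th_cocycle (ρ : Fin n → ℤ) (k : ℤ) (w : BT ρ k → W) :
    dC A (WL W n) n (Th A W ρ k w) = 0 := by
  funext σ
  rw [dC_apply]
  refine Finset.sum_eq_zero fun l _ => ?_
  rw [dl_apply]
  split_ifs with h
  · have h1 : cond ρ k (Function.update σ l Ch.s) ↔ cond ρ k (Function.update σ l Ch.t) := by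
      refine forall_congr' fun x => ?_
      by_cases hx : x = l
      · subst hx; simp
      · rw [Function.update_of_ne hx, Function.update_of_ne hx]
    by_cases h2 : cond ρ k (Function.update σ l Ch.s)
    · rw [Th_apply_pos w h2, Th_apply_pos w (h1.1 h2), sub_self, smul_zero]
    · rw [Th_apply_neg w h2, Th_apply_neg w (fun h3 => h2 (h1.2 h3)), sub_self, smul_zero]
  · rfl

/-- the harmonic projection of a homogeneous cochain. -/
lemma PS_univ {ρ : Fin n → ℤ} {k j : ℤ} {y : VV W n} (hy : y ∈ Cl A W ρ k j) :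
    PS ρ univ y = Th A W ρ k (fun b => y (sstar ρ k) (bval b, k)) := by
  funext σ
  ext e
  rw [PS_apply]
  by_cases hc : cond ρ k σ
  · have ht : tS univ σ = sstar ρ k := by
      funext l
      unfold tS sstar
      by_cases h : k < ρ l
      · rw [if_pos h, (hc l).2 h]; simp
      · rw [if_neg h]
        have h1 : σ l ≠ Ch.st := fun h2 => h ((hc l).1 h2)
        by_cases h2 : σ l = Ch.s
        · simp [h2]
        · cases h3 : σ l
          · exact absurd h3 h2
          · simp
          · exact absurd h3 h1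
    rw [ht]
    by_cases hb : ∃ b : BT ρ k, e = (bval b, k)
    · obtain ⟨b, rfl⟩ := hb
      rw [Th_eval _ hc, if_pos]
      intro l _
      refine ⟨fun h => ?_, fun h => ?_⟩
      · exact bval_lt b ((hc l).1 h)
      · exact bval_ge b (fun h1 => h ((hc l).2 h1))
    · have h0 : Th A W ρ k (fun b => y (sstar ρ k) (bval b, k)) σ e = 0 := by
        by_contra hne
        exact hb (Th_ne hne).2
      rw [h0]
      split_ifs with h1
      · by_contra hne
        obtain ⟨_, h3⟩ := Cl_deg hy hne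
        apply hb
        obtain ⟨b, hb'⟩ := exists_bval (ρ := ρ) (k := k) (j := e.1) (fun l => by
          have h4 := h1 l (mem_univ l)
          rw [h3] at h4
          exact ⟨fun h => h4.1 ((hc l).2 h), fun h => h4.2 (fun h5 => h ((hc l).1 h5))⟩)
        exact ⟨b, by rw [hb', ← h3]⟩
      · rfl
  · rw [Th_apply_neg _ hc]
    split_ifs with h1
    · show y (tS univ σ) e = 0
      by_contra hne
      obtain ⟨_, h3⟩ := Cl_deg hy hne
      apply hc
      have := cnt_of_bx h1
      rwa [h3] at this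
    · rfl

variable {X : Fin (n + 1) → A}

lemma ICl_eval {ρ : Fin n → ℤ} {k j : ℤ} {y : VV W n} (hy : y ∈ IX X • Cl A W ρ k j)
    (σ : Fin n → Ch) (e : Ex n) : y σ e ∈ IX X • (⊤ : Submodule A W) := by
  have h1 : (IX X • Cl A W ρ k j).map ((Finsupp.lapply e) ∘ₗ
      (LinearMap.proj (R := A) (φ := fun _ : Fin n → Ch => WL W n) σ)) ≤ IX X • (⊤ : Submodule A W) := by
    rw [Submodule.map_smul'']
    exact smul_mono_right _ le_top
  exact h1 ⟨y, hy, rfl⟩

lemma pi_smul_top {ι : Type} [Fintype ι] {I : Ideal A} {w : ι → W}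
    (hw : ∀ i, w i ∈ I • (⊤ : Submodule A W)) : w ∈ I • (⊤ : Submodule A (ι → W)) := by
  have h1 : w = ∑ i, Pi.single i (w i) := (Finset.univ_sum_single w).symm
  rw [h1]
  refine Submodule.sum_mem _ fun i _ => ?_
  have h3 : (I • (⊤ : Submodule A W)).map (LinearMap.single A (fun _ : ι => W) i) ≤
      I • (⊤ : Submodule A (ι → W)) := by
    rw [Submodule.map_smul'']
    exact smul_mono_right _ le_top
  exact h3 ⟨_, hw i, rfl⟩

/-- field `piece_len`. -/
theorem piece_len (Λ : AddLen.{u, v} A) (hH : H1 X W) (ρ : Fin n → ℤ) (k : ℤ) :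
    Λ.rel ((FF X W ρ k (Jd0 ρ k - 1)).map (dC A (WL W n) n) ⊔ FF X W ρ (k + 1) (Jd0 ρ k))
      (FF X W ρ k (Jd0 ρ k) ⊓ (FF X W ρ (k + 1) (Jd0 ρ k + 1)).comap (dC A (WL W n) n)) =
    rk ρ k * Λ.L (W ⧸ ((Ideal.span (Set.range X)) • (⊤ : Submodule A W))) := by
  set J := Jd0 ρ k with hJ
  set S := (FF X W ρ k (J - 1)).map (dC A (WL W n) n) ⊔ FF X W ρ (k + 1) J with hS
  set T := FF X W ρ k J ⊓ (FF X W ρ (k + 1) (J + 1)).comap (dC A (WL W n) n) with hT
  have h1 : T ≤ LinearMap.range (Th A W ρ k) ⊔ S := by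
    rintro y ⟨hy, hdy⟩
    obtain ⟨y0, h0, y1, h1, rfl⟩ := FF_decomp hy
    have h2 : dC A (WL W n) n y0 ∈ FF X W ρ (k + 1) (J + 1) := by
      have : dC A (WL W n) n y0 = dC A (WL W n) n (y0 + y1) - dC A (WL W n) n y1 := by
        rw [map_add]; abel
      rw [this]
      exact sub_mem hdy (dC_FF h1)
    have h3 := Cl_inf_FF hH (dC_Cl h0) h2
    obtain ⟨_, _, u, hu, h5⟩ := PS_main (X := X) univ h0 h3
    have h6 : y0 + y1 = PS ρ univ y0 + (dC A (WL W n) n u +
      ((y0 - PS ρ univ y0 - dC A (WL W n) n u) + y1)) := by abel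
    rw [h6]
    refine Submodule.add_mem_sup ?_ (Submodule.add_mem_sup ⟨u, Cl_le_FF hu, rfl⟩
      (add_mem (ICl_le_FF h5) h1))
    rw [PS_univ h0]
    exact ⟨_, rfl⟩
  have h2 : LinearMap.range (Th A W ρ k) ≤ T := by
    rintro _ ⟨w, rfl⟩
    refine ⟨Cl_le_FF (Th_mem ρ k w), ?_⟩
    show dC A (WL W n) n (Th A W ρ k w) ∈ FF X W ρ (k + 1) (J + 1)
    rw [Th_cocycle]; exact zero_mem _
  have h3 : T ⊔ S = LinearMap.range (Th A W ρ k) ⊔ S :=
    le_antisymm (sup_le h1 le_sup_right) (sup_le_sup_right h2 _)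
  have h4 : S.comap (Th A W ρ k) = Submodule.pi Set.univ
      (fun _ : BT ρ k => (Ideal.span (Set.range X)) • (⊤ : Submodule A W)) := by
    apply le_antisymm
    · intro w hw b _
      rw [Submodule.mem_comap] at hw
      obtain ⟨_, ⟨y, hy, rfl⟩, z, hz, hyz⟩ := Submodule.mem_sup.1 hw
      obtain ⟨y0, h0, y1, h1', rfl⟩ := FF_decomp hy
      have h0' : dC A (WL W n) n y0 ∈ Cl A W ρ k J := by
        have := dC_Cl h0; rwa [sub_add_cancel] at this
      have h1'' : dC A (WL W n) n y1 ∈ FF X W ρ (k + 1) J := by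
        have := dC_FF h1'; rwa [sub_add_cancel] at this
      have h5 : Th A W ρ k w - dC A (WL W n) n y0 ∈ FF X W ρ (k + 1) J := by
        rw [← hyz, map_add]
        have : dC A (WL W n) n y0 + dC A (WL W n) n y1 + z - dC A (WL W n) n y0 =
          dC A (WL W n) n y1 + z := by abel
        rw [this]
        exact add_mem h1'' hz
      have h6 := Cl_inf_FF hH (sub_mem (Th_mem ρ k w) h0') h5
      have h7 := ICl_eval h6 (sstar ρ k) (bval b, k)
      rw [Pi.sub_apply, Finsupp.sub_apply, Th_eval w (cond_sstar ρ k)] at h7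
      have h8 : dC A (WL W n) n y0 (sstar ρ k) (bval b, k) = 0 := by
        rw [dC_apply, Finsupp.finsetSum_apply]
        refine Finset.sum_eq_zero fun l _ => ?_
        rw [dl_apply]
        split_ifs with hl
        · have hkl : k < ρ l := (cond_sstar ρ k l).1 hl
          have hb := bval_lt b hkl
          rw [Finsupp.smul_apply, Finsupp.sub_apply]
          have e1 : y0 (Function.update (sstar ρ k) l Ch.s) (bval b, k) = 0 := by
            by_contra hne
            have := ((Cl_sup h0) _ _ hne l).1 (by simp)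
            dsimp only at this
            omega
          have e2 : y0 (Function.update (sstar ρ k) l Ch.t) (bval b, k) = 0 := by
            by_contra hne
            have := ((Cl_sup h0) _ _ hne l).2 (by simp)
            dsimp only at this
            omega
          rw [e1, e2, sub_zero, smul_zero]
        · rfl
      rw [h8, sub_zero] at h7
      exact h7
    · intro w hw
      rw [Submodule.mem_comap]
      refine Submodule.mem_sup_right (ICl_le_FF ?_)
      have h5 : w ∈ IX X • (⊤ : Submodule A (BT ρ k → W)) :=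
        pi_smul_top fun i => (Submodule.mem_pi.1 hw) i (Set.mem_univ i)
      have h6 : (IX X • (⊤ : Submodule A (BT ρ k → W))).map (Th A W ρ k) ≤ IX X • Cl A W ρ k J := by
        rw [Submodule.map_smul'']
        refine smul_mono_right _ ?_
        rintro _ ⟨z, _, rfl⟩
        exact Th_mem ρ k z
      exact h6 ⟨w, h5, rfl⟩
  rw [← Λ.rel_sup_right, h3, Λ.rel_sup_right, LinearMap.range_eq_map, ← Λ.rel_comap, h4, Λ.rel_top,
    Λ.L_congr (Submodule.quotientPi _), Λ.L_pi_const, card_BT]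

end len

end Crest.Agent.R183.KF
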