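/-
R183 (Lech), Theorem K: staircases; the instance of `Pkg`.   helper389
-/
import Mathlib
import Crest.Agent.R183.KLen

set_option autoImplicit false

namespace Crest.Agent.R183.KF

open Finset
open scoped Classical ENNReal

universe u v

section inst

variable {A : Type u} [CommRing A] {W : Type v} [AddCommGroup W] [Module A W] {n : ℕ}
variable {X : Fin (n + 1) → A}

/-- modulo relations, `Λ` acts through `A`. -/
lemma aeval_sub_mem {P : Set (Ex n)} (hP : Stable P) (p : Lam n) : ∀ z ∈ WS A W P,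
    (MvPolynomial.aeval X p : A) • z - act A W (ev p) z ∈ RR X W P := by
  induction p using MvPolynomial.induction_on with
  | C a =>
    intro z _
    have h1 : act A W (ev (MvPolynomial.C a : Lam n)) z = a • z := by
      rw [← MvPolynomial.algebraMap_eq, AlgHom.commutes, AlgHom.commutes]
      rfl
    rw [h1, ← MvPolynomial.algebraMap_eq, AlgHom.commutes, algebraMap_int_eq, eq_intCast,
      Int.cast_smul_eq_zsmul, sub_self]
    exact zero_mem _
  | add p q hp hq =>
    intro z hz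
    have := add_mem (hp z hz) (hq z hz)
    rw [map_add, map_add, act_add_apply, add_smul]
    convert this using 1
    abel
  | mul_X p i hp =>
    intro z hz
    have h1 : th A i z ∈ WS A W P := th_mem (P := P) hP i hz
    have h2 := hp _ h1
    have h3 := Submodule.smul_mem _ (MvPolynomial.aeval X p : A) (sub_th_mem (X := X) i hz)
    have h4 := add_mem h3 h2
    convert h4 using 1
    rw [map_mul, map_mul, act_mul_apply, MvPolynomial.aeval_X, ev_X, smul_sub, mul_smul]
    show _ - act A W (ev p) (th A i z) = _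
    abel

/-- the roots of a staircase. -/
def rs (π : Fin n → ℕ) : Fin n → ℤ := fun l => -(π l : ℤ) - 1

/-- `BB` versus `BT`. -/
noncomputable def fB (π : Fin n → ℕ) : BB π ≃ BT (rs π) 0 :=
  Equiv.piCongrRight fun l => finCongr (by unfold rs; omega)

lemma bval_fB {π : Fin n → ℕ} (b : BB π) : bval (fB π b) = bexp b := by
  funext l
  unfold bval bexp
  have h : ¬ ((0 : ℤ) < rs π l) := by unfold rs; omega
  rw [if_neg h]
  rfl

lemma cond_rs {π : Fin n → ℕ} {k : ℤ} (hk : 0 ≤ k) (χ : Fin n → Ch) :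
    cond (rs π) k χ ↔ cnt χ = 0 := by
  unfold cond cnt
  have h : ∀ l, ¬ (k < rs π l) := by intro l; unfold rs; omega
  rw [Nat.cast_eq_zero, Finset.card_eq_zero, Finset.filter_eq_empty_iff]
  simp [h]

lemma Jd0_rs {π : Fin n → ℕ} {k : ℤ} (hk : 0 ≤ k) : Jd0 (rs π) k = 0 := by
  unfold Jd0
  rw [Nat.cast_eq_zero, Finset.card_eq_zero, Finset.filter_eq_empty_iff]
  intro l _
  unfold rs; omega

lemma bexp_mem {π : Fin n → ℕ} (b : BB π) (χ : Fin n → Ch) : (bexp b, (0 : ℤ)) ∈ cs (rs π) χ := by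
  intro l
  have := (b l).2
  refine ⟨fun _ => ?_, fun _ => ?_⟩
  · show (0 : ℤ) ≤ (b l : ℕ)
    omega
  · show ((b l : ℕ) : ℤ) ≤ 0 - 1 - rs π l
    unfold rs; omega

/-- reduction of a monomial of a staircase to the basis. -/
lemma single_reduce {π : Fin n → ℕ} {k : ℕ} {j : Fin n → ℤ} {c : BB π → Lam n}
    (hc : Phi c = mo j k) {P : Set (Ex n)} (hP : Stable P) (hb : ∀ b : BB π, (bexp b, (0 : ℤ)) ∈ P)
    (w : W) : Finsupp.single (j, (k : ℤ)) w -
      ∑ b, Finsupp.single (bexp b, (0 : ℤ)) ((MvPolynomial.aeval X (c b) : A) • w) ∈ RR X W P := by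
  have h1 : Finsupp.single (j, (k : ℤ)) w = act A W (Phi c) (Finsupp.single 0 w) := by
    rw [hc, act_mo, sh_single, add_zero]
  have h2 : act A W (Phi c) (Finsupp.single 0 w) =
      ∑ b, act A W (ev (c b)) (Finsupp.single (bexp b, (0 : ℤ)) w) := by
    rw [Phi_apply, act_sum_apply]
    refine Finset.sum_congr rfl fun b _ => ?_
    rw [act_mul_apply, act_mo, sh_single, add_zero]
  rw [h1, h2, ← Finset.sum_sub_distrib]
  refine Submodule.sum_mem _ fun b _ => ?_
  have h3 := neg_mem (aeval_sub_mem (X := X) hP (c b) _ (single_mem (A := A) (hb b) w))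
  rw [neg_sub, Finsupp.smul_single] at h3
  exact h3

/-- field `stair`. -/
theorem stair_field (hH : H1 X W) (σ : Equiv.Perm (Fin n)) :
    ∃ ψ : (Fin n.factorial → W) →ₗ[A] VV W n, ∀ ρ : Fin n → ℤ,
    (∀ l, ρ l = -((σ l : ℕ) : ℤ) - 1) → (∀ w, ψ w ∈ FF X W ρ 0 0) ∧
    (∀ w, dC A (WL W n) n (ψ w) = 0) ∧
    (∀ k : ℤ, 0 ≤ k → ∀ y ∈ FF X W ρ k 0, dC A (WL W n) n y ∈ FF X W ρ (k + 1) 1 →
      ∃ w, y - ψ w ∈ FF X W ρ (k + 1) 0) := by
  set π : Fin n → ℕ := fun l => (σ l : ℕ) with hπd
  have hπ : (univ : Finset (Fin n)).image π = Finset.range n := by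
    ext i
    simp only [Finset.mem_image, Finset.mem_univ, true_and, Finset.mem_range, hπd]
    constructor
    · rintro ⟨l, rfl⟩; exact (σ l).2
    · intro hi
      exact ⟨σ.symm ⟨i, hi⟩, by simp⟩
  let eB : BB π ≃ Fin n.factorial := Fintype.equivFinOfCardEq (card_BB hπ)
  refine ⟨Th A W (rs π) 0 ∘ₗ LinearMap.funLeft A W (fun t => eB ((fB π).symm t)), ?_⟩
  intro ρ hρ
  have hρ' : ρ = rs π := by
    funext l; rw [hρ]; rfl
  subst hρ'
  have hval : ∀ (w : Fin n.factorial → W) (χ : Fin n → Ch), cnt χ = 0 →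
      Th A W (rs π) 0 (LinearMap.funLeft A W (fun t => eB ((fB π).symm t)) w) χ =
        ∑ b : BB π, Finsupp.single (bexp b, (0 : ℤ)) (w (eB b)) := by
    intro w χ hχ
    rw [Th_apply_pos _ ((cond_rs le_rfl χ).2 hχ)]
    refine (Fintype.sum_equiv (fB π) _ _ fun b => ?_).symm
    rw [bval_fB, LinearMap.funLeft_apply, Equiv.symm_apply_apply]
  refine ⟨fun w => ?_, fun w => Th_cocycle _ _ _, ?_⟩
  · have := Cl_le_FF (X := X) (Th_mem (A := A) (rs π) 0
      (LinearMap.funLeft A W (fun t => eB ((fB π).symm t)) w))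
    rw [Jd0_rs le_rfl] at this
    exact this
  · intro k hk y hy hdy
    obtain ⟨y0, h0, y1, h1, rfl⟩ := FF_decomp hy
    have h2 : dC A (WL W n) n y0 ∈ FF X W (rs π) (k + 1) (0 + 1) := by
      have : dC A (WL W n) n y0 = dC A (WL W n) n (y0 + y1) - dC A (WL W n) n y1 := by
        rw [map_add]; abel
      rw [this]
      exact sub_mem hdy (dC_FF h1)
    have h3 := Cl_inf_FF hH (dC_Cl h0) h2
    obtain ⟨_, _, u, hu, h5⟩ := PS_main (X := X) univ h0 h3
    have hu0 : u = 0 := by
      unfold Cl at hu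
      rw [Gr_eq_bot (Or.inl (by norm_num))] at hu
      exact (Submodule.mem_bot A).1 hu
    rw [hu0, map_zero, sub_zero, PS_univ h0] at h5
    set w' : BT (rs π) k → W := fun b => y0 (sstar (rs π) k) (bval b, k) with hw'
    -- reduction of the box to the basis
    obtain ⟨kk, rfl⟩ : ∃ kk : ℕ, k = kk := ⟨k.toNat, by omega⟩
    have hmem : ∀ b : BT (rs π) (kk : ℤ), ∃ c : BB π → Lam n, Phi c = mo (bval b) kk := by
      intro b
      obtain ⟨c, _, hc⟩ := surj hπ (k := kk) (f := mo (bval b) kk) (mo_mem ⟨rfl, fun l => by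
        have h4 : ¬ ((kk : ℤ) < rs π l) := by unfold rs; omega
        have := bval_ge b h4
        refine ⟨this.1, this.2.trans ?_⟩
        unfold rs; omega⟩)
      exact ⟨c, hc⟩
    choose c hc using hmem
    refine ⟨fun i => ∑ b, (MvPolynomial.aeval X (c b (eB.symm i)) : A) • w' b, ?_⟩
    have key : Th A W (rs π) (kk : ℤ) w' - Th A W (rs π) 0 (LinearMap.funLeft A W
        (fun t => eB ((fB π).symm t)) (fun i => ∑ b, (MvPolynomial.aeval X (c b (eB.symm i)) : A) • w' b))
        ∈ ZZ X W (rs π) 0 := by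
      intro χ
      rw [Pi.sub_apply]
      refine ⟨fun hχ => ?_, fun hχ => ?_⟩
      · rw [hval _ χ hχ, Th_apply_pos _ ((cond_rs hk χ).2 hχ)]
        have e1 : ∑ b : BT (rs π) (kk : ℤ), Finsupp.single (bval b, (kk : ℤ)) (w' b) -
            ∑ b : BB π, Finsupp.single (bexp b, (0 : ℤ))
              (∑ b', (MvPolynomial.aeval X (c b' (eB.symm (eB b))) : A) • w' b') =
            ∑ b' : BT (rs π) (kk : ℤ), (Finsupp.single (bval b', (kk : ℤ)) (w' b') -
              ∑ b : BB π, Finsupp.single (bexp b, (0 : ℤ))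
                ((MvPolynomial.aeval X (c b' b) : A) • w' b')) := by
          rw [Finset.sum_sub_distrib, Finset.sum_comm]
          congr 1
          refine Finset.sum_congr rfl fun b _ => ?_
          rw [Equiv.symm_apply_apply, ← Finsupp.singleAddHom_apply, map_sum]
          rfl
        rw [e1]
        exact Submodule.sum_mem _ fun b' _ => single_reduce (hc b') (cs_stable _ χ)
          (fun b => bexp_mem b χ) _
      · rw [Th_apply_neg _ (fun h => hχ ((cond_rs hk χ).1 h)),
          Th_apply_neg _ (fun h => hχ ((cond_rs le_rfl χ).1 h)), sub_zero]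
    have hsum := add_mem (add_mem (ICl_le_FF h5) h1)
      ((Gr_mono fun σ => RR_le_Bk (X := X) (W := W) (rs π) ((kk : ℤ) + 1) σ :
        ZZ X W (rs π) 0 ≤ FF X W (rs π) ((kk : ℤ) + 1) 0) key)
    convert hsum using 1
    rw [LinearMap.comp_apply]
    abel

/-- **the instance**. -/
theorem pkg (Λ : AddLen.{u, v} A) (hH : H1 X W) :
    Pkg Λ W X (VV W n) (dC A (WL W n) n) (FF X W) (ZZ X W) where
  δδ := dC_dC
  δFF := by rintro ρ k j _ ⟨y, hy, rfl⟩; exact dC_FF hy
  δZZ := by rintro ρ j _ ⟨y, hy, rfl⟩; exact dC_ZZ hy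
  anti := fun ρ k j => FF_anti (by omega)
  ZZ_le := fun ρ k j => Gr_mono fun σ => RR_le_Bk ρ k σ
  neg := fun ρ k j hj => Gr_eq_bot (Or.inl hj) _
  gt := fun ρ k j hj => Gr_eq_bot (Or.inr hj) _
  raise := FF_raise
  piece_null := piece_null hH
  piece_len := piece_len Λ hH
  contr := contr
  aff := aff
  shift := shift
  stair := stair_field hH

end inst

end Crest.Agent.R183.KF
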