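/-
R183 (Lech), Theorem K, (K5) pure part: a symmetric, separately affine, diagonal-shift invariant
function on `ℤ^n` is constant.   helper685
-/
import Mathlib

set_option autoImplicit false

namespace Crest.Agent.R183.KConst

open Finset Polynomial

variable {n : ℕ}

/-- affine in one variable. -/
lemma affine_of_second_diff (g : ℤ → ℝ) (h : ∀ t, g (t + 1) - 2 * g t + g (t - 1) = 0) (t : ℤ) :
    g t = (1 - (t : ℝ)) * g 0 + t * g 1 := by
  have hd : ∀ t, g (t + 1) - g t = g 1 - g 0 := by
    intro t
    induction t using Int.induction_on with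
    | zero => simp
    | succ k ih =>
      have := h ((k : ℤ) + 1)
      rw [show (k : ℤ) + 1 - 1 = k by ring] at this
      linarith
    | pred k ih =>
      have := h (-(k : ℤ))
      rw [show -(k : ℤ) - 1 + 1 = -(k : ℤ) by ring]
      linarith
  induction t using Int.induction_on with
  | zero => simp
  | succ k ih =>
    have := hd (k : ℤ)
    push_cast at ih ⊢
    linarith
  | pred k ih =>
    have := hd (-(k : ℤ) - 1)
    rw [show -(k : ℤ) - 1 + 1 = -(k : ℤ) by ring] at this
    push_cast at ih ⊢
    linarith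

/-- overwrite on `T` by the indicator of `B`. -/
def ow (T B : Finset (Fin n)) (ρ : Fin n → ℤ) : Fin n → ℤ :=
  fun l => if l ∈ T then (if l ∈ B then 1 else 0) else ρ l

lemma expand (c : (Fin n → ℤ) → ℝ)
    (haff : ∀ ρ (l : Fin n) (t : ℤ), c (Function.update ρ l t)
      = (1 - (t : ℝ)) * c (Function.update ρ l 0) + t * c (Function.update ρ l 1))
    (ρ : Fin n → ℤ) (T : Finset (Fin n)) :
    c ρ = ∑ B ∈ T.powerset, (∏ l ∈ B, (ρ l : ℝ)) * (∏ l ∈ T \ B, (1 - (ρ l : ℝ))) *
      c (ow T B ρ) := by
  induction T using Finset.induction_on with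
  | empty =>
    have h0 : ow ∅ ∅ ρ = ρ := by funext l; simp [ow]
    simp [h0]
  | insert a T ha ih =>
    rw [Finset.sum_powerset_insert ha, ← Finset.sum_add_distrib]
    rw [ih]
    refine Finset.sum_congr rfl fun B hB => ?_
    rw [Finset.mem_powerset] at hB
    have haB : a ∉ B := fun h => ha (hB h)
    have hw : ow T B ρ = Function.update (ow T B ρ) a (ρ a) := by
      funext l
      by_cases hl : l = a
      · subst hl; simp [ow, ha]
      · simp [Function.update_of_ne hl]
    have h0 : Function.update (ow T B ρ) a 0 = ow (insert a T) B ρ := by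
      funext l
      by_cases hl : l = a
      · subst hl; simp [ow, haB]
      · simp [ow, Finset.mem_insert, hl]
    have h1 : Function.update (ow T B ρ) a 1 = ow (insert a T) (insert a B) ρ := by
      funext l
      by_cases hl : l = a
      · subst hl; simp [ow]
      · simp [ow, Finset.mem_insert, hl]
    have e := haff (ow T B ρ) a (ρ a)
    rw [← hw, h0, h1] at e
    rw [e, Finset.prod_insert haB, Finset.insert_sdiff_of_notMem _ haB,
      Finset.prod_insert (by simp [ha]),
      show insert a T \ insert a B = T \ B by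
        ext x; simp only [Finset.mem_sdiff, Finset.mem_insert]
        constructor
        · rintro ⟨h | h, h2⟩
          · exact absurd (Or.inl h) h2
          · exact ⟨h, fun hb => h2 (Or.inr hb)⟩
        · rintro ⟨h, h2⟩
          exact ⟨Or.inr h, by rintro (h3 | h3); exacts [ha (h3 ▸ h), h2 h3]⟩]
    ring

/-- coefficients: if `∑_k C(n,k) g_k X^k (1-X)^(n-k)` vanishes then all `g_k = 0`. -/
lemma bernstein_indep (n : ℕ) (g : ℕ → ℝ)
    (h : ∑ k ∈ Finset.range (n + 1), Polynomial.C ((n.choose k : ℝ) * g k) *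
      (X ^ k * (1 - X) ^ (n - k)) = 0) : ∀ k ≤ n, g k = 0 := by
  intro k
  induction k using Nat.strong_induction_on with
  | _ k ih =>
    intro hk
    have h1 := congrArg (fun p => Polynomial.coeff p k) h
    simp only [Polynomial.finsetSum_coeff, Polynomial.coeff_C_mul, Polynomial.coeff_zero,
      Polynomial.coeff_X_pow_mul'] at h1
    rw [Finset.sum_eq_single k] at h1
    · simp only [le_refl, if_true, Nat.sub_self] at h1
      have h2 : ((1 - X : ℝ[X]) ^ (n - k)).coeff 0 = 1 := by
        rw [Polynomial.coeff_zero_eq_eval_zero]; simp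
      rw [h2, mul_one] at h1
      have h3 : (n.choose k : ℝ) ≠ 0 := by
        exact_mod_cast (Nat.choose_pos hk).ne'
      exact (mul_eq_zero.1 h1).resolve_left h3
    · intro j hj hjk
      rcases lt_or_gt_of_ne hjk with h4 | h4
      · rw [ih j h4 (by omega)]; simp
      · rw [if_neg (by omega)]; simp
    · intro hk'
      exact absurd (Finset.mem_range.2 (by omega)) hk'

/-- the symmetric function on `{0,1}^n` only depends on the cardinality. -/
lemma symm_card (c : (Fin n → ℤ) → ℝ)
    (hsymm : ∀ (σ : Equiv.Perm (Fin n)) (ρ : Fin n → ℤ), c (ρ ∘ σ) = c ρ)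
    (B B' : Finset (Fin n)) (hB : B.card = B'.card) :
    c (fun l => if l ∈ B then 1 else 0) = c (fun l => if l ∈ B' then 1 else 0) := by
  classical
  have e : {x // x ∈ B} ≃ {x // x ∈ B'} := Fintype.equivOfCardEq (by simpa using hB)
  have h := hsymm e.extendSubtype (fun l => if l ∈ B' then 1 else 0)
  rw [← h]
  congr 1
  funext l
  simp only [Function.comp_apply]
  by_cases hl : l ∈ B
  · rw [if_pos hl, if_pos (e.extendSubtype_mem l hl)]
  · rw [if_neg hl, if_neg (e.extendSubtype_not_mem l hl)]

/-- **(K5), pure part.** -/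
theorem const_of_symm_affine_shift (c : (Fin n → ℤ) → ℝ)
    (hsymm : ∀ (σ : Equiv.Perm (Fin n)) (ρ : Fin n → ℤ), c (ρ ∘ σ) = c ρ)
    (haff : ∀ (ρ : Fin n → ℤ) (l : Fin n) (t : ℤ), c (Function.update ρ l (t + 1))
      - 2 * c (Function.update ρ l t) + c (Function.update ρ l (t - 1)) = 0)
    (hshift : ∀ ρ : Fin n → ℤ, c (fun l => ρ l + 1) = c ρ) (ρ : Fin n → ℤ) :
    c ρ = c 0 := by
  classical
  have haff' : ∀ (ρ : Fin n → ℤ) (l : Fin n) (t : ℤ), c (Function.update ρ l t)
      = (1 - (t : ℝ)) * c (Function.update ρ l 0) + t * c (Function.update ρ l 1) :=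
    fun ρ l t => affine_of_second_diff (fun t => c (Function.update ρ l t)) (haff ρ l) t
  -- value on indicator functions
  set f : ℕ → ℝ := fun k => if h : ∃ B : Finset (Fin n), B.card = k
    then c (fun l => if l ∈ h.choose then 1 else 0) else c 0 with hf
  have hfB : ∀ B : Finset (Fin n), c (fun l => if l ∈ B then 1 else 0) = f B.card := by
    intro B
    have h : ∃ B' : Finset (Fin n), B'.card = B.card := ⟨B, rfl⟩
    simp only [hf]
    rw [dif_pos h]
    exact symm_card c hsymm _ _ h.choose_spec.symm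
  have hf0 : f 0 = c 0 := by
    have := hfB ∅
    simp only [Finset.notMem_empty, if_false, Finset.card_empty] at this
    rw [← this]; rfl
  -- constant on the diagonal
  have hdiag : ∀ t : ℕ, c (fun _ => (t : ℤ)) = c 0 := by
    intro t
    induction t with
    | zero => rfl
    | succ t ih =>
      have h1 := hshift (fun _ => (t : ℤ))
      rw [ih] at h1
      rw [← h1]
      push_cast
      rfl
  have hexp : ∀ ρ : Fin n → ℤ, c ρ = ∑ B ∈ (Finset.univ : Finset (Fin n)).powerset,
      (∏ l ∈ B, (ρ l : ℝ)) * (∏ l ∈ Finset.univ \ B, (1 - (ρ l : ℝ))) * f B.card := by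
    intro ρ
    rw [expand c haff' ρ Finset.univ]
    refine Finset.sum_congr rfl fun B _ => ?_
    rw [← hfB B]
    congr 2
    funext l
    simp [ow]
  have hbern : ∀ t : ℕ, ∑ k ∈ Finset.range (n + 1), (n.choose k : ℝ) *
      ((t : ℝ) ^ k * (1 - (t : ℝ)) ^ (n - k)) * f k = c 0 := by
    intro t
    rw [← hdiag t, hexp, Finset.powerset_univ, ← Finset.powerset_univ,
      Finset.sum_powerset, Finset.card_univ, Fintype.card_fin]
    refine Finset.sum_congr rfl fun k _ => ?_
    have : ∀ B ∈ Finset.powersetCard k (Finset.univ : Finset (Fin n)),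
        (∏ l ∈ B, (((t : ℤ)) : ℝ)) * (∏ l ∈ Finset.univ \ B, (1 - (((t : ℤ)) : ℝ))) * f B.card
        = ((t : ℝ) ^ k * (1 - (t : ℝ)) ^ (n - k)) * f k := by
      intro B hB
      rw [Finset.mem_powersetCard] at hB
      rw [Finset.prod_const, Finset.prod_const, Finset.card_sdiff_of_subset hB.1,
        Finset.card_univ, Fintype.card_fin, hB.2]
      push_cast
      ring
    rw [Finset.sum_congr rfl this, Finset.sum_const, Finset.card_powersetCard, Finset.card_univ,
      Fintype.card_fin, nsmul_eq_mul]
    ring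
  have hpoly : ∑ k ∈ Finset.range (n + 1), Polynomial.C ((n.choose k : ℝ) * (f k - c 0)) *
      (X ^ k * (1 - X) ^ (n - k)) = 0 := by
    refine Polynomial.eq_zero_of_infinite_isRoot _ ?_
    refine Set.Infinite.mono (s := Set.range (fun t : ℕ => (t : ℝ))) ?_
      (Set.infinite_range_of_injective Nat.cast_injective)
    rintro _ ⟨t, rfl⟩
    simp only [Set.mem_ofPred_eq, Polynomial.IsRoot.def, Polynomial.eval_finsetSum,
      Polynomial.eval_mul, Polynomial.eval_C, Polynomial.eval_pow, Polynomial.eval_X,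
      Polynomial.eval_sub, Polynomial.eval_one]
    have h1 := hbern t
    have h2 : ∑ k ∈ Finset.range (n + 1), (n.choose k : ℝ) *
      ((t : ℝ) ^ k * (1 - (t : ℝ)) ^ (n - k)) = 1 := by
      have := add_pow (t : ℝ) (1 - t) n
      rw [show (t : ℝ) + (1 - t) = 1 by ring, one_pow] at this
      refine Eq.trans (Finset.sum_congr rfl fun k _ => ?_) this.symm
      ring
    have h3 : ∑ k ∈ Finset.range (n + 1), (n.choose k : ℝ) * (f k - c 0) *
        ((t : ℝ) ^ k * (1 - (t : ℝ)) ^ (n - k))
        = ∑ k ∈ Finset.range (n + 1), (n.choose k : ℝ) *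
      ((t : ℝ) ^ k * (1 - (t : ℝ)) ^ (n - k)) * f k
        - (∑ k ∈ Finset.range (n + 1), (n.choose k : ℝ) *
      ((t : ℝ) ^ k * (1 - (t : ℝ)) ^ (n - k))) * c 0 := by
      rw [Finset.sum_mul, ← Finset.sum_sub_distrib]
      refine Finset.sum_congr rfl fun k _ => by ring
    rw [h3, h1, h2]; ring
  have hfk := bernstein_indep n (fun k => f k - c 0) hpoly
  -- conclude
  rw [hexp ρ]
  have h4 : ∀ B ∈ (Finset.univ : Finset (Fin n)).powerset,
      (∏ l ∈ B, (ρ l : ℝ)) * (∏ l ∈ Finset.univ \ B, (1 - (ρ l : ℝ))) * f B.card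
      = (∏ l ∈ B, (ρ l : ℝ)) * (∏ l ∈ Finset.univ \ B, (1 - (ρ l : ℝ))) * c 0 := by
    intro B _
    have : f B.card - c 0 = 0 := hfk B.card (by
      have := Finset.card_le_univ B
      simpa using this)
    rw [sub_eq_zero.1 this]
  rw [Finset.sum_congr rfl h4, ← Finset.sum_mul, ← Finset.prod_add]
  simp

end Crest.Agent.R183.KConst
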