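/-
R183 (Lech), Theorem K, abstract core of block (A): staircase filtrations.    helper685
-/
import Mathlib
import Crest.Agent.R183.KHom

set_option autoImplicit false

namespace Crest.Agent.R183

open scoped ENNReal

universe u v

namespace AddLen

variable {A : Type u} [CommRing A] (Λ : AddLen.{u, v} A)

/-- continuity: a module all of whose cyclic submodules are null is null. -/
def Cont : Prop := ∀ (M : Type v) [AddCommGroup M] [Module A M],
  (∀ x : M, Λ.L (Submodule.span A {x}) = 0) → Λ.L M = 0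

variable {Λ} {M : Type v} [AddCommGroup M] [Module A M]

lemma Cont.le0 (hΛ : Λ.Cont) {S T : Submodule A M}
    (h : ∀ x ∈ T, Λ.le0 (Submodule.span A {x}) S) : Λ.le0 T S := by
  unfold AddLen.le0
  refine hΛ _ ?_
  rintro ⟨_, x, hx, rfl⟩
  have h1 := h x hx
  unfold AddLen.le0 at h1
  refine Λ.null_of_comap (Submodule.subtype _) (Submodule.subtype_injective _) _ _ h1 ?_
  rw [Submodule.span_le, Set.singleton_subset_iff]
  change S.mkQ x ∈ (Submodule.span A {x}).map S.mkQ
  exact ⟨x, Submodule.mem_span_singleton_self x, rfl⟩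

lemma le0_span {S T : Submodule A M} (h : Λ.le0 T S) {x : M} (hx : x ∈ T) :
    Λ.le0 (Submodule.span A {x}) S :=
  Λ.le0_mono h (by rwa [Submodule.span_le, Set.singleton_subset_iff]) le_rfl

end AddLen

namespace KHom

open AddLen

variable {A : Type u} [CommRing A] (Λ : AddLen.{u, v} A)
variable {U : Type v} [AddCommGroup U] [Module A U] {D : U →ₗ[A] U}

lemma h_self {G : ℤ → Submodule A U} (n : ℤ) : h Λ D G G n = 0 :=
  Λ.rel_of_le (inf_le_left.trans le_sup_right)

lemma finS_zero : FinS (fun _ => 0) := ⟨fun _ => ENNReal.zero_ne_top, by simp⟩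

variable {Λ}

/-- union lemma. -/
lemma null_union (hΛ : Λ.Cont) {G0 T : ℤ → Submodule A U} (Gs : ℕ → ℤ → Submodule A U)
    (hmono : ∀ t n, Gs t n ≤ Gs (t + 1) n) (hT : ∀ n, T n = ⨆ t, Gs t n) (n : ℤ)
    (hn : ∀ t, h Λ D (Gs t) G0 n = 0) : h Λ D T G0 n = 0 := by
  unfold h
  rw [rel_eq_zero_iff]
  refine hΛ.le0 fun x hx => ?_
  have hx1 : x ∈ ⨆ t, Gs t n := by rw [← hT]; exact hx.1
  have hdir : Directed (· ≤ ·) (fun t => Gs t n) :=
    (monotone_nat_of_le_succ (fun t => hmono t n)).directed_le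
  obtain ⟨t, ht⟩ := (Submodule.mem_iSup_of_directed _ hdir).1 hx1
  have h1 := hn t
  unfold h at h1
  rw [rel_eq_zero_iff] at h1
  refine Λ.le0_mono (le0_span h1 (x := x) ⟨ht, hx.2⟩) le_rfl ?_
  refine sup_le_sup_right (Submodule.map_mono ?_) _
  rw [hT]
  exact le_iSup (fun t => Gs t (n + 1)) t

variable (Λ)

/-- telescoping: null. -/
lemma null_tele (hD : D ∘ₗ D = 0) (G : ℕ → ℤ → Submodule A U) (r : ℕ)
    (hst : ∀ j ≤ r, Stable D (G j)) (hle : ∀ j < r, ∀ n, G (j + 1) n ≤ G j n) (n : ℤ)
    (hn : ∀ j < r, h Λ D (G j) (G (j + 1)) n = 0) : h Λ D (G 0) (G r) n = 0 := by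
  induction r with
  | zero => exact h_self Λ n
  | succ r ih =>
    have hle' : ∀ n, G r n ≤ G 0 n := by
      intro n
      have : ∀ j ≤ r, G j n ≤ G 0 n := by
        intro j
        induction j with
        | zero => intro _; exact le_rfl
        | succ j ihj => intro hj; exact (hle j (by omega) n).trans (ihj (by omega))
      exact this r le_rfl
    refine null_mid Λ hD (hst 0 (by omega)) (hst r (by omega)) (hst (r + 1) le_rfl) hle'
      (hle r (by omega)) (hn r (by omega)) ?_
    exact ih (fun j hj => hst j (by omega)) (fun j hj => hle j (by omega))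
      (fun j hj => hn j (by omega))

/-- telescoping: Euler characteristics. -/
lemma chi_tele (hD : D ∘ₗ D = 0) (G : ℕ → ℤ → Submodule A U) (r : ℕ)
    (hst : ∀ j ≤ r, Stable D (G j)) (hle : ∀ j < r, ∀ n, G (j + 1) n ≤ G j n)
    (hn : ∀ j < r, FinS (h Λ D (G j) (G (j + 1)))) : FinS (h Λ D (G 0) (G r)) ∧
      chi (h Λ D (G 0) (G r)) = ∑ j ∈ Finset.range r, chi (h Λ D (G j) (G (j + 1))) := by
  induction r with
  | zero =>
    have : h Λ D (G 0) (G 0) = fun _ => 0 := funext fun n => h_self Λ n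
    rw [this]
    exact ⟨finS_zero, by simp [chi_zero]⟩
  | succ r ih =>
    have hle' : ∀ n, G r n ≤ G 0 n := by
      intro n
      have : ∀ j ≤ r, G j n ≤ G 0 n := by
        intro j
        induction j with
        | zero => intro _; exact le_rfl
        | succ j ihj => intro hj; exact (hle j (by omega) n).trans (ihj (by omega))
      exact this r le_rfl
    obtain ⟨f1, e1⟩ := ih (fun j hj => hst j (by omega)) (fun j hj => hle j (by omega))
      (fun j hj => hn j (by omega))
    have f2 := hn r (by omega)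
    refine ⟨finS_mid Λ hD (hst 0 (by omega)) (hst r (by omega)) (hst (r + 1) le_rfl) hle'
      (hle r (by omega)) f2 f1, ?_⟩
    rw [chi_les Λ hD (hst 0 (by omega)) (hst r (by omega)) (hst (r + 1) le_rfl) hle'
      (hle r (by omega)) f2 f1, e1, Finset.sum_range_succ, add_comm]

/-- a family concentrated in one degree. -/
lemma finS_single (g : ℤ) {l : ℝ≥0∞} (hl : l ≠ ⊤) : FinS (fun m => if m = g then l else 0) := by
  refine ⟨fun n => ?_, (Set.finite_singleton g).subset fun n hn => ?_⟩
  · split_ifs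
    · exact hl
    · exact ENNReal.zero_ne_top
  · rw [Function.mem_support] at hn
    by_contra h1
    exact hn (if_neg h1)

lemma chi_single (g : ℤ) (l : ℝ≥0∞) :
    chi (fun m => if m = g then l else 0) = (-1 : ℝ) ^ g * l.toReal := by
  unfold chi
  rw [finsum_eq_single _ g]
  · simp
  · intro n hn; simp [hn]

/-- A staircase system: `H κ` plays the role of `∑_i Q_i ⊗ F^{κ_i} C`, `i ≤ d`. -/
structure Stair (D : U →ₗ[A] U) (d N : ℕ) (g : ℕ → ℤ → ℤ) (l : ℕ → ℤ → ℝ≥0∞)
    (H : (ℕ → ℤ) → ℤ → Submodule A U) : Prop where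
  anti : ∀ κ κ' : ℕ → ℤ, (∀ i ≤ d, κ i ≤ κ' i) → ∀ m, H κ' m ≤ H κ m
  stable : ∀ κ : ℕ → ℤ, (∀ i < d, κ i ≤ κ (i + 1) + N) → Stable D (H κ)
  step : ∀ (κ : ℕ → ℤ) (i : ℕ), i ≤ d → (∀ i < d, κ i ≤ κ (i + 1) + N) →
    (∀ j < d, Function.update κ i (κ i + 1) j ≤ Function.update κ i (κ i + 1) (j + 1) + N) →
    ∀ m, h Λ D (H κ) (H (Function.update κ i (κ i + 1))) m = if m = g i (κ i) then l i (κ i) else 0

variable {Λ} {d N : ℕ} {g : ℕ → ℤ → ℤ} {l : ℕ → ℤ → ℝ≥0∞} {H : (ℕ → ℤ) → ℤ → Submodule A U}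

/-- raising one coordinate. -/
lemma Stair.raise (hH : Stair Λ D d N g l H) (hD : D ∘ₗ D = 0) (κ : ℕ → ℤ) (i : ℕ) (hi : i ≤ d)
    (r : ℕ) (hs : ∀ s ≤ r, ∀ j < d, Function.update κ i (κ i + s) j ≤
      Function.update κ i (κ i + s) (j + 1) + N) :
    (∀ m, (∀ s < r, m ≠ g i (κ i + s)) → h Λ D (H κ) (H (Function.update κ i (κ i + r))) m = 0) ∧
    ((∀ s < r, l i (κ i + s) ≠ ⊤) → FinS (h Λ D (H κ) (H (Function.update κ i (κ i + r)))) ∧
      chi (h Λ D (H κ) (H (Function.update κ i (κ i + r)))) =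
        ∑ s ∈ Finset.range r, (-1 : ℝ) ^ (g i (κ i + s)) * (l i (κ i + s)).toReal) := by
  let G : ℕ → ℤ → Submodule A U := fun s => H (Function.update κ i (κ i + s))
  have hG0 : G 0 = H κ := by simp [G]
  have hst : ∀ s ≤ r, Stable D (G s) := fun s hs' => hH.stable _ (hs s hs')
  have hle : ∀ s < r, ∀ n, G (s + 1) n ≤ G s n := by
    intro s _ n
    refine hH.anti _ _ (fun j _ => ?_) n
    by_cases hj : j = i
    · subst hj; simp
    · simp [Function.update_of_ne hj]
  have hstep : ∀ s < r, ∀ m, h Λ D (G s) (G (s + 1)) m =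
      if m = g i (κ i + s) then l i (κ i + s) else 0 := by
    intro s hs' m
    have e1 : Function.update (Function.update κ i (κ i + s)) i
        (Function.update κ i (κ i + s) i + 1) = Function.update κ i (κ i + (s + 1 : ℕ)) := by
      rw [Function.update_self, Function.update_idem]
      push_cast
      rw [add_assoc]
    have := hH.step (Function.update κ i (κ i + s)) i hi (hs s hs'.le)
      (by rw [e1]; exact hs (s + 1) hs') m
    rw [e1] at this
    simpa [G] using this
  rw [← hG0]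
  refine ⟨fun m hm => ?_, fun hl => ?_⟩
  · refine null_tele Λ hD G r hst hle m fun s hs' => ?_
    rw [hstep s hs' m, if_neg (hm s hs')]
  · have hstep' : ∀ s < r, h Λ D (G s) (G (s + 1)) =
      fun m => if m = g i (κ i + s) then l i (κ i + s) else 0 :=
      fun s hs' => funext (hstep s hs')
    obtain ⟨f, e⟩ := chi_tele Λ hD G r hst hle (fun s hs' => by
      rw [hstep' s hs']; exact finS_single _ (hl s hs'))
    refine ⟨f, ?_⟩
    rw [e]
    refine Finset.sum_congr rfl fun s hs' => ?_
    rw [hstep' s (Finset.mem_range.1 hs'), chi_single]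

/-- from `κs` to `κe`. -/
lemma Stair.total (hH : Stair Λ D d N g l H) (hD : D ∘ₗ D = 0) (κs κe : ℕ → ℤ)
    (hle : ∀ i ≤ d, κs i ≤ κe i)
    (hss : ∀ i < d, κs i ≤ κs (i + 1) + N) (hse : ∀ i < d, κe i ≤ κe (i + 1) + N) :
    (∀ m, (∀ i ≤ d, ∀ k, κs i ≤ k → k < κe i → m ≠ g i k) → h Λ D (H κs) (H κe) m = 0) ∧
    ((∀ i ≤ d, ∀ k, κs i ≤ k → k < κe i → l i k ≠ ⊤) → FinS (h Λ D (H κs) (H κe)) ∧
      chi (h Λ D (H κs) (H κe)) =
        ∑ i ∈ Finset.range (d + 1), ∑ k ∈ Finset.Ico (κs i) (κe i),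
          (-1 : ℝ) ^ (g i k) * (l i k).toReal) := by
  -- `κ^[j] i = κe i` for `i ≥ d + 1 - j`
  let kk : ℕ → ℕ → ℤ := fun j i => if d + 1 ≤ i + j then κe i else κs i
  have hk0 : ∀ i ≤ d, kk 0 i = κs i := fun i hi => by simp only [kk]; rw [if_neg (by omega)]
  have hkd : ∀ i, kk (d + 1) i = κe i := fun i => by simp only [kk]; rw [if_pos (by omega)]
  have hH0 : ∀ m, H (kk 0) m = H κs m := fun m => le_antisymm
    (hH.anti _ _ (fun i hi => (hk0 i hi).ge) m) (hH.anti _ _ (fun i hi => (hk0 i hi).le) m)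
  have hHd : H (kk (d + 1)) = H κe := by
    congr 1; exact funext hkd
  have hH0' : H (kk 0) = H κs := funext hH0
  let G : ℕ → ℤ → Submodule A U := fun j => H (kk j)
  -- stability of intermediate
  have hinter : ∀ j ≤ d, ∀ s : ℕ, κs (d - j) + s ≤ κe (d - j) → ∀ i < d,
      Function.update (kk j) (d - j) (kk j (d - j) + s) i ≤
        Function.update (kk j) (d - j) (kk j (d - j) + s) (i + 1) + N := by
    intro j hj s hs i hi
    have e0 : kk j (d - j) = κs (d - j) := by simp only [kk]; rw [if_neg (by omega)]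
    rw [e0]
    by_cases h1 : i = d - j
    · rw [h1, Function.update_self, Function.update_of_ne (by omega)]
      simp only [kk]
      rw [if_pos (by omega)]
      have := hse (d - j) (by omega)
      omega
    · rw [Function.update_of_ne h1]
      by_cases h2 : i + 1 = d - j
      · rw [h2, Function.update_self]
        simp only [kk]
        rw [if_neg (by omega)]
        have := hss i hi
        rw [h2] at this
        omega
      · rw [Function.update_of_ne h2]
        simp only [kk]
        by_cases h3 : d + 1 ≤ i + j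
        · rw [if_pos h3, if_pos (by omega)]
          exact hse i hi
        · rw [if_neg h3, if_neg (by omega)]
          exact hss i hi
  have hnext : ∀ j ≤ d, Function.update (kk j) (d - j)
      (kk j (d - j) + ((κe (d - j) - κs (d - j)).toNat : ℕ)) = kk (j + 1) := by
    intro j hj
    have e0 : kk j (d - j) = κs (d - j) := by simp only [kk]; rw [if_neg (by omega)]
    rw [e0]
    have e1 : κs (d - j) + ((κe (d - j) - κs (d - j)).toNat : ℕ) = κe (d - j) := by
      have := hle (d - j) (by omega)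
      omega
    rw [e1]
    funext i
    by_cases h1 : i = d - j
    · rw [h1, Function.update_self]
      simp only [kk]
      rw [if_pos (by omega)]
    · rw [Function.update_of_ne h1]
      simp only [kk]
      by_cases h3 : d + 1 ≤ i + j
      · rw [if_pos h3, if_pos (by omega)]
      · rw [if_neg h3, if_neg (by omega)]
  have hraise : ∀ j ≤ d, _ := fun j hj => hH.raise hD (kk j) (d - j) (by omega)
    (κe (d - j) - κs (d - j)).toNat (fun s hs => hinter j hj s (by
      have := hle (d - j) (by omega)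
      omega))
  have hst : ∀ j ≤ d + 1, Stable D (G j) := by
    intro j hj
    rcases Nat.lt_or_ge j (d + 1) with h1 | h1
    · have := hH.stable _ (hinter j (by omega) 0 (by
        have := hle (d - j) (by omega)
        simpa using this))
      simpa [G] using this
    · have : j = d + 1 := by omega
      subst this
      change Stable D (H (kk (d + 1)))
      rw [hHd]
      exact hH.stable _ hse
  have hmono : ∀ j < d + 1, ∀ n, G (j + 1) n ≤ G j n := by
    intro j _ n
    refine hH.anti _ _ (fun i hi => ?_) n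
    simp only [kk]
    by_cases h3 : d + 1 ≤ i + j
    · rw [if_pos h3, if_pos (by omega)]
    · rw [if_neg h3]
      split_ifs
      · exact hle i hi
      · exact le_rfl
  have key : h Λ D (H κs) (H κe) = h Λ D (G 0) (G (d + 1)) := by
    change _ = h Λ D (H (kk 0)) (H (kk (d + 1)))
    rw [hH0', hHd]
  rw [key]
  have e0 : ∀ j ≤ d, kk j (d - j) = κs (d - j) := fun j hj => by
    simp only [kk]; rw [if_neg (by omega)]
  refine ⟨fun m hm => ?_, fun hl => ?_⟩
  · refine null_tele Λ hD G (d + 1) hst hmono m fun j hj => ?_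
    have h1 := (hraise j (by omega)).1 m (fun s hs => by
      rw [e0 j (by omega)]
      exact hm (d - j) (by omega) _ (by omega) (by omega))
    rw [hnext j (by omega)] at h1
    exact h1
  · have h2 : ∀ j < d + 1, FinS (h Λ D (G j) (G (j + 1))) ∧ chi (h Λ D (G j) (G (j + 1))) =
        ∑ k ∈ Finset.Ico (κs (d - j)) (κe (d - j)),
          (-1 : ℝ) ^ (g (d - j) k) * (l (d - j) k).toReal := by
      intro j hj
      have h1 := (hraise j (by omega)).2 (fun s hs => by
        rw [e0 j (by omega)]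
        exact hl (d - j) (by omega) _ (by omega) (by omega))
      rw [hnext j (by omega)] at h1
      refine ⟨h1.1, ?_⟩
      rw [show h Λ D (G j) (G (j + 1)) = h Λ D (H (kk j)) (H (kk (j + 1))) from rfl, h1.2,
        e0 j (by omega)]
      -- reindex
      have hle' := hle (d - j) (by omega)
      rw [Finset.sum_bij (fun (s : ℕ) _ => κs (d - j) + (s : ℤ))]
      · intro s hs
        rw [Finset.mem_range] at hs
        rw [Finset.mem_Ico]
        omega
      · intro a _ b _ hab; omega
      · intro k hk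
        rw [Finset.mem_Ico] at hk
        refine ⟨(k - κs (d - j)).toNat, ?_, by omega⟩
        rw [Finset.mem_range]
        omega
      · intro s _; rfl
    obtain ⟨f, e⟩ := chi_tele Λ hD G (d + 1) hst hmono (fun j hj => (h2 j hj).1)
    refine ⟨f, ?_⟩
    rw [e, Finset.sum_congr rfl (fun j hj => (h2 j (Finset.mem_range.1 hj)).2)]
    rw [← Finset.sum_range_reflect]
    refine Finset.sum_congr rfl fun i hi => ?_
    rw [Finset.mem_range] at hi
    rw [show d - (d + 1 - 1 - i) = i by omega]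

/-- the zero family. -/
def zf (A : Type u) [CommRing A] (U : Type v) [AddCommGroup U] [Module A U] :
    ℤ → Submodule A U := fun _ => ⊥

lemma stable_zf : Stable D (zf A U) := fun n => by simp [zf]

/-- **abstract core of (A)**: `T = ⋃ H(-t-iN)` exact, window conditions on the degrees `g`, tail
`H(K)` null in negative degrees. Then `χ(H K) + ∑ (-1)^g l ≥ 0`. -/
theorem Stair.core (hΛ : Λ.Cont) (hH : Stair Λ D d N g l H) (hD : D ∘ₗ D = 0)
    (T : ℤ → Submodule A U) (hT : ∀ m, T m = ⨆ t : ℕ, H (fun i => -(t : ℤ) - i * N) m)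
    (hTst : Stable D T) (hex : ∀ m, h Λ D T (zf A U) m = 0)
    (K : ℤ) (hK : 0 ≤ K)
    (hneg : ∀ i ≤ d, ∀ k : ℤ, k < -(i * N : ℤ) → g i k ≤ 1)
    (hpos : ∀ i ≤ d, ∀ k : ℤ, -(i * N : ℤ) ≤ k → 0 ≤ g i k)
    (hl : ∀ i ≤ d, ∀ k : ℤ, l i k ≠ ⊤)
    (hKnull : ∀ m < 0, h Λ D (H fun _ => K) (zf A U) m = 0)
    (hKfin : FinS (h Λ D (H fun _ => K) (zf A U))) :
    0 ≤ chi (h Λ D (H fun _ => K) (zf A U)) +
      ∑ i ∈ Finset.range (d + 1), ∑ k ∈ Finset.Ico (-(i * N : ℤ)) K,
        (-1 : ℝ) ^ (g i k) * (l i k).toReal := by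
  set κ0 : ℕ → ℤ := fun i => -(i * N : ℤ) with hκ0
  have hs0 : ∀ i < d, κ0 i ≤ κ0 (i + 1) + N := by
    intro i _; simp only [hκ0]; push_cast; linarith [mul_comm (i : ℤ) N]
  have hsK : ∀ i < d, (fun _ : ℕ => K) i ≤ (fun _ : ℕ => K) (i + 1) + N := by
    intro i _; simp
  have hst0 : Stable D (H κ0) := hH.stable _ hs0
  have hstK : Stable D (H fun _ => K) := hH.stable _ hsK
  have hle0K : ∀ i ≤ d, κ0 i ≤ K := by
    intro i _
    have : (0 : ℤ) ≤ (i * N : ℤ) := by positivity
    simp only [hκ0]; linarith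
  have hT0 : ∀ n, H κ0 n ≤ T n := by
    intro n
    rw [hT n]
    refine le_trans ?_ (le_iSup _ 0)
    refine hH.anti _ _ (fun i _ => ?_) n
    simp [hκ0]
  -- `T/T_0` null in degrees `≥ 2`
  have h2 : ∀ m : ℤ, 2 ≤ m → h Λ D T (H κ0) m = 0 := by
    intro m hm
    refine null_union hΛ (fun t => H (fun i => -(t : ℤ) - i * N)) ?_ hT m ?_
    · intro t n
      refine hH.anti _ _ (fun i _ => ?_) n
      push_cast; linarith
    · intro t
      refine (hH.total hD (fun i => -(t : ℤ) - i * N) κ0 ?_ ?_ hs0).1 m ?_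
      · intro i _; simp only [hκ0]; linarith
      · intro i _
        push_cast; linarith
      · intro i hi k _ hk
        have := hneg i hi k hk
        omega
  have h0pos : ∀ m : ℤ, 1 ≤ m → h Λ D (H κ0) (zf A U) m = 0 := fun m hm =>
    null_sub Λ hD hTst hst0 stable_zf hT0 (fun n => bot_le) (hex m) (h2 (m + 1) (by omega))
  -- `T_0/T_K`
  have htot := hH.total hD κ0 (fun _ => K) hle0K hs0 hsK
  have hneg' : ∀ m < 0, h Λ D (H κ0) (H fun _ => K) m = 0 := by
    intro m hm
    refine htot.1 m fun i hi k hk _ => ?_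
    have := hpos i hi k hk
    omega
  have hmono : ∀ n, H (fun _ => K) n ≤ H κ0 n := fun n => hH.anti _ _ hle0K n
  have h0neg : ∀ m : ℤ, m < 0 → h Λ D (H κ0) (zf A U) m = 0 := fun m hm =>
    null_mid Λ hD hst0 hstK stable_zf hmono (fun n => bot_le) (hKnull m hm) (hneg' m hm)
  obtain ⟨f1, e1⟩ := htot.2 (fun i hi k _ _ => hl i hi k)
  have e2 := chi_les Λ hD hst0 hstK stable_zf hmono (fun n => bot_le) hKfin f1
  rw [← e1, ← e2]
  unfold chi
  rw [finsum_eq_single _ (0 : ℤ)]
  · simp
  · intro n hn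
    rcases lt_or_gt_of_ne hn with h3 | h3
    · rw [h0neg n h3]; simp
    · rw [h0pos n (by omega)]; simp

end KHom

end Crest.Agent.R183
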