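/-
R183 (Lech), Theorem K, block (D): numerics (K6') and the pure part of (K5).
helper685
-/
import Mathlib

set_option autoImplicit false

namespace Crest.Agent.R183.KNum

open Finset

/-- the root set `{0,..,d} \ {τ, τ+1}` (in units of `-N`). -/
def rootSet (d τ : ℕ) : Finset ℕ := (Finset.range (d + 1)).filter (fun j => j ≠ τ ∧ j ≠ τ + 1)

/-- `S d N τ i = ∑_{k=-iN}^{-1} ∏_l (k - ρ_l)`, roots `ρ = -jN`, `j ∈ {0..d} \ {τ,τ+1}`;
`k = -(m+1)`. -/
def S (d N τ i : ℕ) : ℤ :=
  ∑ m ∈ Finset.range (i * N), ∏ j ∈ rootSet d τ, ((j : ℤ) * N - (m + 1))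

/-- `D(u) = ∏_{j=1}^d (u + j)`. -/
noncomputable def D (d : ℕ) (u : ℝ) : ℝ := ∏ j ∈ Finset.range d, (u + ((j : ℝ) + 1))

/-- `Q_j(u) = ∏_{i ∈ {1..d}, i ≠ j+1} (u + i)`. -/
noncomputable def Q (d j : ℕ) (u : ℝ) : ℝ := ∏ i ∈ (Finset.range d).erase j, (u + ((i : ℝ) + 1))

/-- `P_τ(u) = ∏_{j ∈ {0..d} \ {τ,τ+1}} (u + j)`. -/
noncomputable def P (d τ : ℕ) (u : ℝ) : ℝ := ∏ j ∈ rootSet d τ, (u + (j : ℝ))

/-- the convex weights. -/
noncomputable def lam (d τ : ℕ) : ℝ := (∑ j ∈ Finset.Ico τ d, 1 / ((j : ℝ) + 1)) / d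

lemma lam_nonneg (d τ : ℕ) : 0 ≤ lam d τ := by
  unfold lam; positivity

lemma lam_succ {d τ : ℕ} (h : τ < d) : lam d τ - lam d (τ + 1) = 1 / (((τ : ℝ) + 1) * d) := by
  unfold lam
  rw [Finset.sum_eq_sum_Ico_succ_bot h]
  have hd : (d : ℝ) ≠ 0 := by
    have : 0 < d := by omega
    exact_mod_cast this.ne'
  have h1 : ((τ : ℝ) + 1) ≠ 0 := by positivity
  field_simp
  ring

lemma lam_self (d : ℕ) : lam d d = 0 := by simp [lam]

lemma abel (a A : ℕ → ℝ) (n : ℕ) :
    ∑ τ ∈ Finset.range n, a τ * (A (τ + 1) - A τ)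
      = a n * A n - a 0 * A 0 + ∑ τ ∈ Finset.range n, (a τ - a (τ + 1)) * A (τ + 1) := by
  induction n with
  | zero => simp
  | succ n ih =>
    rw [Finset.sum_range_succ, Finset.sum_range_succ, ih]; ring

lemma sum_lam {d : ℕ} (hd : 1 ≤ d) : ∑ τ ∈ Finset.range d, lam d τ = 1 := by
  have h := abel (lam d) (fun n => (n : ℝ)) d
  have h1 : ∑ τ ∈ Finset.range d, lam d τ * (((τ + 1 : ℕ) : ℝ) - (τ : ℝ))
      = ∑ τ ∈ Finset.range d, lam d τ := by
    refine Finset.sum_congr rfl fun τ _ => ?_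
    push_cast; ring
  have h2 : ∑ τ ∈ Finset.range d, (lam d τ - lam d (τ + 1)) * (((τ + 1 : ℕ) : ℝ))
      = ∑ τ ∈ Finset.range d, (1 / (d : ℝ)) := by
    refine Finset.sum_congr rfl fun τ hτ => ?_
    rw [lam_succ (Finset.mem_range.1 hτ)]
    have hd : (d : ℝ) ≠ 0 := by
      have : 0 < d := by omega
      exact_mod_cast this.ne'
    have h1 : ((τ : ℝ) + 1) ≠ 0 := by positivity
    push_cast
    field_simp
  rw [h1, h2, lam_self] at h
  rw [h]
  have hd : (d : ℝ) ≠ 0 := by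
    have : 0 < d := by omega
    exact_mod_cast this.ne'
  simp [hd]

/-- the common factor -/
noncomputable def common (d τ : ℕ) (u : ℝ) : ℝ :=
  ∏ i ∈ ((Finset.range d).erase τ).erase (τ - 1), (u + ((i : ℝ) + 1))

lemma P_eq {d τ : ℕ} (h : τ < d) (u : ℝ) :
    P d τ u = ((τ : ℝ) + 1) * Q d τ u - (τ : ℝ) * Q d (τ - 1) u := by
  rcases Nat.eq_zero_or_pos τ with h0 | h0
  · subst h0
    simp only [Nat.cast_zero, zero_add, one_mul, zero_mul, sub_zero]
    unfold P Q rootSet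
    symm
    refine Finset.prod_bij (fun i _ => i + 1) ?_ ?_ ?_ ?_
    · intro i hi
      simp only [Finset.mem_erase, Finset.mem_range, Finset.mem_filter] at hi ⊢
      omega
    · intro i _ j _ hij; omega
    · intro j hj
      simp only [Finset.mem_filter, Finset.mem_range] at hj
      refine ⟨j - 1, ?_, by omega⟩
      simp only [Finset.mem_erase, Finset.mem_range]
      omega
    · intro i _; push_cast; ring
  · have hQ1 : Q d τ u = (u + τ) * common d τ u := by
      unfold Q common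
      rw [← Finset.mul_prod_erase _ _ (show τ - 1 ∈ (Finset.range d).erase τ by
        simp only [Finset.mem_erase, Finset.mem_range]; omega)]
      congr 1
      have : ((τ - 1 : ℕ) : ℝ) = (τ : ℝ) - 1 := by
        rw [Nat.cast_sub h0]; simp
      rw [this]; ring
    have hQ2 : Q d (τ - 1) u = (u + (τ + 1)) * common d τ u := by
      unfold Q common
      rw [Finset.erase_right_comm]
      rw [← Finset.mul_prod_erase _ _ (show τ ∈ (Finset.range d).erase (τ - 1) by
        simp only [Finset.mem_erase, Finset.mem_range]; omega)]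
    have hP : P d τ u = u * common d τ u := by
      unfold P common rootSet
      rw [← Finset.mul_prod_erase _ _ (show 0 ∈ (Finset.range (d + 1)).filter
        (fun j => j ≠ τ ∧ j ≠ τ + 1) by
          simp only [Finset.mem_filter, Finset.mem_range]; omega)]
      congr 1
      · simp
      · symm
        refine Finset.prod_bij (fun i _ => i + 1) ?_ ?_ ?_ ?_
        · intro i hi
          simp only [Finset.mem_erase, Finset.mem_range, Finset.mem_filter] at hi ⊢
          omega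
        · intro i _ j _ hij; omega
        · intro j hj
          simp only [Finset.mem_erase, Finset.mem_filter, Finset.mem_range] at hj
          refine ⟨j - 1, ?_, by omega⟩
          simp only [Finset.mem_erase, Finset.mem_range]
          omega
        · intro i _; push_cast; ring
    rw [hP, hQ1, hQ2]; ring

/-- The key identity `∑_τ lam_τ P_τ = D'/d`. -/
lemma sum_lam_P {d : ℕ} (hd : 1 ≤ d) (u : ℝ) :
    ∑ τ ∈ Finset.range d, lam d τ * P d τ u = (∑ j ∈ Finset.range d, Q d j u) / d := by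
  have h := abel (lam d) (fun n => (n : ℝ) * Q d (n - 1) u) d
  have h1 : ∑ τ ∈ Finset.range d, lam d τ *
      ((((τ + 1 : ℕ) : ℝ)) * Q d (τ + 1 - 1) u - (τ : ℝ) * Q d (τ - 1) u)
      = ∑ τ ∈ Finset.range d, lam d τ * P d τ u := by
    refine Finset.sum_congr rfl fun τ hτ => ?_
    rw [P_eq (Finset.mem_range.1 hτ)]
    simp
  have h2 : ∑ τ ∈ Finset.range d, (lam d τ - lam d (τ + 1)) *
      ((((τ + 1 : ℕ) : ℝ)) * Q d (τ + 1 - 1) u)
      = ∑ τ ∈ Finset.range d, Q d τ u / (d : ℝ) := by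
    refine Finset.sum_congr rfl fun τ hτ => ?_
    rw [lam_succ (Finset.mem_range.1 hτ)]
    have hd : (d : ℝ) ≠ 0 := by
      have : 0 < d := by omega
      exact_mod_cast this.ne'
    have h1 : ((τ : ℝ) + 1) ≠ 0 := by positivity
    simp only [Nat.add_sub_cancel]
    push_cast
    field_simp
  rw [h1, h2, lam_self] at h
  rw [h, Finset.sum_div]
  simp

lemma hasDerivAt_D (d : ℕ) (u : ℝ) :
    HasDerivAt (D d) (∑ j ∈ Finset.range d, Q d j u) u := by
  have h : HasDerivAt (fun x : ℝ => ∏ j ∈ Finset.range d, (x + ((j : ℝ) + 1)))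
      (∑ i ∈ Finset.range d, (∏ j ∈ (Finset.range d).erase i, (u + ((j : ℝ) + 1))) • (1 : ℝ)) u := by
    refine HasDerivAt.fun_finsetProd (u := Finset.range d)
      (f := fun (j : ℕ) (x : ℝ) => x + ((j : ℝ) + 1)) (f' := fun _ => 1) ?_
    intro i _
    simpa using (hasDerivAt_id u).add_const ((i : ℝ) + 1)
  have h' : D d = fun x : ℝ => ∏ j ∈ Finset.range d, (x + ((j : ℝ) + 1)) := rfl
  rw [h']
  simpa [Q] using h

lemma contDiff_D1 (d : ℕ) : ContDiff ℝ 1 (fun u : ℝ => ∑ j ∈ Finset.range d, Q d j u) := by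
  unfold Q
  fun_prop

/-- second order Taylor estimate on `[-d, 0]`. -/
lemma exists_taylor (d : ℕ) : ∃ K : ℝ, 0 ≤ K ∧ ∀ x h : ℝ, 0 ≤ h → -(d : ℝ) ≤ x → x + h ≤ 0 →
    |D d (x + h) - D d x - h * ∑ j ∈ Finset.range d, Q d j x| ≤ K * h ^ 2 := by
  set f : ℝ → ℝ := fun u => ∑ j ∈ Finset.range d, Q d j u with hf
  have hc : ContDiff ℝ 1 f := contDiff_D1 d
  have hcd : Continuous (deriv f) := hc.continuous_deriv le_rfl
  obtain ⟨K, hK⟩ := (isCompact_Icc (a := -(d : ℝ)) (b := 0)).exists_bound_of_continuousOn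
    hcd.continuousOn
  refine ⟨max K 0, le_max_right _ _, ?_⟩
  intro x h hh hx hxh
  have hsub : Set.Icc x (x + h) ⊆ Set.Icc (-(d : ℝ)) 0 := Set.Icc_subset_Icc hx hxh
  have hlip : ∀ u ∈ Set.Icc x (x + h), ‖f u - f x‖ ≤ max K 0 * h := by
    intro u hu
    have h1 := Convex.norm_image_sub_le_of_norm_deriv_le (𝕜 := ℝ) (f := f) (C := max K 0)
      (s := Set.Icc x (x + h)) (x := x) (y := u)
      (fun y _ => (hc.differentiable one_ne_zero).differentiableAt)
      (fun y hy => (hK y (hsub hy)).trans (le_max_left _ _))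
      (convex_Icc _ _) (Set.left_mem_Icc.2 (by linarith)) hu
    refine h1.trans (mul_le_mul_of_nonneg_left ?_ (le_max_right _ _))
    rw [Real.norm_eq_abs, abs_of_nonneg (by linarith [hu.1])]
    linarith [hu.2]
  have h2 := Convex.norm_image_sub_le_of_norm_hasDerivWithin_le (𝕜 := ℝ)
    (f := fun u => D d u - u * f x) (f' := fun u => f u - f x) (C := max K 0 * h)
    (s := Set.Icc x (x + h)) (x := x) (y := x + h)
    (fun u _ => by
      have := (hasDerivAt_D d u).fun_sub ((hasDerivAt_id u).mul_const (f x))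
      simpa [hf] using this.hasDerivWithinAt)
    hlip (convex_Icc _ _) (Set.left_mem_Icc.2 (by linarith)) (Set.right_mem_Icc.2 (by linarith))
  rw [Real.norm_eq_abs] at h2
  have e1 : D d (x + h) - (x + h) * f x - (D d x - x * f x)
      = D d (x + h) - D d x - h * f x := by ring
  rw [e1] at h2
  refine h2.trans (le_of_eq ?_)
  rw [show x + h - x = h by ring, Real.norm_eq_abs, abs_of_nonneg hh]; ring

lemma D_zero (d : ℕ) : D d 0 = (d.factorial : ℝ) := by
  unfold D
  rw [← Finset.prod_range_add_one_eq_factorial]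
  push_cast
  refine Finset.prod_congr rfl fun j _ => by ring

lemma D_neg {d i : ℕ} (hi : 1 ≤ i) (hid : i ≤ d) : D d (-(i : ℝ)) = 0 := by
  unfold D
  refine Finset.prod_eq_zero (i := i - 1) (Finset.mem_range.2 (by omega)) ?_
  have : ((i - 1 : ℕ) : ℝ) = (i : ℝ) - 1 := by
    rw [Nat.cast_sub hi]; simp
  rw [this]; ring

/-- Riemann sum estimate. -/
lemma riemann (d : ℕ) : ∃ K : ℝ, 0 ≤ K ∧ ∀ N i : ℕ, 1 ≤ N → 1 ≤ i → i ≤ d →
    |∑ m ∈ Finset.range (i * N), (∑ j ∈ Finset.range d, Q d j (-((m : ℝ) + 1) / N)) / N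
      - d.factorial| ≤ K / N := by
  obtain ⟨K, hK0, hK⟩ := exists_taylor d
  refine ⟨K * d, by positivity, ?_⟩
  intro N i hN hi hid
  have hN' : (0 : ℝ) < N := by exact_mod_cast hN
  have htel : ∑ m ∈ Finset.range (i * N),
      (D d (-((m : ℝ) + 1) / N + 1 / N) - D d (-((m : ℝ) + 1) / N)) = d.factorial := by
    have h1 : ∑ m ∈ Finset.range (i * N),
      (D d (-((m : ℝ) + 1) / N + 1 / N) - D d (-((m : ℝ) + 1) / N))
      = ∑ m ∈ Finset.range (i * N),
        ((fun n : ℕ => D d (-(n : ℝ) / N)) m - (fun n : ℕ => D d (-(n : ℝ) / N)) (m + 1)) := by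
      refine Finset.sum_congr rfl fun m _ => ?_
      simp only
      congr 2
      · ring
      · push_cast; ring
    rw [h1, Finset.sum_range_sub']
    rw [Nat.cast_zero, neg_zero, zero_div, D_zero]
    have : -((i * N : ℕ) : ℝ) / N = -(i : ℝ) := by
      push_cast; field_simp
    rw [this, D_neg hi hid, sub_zero]
  rw [← htel, ← Finset.sum_sub_distrib]
  refine (Finset.abs_sum_le_sum_abs _ _).trans ?_
  have hb : ∀ m ∈ Finset.range (i * N),
      |(∑ j ∈ Finset.range d, Q d j (-((m : ℝ) + 1) / N)) / N -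
        (D d (-((m : ℝ) + 1) / N + 1 / N) - D d (-((m : ℝ) + 1) / N))| ≤ K * (1 / N) ^ 2 := by
    intro m hm
    have hm' : (m : ℝ) + 1 ≤ (i : ℝ) * N := by
      have : m + 1 ≤ i * N := by
        have := Finset.mem_range.1 hm; omega
      exact_mod_cast this
    have hx : -(d : ℝ) ≤ -((m : ℝ) + 1) / N := by
      rw [neg_div, neg_le_neg_iff, div_le_iff₀ hN']
      refine hm'.trans (mul_le_mul_of_nonneg_right (by exact_mod_cast hid) hN'.le)
    have hx2 : -((m : ℝ) + 1) / N + 1 / N ≤ 0 := by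
      rw [← add_div]
      apply div_nonpos_of_nonpos_of_nonneg _ hN'.le
      have : (0 : ℝ) ≤ m := by positivity
      linarith
    have := hK (-((m : ℝ) + 1) / N) (1 / N) (by positivity) hx hx2
    rw [abs_sub_comm]
    convert this using 2
    ring
  refine (Finset.sum_le_sum hb).trans ?_
  rw [Finset.sum_const, Finset.card_range, nsmul_eq_mul]
  push_cast
  have : (i : ℝ) * N * (K * (1 / N) ^ 2) = K * i / N := by field_simp
  rw [this]
  have hid' : (i : ℝ) ≤ d := by exact_mod_cast hid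
  gcongr

lemma card_rootSet {d τ : ℕ} (h : τ < d) : (rootSet d τ).card = d - 1 := by
  have : rootSet d τ = ((Finset.range (d + 1)).erase τ).erase (τ + 1) := by
    ext j; simp only [rootSet, Finset.mem_filter, Finset.mem_erase, Finset.mem_range]; tauto
  rw [this, Finset.card_erase_of_mem, Finset.card_erase_of_mem, Finset.card_range]
  · omega
  · simp only [Finset.mem_range]; omega
  · simp only [Finset.mem_erase, Finset.mem_range]; omega

lemma S_cast {d N τ i : ℕ} (hτ : τ < d) (hN : 1 ≤ N) :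
    ((S d N τ i : ℤ) : ℝ)
      = ∑ m ∈ Finset.range (i * N), (N : ℝ) ^ (d - 1) * P d τ (-((m : ℝ) + 1) / N) := by
  have hN' : (N : ℝ) ≠ 0 := by
    have : 0 < N := by omega
    exact_mod_cast this.ne'
  unfold S P
  push_cast
  refine Finset.sum_congr rfl fun m _ => ?_
  rw [← card_rootSet hτ, ← Finset.prod_const, ← Finset.prod_mul_distrib]
  refine Finset.prod_congr rfl fun j _ => ?_
  field_simp
  ring

/-- **Numerics.** the weighted average of the `S_i^τ` is `(d-1)! N^d + O(N^{d-1})`. -/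
theorem avg_S {d : ℕ} (hd : 1 ≤ d) : ∃ K : ℝ, 0 ≤ K ∧ ∀ N i : ℕ, 1 ≤ N → 1 ≤ i → i ≤ d →
    |∑ τ ∈ Finset.range d, lam d τ * (S d N τ i : ℝ) - ((d - 1).factorial : ℝ) * N ^ d|
      ≤ K * N ^ (d - 1) := by
  obtain ⟨K, hK0, hK⟩ := riemann d
  refine ⟨K, hK0, ?_⟩
  intro N i hN hi hid
  have hN' : (0 : ℝ) < N := by exact_mod_cast hN
  have hd' : (0 : ℝ) < d := by exact_mod_cast hd
  have h1 : ∑ τ ∈ Finset.range d, lam d τ * (S d N τ i : ℝ)
      = (N : ℝ) ^ d / d * ∑ m ∈ Finset.range (i * N),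
          (∑ j ∈ Finset.range d, Q d j (-((m : ℝ) + 1) / N)) / N := by
    have : ∀ τ ∈ Finset.range d, lam d τ * (S d N τ i : ℝ)
        = ∑ m ∈ Finset.range (i * N),
          (N : ℝ) ^ (d - 1) * (lam d τ * P d τ (-((m : ℝ) + 1) / N)) := by
      intro τ hτ
      rw [S_cast (Finset.mem_range.1 hτ) hN, Finset.mul_sum]
      refine Finset.sum_congr rfl fun m _ => by ring
    rw [Finset.sum_congr rfl this, Finset.sum_comm, Finset.mul_sum]
    refine Finset.sum_congr rfl fun m _ => ?_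
    rw [← Finset.mul_sum, sum_lam_P hd]
    have : (N : ℝ) ^ d = (N : ℝ) ^ (d - 1) * N := by
      rw [← pow_succ]; congr 1; omega
    rw [this]
    field_simp
  have h2 : ((d - 1).factorial : ℝ) * N ^ d = (N : ℝ) ^ d / d * d.factorial := by
    have : (d.factorial : ℝ) = d * (d - 1).factorial := by
      have := Nat.mul_factorial_pred (show d ≠ 0 by omega)
      rw [← this]; push_cast; ring
    rw [this]; field_simp
  rw [h1, h2, ← mul_sub, abs_mul, abs_of_nonneg (by positivity : (0 : ℝ) ≤ (N : ℝ) ^ d / d)]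
  refine (mul_le_mul_of_nonneg_left (hK N i hN hi hid) (by positivity)).trans ?_
  have : (N : ℝ) ^ d = (N : ℝ) ^ (d - 1) * N := by
    rw [← pow_succ]; congr 1; omega
  rw [this]
  have e : (N : ℝ) ^ (d - 1) * N / d * (K / N) = K * N ^ (d - 1) / d := by field_simp
  rw [e]
  apply div_le_self (by positivity)
  exact_mod_cast hd

lemma S_zero (d N τ : ℕ) : S d N τ 0 = 0 := by simp [S]

/-- **Final inequality of Theorem K.**  From the inequalities
`0 ≤ (d-1)! LM + Λ ∑_i (-1)^i b_i S_i^τ` for all `τ < d` get `LM ≥ (b_0 N^d - C N^{d-1}) Λ`. -/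
theorem final {d : ℕ} (hd : 1 ≤ d) (b : ℕ → ℕ)
    (hb : ∑ i ∈ Finset.range (d + 1), (-1 : ℤ) ^ i * b i = 0) :
    ∃ C : ℝ, 0 ≤ C ∧ ∀ N : ℕ, 1 ≤ N → ∀ LM Λ : ℝ, 0 ≤ Λ →
      (∀ τ < d, 0 ≤ ((d - 1).factorial : ℝ) * LM +
        Λ * ∑ i ∈ Finset.range (d + 1), (-1 : ℝ) ^ i * b i * (S d N τ i : ℝ)) →
      ((b 0 : ℝ) * N ^ d - C * N ^ (d - 1)) * Λ ≤ LM := by
  obtain ⟨K, hK0, hK⟩ := avg_S hd
  set B : ℝ := ∑ i ∈ Finset.range (d + 1), (b i : ℝ) with hB
  have hB0 : 0 ≤ B := Finset.sum_nonneg fun _ _ => by positivity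
  refine ⟨B * K, by positivity, ?_⟩
  intro N hN LM Λ hΛ h
  have hN' : (0 : ℝ) < N := by exact_mod_cast hN
  have hF : (1 : ℝ) ≤ (d - 1).factorial := by exact_mod_cast Nat.one_le_iff_ne_zero.2 (Nat.factorial_ne_zero _)
  -- averaged inequality
  have havg : 0 ≤ ((d - 1).factorial : ℝ) * LM + Λ * ∑ i ∈ Finset.range (d + 1),
      (-1 : ℝ) ^ i * b i * ∑ τ ∈ Finset.range d, lam d τ * (S d N τ i : ℝ) := by
    have h1 : 0 ≤ ∑ τ ∈ Finset.range d, lam d τ * (((d - 1).factorial : ℝ) * LM +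
        Λ * ∑ i ∈ Finset.range (d + 1), (-1 : ℝ) ^ i * b i * (S d N τ i : ℝ)) :=
      Finset.sum_nonneg fun τ hτ => mul_nonneg (lam_nonneg _ _) (h τ (Finset.mem_range.1 hτ))
    have h2 : ∑ τ ∈ Finset.range d, lam d τ * (((d - 1).factorial : ℝ) * LM +
        Λ * ∑ i ∈ Finset.range (d + 1), (-1 : ℝ) ^ i * b i * (S d N τ i : ℝ))
        = (∑ τ ∈ Finset.range d, lam d τ) * (((d - 1).factorial : ℝ) * LM) +
          Λ * ∑ i ∈ Finset.range (d + 1),
      (-1 : ℝ) ^ i * b i * ∑ τ ∈ Finset.range d, lam d τ * (S d N τ i : ℝ) := by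
      simp_rw [mul_add, Finset.sum_add_distrib, Finset.sum_mul, Finset.mul_sum]
      congr 1
      rw [Finset.sum_comm]
      refine Finset.sum_congr rfl fun i _ => Finset.sum_congr rfl fun τ _ => by ring
    rw [h2, sum_lam hd, one_mul] at h1
    exact h1
  -- compare the alternating sum
  have hbR : ∑ i ∈ Finset.range (d + 1), (-1 : ℝ) ^ i * b i = 0 := by exact_mod_cast hb
  have hsum : ∑ i ∈ Finset.range (d + 1),
      (-1 : ℝ) ^ i * b i * ∑ τ ∈ Finset.range d, lam d τ * (S d N τ i : ℝ)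
      ≤ - (b 0 : ℝ) * (((d - 1).factorial : ℝ) * N ^ d) + B * (K * N ^ (d - 1)) := by
    set T : ℕ → ℝ := fun i => ∑ τ ∈ Finset.range d, lam d τ * (S d N τ i : ℝ) with hT
    set M0 : ℝ := ((d - 1).factorial : ℝ) * N ^ d with hM0
    have hT0 : T 0 = 0 := by simp [hT, S_zero]
    have e1 : ∑ i ∈ Finset.range (d + 1), (-1 : ℝ) ^ i * b i * T i
        = ∑ i ∈ Finset.range (d + 1), ((-1 : ℝ) ^ i * b i * (T i - M0)) := by
      have : ∑ i ∈ Finset.range (d + 1), ((-1 : ℝ) ^ i * b i * (T i - M0))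
          = ∑ i ∈ Finset.range (d + 1), (-1 : ℝ) ^ i * b i * T i
            - (∑ i ∈ Finset.range (d + 1), (-1 : ℝ) ^ i * b i) * M0 := by
        rw [Finset.sum_mul, ← Finset.sum_sub_distrib]
        refine Finset.sum_congr rfl fun i _ => by ring
      rw [this, hbR]; ring
    rw [e1, Finset.sum_range_succ', pow_zero, one_mul, hT0]
    have e2 : ∑ i ∈ Finset.range d, ((-1 : ℝ) ^ (i + 1) * b (i + 1) * (T (i + 1) - M0))
        ≤ ∑ i ∈ Finset.range d, (b (i + 1) : ℝ) * (K * N ^ (d - 1)) := by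
      refine Finset.sum_le_sum fun i hi => ?_
      have hi' := Finset.mem_range.1 hi
      have hk := hK N (i + 1) hN (by omega) (by omega)
      refine (le_abs_self _).trans ?_
      rw [abs_mul, abs_mul, abs_pow, abs_neg, abs_one, one_pow, one_mul,
        abs_of_nonneg (by positivity : (0 : ℝ) ≤ b (i + 1))]
      exact mul_le_mul_of_nonneg_left hk (by positivity)
    have e3 : ∑ i ∈ Finset.range d, (b (i + 1) : ℝ) * (K * N ^ (d - 1))
        ≤ B * (K * N ^ (d - 1)) := by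
      rw [← Finset.sum_mul]
      refine mul_le_mul_of_nonneg_right ?_ (by positivity)
      rw [hB, Finset.sum_range_succ']
      have : (0 : ℝ) ≤ b 0 := by positivity
      linarith
    linarith [e2.trans e3]
  have h3 := mul_le_mul_of_nonneg_left hsum hΛ
  -- (d-1)! LM ≥ Λ (b0 (d-1)! N^d - B K N^{d-1})
  have h4 : ((b 0 : ℝ) * N ^ d - B * K * N ^ (d - 1)) * Λ * ((d - 1).factorial : ℝ)
      ≤ ((d - 1).factorial : ℝ) * LM := by
    have h5 : Λ * ((b 0 : ℝ) * (((d - 1).factorial : ℝ) * N ^ d) - B * (K * N ^ (d - 1)))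
        ≤ ((d - 1).factorial : ℝ) * LM := by linarith
    refine le_trans ?_ h5
    have h6 : B * K * N ^ (d - 1) * Λ ≤ B * K * N ^ (d - 1) * Λ * ((d - 1).factorial : ℝ) :=
      le_mul_of_one_le_right (by positivity) hF
    nlinarith [h6]
  have h5 : 0 < ((d - 1).factorial : ℝ) := by linarith
  rw [mul_comm ((d - 1).factorial : ℝ) LM] at h4
  exact le_of_mul_le_mul_right h4 h5

end Crest.Agent.R183.KNum
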