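/-
R183 (Lech), Theorem K: glue between the staircase core (`KHom2`), the numerics (`KNum`) and the
constancy lemma (`KConst`).    helper685
-/
import Mathlib
import Crest.Agent.R183.KHom2
import Crest.Agent.R183.KNum
import Crest.Agent.R183.KConst

set_option autoImplicit false

namespace Crest.Agent.R183.KFin

open Finset KNum
open scoped Nat

/-- number of roots `> k`. -/
def jj {n : ℕ} (ρ : Fin n → ℤ) (k : ℤ) : ℕ := (Finset.univ.filter fun l => k < ρ l).card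

/-- sign of the product. -/
lemma prod_sub_eq {n : ℕ} (ρ : Fin n → ℤ) (k : ℤ) :
    ∏ l, (k - ρ l) = (-1) ^ jj ρ k * |∏ l, (k - ρ l)| := by
  rw [Finset.abs_prod]
  have h1 : ∀ l, k - ρ l = (if k < ρ l then -1 else 1) * |k - ρ l| := by
    intro l
    split_ifs with h
    · rw [abs_of_neg (by linarith)]; ring
    · rw [abs_of_nonneg (by linarith), one_mul]
  conv_lhs => rw [Finset.prod_congr rfl fun l _ => h1 l]
  rw [Finset.prod_mul_distrib]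
  congr 1
  rw [jj, Finset.prod_ite, Finset.prod_const, Finset.prod_const_one, mul_one]

/-- the roots of the `τ`-th window in some order. -/
structure IsRoots (d τ N n : ℕ) (ρ : Fin n → ℤ) : Prop where
  ex : ∃ e : Fin n → ℕ, Function.Injective e ∧ Finset.univ.image e = rootSet d τ ∧
    ∀ l, ρ l = -((e l : ℤ) * N)

lemma IsRoots.comp {d τ N n : ℕ} {ρ : Fin n → ℤ} (h : IsRoots d τ N n ρ)
    (σ : Equiv.Perm (Fin n)) : IsRoots d τ N n (ρ ∘ σ) := by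
  obtain ⟨e, he, hi, hr⟩ := h.ex
  refine ⟨e ∘ σ, he.comp σ.injective, ?_, fun l => hr (σ l)⟩
  rw [← hi]
  ext x
  simp only [Finset.mem_image, Finset.mem_univ, true_and, Function.comp]
  constructor
  · rintro ⟨a, rfl⟩; exact ⟨_, rfl⟩
  · rintro ⟨a, rfl⟩; exact ⟨σ.symm a, by simp⟩

lemma exists_isRoots {n τ N : ℕ} (hτ : τ < n + 1) : ∃ ρ : Fin n → ℤ, IsRoots (n + 1) τ N n ρ := by
  have hc : (rootSet (n + 1) τ).card = n := by
    rw [card_rootSet hτ]; rfl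
  let e := (rootSet (n + 1) τ).orderEmbOfFin hc
  refine ⟨fun l => -((e l : ℤ) * N), fun l => e l, e.injective, ?_, fun l => rfl⟩
  rw [← Finset.coe_inj, Finset.coe_image, Finset.coe_univ, Set.image_univ]
  exact Finset.range_orderEmbOfFin _ hc

lemma IsRoots.jj_le {d τ N n : ℕ} {ρ : Fin n → ℤ} (h : IsRoots d τ N n ρ) (hN : 1 ≤ N) (i : ℕ)
    (k : ℤ) (hk : -(i * N : ℤ) ≤ k) : jj ρ k ≤ i := by
  obtain ⟨e, he, hi, hr⟩ := h.ex
  unfold jj
  calc (Finset.univ.filter fun l => k < ρ l).card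
      = ((Finset.univ.filter fun l => k < ρ l).image e).card :=
        (Finset.card_image_of_injective _ he).symm
    _ ≤ (Finset.range i).card := by
        refine Finset.card_le_card fun x hx => ?_
        simp only [Finset.mem_image, Finset.mem_filter, Finset.mem_univ, true_and] at hx
        obtain ⟨l, hl, rfl⟩ := hx
        rw [hr l] at hl
        have h1 : ((e l : ℤ) * N) < i * N := by linarith
        have h2 : (e l : ℤ) < i := lt_of_mul_lt_mul_right h1 (by positivity)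
        exact Finset.mem_range.2 (by exact_mod_cast h2)
    _ = i := Finset.card_range i

lemma IsRoots.le_jj {d τ N n : ℕ} {ρ : Fin n → ℤ} (h : IsRoots d τ N n ρ) (i : ℕ)
    (hid : i ≤ d) (k : ℤ) (hk : k < -(i * N : ℤ)) : i ≤ jj ρ k + 1 := by
  obtain ⟨e, he, hi, hr⟩ := h.ex
  unfold jj
  have h1 : ((Finset.range (i + 1)).filter fun j => j ≠ τ ∧ j ≠ τ + 1).card ≤
      (Finset.univ.filter fun l => k < ρ l).card := by
    rw [← Finset.card_image_of_injective _ he]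
    refine Finset.card_le_card fun x hx => ?_
    simp only [Finset.mem_filter, Finset.mem_range] at hx
    have hx' : x ∈ rootSet d τ := by
      simp only [rootSet, Finset.mem_filter, Finset.mem_range]
      exact ⟨by omega, hx.2⟩
    rw [← hi] at hx'
    simp only [Finset.mem_image, Finset.mem_univ, true_and] at hx'
    obtain ⟨l, rfl⟩ := hx'
    simp only [Finset.mem_image, Finset.mem_filter, Finset.mem_univ, true_and]
    refine ⟨l, ?_, rfl⟩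
    rw [hr l]
    have h2 : (e l : ℤ) * N ≤ i * N := by
      have : (e l : ℤ) ≤ i := by exact_mod_cast Nat.lt_succ_iff.1 hx.1
      nlinarith [Int.natCast_nonneg N]
    linarith
  have h2 : i + 1 ≤ ((Finset.range (i + 1)).filter fun j => j ≠ τ ∧ j ≠ τ + 1).card + 2 := by
    have h3 := Finset.card_filter_add_card_filter_not (s := Finset.range (i + 1))
      (fun j => j ≠ τ ∧ j ≠ τ + 1)
    rw [Finset.card_range] at h3
    have h4 : ((Finset.range (i + 1)).filter fun j => ¬ (j ≠ τ ∧ j ≠ τ + 1)).card ≤ 2 := by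
      refine (Finset.card_le_card (t := {τ, τ + 1}) fun x hx => ?_).trans Finset.card_le_two
      simp only [Finset.mem_filter] at hx
      simp only [Finset.mem_insert, Finset.mem_singleton]
      by_contra h5
      push Not at h5
      exact hx.2 h5
    omega
  omega

/-- `∑_{k ∈ [-iN, 0)} ∏ (k - ρ_l) = S d N τ i`. -/
lemma IsRoots.sum_eq {d τ N n : ℕ} {ρ : Fin n → ℤ} (h : IsRoots d τ N n ρ) (i : ℕ) :
    ∑ k ∈ Finset.Ico (-(i * N : ℤ)) 0, ∏ l, (k - ρ l) = S d N τ i := by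
  obtain ⟨e, he, hi, hr⟩ := h.ex
  unfold S
  symm
  refine Finset.sum_bij (fun (m : ℕ) _ => -((m : ℤ) + 1)) ?_ ?_ ?_ ?_
  · intro m hm
    rw [Finset.mem_range] at hm
    rw [Finset.mem_Ico]
    have : (m : ℤ) + 1 ≤ (i * N : ℕ) := by exact_mod_cast hm
    push_cast at this
    constructor <;> linarith
  · intro a _ b _ hab; omega
  · intro k hk
    rw [Finset.mem_Ico] at hk
    refine ⟨(-k - 1).toNat, ?_, by omega⟩
    rw [Finset.mem_range]
    have h1 : ((-k - 1).toNat : ℤ) < (i * N : ℕ) := by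
      push_cast
      omega
    exact_mod_cast h1
  · intro m _
    rw [← hi, Finset.prod_image fun a _ b _ hab => he hab]
    refine Finset.prod_congr rfl fun l _ => ?_
    rw [hr l]; ring

/-- **The final inequality**, from a function `c`. -/
theorem final_of_c (n : ℕ) (b : ℕ → ℕ)
    (hb : ∑ i ∈ Finset.range (n + 1 + 1), (-1 : ℤ) ^ i * b i = 0) :
    ∃ C : ℝ, 0 ≤ C ∧ ∀ N : ℕ, 1 ≤ N → ∀ LM Λ0 : ℝ, 0 ≤ Λ0 → ∀ c : (Fin n → ℤ) → ℝ,
      (∀ (ρ : Fin n → ℤ) (l : Fin n) (t : ℤ), c (Function.update ρ l (t + 1))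
        - 2 * c (Function.update ρ l t) + c (Function.update ρ l (t - 1)) = 0) →
      (∀ ρ : Fin n → ℤ, c (fun l => ρ l + 1) = c ρ) →
      (∃ ρ0 : Fin n → ℤ, ∀ σ : Equiv.Perm (Fin n), c (ρ0 ∘ σ) = (n ! : ℝ) * LM) →
      (∀ τ < n + 1, ∀ ρ : Fin n → ℤ, IsRoots (n + 1) τ N n ρ →
        0 ≤ c ρ + Λ0 * ∑ i ∈ Finset.range (n + 1 + 1), (-1 : ℝ) ^ i * b i * (S (n + 1) N τ i : ℝ)) →
      ((b 0 : ℝ) * N ^ (n + 1) - C * N ^ n) * Λ0 ≤ LM := by
  obtain ⟨C, hC0, hC⟩ := final (d := n + 1) (by omega) b hb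
  refine ⟨C, hC0, ?_⟩
  intro N hN LM Λ0 hΛ c haff hshift hval hineq
  have hn : (0 : ℝ) < n ! := by exact_mod_cast Nat.factorial_pos n
  have hcard : (Fintype.card (Equiv.Perm (Fin n)) : ℝ) = n ! := by
    rw [Fintype.card_perm, Fintype.card_fin]
  -- the averaged function
  set cb : (Fin n → ℤ) → ℝ := fun ρ => ∑ σ : Equiv.Perm (Fin n), c (ρ ∘ σ) with hcb
  have hsymm : ∀ (σ : Equiv.Perm (Fin n)) (ρ : Fin n → ℤ), cb (ρ ∘ σ) = cb ρ := by
    intro σ ρ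
    simp only [hcb]
    exact Fintype.sum_equiv (Equiv.mulLeft σ) _ _ fun τ => rfl
  have hupd : ∀ (ρ : Fin n → ℤ) (l : Fin n) (t : ℤ) (σ : Equiv.Perm (Fin n)),
      (Function.update ρ l t) ∘ σ = Function.update (ρ ∘ σ) (σ.symm l) t := by
    intro ρ l t σ
    rw [Function.update_comp_equiv]
  have haff' : ∀ (ρ : Fin n → ℤ) (l : Fin n) (t : ℤ), cb (Function.update ρ l (t + 1))
        - 2 * cb (Function.update ρ l t) + cb (Function.update ρ l (t - 1)) = 0 := by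
    intro ρ l t
    simp only [hcb, hupd]
    rw [Finset.mul_sum, ← Finset.sum_sub_distrib, ← Finset.sum_add_distrib]
    exact Finset.sum_eq_zero fun σ _ => haff _ _ _
  have hshift' : ∀ ρ : Fin n → ℤ, cb (fun l => ρ l + 1) = cb ρ := by
    intro ρ
    simp only [hcb]
    exact Finset.sum_congr rfl fun σ _ => hshift (ρ ∘ σ)
  have hconst := KConst.const_of_symm_affine_shift cb hsymm haff' hshift'
  obtain ⟨ρ0, hρ0⟩ := hval
  have hc0 : ∀ ρ, cb ρ = (n ! : ℝ) * ((n ! : ℝ) * LM) := by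
    intro ρ
    rw [hconst ρ, ← hconst ρ0]
    simp only [hcb]
    rw [Finset.sum_congr rfl fun σ _ => hρ0 σ, Finset.sum_const, Finset.card_univ, nsmul_eq_mul,
      hcard]
  refine hC N hN LM Λ0 hΛ ?_
  intro τ hτ
  obtain ⟨ρ, hρ⟩ := exists_isRoots (N := N) hτ
  have h1 : 0 ≤ ∑ σ : Equiv.Perm (Fin n), (c (ρ ∘ σ) + Λ0 *
      ∑ i ∈ Finset.range (n + 1 + 1), (-1 : ℝ) ^ i * b i * (S (n + 1) N τ i : ℝ)) :=
    Finset.sum_nonneg fun σ _ => hineq τ hτ _ (hρ.comp σ)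
  rw [Finset.sum_add_distrib, Finset.sum_const, Finset.card_univ, nsmul_eq_mul, hcard] at h1
  have h2 : ∑ σ : Equiv.Perm (Fin n), c (ρ ∘ σ) = (n ! : ℝ) * ((n ! : ℝ) * LM) := hc0 ρ
  rw [h2, ← mul_add] at h1
  have h3 := nonneg_of_mul_nonneg_right h1 hn
  simpa using h3

/-! ### glue with `Stair` -/

section stair

open KHom
open scoped ENNReal

universe u v

variable {A : Type u} [CommRing A] {Λ : AddLen.{u, v} A}
variable {U : Type v} [AddCommGroup U] [Module A U] {D : U →ₗ[A] U}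

/-- degree of the piece `Q_i ⊗ C_k`. -/
def gg {n : ℕ} (ρ : Fin n → ℤ) (i : ℕ) (k : ℤ) : ℤ := (i : ℤ) - jj ρ k

/-- length of the piece `Q_i ⊗ C_k`. -/
noncomputable def ll {n : ℕ} (ρ : Fin n → ℤ) (b : ℕ → ℕ) (Λ0 : ℝ≥0∞) (i : ℕ) (k : ℤ) : ℝ≥0∞ :=
  (b i : ℝ≥0∞) * (((∏ l, (k - ρ l)).natAbs : ℕ) : ℝ≥0∞) * Λ0

lemma ll_ne_top {n : ℕ} (ρ : Fin n → ℤ) (b : ℕ → ℕ) {Λ0 : ℝ≥0∞} (h : Λ0 ≠ ⊤) (i : ℕ) (k : ℤ) :
    ll ρ b Λ0 i k ≠ ⊤ :=
  ENNReal.mul_ne_top (ENNReal.mul_ne_top (ENNReal.natCast_ne_top _) (ENNReal.natCast_ne_top _)) h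

lemma sign_ll {n : ℕ} (ρ : Fin n → ℤ) (b : ℕ → ℕ) (Λ0 : ℝ≥0∞) (i : ℕ) (k : ℤ) :
    (-1 : ℝ) ^ (gg ρ i k) * (ll ρ b Λ0 i k).toReal =
      Λ0.toReal * ((-1 : ℝ) ^ i * b i * ((∏ l, (k - ρ l) : ℤ) : ℝ)) := by
  have h1 : ((∏ l, (k - ρ l) : ℤ) : ℝ) = (-1) ^ jj ρ k * (|∏ l, (k - ρ l)| : ℤ) := by
    conv_lhs => rw [prod_sub_eq]
    push_cast; rfl
  have h2 : (-1 : ℝ) ^ (gg ρ i k) = (-1) ^ i * (-1) ^ jj ρ k := by
    unfold gg
    rw [zpow_sub₀ (by norm_num : (-1 : ℝ) ≠ 0), zpow_natCast, zpow_natCast, div_eq_mul_inv]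
    congr 1
    rcases neg_one_pow_eq_or ℝ (jj ρ k) with h | h <;> rw [h] <;> norm_num
  rw [h1, h2, ll, ENNReal.toReal_mul, ENNReal.toReal_mul, ENNReal.toReal_natCast,
    ENNReal.toReal_natCast, Nat.cast_natAbs]
  ring

theorem stair_ineq (hΛ : Λ.Cont) {n N : ℕ} (hN : 1 ≤ N) {τ : ℕ} {ρ : Fin n → ℤ}
    (hρ : IsRoots (n + 1) τ N n ρ) {b : ℕ → ℕ}
    (hb : ∑ i ∈ Finset.range (n + 1 + 1), (-1 : ℤ) ^ i * b i = 0) {Λ0 : ℝ≥0∞} (hΛ0 : Λ0 ≠ ⊤)
    {H : (ℕ → ℤ) → ℤ → Submodule A U}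
    (hH : Stair Λ D (n + 1) N (gg ρ) (ll ρ b Λ0) H) (hD : D ∘ₗ D = 0)
    (T : ℤ → Submodule A U) (hT : ∀ m, T m = ⨆ t : ℕ, H (fun i => -(t : ℤ) - i * N) m)
    (hTst : Stable D T) (hex : ∀ m, h Λ D T (zf A U) m = 0)
    (K : ℤ) (hK : 0 ≤ K)
    (hKnull : ∀ m < 0, h Λ D (H fun _ => K) (zf A U) m = 0)
    (hKfin : FinS (h Λ D (H fun _ => K) (zf A U))) :
    0 ≤ chi (h Λ D (H fun _ => K) (zf A U)) + Λ0.toReal *
      ∑ i ∈ Finset.range (n + 1 + 1), (-1 : ℝ) ^ i * b i * (S (n + 1) N τ i : ℝ) := by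
  have h1 := Stair.core hΛ hH hD T hT hTst hex K hK
    (fun i hi k hk => by
      have := hρ.le_jj i hi k hk
      unfold gg; omega)
    (fun i hi k hk => by
      have := hρ.jj_le hN i k hk
      unfold gg; omega)
    (fun i _ k => ll_ne_top ρ b hΛ0 i k) hKnull hKfin
  refine h1.trans_eq ?_
  congr 1
  have h2 : ∀ i ∈ Finset.range (n + 1 + 1), ∑ k ∈ Finset.Ico (-(i * N : ℤ)) K,
      (-1 : ℝ) ^ (gg ρ i k) * (ll ρ b Λ0 i k).toReal =
      Λ0.toReal * ((-1 : ℝ) ^ i * b i * (S (n + 1) N τ i : ℝ)) +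
      Λ0.toReal * (((-1 : ℝ) ^ i * b i) * (∑ k ∈ Finset.Ico 0 K, ∏ l, (k - ρ l) : ℤ)) := by
    intro i _
    have h3 : -(i * N : ℤ) ≤ 0 := by
      have : (0 : ℤ) ≤ i * N := by positivity
      linarith
    rw [Finset.sum_congr rfl fun k _ => sign_ll ρ b Λ0 i k, ← Finset.mul_sum, ← Finset.mul_sum,
      ← mul_add, ← mul_add, ← hρ.sum_eq i, ← Int.cast_sum, ← Int.cast_add,
      ← Finset.Ico_union_Ico_eq_Ico h3 hK, Finset.sum_union (Finset.Ico_disjoint_Ico_consecutive _ _ _)]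
  rw [Finset.sum_congr rfl h2, Finset.sum_add_distrib, ← Finset.mul_sum, ← Finset.mul_sum,
    ← Finset.sum_mul]
  have h4 : ∑ i ∈ Finset.range (n + 1 + 1), (-1 : ℝ) ^ i * (b i : ℝ) = 0 := by exact_mod_cast hb
  rw [h4]; ring

/-- `χ(H K)` does not depend on `K`. -/
theorem chi_const {n N : ℕ} {ρ : Fin n → ℤ} {b : ℕ → ℕ}
    (hb : ∑ i ∈ Finset.range (n + 1 + 1), (-1 : ℤ) ^ i * b i = 0) {Λ0 : ℝ≥0∞} (hΛ0 : Λ0 ≠ ⊤)
    {H : (ℕ → ℤ) → ℤ → Submodule A U}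
    (hH : Stair Λ D (n + 1) N (gg ρ) (ll ρ b Λ0) H) (hD : D ∘ₗ D = 0) {K K' : ℤ} (hKK : K ≤ K')
    (hfin : FinS (h Λ D (H fun _ => K') (zf A U))) :
    FinS (h Λ D (H fun _ => K) (zf A U)) ∧
      chi (h Λ D (H fun _ => K) (zf A U)) = chi (h Λ D (H fun _ => K') (zf A U)) := by
  have hsK : ∀ K : ℤ, ∀ i < n + 1, (fun _ : ℕ => K) i ≤ (fun _ : ℕ => K) (i + 1) + N := by
    intro K i _; simp
  have hst : ∀ K : ℤ, Stable D (H fun _ => K) := fun K => hH.stable _ (hsK K)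
  have hmono : ∀ m, H (fun _ => K') m ≤ H (fun _ => K) m := fun m =>
    hH.anti _ _ (fun _ _ => hKK) m
  obtain ⟨f1, e1⟩ := (hH.total hD (fun _ => K) (fun _ => K') (fun _ _ => hKK) (hsK K) (hsK K')).2
    (fun i _ k _ _ => ll_ne_top ρ b hΛ0 i k)
  have e2 := chi_les Λ hD (hst K) (hst K') stable_zf hmono (fun _ => bot_le) hfin f1
  refine ⟨finS_mid Λ hD (hst K) (hst K') stable_zf hmono (fun _ => bot_le) hfin f1, ?_⟩
  rw [e2, e1]
  have h2 : ∀ i ∈ Finset.range (n + 1 + 1), ∑ k ∈ Finset.Ico K K',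
      (-1 : ℝ) ^ (gg ρ i k) * (ll ρ b Λ0 i k).toReal =
      ((-1 : ℝ) ^ i * b i) * (Λ0.toReal * (∑ k ∈ Finset.Ico K K', ∏ l, (k - ρ l) : ℤ)) := by
    intro i _
    rw [Finset.sum_congr rfl fun k _ => sign_ll ρ b Λ0 i k, ← Finset.mul_sum, ← Finset.mul_sum,
      ← Int.cast_sum]
    ring
  rw [Finset.sum_congr rfl h2, ← Finset.sum_mul]
  have h4 : ∑ i ∈ Finset.range (n + 1 + 1), (-1 : ℝ) ^ i * (b i : ℝ) = 0 := by exact_mod_cast hb
  rw [h4]; ring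

end stair

end Crest.Agent.R183.KFin
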