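/-
R183 (Lech), Theorem K: supplements to the homology calculus (`KHom`): isomorphism invariance,
products, powers.    helper685
-/
import Mathlib
import Crest.Agent.R183.KHom2

set_option autoImplicit false

namespace Crest.Agent.R183

open scoped ENNReal

universe u v

namespace AddLen

variable {A : Type u} [CommRing A] (Λ : AddLen.{u, v} A)
variable {M N : Type v} [AddCommGroup M] [Module A M] [AddCommGroup N] [Module A N]

lemma rel_eq_L (S T : Submodule A M) : Λ.rel S T = Λ.L (T ⧸ S.comap T.subtype) := by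
  have h := Λ.rel_comap T.subtype S ⊤
  rw [Submodule.map_top, Submodule.range_subtype, rel_top] at h
  exact h.symm

lemma rel_pi (ι : Type) [Fintype ι] (S T : Submodule A M) :
    Λ.rel (Submodule.pi Set.univ fun _ : ι => S) (Submodule.pi Set.univ fun _ : ι => T) =
      Fintype.card ι * Λ.rel S T := by
  classical
  let F : (ι → T) →ₗ[A] (ι → M) := LinearMap.pi fun i => T.subtype ∘ₗ LinearMap.proj i
  have hF : (⊤ : Submodule A (ι → T)).map F = Submodule.pi Set.univ fun _ : ι => T := by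
    ext x
    constructor
    · rintro ⟨y, _, rfl⟩ i _
      exact (y i).2
    · intro hx
      exact ⟨fun i => ⟨x i, hx i (Set.mem_univ i)⟩, trivial, rfl⟩
  have hS : (Submodule.pi Set.univ fun _ : ι => S).comap F =
      Submodule.pi Set.univ fun _ : ι => S.comap T.subtype := by
    ext x; rfl
  rw [← hF, ← Λ.rel_comap, hS, rel_top, Λ.L_congr (Submodule.quotientPi _), Λ.L_pi_const,
    rel_eq_L]

lemma rel_prod {S1 T1 : Submodule A M} {S2 T2 : Submodule A N} (h1 : S1 ≤ T1) (h2 : S2 ≤ T2) :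
    Λ.rel (S1.prod S2) (T1.prod T2) = Λ.rel S1 T1 + Λ.rel S2 T2 := by
  have e1 : S1.prod S2 ≤ T1.prod S2 := Submodule.prod_mono h1 le_rfl
  have e2 : T1.prod S2 ≤ T1.prod T2 := Submodule.prod_mono le_rfl h2
  rw [Λ.rel_add e1 e2]
  congr 1
  · have k1 : S1.prod S2 = S1.comap (LinearMap.fst A M N) ⊓ T1.prod S2 := by
      ext x
      simp only [Submodule.mem_prod, Submodule.mem_inf, Submodule.mem_comap, LinearMap.fst_apply]
      constructor
      · rintro ⟨a, b⟩; exact ⟨a, h1 a, b⟩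
      · rintro ⟨a, _, b⟩; exact ⟨a, b⟩
    have k2 : (T1.prod S2).map (LinearMap.fst A M N) = T1 := by
      ext x
      constructor
      · rintro ⟨y, hy, rfl⟩; exact hy.1
      · intro hx; exact ⟨(x, 0), ⟨hx, S2.zero_mem⟩, rfl⟩
    conv_lhs => rw [k1]
    rw [Λ.rel_inf, Λ.rel_comap, k2]
  · have k1 : T1.prod S2 = S2.comap (LinearMap.snd A M N) ⊓ T1.prod T2 := by
      ext x
      simp only [Submodule.mem_prod, Submodule.mem_inf, Submodule.mem_comap, LinearMap.snd_apply]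
      constructor
      · rintro ⟨a, b⟩; exact ⟨b, a, h2 b⟩
      · rintro ⟨a, b, _⟩; exact ⟨b, a⟩
    have k2 : (T1.prod T2).map (LinearMap.snd A M N) = T2 := by
      ext x
      constructor
      · rintro ⟨y, hy, rfl⟩; exact hy.2
      · intro hx; exact ⟨(0, x), ⟨T1.zero_mem, hx⟩, rfl⟩
    conv_lhs => rw [k1]
    rw [Λ.rel_inf, Λ.rel_comap, k2]

/-- modular law in `rel` form -/
lemma rel_le_of_le_sup {S T R : Submodule A M} (h : Λ.le0 T (S ⊔ R)) (hS : S ≤ T) :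
    Λ.rel S T ≤ Λ.rel S R := by
  have h1 : Λ.rel S T ≤ Λ.rel S (T ⊔ (S ⊔ R)) := Λ.rel_mono le_rfl le_sup_left
  have h2 : Λ.rel S (T ⊔ (S ⊔ R)) = Λ.rel S (S ⊔ R) + Λ.rel (S ⊔ R) (T ⊔ (S ⊔ R)) :=
    Λ.rel_add le_sup_left le_sup_right
  have h3 : Λ.rel (S ⊔ R) (T ⊔ (S ⊔ R)) = 0 := by
    rw [Λ.rel_sup_right]; exact h
  have h4 : Λ.rel S (S ⊔ R) = Λ.rel S R := by rw [sup_comm, Λ.rel_sup_right]
  rw [h2, h3, h4, add_zero] at h1
  exact h1

end AddLen

namespace KHom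

open AddLen

variable {A : Type u} [CommRing A] (Λ : AddLen.{u, v} A)
variable {U : Type v} [AddCommGroup U] [Module A U] {D : U →ₗ[A] U}
variable {U' : Type v} [AddCommGroup U'] [Module A U'] {D' : U' →ₗ[A] U'}

/-- **isomorphism invariance** of `h`. -/
theorem h_iso (f : U' →ₗ[A] U) (hf : D ∘ₗ f = f ∘ₗ D') (hD : D ∘ₗ D = 0) (hD' : D' ∘ₗ D' = 0)
    {K L : ℤ → Submodule A U'} {G G0 : ℤ → Submodule A U}
    (hL : ∀ m, L m = K m ⊓ (G0 m).comap f) (hG : ∀ m, G m = (K m).map f ⊔ G0 m)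
    (hK : Stable D' K) (hG0 : Stable D G0) (m : ℤ) : h Λ D' K L m = h Λ D G G0 m := by
  have hfx : ∀ x, D (f x) = f (D' x) := fun x => LinearMap.congr_fun hf x
  have hDD : ∀ x, D (D x) = 0 := fun x => LinearMap.congr_fun hD x
  have hDD' : ∀ x, D' (D' x) = 0 := fun x => LinearMap.congr_fun hD' x
  have hKG : ∀ m, ∀ x ∈ K m, f x ∈ G m := fun m x hx => by
    rw [hG]; exact Submodule.mem_sup_left ⟨x, hx, rfl⟩
  have hG0G : ∀ m, G0 m ≤ G m := fun m => by rw [hG]; exact le_sup_right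
  have hLst : ∀ m, ∀ x ∈ L m, D' x ∈ L (m - 1) := by
    intro m x hx
    rw [hL] at hx ⊢
    refine ⟨hK.map_le m ⟨x, hx.1, rfl⟩, ?_⟩
    rw [SetLike.mem_coe, Submodule.mem_comap, ← hfx]
    exact hG0.map_le m ⟨f x, hx.2, rfl⟩
  unfold h
  set S' := (K (m + 1)).map D' ⊔ L m with hS'
  set T' := K m ⊓ (L (m - 1)).comap D' with hT'
  set S := (G (m + 1)).map D ⊔ G0 m with hS
  set T := G m ⊓ (G0 (m - 1)).comap D with hT
  have e1 : S' = S.comap f ⊓ T' := by
    apply le_antisymm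
    · refine sup_le ?_ ?_
      · rintro _ ⟨k, hk, rfl⟩
        refine ⟨?_, hK m ⟨k, hk, rfl⟩, ?_⟩
        · rw [SetLike.mem_coe, Submodule.mem_comap, ← hfx]
          exact Submodule.mem_sup_left ⟨f k, hKG _ _ hk, rfl⟩
        · rw [SetLike.mem_coe, Submodule.mem_comap, hDD']
          exact Submodule.zero_mem _
      · intro x hx
        have hx' := hx
        rw [hL] at hx'
        exact ⟨Submodule.mem_sup_right hx'.2, hx'.1, hLst m x hx⟩
    · rintro w ⟨hw1, hw2, hw3⟩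
      have hw1' : f w ∈ S := hw1
      obtain ⟨_, ⟨g, hg, rfl⟩, g0, hg0, hsum⟩ := Submodule.mem_sup.1 hw1'
      rw [SetLike.mem_coe, hG] at hg
      obtain ⟨_, ⟨k, hk, rfl⟩, g1, hg1, rfl⟩ := Submodule.mem_sup.1 hg
      have h1 : w = D' k + (w - D' k) := by abel
      rw [h1]
      refine Submodule.add_mem_sup ⟨k, hk, rfl⟩ ?_
      rw [hL]
      refine ⟨Submodule.sub_mem _ hw2 (hK m ⟨k, hk, rfl⟩), ?_⟩
      rw [SetLike.mem_coe, Submodule.mem_comap, map_sub, ← hfx, ← hsum, map_add]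
      have h2 : D (f k) + D g1 + g0 - D (f k) = D g1 + g0 := by abel
      rw [h2]
      exact Submodule.add_mem _ (hG0 m ⟨g1, hg1, rfl⟩) hg0
  have e2 : T = T'.map f ⊔ S := by
    apply le_antisymm
    · rintro t ⟨ht1, ht2⟩
      rw [SetLike.mem_coe, hG] at ht1
      obtain ⟨_, ⟨k, hk, rfl⟩, g0, hg0, rfl⟩ := Submodule.mem_sup.1 ht1
      refine Submodule.add_mem_sup ⟨k, ⟨hk, ?_⟩, rfl⟩ (Submodule.mem_sup_right hg0)
      rw [SetLike.mem_coe, Submodule.mem_comap, hL]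
      refine ⟨hK.map_le m ⟨k, hk, rfl⟩, ?_⟩
      rw [SetLike.mem_coe, Submodule.mem_comap, ← hfx]
      have h2 : D (f k) = D (f k + g0) - D g0 := by rw [map_add]; abel
      rw [h2]
      exact Submodule.sub_mem _ ht2 (hG0.map_le m ⟨g0, hg0, rfl⟩)
    · refine sup_le ?_ (sup_le ?_ ?_)
      · rintro _ ⟨w, ⟨hw1, hw2⟩, rfl⟩
        refine ⟨hKG _ _ hw1, ?_⟩
        rw [SetLike.mem_coe, Submodule.mem_comap, hfx]
        have hw2' : D' w ∈ L (m - 1) := hw2
        rw [hL] at hw2'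
        exact hw2'.2
      · rintro _ ⟨g, hg, rfl⟩
        rw [SetLike.mem_coe, hG] at hg
        obtain ⟨_, ⟨k, hk, rfl⟩, g1, hg1, rfl⟩ := Submodule.mem_sup.1 hg
        refine ⟨?_, ?_⟩
        · rw [map_add, hfx]
          exact Submodule.add_mem _ (hKG _ _ (hK m ⟨k, hk, rfl⟩)) (hG0G _ (hG0 m ⟨g1, hg1, rfl⟩))
        · rw [SetLike.mem_coe, Submodule.mem_comap, hDD]
          exact Submodule.zero_mem _
      · intro x hx
        exact ⟨hG0G _ hx, hG0.map_le m ⟨x, hx, rfl⟩⟩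
  rw [e2, Λ.rel_sup_right, ← Λ.rel_comap, ← Λ.rel_inf (S.comap f), ← e1]

/-- products. -/
theorem h_prod (G G0 : ℤ → Submodule A U) (K K0 : ℤ → Submodule A U')
    (hD : D ∘ₗ D = 0) (hD' : D' ∘ₗ D' = 0) (hG : Stable D G) (hK : Stable D' K)
    (hG0 : Stable D G0) (hK0 : Stable D' K0) (h1 : ∀ m, G0 m ≤ G m) (h2 : ∀ m, K0 m ≤ K m)
    (m : ℤ) :
    h Λ (D.prodMap D') (fun m => (G m).prod (K m)) (fun m => (G0 m).prod (K0 m)) m =
      h Λ D G G0 m + h Λ D' K K0 m := by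
  unfold h
  have e1 : ((G (m + 1)).prod (K (m + 1))).map (D.prodMap D') ⊔ (G0 m).prod (K0 m) =
      ((G (m + 1)).map D ⊔ G0 m).prod ((K (m + 1)).map D' ⊔ K0 m) := by
    apply le_antisymm
    · refine sup_le ?_ (Submodule.prod_mono le_sup_right le_sup_right)
      rintro _ ⟨x, hx, rfl⟩
      exact ⟨Submodule.mem_sup_left ⟨x.1, hx.1, rfl⟩, Submodule.mem_sup_left ⟨x.2, hx.2, rfl⟩⟩
    · rintro ⟨x, y⟩ ⟨hx, hy⟩
      obtain ⟨_, ⟨a, ha, rfl⟩, b, hb, hab⟩ := Submodule.mem_sup.1 hx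
      obtain ⟨_, ⟨c, hc, rfl⟩, d, hd, hcd⟩ := Submodule.mem_sup.1 hy
      have : ((x, y) : U × U') = (D.prodMap D') (a, c) + (b, d) := by
        rw [LinearMap.prodMap_apply, Prod.mk_add_mk]
        exact Prod.ext hab.symm hcd.symm
      rw [this]
      exact Submodule.add_mem_sup ⟨(a, c), ⟨ha, hc⟩, rfl⟩ ⟨hb, hd⟩
  have e2 : (G m).prod (K m) ⊓ ((G0 (m - 1)).prod (K0 (m - 1))).comap (D.prodMap D') =
      (G m ⊓ (G0 (m - 1)).comap D).prod (K m ⊓ (K0 (m - 1)).comap D') := by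
    ext ⟨x, y⟩
    simp only [Submodule.mem_inf, Submodule.mem_prod, Submodule.mem_comap, LinearMap.prodMap_apply]
    tauto
  rw [e1, e2]
  have hDD : ∀ x, D (D x) = 0 := fun x => LinearMap.congr_fun hD x
  have hDD' : ∀ x, D' (D' x) = 0 := fun x => LinearMap.congr_fun hD' x
  refine Λ.rel_prod ?_ ?_
  · refine sup_le ?_ ?_
    · rintro _ ⟨g, hg, rfl⟩
      refine ⟨hG m ⟨g, hg, rfl⟩, ?_⟩
      rw [SetLike.mem_coe, Submodule.mem_comap, hDD]; exact Submodule.zero_mem _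
    · intro x hx
      exact ⟨h1 m hx, hG0.map_le m ⟨x, hx, rfl⟩⟩
  · refine sup_le ?_ ?_
    · rintro _ ⟨g, hg, rfl⟩
      refine ⟨hK m ⟨g, hg, rfl⟩, ?_⟩
      rw [SetLike.mem_coe, Submodule.mem_comap, hDD']; exact Submodule.zero_mem _
    · intro x hx
      exact ⟨h2 m hx, hK0.map_le m ⟨x, hx, rfl⟩⟩

variable {Λ} {d N : ℕ} {g : ℕ → ℤ → ℤ} {l : ℕ → ℤ → ℝ≥0∞} {H : (ℕ → ℤ) → ℤ → Submodule A U}

/-- only the degrees with nonzero length matter. -/
lemma Stair.change (hH : Stair Λ D d N g l H) (g' : ℕ → ℤ → ℤ)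
    (hg : ∀ i k, l i k ≠ 0 → g' i k = g i k) : Stair Λ D d N g' l H where
  anti := hH.anti
  stable := hH.stable
  step := by
    intro κ i hi h1 h2 m
    rw [hH.step κ i hi h1 h2 m]
    by_cases h3 : l i (κ i) = 0
    · rw [h3]; simp
    · rw [hg i _ h3]

lemma Stair.total_null (hH : Stair Λ D d N g l H) (hD : D ∘ₗ D = 0) (κs κe : ℕ → ℤ)
    (hle : ∀ i ≤ d, κs i ≤ κe i)
    (hss : ∀ i < d, κs i ≤ κs (i + 1) + N) (hse : ∀ i < d, κe i ≤ κe (i + 1) + N) (m : ℤ)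
    (hm : ∀ i ≤ d, ∀ k, κs i ≤ k → k < κe i → m = g i k → l i k = 0) :
    h Λ D (H κs) (H κe) m = 0 := by
  classical
  have hH' := hH.change (fun i k => if l i k = 0 then m + 1 else g i k)
    (fun i k hk => by simp [hk])
  refine (hH'.total hD κs κe hle hss hse).1 m fun i hi k h1 h2 => ?_
  intro h3
  by_cases h4 : l i k = 0
  · simp only [h4, if_true] at h3; omega
  · simp only [h4, if_false] at h3
    exact h4 (hm i hi k h1 h2 h3)

end KHom

end Crest.Agent.R183
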