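/-
R183 (Lech), Theorem K: the total complex `C ⊗ (Čech package)`.    helper685
-/
import Mathlib
import Crest.Agent.R183.KT0
import Crest.Agent.R183.KHom3
import Crest.Agent.R183.KPkg
import Crest.Agent.R183.Res3

set_option autoImplicit false

namespace Crest.Agent.R183.KT

open scoped ENNReal
open KF KHom Res

universe u v

variable {A : Type u} [CommRing A] {V : Type v} [AddCommGroup V] [Module A V]

/-- the ambient module. -/
abbrev UU (C : MCx A) (V : Type v) : Type v := (i : ℕ) → C.ι i → V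

/-- the total differential. -/
def DD (C : MCx A) (δ : V →ₗ[A] V) : UU C V →ₗ[A] UU C V :=
  LinearMap.pi fun i => (C.dM V i) ∘ₗ LinearMap.proj (i + 1) +
    ((-1 : A) ^ i) • ((post (C.ι i) δ) ∘ₗ LinearMap.proj i)

lemma DD_apply (C : MCx A) (δ : V →ₗ[A] V) (x : UU C V) (i : ℕ) :
    DD C δ x i = C.dM V i (x (i + 1)) + (-1 : A) ^ i • post (C.ι i) δ (x i) := rfl

lemma DD_apply' (C : MCx A) (δ : V →ₗ[A] V) (x : UU C V) (i : ℕ) (a : C.ι i) :
    DD C δ x i a = (∑ b, C.d i a b • x (i + 1) b) + (-1 : A) ^ i • δ (x i a) := rfl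

lemma DD_DD (C : MCx A) {δ : V →ₗ[A] V} (hδ : δ ∘ₗ δ = 0) : DD C δ ∘ₗ DD C δ = 0 := by
  ext1 x
  funext i
  rw [LinearMap.comp_apply, DD_apply, DD_apply, DD_apply, map_add, C.dM_dM, map_smul, zero_add,
    MCx.dM_post, map_add, map_smul, smul_add, smul_smul]
  have h1 : post (C.ι i) δ (post (C.ι i) δ (x i)) = 0 := by
    funext a
    exact LinearMap.congr_fun hδ (x i a)
  rw [h1, smul_zero, add_zero, ← add_smul]
  have h2 : (-1 : A) ^ (i + 1) + (-1) ^ i = 0 := by ring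
  rw [h2, zero_smul]; rfl

/-- families given by a submodule of `V` in every degree. -/
def fam (C : MCx A) (P : ℕ → Submodule A V) : Submodule A (UU C V) :=
  Submodule.pi Set.univ fun i => Submodule.pi Set.univ fun _ : C.ι i => P i

lemma mem_fam {C : MCx A} {P : ℕ → Submodule A V} {x : UU C V} :
    x ∈ fam C P ↔ ∀ i a, x i a ∈ P i := by
  simp [fam, Submodule.mem_pi]

lemma fam_mono {C : MCx A} {d : ℕ} (hC : C.Len d) {P Q : ℕ → Submodule A V}
    (h : ∀ i ≤ d, P i ≤ Q i) : fam C P ≤ fam C Q := by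
  intro x hx
  rw [mem_fam] at hx ⊢
  intro i a
  by_cases hi : i ≤ d
  · exact h i hi (hx i a)
  · exact ((hC i (by omega)).false a).elim

lemma DD_fam {C : MCx A} {d : ℕ} (hC : C.Len d) {δ : V →ₗ[A] V} {P Q : ℕ → Submodule A V}
    (h1 : ∀ i < d, ∀ a b, ∀ y ∈ P (i + 1), C.d i a b • y ∈ Q i)
    (h2 : ∀ i ≤ d, ∀ y ∈ P i, δ y ∈ Q i) {x : UU C V} (hx : x ∈ fam C P) :
    DD C δ x ∈ fam C Q := by
  rw [mem_fam] at hx ⊢
  intro i a
  rw [DD_apply']
  have hi : i ≤ d := by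
    by_contra h
    exact (hC i (by omega)).false a
  refine Submodule.add_mem _ (Submodule.sum_mem _ fun b _ => ?_)
    (Submodule.smul_mem _ _ (h2 i hi _ (hx i a)))
  have hi' : i < d := by
    by_contra h
    exact (hC (i + 1) (by omega)).false b
  exact h1 i hi' a b _ (hx (i + 1) b)

/-- single component. -/
def sgl (C : MCx A) (V : Type v) [AddCommGroup V] [Module A V] (i : ℕ) :
    (C.ι i → V) →ₗ[A] UU C V :=
  LinearMap.single A (fun i => C.ι i → V) i

lemma sgl_same (C : MCx A) (i : ℕ) (z : C.ι i → V) : sgl C V i z i = z := by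
  simp [sgl]

lemma sgl_ne (C : MCx A) {i j : ℕ} (h : j ≠ i) (z : C.ι i → V) : sgl C V i z j = 0 := by
  simp [sgl, Pi.single_eq_of_ne h]

lemma sgl_mem_fam {C : MCx A} {P : ℕ → Submodule A V} {i : ℕ} {z : C.ι i → V}
    (hz : ∀ a, z a ∈ P i) : sgl C V i z ∈ fam C P := by
  rw [mem_fam]
  intro j a
  by_cases h : j = i
  · subst h; rw [sgl_same]; exact hz a
  · rw [sgl_ne C h]; exact Submodule.zero_mem _

section pkg

variable {Λ : AddLen.{u, v} A} {W : Type v} [AddCommGroup W] [Module A W] {n : ℕ}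
  {X : Fin (n + 1) → A} {δ : V →ₗ[A] V} {FF : (Fin n → ℤ) → ℤ → ℤ → Submodule A V}
  {ZZ : (Fin n → ℤ) → ℤ → Submodule A V}

/-- the staircase families. -/
def HH (C : MCx A) (FF : (Fin n → ℤ) → ℤ → ℤ → Submodule A V) (ρ : Fin n → ℤ) (κ : ℕ → ℤ) (m : ℤ) :
    Submodule A (UU C V) := fam C fun i => FF ρ (κ i) ((i : ℤ) - m)

/-- the relations. -/
def ZT (C : MCx A) (ZZ : (Fin n → ℤ) → ℤ → Submodule A V) (ρ : Fin n → ℤ) (m : ℤ) :
    Submodule A (UU C V) := fam C fun i => ZZ ρ ((i : ℤ) - m)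

/-- entries of `C` map `W` into `(X)^N W`. -/
def Ent (C : MCx A) (W : Type v) [AddCommGroup W] [Module A W] (X : Fin (n + 1) → A) (N : ℕ) :
    Prop := ∀ i a b (w : W), C.d i a b • w ∈ (Ideal.span (Set.range X)) ^ N • (⊤ : Submodule A W)

variable (P : Pkg Λ W X V δ FF ZZ)

include P in
lemma anti' (ρ : Fin n → ℤ) {k k' : ℤ} (h : k ≤ k') (j : ℤ) : FF ρ k' j ≤ FF ρ k j := by
  obtain ⟨r, rfl⟩ : ∃ r : ℕ, k' = k + r := ⟨(k' - k).toNat, by omega⟩
  clear h
  induction r with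
  | zero => simp
  | succ r ih =>
    refine le_trans ?_ ih
    have := P.anti ρ (k + r) j
    rwa [add_assoc] at this

variable {C : MCx A} {N : ℕ}

include P in
lemma HH_anti (hC : C.Len (n + 1)) (ρ : Fin n → ℤ) (κ κ' : ℕ → ℤ)
    (h : ∀ i ≤ n + 1, κ i ≤ κ' i) (m : ℤ) : HH C FF ρ κ' m ≤ HH C FF ρ κ m :=
  fam_mono hC fun i hi => anti' P ρ (h i hi) _

include P in
lemma ZT_le (ρ : Fin n → ℤ) (κ : ℕ → ℤ) (m : ℤ) : ZT C ZZ ρ m ≤ HH C FF ρ κ m := by
  intro x hx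
  unfold ZT at hx
  unfold HH
  rw [mem_fam] at hx ⊢
  exact fun i a => P.ZZ_le _ _ _ (hx i a)

include P in
lemma HH_stable (hC : C.Len (n + 1)) (hE : Ent C W X N) (ρ : Fin n → ℤ) (κ : ℕ → ℤ)
    (h : ∀ i < n + 1, κ i ≤ κ (i + 1) + N) : Stable (DD C δ) (HH C FF ρ κ) := by
  rintro m _ ⟨x, hx, rfl⟩
  refine DD_fam hC ?_ ?_ hx
  · intro i hi a b y hy
    have h1 := P.raise (C.d i a b) N (hE i a b) ρ _ _ y hy
    refine anti' P ρ (h i hi) _ ?_
    convert h1 using 2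
    push_cast; ring
  · intro i _ y hy
    have h1 := P.δFF ρ (κ i) ((i : ℤ) - (m + 1)) ⟨y, hy, rfl⟩
    convert h1 using 2
    ring

include P in
lemma ZT_stable (hC : C.Len (n + 1)) (ρ : Fin n → ℤ) : Stable (DD C δ) (ZT C ZZ ρ) := by
  rintro m _ ⟨x, hx, rfl⟩
  refine DD_fam hC ?_ ?_ hx
  · intro i _ a b y hy
    refine Submodule.smul_mem _ _ ?_
    convert hy using 2
    push_cast; ring
  · intro i _ y hy
    have h1 := P.δZZ ρ ((i : ℤ) - (m + 1)) ⟨y, hy, rfl⟩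
    convert h1 using 2
    ring

/-- powers of submodules. -/
abbrev pw (ι : Type) (S : Submodule A V) : Submodule A (ι → V) := Submodule.pi Set.univ fun _ => S

include P in
/-- **step lemma**: the graded pieces. -/
lemma step_eq (hC : C.Len (n + 1)) (hE : Ent C W X N) (ρ : Fin n → ℤ) (κ : ℕ → ℤ) (i0 : ℕ)
    (hi0 : i0 ≤ n + 1) (h1 : ∀ i < n + 1, κ i ≤ κ (i + 1) + N)
    (h2 : ∀ j < n + 1, Function.update κ i0 (κ i0 + 1) j ≤
      Function.update κ i0 (κ i0 + 1) (j + 1) + N) (m : ℤ) :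
    h Λ (DD C δ) (HH C FF ρ κ) (HH C FF ρ (Function.update κ i0 (κ i0 + 1))) m =
      Fintype.card (C.ι i0) *
        Λ.rel ((FF ρ (κ i0) ((i0 : ℤ) - m - 1)).map δ ⊔ FF ρ (κ i0 + 1) ((i0 : ℤ) - m))
          (FF ρ (κ i0) ((i0 : ℤ) - m) ⊓ (FF ρ (κ i0 + 1) ((i0 : ℤ) - m + 1)).comap δ) := by
  set κ' := Function.update κ i0 (κ i0 + 1) with hκ'
  set j : ℤ := (i0 : ℤ) - m with hj
  have hstκ := HH_stable P hC hE ρ κ h1
  have hstκ' := HH_stable P hC hE ρ κ' h2
  have hκ'0 : κ' i0 = κ i0 + 1 := by rw [hκ']; exact Function.update_self _ _ _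
  have hκ'n : ∀ i, i ≠ i0 → κ' i = κ i := fun i hi => by rw [hκ']; exact Function.update_of_ne hi _ _
  have hle : ∀ i ≤ n + 1, κ i ≤ κ' i := by
    intro i _
    by_cases hi : i = i0
    · subst hi; rw [hκ'0]; omega
    · rw [hκ'n i hi]
  -- membership in the smaller family
  have hmem : ∀ (m' : ℤ) (x : UU C V), x ∈ HH C FF ρ κ m' →
      (∀ a, x i0 a ∈ FF ρ (κ i0 + 1) ((i0 : ℤ) - m')) → x ∈ HH C FF ρ κ' m' := by
    intro m' x hx hx0
    unfold HH at hx ⊢
    rw [mem_fam] at hx ⊢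
    intro i a
    by_cases hi : i = i0
    · subst hi; rw [hκ'0]; exact hx0 a
    · rw [hκ'n i hi]; exact hx i a
  -- the `C`-part of the differential at `i0` is small
  have hpart : ∀ (m' : ℤ) (x : UU C V), x ∈ HH C FF ρ κ (m' + 1) →
      ∀ a, (∑ b, C.d i0 a b • x (i0 + 1) b) ∈ FF ρ (κ i0 + 1) ((i0 : ℤ) - m') := by
    intro m' x hx a
    refine Submodule.sum_mem _ fun b _ => ?_
    have hi' : i0 < n + 1 := by
      by_contra h
      exact (hC (i0 + 1) (by omega)).false b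
    have h3 := h2 i0 hi'
    rw [hκ'0, hκ'n _ (by omega)] at h3
    refine anti' P ρ h3 _ ?_
    have h4 := P.raise (C.d i0 a b) N (hE i0 a b) ρ _ _ _ ((mem_fam.1 hx) (i0 + 1) b)
    convert h4 using 2
    push_cast; ring
  have hsgn : ∀ (y : V) (S : Submodule A V), (-1 : A) ^ i0 • y ∈ S ↔ y ∈ S := by
    intro y S
    rcases neg_one_pow_eq_or A i0 with h | h <;> rw [h] <;> simp
  unfold h
  set S := (HH C FF ρ κ (m + 1)).map (DD C δ) ⊔ HH C FF ρ κ' m with hS
  set T := HH C FF ρ κ m ⊓ (HH C FF ρ κ' (m - 1)).comap (DD C δ) with hT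
  set S0 : Submodule A (C.ι i0 → V) :=
    pw (C.ι i0) ((FF ρ (κ i0) (j - 1)).map δ ⊔ FF ρ (κ i0 + 1) j) with hS0
  set T0 : Submodule A (C.ι i0 → V) :=
    pw (C.ι i0) (FF ρ (κ i0) j ⊓ (FF ρ (κ i0 + 1) (j + 1)).comap δ) with hT0
  let pr : UU C V →ₗ[A] (C.ι i0 → V) := LinearMap.proj i0
  have hDDx : ∀ x, DD C δ (DD C δ x) = 0 := fun x => LinearMap.congr_fun (DD_DD C P.δδ) x
  -- `T`
  have hTpr : T.map pr = T0 := by
    apply le_antisymm
    · rintro _ ⟨x, ⟨hx1, hx2⟩, rfl⟩ a _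
      refine ⟨(mem_fam.1 hx1) i0 a, ?_⟩
      have h3 := (mem_fam.1 hx2) i0 a
      rw [hκ'0, DD_apply'] at h3
      have h4 := hpart (m - 1) x (by rw [sub_add_cancel]; exact hx1) a
      have h5 := Submodule.sub_mem _ h3 h4
      rw [add_sub_cancel_left, hsgn] at h5
      rw [SetLike.mem_coe, Submodule.mem_comap]
      have h6 : (i0 : ℤ) - (m - 1) = j + 1 := by rw [hj]; ring
      rw [← h6]
      exact h5
    · intro z hz
      refine ⟨sgl C V i0 z, ⟨?_, ?_⟩, sgl_same C i0 z⟩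
      · exact sgl_mem_fam fun a => (hz a (Set.mem_univ a)).1
      · rw [SetLike.mem_coe, Submodule.mem_comap]
        have h3 : sgl C V i0 z ∈ HH C FF ρ κ m := sgl_mem_fam fun a => (hz a (Set.mem_univ a)).1
        refine hmem _ _ (hstκ.map_le m ⟨_, h3, rfl⟩) fun a => ?_
        rw [DD_apply', sgl_same, sgl_ne C (by omega)]
        simp only [Pi.zero_apply, smul_zero, Finset.sum_const_zero, zero_add]
        rw [hsgn]
        have h4 := (hz a (Set.mem_univ a)).2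
        rw [SetLike.mem_coe, Submodule.mem_comap] at h4
        have h6 : (i0 : ℤ) - (m - 1) = j + 1 := by rw [hj]; ring
        rw [h6]; exact h4
  -- `S`
  have hSeq : S = S0.comap pr ⊓ T := by
    apply le_antisymm
    · refine sup_le ?_ ?_
      · rintro _ ⟨y, hy, rfl⟩
        refine ⟨?_, hstκ m ⟨y, hy, rfl⟩, ?_⟩
        · intro a _
          change DD C δ y i0 a ∈ _
          rw [DD_apply']
          refine Submodule.add_mem _ (Submodule.mem_sup_right (hpart m y hy a))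
            (Submodule.mem_sup_left (Submodule.smul_mem _ _ ⟨y i0 a, ?_, rfl⟩))
          have h3 := (mem_fam.1 hy) i0 a
          have h6 : (i0 : ℤ) - (m + 1) = j - 1 := by rw [hj]; ring
          rw [h6] at h3; exact h3
        · rw [SetLike.mem_coe, Submodule.mem_comap, hDDx]; exact Submodule.zero_mem _
      · intro x hx
        refine ⟨?_, HH_anti P hC ρ κ κ' hle m hx, hstκ'.map_le m ⟨x, hx, rfl⟩⟩
        intro a _
        have h3 := (mem_fam.1 hx) i0 a
        rw [hκ'0] at h3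
        exact Submodule.mem_sup_right h3
    · rintro x ⟨hx1, hx2, _⟩
      have hx1' : ∀ a, ∃ z ∈ FF ρ (κ i0) (j - 1), ∃ f ∈ FF ρ (κ i0 + 1) j, δ z + f = x i0 a := by
        intro a
        obtain ⟨_, ⟨z, hz, rfl⟩, f, hf, h3⟩ := Submodule.mem_sup.1 (hx1 a (Set.mem_univ a))
        exact ⟨z, hz, f, hf, h3⟩
      choose z hz f hf hzf using hx1'
      have h6 : (i0 : ℤ) - (m + 1) = j - 1 := by rw [hj]; ring
      have hy : sgl C V i0 ((-1 : A) ^ i0 • z) ∈ HH C FF ρ κ (m + 1) :=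
        sgl_mem_fam fun a => Submodule.smul_mem _ _ (by rw [h6]; exact hz a)
      have hx3 : x = DD C δ (sgl C V i0 ((-1 : A) ^ i0 • z)) +
          (x - DD C δ (sgl C V i0 ((-1 : A) ^ i0 • z))) := by abel
      rw [hx3]
      refine Submodule.add_mem_sup ⟨_, hy, rfl⟩ ?_
      refine hmem _ _ (Submodule.sub_mem _ hx2 (hstκ m ⟨_, hy, rfl⟩)) fun a => ?_
      have h7 : (x - DD C δ (sgl C V i0 ((-1 : A) ^ i0 • z))) i0 a = f a := by
        change x i0 a - DD C δ (sgl C V i0 ((-1 : A) ^ i0 • z)) i0 a = f a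
        rw [DD_apply', sgl_same, sgl_ne C (by omega)]
        simp only [Pi.zero_apply, smul_zero, Finset.sum_const_zero, zero_add, Pi.smul_apply,
          map_smul, smul_smul]
        have h8 : (-1 : A) ^ i0 * (-1) ^ i0 = 1 := by
          rw [← mul_pow]; simp
        rw [h8, one_smul, ← hzf a, add_sub_cancel_left]
      rw [h7]
      exact hf a
  rw [hSeq, Λ.rel_inf, Λ.rel_comap, hTpr, hS0, hT0, Λ.rel_pi]

/-- lengths of the pieces -/
noncomputable def LX (Λ : AddLen.{u, v} A) (W : Type v) [AddCommGroup W] [Module A W]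
    (X : Fin (n + 1) → A) : ℝ≥0∞ :=
  Λ.L (W ⧸ ((Ideal.span (Set.range X)) • (⊤ : Submodule A W)))

lemma Jd0_eq (ρ : Fin n → ℤ) (k : ℤ) : Jd0 ρ k = (KFin.jj ρ k : ℤ) := rfl

lemma rk_eq (ρ : Fin n → ℤ) (k : ℤ) : rk ρ k = (∏ l, (k - ρ l)).natAbs := by
  unfold rk
  exact (map_prod Int.natAbsHom _ _).symm

include P in
/-- the staircase system. -/
theorem stair (hC : C.Len (n + 1)) (hE : Ent C W X N) (ρ : Fin n → ℤ) :
    Stair Λ (DD C δ) (n + 1) N (KFin.gg ρ)
      (KFin.ll ρ (fun i => Fintype.card (C.ι i)) (LX Λ W X)) (HH C FF ρ) where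
  anti := fun κ κ' h m => HH_anti P hC ρ κ κ' h m
  stable := fun κ h => HH_stable P hC hE ρ κ h
  step := by
    intro κ i hi h1 h2 m
    rw [step_eq P hC hE ρ κ i hi h1 h2 m]
    split_ifs with hm
    · have hj : (i : ℤ) - m = Jd0 ρ (κ i) := by
        rw [hm, KFin.gg, Jd0_eq]; ring
      rw [hj, P.piece_len ρ (κ i), KFin.ll, rk_eq, mul_assoc]
      rfl
    · have hj : (i : ℤ) - m ≠ Jd0 ρ (κ i) := by
        intro h3
        apply hm
        rw [KFin.gg, ← Jd0_eq, ← h3]; ring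
      rw [Λ.rel_of_le, mul_zero]
      rintro y ⟨hy1, hy2⟩
      obtain ⟨y', hy', h3⟩ := P.piece_null ρ (κ i) _ hj y hy1 hy2
      have : y = δ y' + (y - δ y') := by abel
      rw [this]
      exact Submodule.add_mem_sup ⟨y', hy', rfl⟩ h3

end pkg

end Crest.Agent.R183.KT
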