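/-
R183 (Lech), Theorem K: bounded loss, vanishing, the core inequality.    helper685
-/
import Mathlib
import Crest.Agent.R183.KT1

set_option autoImplicit false

namespace Crest.Agent.R183.KT

open scoped ENNReal
open KF KHom Res

universe u v

variable {A : Type u} [CommRing A] {V : Type v} [AddCommGroup V] [Module A V]
variable {Λ : AddLen.{u, v} A} {W : Type v} [AddCommGroup W] [Module A W] {n : ℕ}
  {X : Fin (n + 1) → A} {δ : V →ₗ[A] V} {FF : (Fin n → ℤ) → ℤ → ℤ → Submodule A V}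
  {ZZ : (Fin n → ℤ) → ℤ → Submodule A V}
variable (P : Pkg Λ W X V δ FF ZZ) {C : MCx A} {N : ℕ}

include P in
lemma DD_const (hC : C.Len (n + 1)) (ρ : Fin n → ℤ) (K : ℤ) :
    Stable (DD C δ) (HH C FF ρ fun _ => K) := by
  rintro m _ ⟨x, hx, rfl⟩
  refine DD_fam hC ?_ ?_ hx
  · intro i _ a b y hy
    refine Submodule.smul_mem _ _ ?_
    convert hy using 2
    push_cast; ring
  · intro i _ y hy
    have h1 := P.δFF ρ K ((i : ℤ) - (m + 1)) ⟨y, hy, rfl⟩
    convert h1 using 2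
    ring

include P in
/-- **bounded loss.** -/
theorem bounded_loss (hC : C.Len (n + 1)) (N' : ℕ) (hN' : ∀ ν, X ν ^ N' ∈ C.nhI) :
    ∃ M : ℕ, ∀ (ρ : Fin n → ℤ) (K m : ℤ) (x : UU C V), x ∈ HH C FF ρ (fun _ => K) m →
      DD C δ x ∈ ZT C ZZ ρ (m - 1) →
      ∃ y ∈ HH C FF ρ (fun _ => K - M) (m + 1), x - DD C δ y ∈ ZT C ZZ ρ m := by
  obtain ⟨Mc, c, hc⟩ := P.contr N'
  have hN'' : ∀ ν, C.NHom (X ν ^ N') := fun ν => hN' ν
  choose s hs0 hs1 using hN''
  refine ⟨(n + 2) * Mc, fun ρ K m x hx hDx => ?_⟩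
  obtain ⟨hcF, hcZ, hcU⟩ := hc ρ
  have hDD : ∀ x, DD C δ (DD C δ x) = 0 := fun x => LinearMap.congr_fun (DD_DD C P.δδ) x
  -- induction
  have key : ∀ i : ℕ, ∃ y ∈ HH C FF ρ (fun _ => K - (i * Mc : ℕ)) (m + 1),
      ∀ i' < i, ∀ a, (x - DD C δ y) i' a ∈ ZZ ρ ((i' : ℤ) - m) := by
    intro i
    induction i with
    | zero => exact ⟨0, Submodule.zero_mem _, fun i' hi' => absurd hi' (Nat.not_lt_zero _)⟩
    | succ i ih =>
      obtain ⟨y, hy, hyZ⟩ := ih
      set x' := x - DD C δ y with hx'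
      have hx'm : x' ∈ HH C FF ρ (fun _ => K - (i * Mc : ℕ)) m := by
        refine Submodule.sub_mem _ (HH_anti P hC ρ _ _ (fun _ _ => by omega) m hx) ?_
        exact DD_const P hC ρ _ m ⟨y, hy, rfl⟩
      have hDx' : DD C δ x' ∈ ZT C ZZ ρ (m - 1) := by
        rw [hx', map_sub, hDD, sub_zero]; exact hDx
      set z := x' i with hz
      have hzF : ∀ a, z a ∈ FF ρ (K - (i * Mc : ℕ)) ((i : ℤ) - m) := fun a => (mem_fam.1 hx'm) i a
      let y1 : C.ι (i + 1) → V := ∑ ν, post _ (c ν) (act V (s ν i) z)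
      have hy1F : ∀ a, y1 a ∈ FF ρ (K - ((i + 1) * Mc : ℕ)) ((i : ℤ) - m) := by
        intro a
        simp only [y1, Finset.sum_apply]
        refine Submodule.sum_mem _ fun ν _ => ?_
        have h1 : (act V (s ν i) z) a ∈ FF ρ (K - (i * Mc : ℕ)) ((i : ℤ) - m) := by
          rw [act_apply]
          exact Submodule.sum_mem _ fun b _ => Submodule.smul_mem _ _ (hzF b)
        have h2 := hcF ν _ _ ⟨_, h1, rfl⟩
        have h3 : K - ((i + 1) * Mc : ℕ) = K - (i * Mc : ℕ) - (Mc : ℤ) := by push_cast; ring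
        rw [h3]
        exact h2
      -- the key computation
      have hcomp : ∀ a, z a - C.dM V i y1 a ∈ ZZ ρ ((i : ℤ) - m) := by
        intro a
        have e1 : C.dM V i y1 = ∑ ν, post _ (c ν) (act V (C.d i) (act V (s ν i) z)) := by
          simp only [y1]
          rw [map_sum]
          refine Finset.sum_congr rfl fun ν _ => ?_
          exact C.dM_post (c ν) i _
        have e2 : ∀ ν, (c ν) ((act V (C.d i) (act V (s ν i) z)) a) - c ν (X ν ^ N' • z a) ∈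
            ZZ ρ ((i : ℤ) - m) := by
          intro ν
          cases i with
          | zero =>
            rw [← act_mul, hs0, act_smul_one, Pi.smul_apply, sub_self]
            exact Submodule.zero_mem _
          | succ k =>
            have h1 : act V (C.d (k + 1)) (act V (s ν (k + 1)) z) =
                X ν ^ N' • z - act V (s ν k) (act V (C.d k) z) := by
              rw [← act_smul_one (X ν ^ N') z, ← hs1 ν k, act_add, act_mul, act_mul]
              abel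
            rw [h1, ← map_sub, Pi.sub_apply, Pi.smul_apply]
            have h2 : X ν ^ N' • z a - act V (s ν k) (act V (C.d k) z) a - X ν ^ N' • z a =
                - act V (s ν k) (act V (C.d k) z) a := by abel
            rw [h2]
            refine hcZ ν _ ⟨_, Submodule.neg_mem _ ?_, rfl⟩
            rw [act_apply]
            refine Submodule.sum_mem _ fun b _ => Submodule.smul_mem _ _ ?_
            -- `C.dM V k z` is a relation
            have h3 := (mem_fam.1 hDx') k b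
            have h4 := hyZ k (Nat.lt_succ_self k) b
            have h5 : DD C δ x' k b = act V (C.d k) z b + (-1 : A) ^ k • δ (x' k b) := rfl
            have h6 : δ (x' k b) ∈ ZZ ρ ((k : ℤ) - m + 1) := P.δZZ ρ _ ⟨_, h4, rfl⟩
            have e7 : (k : ℤ) - (m - 1) = ((k + 1 : ℕ) : ℤ) - m := by push_cast; ring
            have e8 : (k : ℤ) - m + 1 = ((k + 1 : ℕ) : ℤ) - m := by push_cast; ring
            rw [e8] at h6
            rw [e7, h5] at h3
            have h9 := Submodule.sub_mem _ h3 (Submodule.smul_mem _ ((-1 : A) ^ k) h6)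
            rwa [add_sub_cancel_right] at h9
        rw [e1, Finset.sum_apply]
        have e3 := hcU _ _ (z a) (hzF a)
        have e4 : z a - ∑ ν, (post (C.ι i) (c ν)) ((act V (C.d i)) ((act V (s ν i)) z)) a =
            -(∑ ν, (c ν ((act V (C.d i) (act V (s ν i) z)) a) - c ν (X ν ^ N' • z a))) -
            ((∑ ν, c ν (X ν ^ N' • z a)) - z a) := by
          rw [Finset.sum_sub_distrib]
          simp only [post_apply]
          abel
        rw [e4]
        exact Submodule.sub_mem _ (Submodule.neg_mem _ (Submodule.sum_mem _ fun ν _ => e2 ν)) e3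
      refine ⟨y + sgl C V (i + 1) y1, Submodule.add_mem _ ?_ ?_, ?_⟩
      · refine HH_anti P hC ρ _ _ (fun _ _ => ?_) _ hy
        push_cast
        nlinarith [Int.natCast_nonneg Mc]
      · refine sgl_mem_fam fun a => ?_
        have h1 := hy1F a
        convert h1 using 2
        push_cast; ring
      · intro i' hi' a
        have e5 : (x - DD C δ (y + sgl C V (i + 1) y1)) i' a =
            x' i' a - DD C δ (sgl C V (i + 1) y1) i' a := by
          rw [map_add, hx']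
          simp only [Pi.sub_apply, Pi.add_apply]
          abel
        rw [e5, DD_apply]
        rcases Nat.lt_succ_iff_lt_or_eq.1 hi' with h | h
        · rw [sgl_ne C (by omega), sgl_ne C (by omega)]
          simp only [map_zero, smul_zero, add_zero, Pi.zero_apply, sub_zero]
          exact hyZ i' h a
        · subst h
          rw [sgl_same, sgl_ne C (by omega)]
          simp only [map_zero, smul_zero, add_zero]
          exact hcomp a
  obtain ⟨y, hy, hyZ⟩ := key (n + 2)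
  refine ⟨y, hy, ?_⟩
  unfold ZT
  rw [mem_fam]
  intro i a
  by_cases hi : i ≤ n + 1
  · exact hyZ i (by omega) a
  · exact ((hC i (by omega)).false a).elim

/-- the conclusion of `bounded_loss` as a predicate. -/
def BL (C : MCx A) (δ : V →ₗ[A] V) (FF : (Fin n → ℤ) → ℤ → ℤ → Submodule A V)
    (ZZ : (Fin n → ℤ) → ℤ → Submodule A V) (M : ℕ) : Prop :=
  ∀ (ρ : Fin n → ℤ) (K m : ℤ) (x : UU C V), x ∈ HH C FF ρ (fun _ => K) m →
      DD C δ x ∈ ZT C ZZ ρ (m - 1) →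
      ∃ y ∈ HH C FF ρ (fun _ => K - M) (m + 1), x - DD C δ y ∈ ZT C ZZ ρ m

section core

variable {M : ℕ} (hBL : BL C δ FF ZZ M) (hC : C.Len (n + 1)) (hE : Ent C W X N) (ρ : Fin n → ℤ)
  (hΛ0 : LX Λ W X ≠ ⊤)

include hBL in
/-- images into the bigger family vanish. -/
lemma ii_zero {K : ℤ} {G' : ℤ → Submodule A (UU C V)} (m : ℤ)
    (hG' : G' m ≤ HH C FF ρ (fun _ => K) m) :
    Ii Λ (DD C δ) (HH C FF ρ fun _ => K - M) G' (ZT C ZZ ρ) m = 0 := by
  unfold Ii
  refine Λ.rel_of_le ?_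
  rintro x ⟨hx1, hx2⟩
  obtain ⟨y, hy, hxy⟩ := hBL ρ K m x (hG' hx1) hx2
  have : x = DD C δ y + (x - DD C δ y) := by abel
  rw [this]
  exact Submodule.add_mem_sup ⟨y, hy, rfl⟩ hxy

include P hBL hC hE hΛ0 in
/-- finiteness. -/
lemma finS_GZ (K : ℤ) : FinS (h Λ (DD C δ) (HH C FF ρ fun _ => K) (ZT C ZZ ρ)) := by
  have hD := DD_DD C P.δδ
  have st := stair P hC hE ρ
  have hGm : ∀ K : ℤ, ∀ i < n + 1, (fun _ : ℕ => K) i ≤ (fun _ : ℕ => K) (i + 1) + N := by
    intro K i _; simp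
  have hmono : ∀ m, HH C FF ρ (fun _ => K) m ≤ HH C FF ρ (fun _ => K - M) m := fun m =>
    HH_anti P hC ρ _ _ (fun _ _ => by simp) m
  have f1 := ((st.total hD (fun _ => K - M) (fun _ => K) (fun _ _ => by simp) (hGm _) (hGm _)).2
    (fun i _ k _ _ => KFin.ll_ne_top ρ _ hΛ0 i k)).1
  have f1' : FinS (fun n_1 => h Λ (DD C δ) (HH C FF ρ fun _ => K - M) (HH C FF ρ fun _ => K)
      (n_1 + 1)) := by
    refine FinS.unshift ?_
    simpa using f1
  refine f1'.mono fun m => ?_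
  rw [les_sub Λ hD (DD_const P hC ρ K) (ZT_stable P hC ρ) hmono (fun m => ZT_le P ρ _ m),
    ii_zero hBL ρ m le_rfl, add_zero,
    les_quot Λ hD (DD_const P hC ρ (K - M)) (DD_const P hC ρ K) hmono
      (fun m => ZT_le P ρ _ m) (G'' := ZT C ZZ ρ), add_sub_cancel_right]
  exact le_add_self

include P hBL hC hE in
/-- (V'): vanishing in negative degrees for large `K`. -/
lemma tail_null (K : ℤ) (hK : ∀ l, ρ l ≤ K) (m : ℤ) (hm : m < 0) :
    h Λ (DD C δ) (HH C FF ρ fun _ => K) (ZT C ZZ ρ) m = 0 := by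
  have hD := DD_DD C P.δδ
  have st := stair P hC hE ρ
  have hGm : ∀ K : ℤ, ∀ i < n + 1, (fun _ : ℕ => K) i ≤ (fun _ : ℕ => K) (i + 1) + N := by
    intro K i _; simp
  have hmono : ∀ m, HH C FF ρ (fun _ => K + M) m ≤ HH C FF ρ (fun _ => K) m := fun m =>
    HH_anti P hC ρ _ _ (fun _ _ => by simp) m
  have h1 := ii_zero (Λ := Λ) hBL ρ (K := K + M) (G' := HH C FF ρ fun _ => K + M) m le_rfl
  rw [add_sub_cancel_right] at h1
  have h2 : h Λ (DD C δ) (HH C FF ρ fun _ => K) (HH C FF ρ fun _ => K + M) m = 0 := by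
    refine st.total_null hD _ _ (fun _ _ => by simp) (hGm _) (hGm _) m fun i _ k hk _ hmk => ?_
    exfalso
    have : KFin.jj ρ k = 0 := by
      unfold KFin.jj
      rw [Finset.card_eq_zero, Finset.filter_eq_empty_iff]
      intro l _
      have := hK l
      omega
    rw [KFin.gg, this] at hmk
    omega
  rw [les_mid Λ hD (DD_const P hC ρ K) (ZT_stable P hC ρ) hmono (fun m => ZT_le P ρ _ m), h1,
    zero_add]
  rw [les_quot Λ hD (DD_const P hC ρ K) (DD_const P hC ρ (K + M)) hmono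
      (fun m => ZT_le P ρ _ m) (G'' := ZT C ZZ ρ), add_eq_zero] at h2
  exact h2.1

include P hBL hC hE hΛ0 in
/-- `χ(G_K/Z)` is independent of `K`. -/
lemma chi_K {b : ℕ → ℕ} (hbC : ∀ i, Fintype.card (C.ι i) = b i)
    (hb : ∑ i ∈ Finset.range (n + 1 + 1), (-1 : ℤ) ^ i * b i = 0) {K K' : ℤ} (hKK : K ≤ K') :
    chi (h Λ (DD C δ) (HH C FF ρ fun _ => K) (ZT C ZZ ρ)) =
      chi (h Λ (DD C δ) (HH C FF ρ fun _ => K') (ZT C ZZ ρ)) := by
  have hD := DD_DD C P.δδ
  have st := stair P hC hE ρ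
  have hGm : ∀ K : ℤ, ∀ i < n + 1, (fun _ : ℕ => K) i ≤ (fun _ : ℕ => K) (i + 1) + N := by
    intro K i _; simp
  have hmono : ∀ m, HH C FF ρ (fun _ => K') m ≤ HH C FF ρ (fun _ => K) m := fun m =>
    HH_anti P hC ρ _ _ (fun _ _ => hKK) m
  obtain ⟨f1, e1⟩ := (st.total hD (fun _ => K) (fun _ => K') (fun _ _ => hKK) (hGm _) (hGm _)).2
    (fun i _ k _ _ => KFin.ll_ne_top ρ _ hΛ0 i k)
  rw [chi_les Λ hD (DD_const P hC ρ K) (DD_const P hC ρ K') (ZT_stable P hC ρ) hmono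
    (fun m => ZT_le P ρ _ m) (finS_GZ P hBL hC hE ρ hΛ0 K') f1, e1]
  have h2 : ∀ i ∈ Finset.range (n + 1 + 1), ∑ k ∈ Finset.Ico K K',
      (-1 : ℝ) ^ (KFin.gg ρ i k) * (KFin.ll ρ (fun i => Fintype.card (C.ι i)) (LX Λ W X) i k).toReal
      = ((-1 : ℝ) ^ i * b i) * ((LX Λ W X).toReal *
          (∑ k ∈ Finset.Ico K K', ∏ l, (k - ρ l) : ℤ)) := by
    intro i _
    rw [Finset.sum_congr rfl fun k _ => KFin.sign_ll ρ _ (LX Λ W X) i k, ← Finset.mul_sum,
      ← Finset.mul_sum, ← Int.cast_sum, hbC i]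
    ring
  rw [Finset.sum_congr rfl h2, ← Finset.sum_mul]
  have h4 : ∑ i ∈ Finset.range (n + 1 + 1), (-1 : ℝ) ^ i * (b i : ℝ) = 0 := by exact_mod_cast hb
  rw [h4]; ring

/-- the function `c`. -/
noncomputable def cc (Λ : AddLen.{u, v} A) (C : MCx A) (δ : V →ₗ[A] V)
    (FF : (Fin n → ℤ) → ℤ → ℤ → Submodule A V) (ZZ : (Fin n → ℤ) → ℤ → Submodule A V)
    (ρ : Fin n → ℤ) : ℝ := chi (h Λ (DD C δ) (HH C FF ρ fun _ => 0) (ZT C ZZ ρ))

include P hBL hC hE hΛ0 in
lemma chi_eq_cc {b : ℕ → ℕ} (hbC : ∀ i, Fintype.card (C.ι i) = b i)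
    (hb : ∑ i ∈ Finset.range (n + 1 + 1), (-1 : ℤ) ^ i * b i = 0) (K : ℤ) :
    chi (h Λ (DD C δ) (HH C FF ρ fun _ => K) (ZT C ZZ ρ)) = cc Λ C δ FF ZZ ρ := by
  rcases le_total 0 K with hK | hK
  · exact (chi_K P hBL hC hE ρ hΛ0 hbC hb hK).symm
  · exact chi_K P hBL hC hE ρ hΛ0 hbC hb hK

include P hBL hC hE hΛ0 in
/-- **core inequality** -/
theorem core_ineq (hN : 1 ≤ N) {b : ℕ → ℕ} (hbC : ∀ i, Fintype.card (C.ι i) = b i)
    (hb : ∑ i ∈ Finset.range (n + 1 + 1), (-1 : ℤ) ^ i * b i = 0) {τ : ℕ}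
    (hρ : KFin.IsRoots (n + 1) τ N n ρ) :
    0 ≤ cc Λ C δ FF ZZ ρ + (LX Λ W X).toReal *
      ∑ i ∈ Finset.range (n + 1 + 1), (-1 : ℝ) ^ i * b i * (KNum.S (n + 1) N τ i : ℝ) := by
  have hD := DD_DD C P.δδ
  have st := stair P hC hE ρ
  have hZst := ZT_stable (C := C) P hC ρ
  have hGm : ∀ K : ℤ, ∀ i < n + 1, (fun _ : ℕ => K) i ≤ (fun _ : ℕ => K) (i + 1) + N := by
    intro K i _; simp
  set κ0 : ℕ → ℤ := fun i => -(i * N : ℤ) with hκ0
  have hs0 : ∀ i < n + 1, κ0 i ≤ κ0 (i + 1) + N := by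
    intro i _; simp only [hκ0]; push_cast; linarith [mul_comm (i : ℤ) N]
  have hst0 : Stable (DD C δ) (HH C FF ρ κ0) := st.stable _ hs0
  have hroot : ∀ l, ρ l ≤ 0 := by
    obtain ⟨e, _, _, hr⟩ := hρ.ex
    intro l
    rw [hr l]
    have : (0 : ℤ) ≤ (e l : ℤ) * N := by positivity
    linarith
  -- (A)
  set K1 : ℤ := -((n + 1 : ℕ) * N : ℤ) with hK1
  have hκ0K1 : ∀ i ≤ n + 1, K1 ≤ κ0 i := by
    intro i hi
    simp only [hκ0, hK1]
    have : (i : ℤ) * N ≤ ((n + 1 : ℕ) : ℤ) * N := by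
      have : (i : ℤ) ≤ ((n + 1 : ℕ) : ℤ) := by exact_mod_cast hi
      nlinarith [Int.natCast_nonneg N]
    linarith
  have hmono1 : ∀ m, HH C FF ρ κ0 m ≤ HH C FF ρ (fun _ => K1 - M) m := fun m =>
    HH_anti P hC ρ _ _ (fun i hi => by have := hκ0K1 i hi; omega) m
  have hpos : ∀ m : ℤ, 1 ≤ m → h Λ (DD C δ) (HH C FF ρ κ0) (ZT C ZZ ρ) m = 0 := by
    intro m hm
    have h1 := ii_zero (Λ := Λ) hBL ρ (K := K1) (G' := HH C FF ρ κ0) m
      (HH_anti P hC ρ _ _ hκ0K1 m)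
    have h2 : h Λ (DD C δ) (HH C FF ρ fun _ => K1 - M) (HH C FF ρ κ0) (m + 1) = 0 := by
      refine st.total_null hD _ _ (fun i hi => by have := hκ0K1 i hi; omega)
        (hGm _) hs0 (m + 1) fun i hi k _ hk hmk => ?_
      exfalso
      have := hρ.le_jj i hi k hk
      rw [KFin.gg] at hmk
      omega
    rw [les_quot Λ hD (DD_const P hC ρ _) hst0 hmono1 (fun m => ZT_le P ρ _ m)
      (G'' := ZT C ZZ ρ), add_eq_zero, add_sub_cancel_right] at h2
    rw [les_sub Λ hD hst0 hZst hmono1 (fun m => ZT_le P ρ _ m), h1, h2.2, add_zero]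
  -- (C)
  have hle0 : ∀ i ≤ n + 1, κ0 i ≤ (fun _ : ℕ => (0 : ℤ)) i := by
    intro i _
    have : (0 : ℤ) ≤ (i * N : ℤ) := by positivity
    simp only [hκ0]; linarith
  have hmono0 : ∀ m, HH C FF ρ (fun _ => 0) m ≤ HH C FF ρ κ0 m := fun m =>
    HH_anti P hC ρ _ _ hle0 m
  have hneg : ∀ m : ℤ, m < 0 → h Λ (DD C δ) (HH C FF ρ κ0) (ZT C ZZ ρ) m = 0 := by
    intro m hm
    refine null_mid Λ hD hst0 (DD_const P hC ρ 0) hZst hmono0 (fun m => ZT_le P ρ _ m)
      (tail_null P hBL hC hE ρ 0 hroot m hm) ?_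
    refine st.total_null hD _ _ hle0 hs0 (hGm _) m fun i _ k hk _ hmk => ?_
    exfalso
    have := hρ.jj_le hN i k hk
    rw [KFin.gg] at hmk
    omega
  -- Euler characteristics
  obtain ⟨f1, e1⟩ := (st.total hD κ0 (fun _ => 0) hle0 hs0 (hGm _)).2
    (fun i _ k _ _ => KFin.ll_ne_top ρ _ hΛ0 i k)
  have e2 := chi_les Λ hD hst0 (DD_const P hC ρ 0) hZst hmono0 (fun m => ZT_le P ρ _ m)
    (finS_GZ P hBL hC hE ρ hΛ0 0) f1
  have e3 : 0 ≤ chi (h Λ (DD C δ) (HH C FF ρ κ0) (ZT C ZZ ρ)) := by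
    unfold chi
    rw [finsum_eq_single _ (0 : ℤ)]
    · simp
    · intro m hm
      rcases lt_or_gt_of_ne hm with h3 | h3
      · rw [hneg m h3]; simp
      · rw [hpos m (by omega)]; simp
  rw [e2, e1] at e3
  refine e3.trans_eq ?_
  unfold cc
  congr 1
  rw [Finset.mul_sum]
  refine Finset.sum_congr rfl fun i _ => ?_
  rw [Finset.sum_congr rfl fun k _ => KFin.sign_ll ρ _ (LX Λ W X) i k, ← Finset.mul_sum,
      ← Finset.mul_sum, ← Int.cast_sum, hbC i]
  have h5 := hρ.sum_eq i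
  simp only [hκ0]
  rw [h5]

end core

end Crest.Agent.R183.KT
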