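/-
R183 (Lech), Theorem K: affinity, shift, staircases, final inequality.    helper685
-/
import Mathlib
import Crest.Agent.R183.KT2

set_option autoImplicit false

namespace Crest.Agent.R183.KT

open scoped ENNReal Nat
open KF KHom Res

universe u v

section numeric

open Finset KNum

/-- **The final inequality**, from a function `c` (with `≤` at the staircases). -/
theorem final_of_c' (n : ℕ) (b : ℕ → ℕ)
    (hb : ∑ i ∈ Finset.range (n + 1 + 1), (-1 : ℤ) ^ i * b i = 0) :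
    ∃ C : ℝ, 0 ≤ C ∧ ∀ N : ℕ, 1 ≤ N → ∀ LM Λ0 : ℝ, 0 ≤ Λ0 → ∀ c : (Fin n → ℤ) → ℝ,
      (∀ (ρ : Fin n → ℤ) (l : Fin n) (t : ℤ), c (Function.update ρ l (t + 1))
        - 2 * c (Function.update ρ l t) + c (Function.update ρ l (t - 1)) = 0) →
      (∀ ρ : Fin n → ℤ, c (fun l => ρ l + 1) = c ρ) →
      (∃ ρ0 : Fin n → ℤ, ∀ σ : Equiv.Perm (Fin n), c (ρ0 ∘ σ) ≤ (n ! : ℝ) * LM) →
      (∀ τ < n + 1, ∀ ρ : Fin n → ℤ, KFin.IsRoots (n + 1) τ N n ρ →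
        0 ≤ c ρ + Λ0 * ∑ i ∈ Finset.range (n + 1 + 1), (-1 : ℝ) ^ i * b i * (S (n + 1) N τ i : ℝ)) →
      ((b 0 : ℝ) * N ^ (n + 1) - C * N ^ n) * Λ0 ≤ LM := by
  obtain ⟨C, hC0, hC⟩ := final (d := n + 1) (by omega) b hb
  refine ⟨C, hC0, ?_⟩
  intro N hN LM Λ0 hΛ c haff hshift hval hineq
  have hn : (0 : ℝ) < n ! := by exact_mod_cast Nat.factorial_pos n
  have hcard : (Fintype.card (Equiv.Perm (Fin n)) : ℝ) = n ! := by
    rw [Fintype.card_perm, Fintype.card_fin]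
  set cb : (Fin n → ℤ) → ℝ := fun ρ => ∑ σ : Equiv.Perm (Fin n), c (ρ ∘ σ) with hcb
  have hsymm : ∀ (σ : Equiv.Perm (Fin n)) (ρ : Fin n → ℤ), cb (ρ ∘ σ) = cb ρ := by
    intro σ ρ
    simp only [hcb]
    exact Fintype.sum_equiv (Equiv.mulLeft σ) _ _ fun τ => rfl
  have hupd : ∀ (ρ : Fin n → ℤ) (l : Fin n) (t : ℤ) (σ : Equiv.Perm (Fin n)),
      (Function.update ρ l t) ∘ σ = Function.update (ρ ∘ σ) (σ.symm l) t := by
    intro ρ l t σ
    rw [Function.update_comp_equiv]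
  have haff' : ∀ (ρ : Fin n → ℤ) (l : Fin n) (t : ℤ), cb (Function.update ρ l (t + 1))
        - 2 * cb (Function.update ρ l t) + cb (Function.update ρ l (t - 1)) = 0 := by
    intro ρ l t
    simp only [hcb, hupd]
    rw [Finset.mul_sum, ← Finset.sum_sub_distrib, ← Finset.sum_add_distrib]
    exact Finset.sum_eq_zero fun σ _ => haff _ _ _
  have hshift' : ∀ ρ : Fin n → ℤ, cb (fun l => ρ l + 1) = cb ρ := by
    intro ρ
    simp only [hcb]
    exact Finset.sum_congr rfl fun σ _ => hshift (ρ ∘ σ)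
  have hconst := KConst.const_of_symm_affine_shift cb hsymm haff' hshift'
  obtain ⟨ρ0, hρ0⟩ := hval
  have hc0 : ∀ ρ, cb ρ ≤ (n ! : ℝ) * ((n ! : ℝ) * LM) := by
    intro ρ
    rw [hconst ρ, ← hconst ρ0]
    simp only [hcb]
    refine (Finset.sum_le_sum fun σ _ => hρ0 σ).trans_eq ?_
    rw [Finset.sum_const, Finset.card_univ, nsmul_eq_mul, hcard]
  refine hC N hN LM Λ0 hΛ ?_
  intro τ hτ
  obtain ⟨ρ, hρ⟩ := KFin.exists_isRoots (N := N) hτ
  have h1 : 0 ≤ ∑ σ : Equiv.Perm (Fin n), (c (ρ ∘ σ) + Λ0 *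
      ∑ i ∈ Finset.range (n + 1 + 1), (-1 : ℝ) ^ i * b i * (S (n + 1) N τ i : ℝ)) :=
    Finset.sum_nonneg fun σ _ => hineq τ hτ _ (hρ.comp σ)
  rw [Finset.sum_add_distrib, Finset.sum_const, Finset.card_univ, nsmul_eq_mul, hcard] at h1
  have h2 : ∑ σ : Equiv.Perm (Fin n), c (ρ ∘ σ) ≤ (n ! : ℝ) * ((n ! : ℝ) * LM) := hc0 ρ
  have h2' := h1.trans (add_le_add_left h2 _)
  rw [← mul_add] at h2'
  have h3 := nonneg_of_mul_nonneg_right h2' hn
  simpa using h3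

end numeric

variable {A : Type u} [CommRing A] {V : Type v} [AddCommGroup V] [Module A V]
variable {Λ : AddLen.{u, v} A} {W : Type v} [AddCommGroup W] [Module A W] {n : ℕ}
  {X : Fin (n + 1) → A} {δ : V →ₗ[A] V} {FF : (Fin n → ℤ) → ℤ → ℤ → Submodule A V}
  {ZZ : (Fin n → ℤ) → ℤ → Submodule A V}
variable (P : Pkg Λ W X V δ FF ZZ) {C : MCx A} {N : ℕ}

/-- `u` applied to all components. -/
def hat (C : MCx A) (u : V →ₗ[A] V) : UU C V →ₗ[A] UU C V :=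
  LinearMap.pi fun i => (post (C.ι i) u) ∘ₗ LinearMap.proj i

lemma hat_apply (C : MCx A) (u : V →ₗ[A] V) (x : UU C V) (i : ℕ) (a : C.ι i) :
    hat C u x i a = u (x i a) := rfl

lemma DD_hat (C : MCx A) {δ u : V →ₗ[A] V} (hu : u ∘ₗ δ = δ ∘ₗ u) :
    DD C δ ∘ₗ hat C u = hat C u ∘ₗ DD C δ := by
  ext1 x
  funext i a
  rw [LinearMap.comp_apply, LinearMap.comp_apply, hat_apply, DD_apply', DD_apply', map_add,
    map_sum, map_smul]
  congr 1
  · refine Finset.sum_congr rfl fun b _ => ?_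
    rw [map_smul]; rfl
  · have := LinearMap.congr_fun hu (x i a)
    rw [LinearMap.comp_apply, LinearMap.comp_apply] at this
    rw [this]; rfl

section aff

variable {M : ℕ} (hBL : BL C δ FF ZZ M) (hC : C.Len (n + 1)) (hE : Ent C W X N)
  (hΛ0 : LX Λ W X ≠ ⊤)

lemma mem_HH {ρ : Fin n → ℤ} {κ : ℕ → ℤ} {m : ℤ} {x : UU C V} :
    x ∈ HH C FF ρ κ m ↔ ∀ (i : ℕ) (a : C.ι i), x i a ∈ FF ρ (κ i) ((i : ℤ) - m) := mem_fam

lemma mem_ZT {ρ : Fin n → ℤ} {m : ℤ} {x : UU C V} :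
    x ∈ ZT C ZZ ρ m ↔ ∀ (i : ℕ) (a : C.ι i), x i a ∈ ZZ ρ ((i : ℤ) - m) := mem_fam

include P hBL hC hE hΛ0 in
theorem cc_aff0 (ρ ρ1 ρ2 : Fin n → ℤ) (l : Fin n) (h1 : ρ1 = Function.update ρ l (ρ l + 1))
    (h2 : ρ2 = Function.update ρ l (ρ l + 2)) :
    cc Λ C δ FF ZZ ρ2 - 2 * cc Λ C δ FF ZZ ρ1 + cc Λ C δ FF ZZ ρ = 0 := by
  obtain ⟨u, hu, H⟩ := P.aff l
  obtain ⟨a1, a2, a3, a4, a5, a6, a7⟩ := H ρ ρ1 ρ2 h1 h2
  have h12 : ρ2 = Function.update ρ1 l (ρ1 l + 1) := by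
    rw [h1, h2, Function.update_self, Function.update_idem]
    congr 1; ring
  obtain ⟨b1, b2, b3, b4, -, -, -⟩ := H ρ1 ρ2 (Function.update ρ1 l (ρ1 l + 2)) h12 rfl
  have hD := DD_DD C P.δδ
  have hDDx : ∀ x, DD C δ (DD C δ x) = 0 := fun x => LinearMap.congr_fun hD x
  have hDu := DD_hat C hu
  set D2 := (DD C δ).prodMap (DD C δ) with hD2
  have hD2D2 : D2 ∘ₗ D2 = 0 := by
    refine LinearMap.ext fun p => ?_
    rw [hD2]
    exact Prod.ext (hDDx _) (hDDx _)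
  let f : UU C V × UU C V →ₗ[A] UU C V := LinearMap.coprod LinearMap.id (hat C u)
  have hfx : ∀ x y, f (x, y) = x + hat C u y := fun x y => by simp [f]
  have hf : DD C δ ∘ₗ f = f ∘ₗ D2 := by
    refine LinearMap.ext fun p => ?_
    obtain ⟨x, y⟩ := p
    have h3 : DD C δ (hat C u y) = hat C u (DD C δ y) := LinearMap.congr_fun hDu y
    rw [LinearMap.comp_apply, LinearMap.comp_apply, hfx, hD2, LinearMap.prodMap_apply, hfx,
      map_add, h3]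
  let g : UU C V →ₗ[A] UU C V × UU C V := LinearMap.prod (hat C u) (-LinearMap.id)
  have hgx : ∀ z, g z = (hat C u z, -z) := fun z => by simp [g]
  have hg : D2 ∘ₗ g = g ∘ₗ DD C δ := by
    refine LinearMap.ext fun z => ?_
    have h3 : DD C δ (hat C u z) = hat C u (DD C δ z) := LinearMap.congr_fun hDu z
    rw [LinearMap.comp_apply, LinearMap.comp_apply, hgx, hgx, hD2, LinearMap.prodMap_apply, h3,
      map_neg]
  let G : (Fin n → ℤ) → ℤ → Submodule A (UU C V) := fun ρ => HH C FF ρ fun _ => 0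
  let Z : (Fin n → ℤ) → ℤ → Submodule A (UU C V) := fun ρ => ZT C ZZ ρ
  have hGst : ∀ ρ, Stable (DD C δ) (G ρ) := fun ρ => DD_const P hC ρ 0
  have hZst : ∀ ρ, Stable (DD C δ) (Z ρ) := fun ρ => ZT_stable P hC ρ
  have hZG : ∀ ρ m, Z ρ m ≤ G ρ m := fun ρ m => ZT_le P ρ _ m
  set GG : ℤ → Submodule A (UU C V × UU C V) := fun m => (G ρ1 m).prod (G ρ1 m) with hGG
  set G2 : ℤ → Submodule A (UU C V × UU C V) := fun m => (Z ρ1 m).prod (Z ρ1 m) with hG2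
  set L : ℤ → Submodule A (UU C V × UU C V) := fun m => GG m ⊓ (Z ρ m).comap f with hL
  have hGGst : Stable D2 GG := by
    rintro m _ ⟨x, hx, rfl⟩
    exact ⟨hGst ρ1 m ⟨_, hx.1, rfl⟩, hGst ρ1 m ⟨_, hx.2, rfl⟩⟩
  have hG2st : Stable D2 G2 := by
    rintro m _ ⟨x, hx, rfl⟩
    exact ⟨hZst ρ1 m ⟨_, hx.1, rfl⟩, hZst ρ1 m ⟨_, hx.2, rfl⟩⟩
  have hLst : Stable D2 L := by
    rintro m _ ⟨x, hx, rfl⟩
    refine ⟨hGGst m ⟨_, hx.1, rfl⟩, ?_⟩
    rw [SetLike.mem_coe, Submodule.mem_comap]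
    have h3 : f (D2 x) = DD C δ (f x) := (LinearMap.congr_fun hf x).symm
    rw [h3]
    exact hZst ρ m ⟨_, hx.2, rfl⟩
  have hLG : ∀ m, L m ≤ GG m := fun m => inf_le_left
  have hG2L : ∀ m, G2 m ≤ L m := by
    rintro m ⟨x, y⟩ ⟨hx, hy⟩
    refine ⟨⟨hZG _ _ hx, hZG _ _ hy⟩, ?_⟩
    rw [SetLike.mem_coe, Submodule.mem_comap, hfx]
    refine mem_ZT.2 fun i a => ?_
    exact Submodule.add_mem _ (a2 _ (mem_ZT.1 hx i a)) (a4 _ ⟨_, mem_ZT.1 hy i a, rfl⟩)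
  -- (1)
  have e1 : ∀ m, h Λ D2 GG L m = h Λ (DD C δ) (G ρ) (Z ρ) m := by
    refine h_iso Λ f hf hD hD2D2 (fun m => rfl) (fun m => ?_) hGGst (hZst ρ)
    apply le_antisymm
    · intro w hw
      have hw' : ∀ (i : ℕ) (a : C.ι i), ∃ x ∈ FF ρ1 0 ((i : ℤ) - m), ∃ y ∈ FF ρ1 0 ((i : ℤ) - m),
          w i a - (x + u y) ∈ ZZ ρ ((i : ℤ) - m) := fun i a => a5 _ _ _ (mem_HH.1 hw i a)
      choose x hx y hy hxy using hw'
      have h3 : w = f (x, y) + (w - f (x, y)) := by abel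
      rw [h3]
      refine Submodule.add_mem_sup ⟨(x, y), ⟨mem_HH.2 hx, mem_HH.2 hy⟩, rfl⟩ ?_
      refine mem_ZT.2 fun i a => ?_
      rw [hfx]
      exact hxy i a
    · refine sup_le ?_ (hZG ρ m)
      rintro _ ⟨⟨x, y⟩, ⟨hx, hy⟩, rfl⟩
      rw [hfx]
      refine mem_HH.2 fun i a => ?_
      exact Submodule.add_mem _ (a1 _ _ (mem_HH.1 hx i a)) (a3 _ _ ⟨_, mem_HH.1 hy i a, rfl⟩)
  -- (2)
  have e2 : ∀ m, h Λ D2 GG G2 m = h Λ (DD C δ) (G ρ1) (Z ρ1) m + h Λ (DD C δ) (G ρ1) (Z ρ1) m :=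
    fun m => h_prod Λ _ _ _ _ hD hD (hGst ρ1) (hGst ρ1) (hZst ρ1) (hZst ρ1) (hZG ρ1) (hZG ρ1) m
  -- (3)
  have e3 : ∀ m, h Λ (DD C δ) (G ρ2) (Z ρ2) m = h Λ D2 L G2 m := by
    refine h_iso Λ g hg hD2D2 hD (fun m => ?_) (fun m => ?_) (hGst ρ2) hG2st
    · apply le_antisymm
      · intro z hz
        refine ⟨hZG _ _ hz, ?_⟩
        rw [SetLike.mem_coe, Submodule.mem_comap, hgx]
        exact ⟨mem_ZT.2 fun i a => b4 _ ⟨_, mem_ZT.1 hz i a, rfl⟩,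
          mem_ZT.2 fun i a => Submodule.neg_mem _ (b2 _ (mem_ZT.1 hz i a))⟩
      · rintro z ⟨hz1, hz2⟩
        rw [SetLike.mem_coe, Submodule.mem_comap, hgx] at hz2
        refine mem_ZT.2 fun i a => a7 _ _ _ (mem_HH.1 hz1 i a) (mem_ZT.1 hz2.1 i a) ?_
        have h3 := mem_ZT.1 hz2.2 i a
        rw [← Submodule.neg_mem_iff]
        exact h3
    · apply le_antisymm
      · rintro ⟨x, y⟩ ⟨⟨hx, hy⟩, hxy⟩
        rw [SetLike.mem_coe, Submodule.mem_comap, hfx] at hxy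
        have h3 : ∀ (i : ℕ) (a : C.ι i), ∃ z ∈ FF ρ2 0 ((i : ℤ) - m), x i a - u z ∈ ZZ ρ1 ((i : ℤ) - m) ∧
            y i a + z ∈ ZZ ρ1 ((i : ℤ) - m) := fun i a =>
          a6 _ _ _ (mem_HH.1 hx i a) _ (mem_HH.1 hy i a) (mem_ZT.1 hxy i a)
        choose z hz hz1 hz2 using h3
        have h4 : ((x, y) : UU C V × UU C V) = g z + (x - hat C u z, y + z) := by
          rw [hgx]
          refine Prod.ext ?_ ?_
          · simp
          · simp
        rw [h4]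
        refine Submodule.add_mem_sup ⟨z, mem_HH.2 hz, rfl⟩ ⟨mem_ZT.2 hz1, mem_ZT.2 hz2⟩
      · refine sup_le ?_ (hG2L m)
        rintro _ ⟨z, hz, rfl⟩
        refine ⟨?_, ?_⟩
        · rw [hgx]
          exact ⟨mem_HH.2 fun i a => b3 _ _ ⟨_, mem_HH.1 hz i a, rfl⟩,
            mem_HH.2 fun i a => Submodule.neg_mem _ (b1 _ _ (mem_HH.1 hz i a))⟩
        · rw [SetLike.mem_coe, Submodule.mem_comap, hgx, hfx, map_neg, add_neg_cancel]
          exact Submodule.zero_mem _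
  have F : ∀ ρ, FinS (h Λ (DD C δ) (G ρ) (Z ρ)) := fun ρ => finS_GZ P hBL hC hE ρ hΛ0 0
  have fa : FinS (h Λ D2 L G2) := by rw [← funext e3]; exact F ρ2
  have fb : FinS (h Λ D2 GG L) := by rw [funext e1]; exact F ρ
  have e4 := chi_les Λ hD2D2 hGGst hLst hG2st hLG hG2L fa fb
  rw [funext e1, ← funext e3, funext e2, chi_add (F ρ1) (F ρ1)] at e4
  unfold cc
  change chi (h Λ (DD C δ) (G ρ2) (Z ρ2)) - 2 * chi (h Λ (DD C δ) (G ρ1) (Z ρ1)) +
    chi (h Λ (DD C δ) (G ρ) (Z ρ)) = 0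
  linarith

include P hBL hC hE hΛ0 in
theorem cc_aff (ρ : Fin n → ℤ) (l : Fin n) (t : ℤ) :
    cc Λ C δ FF ZZ (Function.update ρ l (t + 1)) - 2 * cc Λ C δ FF ZZ (Function.update ρ l t)
      + cc Λ C δ FF ZZ (Function.update ρ l (t - 1)) = 0 := by
  refine cc_aff0 P hBL hC hE hΛ0 (Function.update ρ l (t - 1)) _ _ l ?_ ?_
  · rw [Function.update_self, Function.update_idem]; congr 1; ring
  · rw [Function.update_self, Function.update_idem]; congr 1; ring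

include P hBL hC hE hΛ0 in
theorem cc_shift {b : ℕ → ℕ} (hbC : ∀ i, Fintype.card (C.ι i) = b i)
    (hb : ∑ i ∈ Finset.range (n + 1 + 1), (-1 : ℤ) ^ i * b i = 0) (ρ : Fin n → ℤ) :
    cc Λ C δ FF ZZ (fun l => ρ l + 1) = cc Λ C δ FF ZZ ρ := by
  obtain ⟨T, T', hT, hT', hTT', hT'T, hF, hZ⟩ := P.shift
  have hD := DD_DD C P.δδ
  set ρ1 : Fin n → ℤ := fun l => ρ l + 1 with hρ1
  have hT'Tx : ∀ x, T' (T x) = x := fun x => LinearMap.congr_fun hT'T x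
  have hTT'x : ∀ x, T (T' x) = x := fun x => LinearMap.congr_fun hTT' x
  have e : ∀ m, h Λ (DD C δ) (HH C FF ρ fun _ => 0) (ZT C ZZ ρ) m =
      h Λ (DD C δ) (HH C FF ρ1 fun _ => 1) (ZT C ZZ ρ1) m := by
    refine h_iso Λ (hat C T) (DD_hat C hT) hD hD (fun m => ?_) (fun m => ?_)
      (DD_const P hC ρ 0) (ZT_stable P hC ρ1)
    · apply le_antisymm
      · intro x hx
        refine ⟨ZT_le P ρ _ m hx, ?_⟩
        rw [SetLike.mem_coe, Submodule.mem_comap]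
        refine mem_ZT.2 fun i a => ?_
        rw [hρ1, ← hZ ρ]
        exact ⟨_, mem_ZT.1 hx i a, rfl⟩
      · rintro x ⟨_, hx⟩
        rw [SetLike.mem_coe, Submodule.mem_comap] at hx
        refine mem_ZT.2 fun i a => ?_
        have h3 := mem_ZT.1 hx i a
        rw [hρ1, ← hZ ρ] at h3
        obtain ⟨y, hy, hxy⟩ := h3
        have h4 : y = x i a := by
          have := congrArg T' hxy
          rw [hat_apply, hT'Tx, hT'Tx] at this
          exact this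
        rw [← h4]; exact hy
    · apply le_antisymm
      · intro x hx
        refine Submodule.mem_sup_left ⟨hat C T' x, ?_, ?_⟩
        · refine mem_HH.2 fun i a => ?_
          have h3 : x i a ∈ FF ρ1 1 ((i : ℤ) - m) := mem_HH.1 hx i a
          have h5 : FF ρ1 1 ((i : ℤ) - m) = (FF ρ 0 ((i : ℤ) - m)).map T := by
            rw [hF ρ 0, zero_add]
          rw [h5] at h3
          obtain ⟨y, hy, hxy⟩ := h3
          rw [hat_apply, ← hxy, hT'Tx]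
          exact hy
        · funext i a
          rw [hat_apply, hat_apply, hTT'x]
      · refine sup_le ?_ (ZT_le P ρ1 _ m)
        rintro _ ⟨x, hx, rfl⟩
        refine mem_HH.2 fun i a => ?_
        have h3 : x i a ∈ FF ρ 0 ((i : ℤ) - m) := mem_HH.1 hx i a
        have h4 : T (x i a) ∈ (FF ρ 0 ((i : ℤ) - m)).map T := ⟨_, h3, rfl⟩
        rw [hF ρ 0, zero_add] at h4
        exact h4
  rw [← chi_eq_cc P hBL hC hE ρ1 hΛ0 hbC hb 1]
  unfold cc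
  rw [funext e]

end aff

end Crest.Agent.R183.KT
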