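/-
R183 (Lech), Theorem K: staircases and the final inequality.    helper685
-/
import Mathlib
import Crest.Agent.R183.KT3

set_option autoImplicit false

namespace Crest.Agent.R183.KT

open scoped ENNReal Nat
open KF KHom Res

universe u v

variable {A : Type u} [CommRing A] {V : Type v} [AddCommGroup V] [Module A V]
variable {Λ : AddLen.{u, v} A} {W : Type v} [AddCommGroup W] [Module A W] {n : ℕ}
  {X : Fin (n + 1) → A} {δ : V →ₗ[A] V} {FF : (Fin n → ℤ) → ℤ → ℤ → Submodule A V}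
  {ZZ : (Fin n → ℤ) → ℤ → Submodule A V}
variable (P : Pkg Λ W X V δ FF ZZ) {C : MCx A} {N : ℕ}

/-- powers of `W` in the coefficients: lengths of cokernels. -/
lemma L_coker_pow (Λ : AddLen.{u, v} A) (C : MCx A) (W : Type v) [AddCommGroup W] [Module A W]
    (r : ℕ) : Λ.L ((C.ι 0 → (Fin r → W)) ⧸ C.bdyM (Fin r → W) 0) ≤
      (r : ℝ≥0∞) * Λ.L ((C.ι 0 → W) ⧸ C.bdyM W 0) := by
  let f : (C.ι 0 → (Fin r → W)) →ₗ[A] (Fin r → (C.ι 0 → W) ⧸ C.bdyM W 0) :=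
    LinearMap.pi fun j => (C.bdyM W 0).mkQ ∘ₗ post (C.ι 0) (LinearMap.proj j)
  have hf : LinearMap.ker f ≤ C.bdyM (Fin r → W) 0 := by
    intro v hv
    rw [LinearMap.mem_ker] at hv
    have h1 : ∀ j, ∃ w : C.ι 1 → W, C.dM W 0 w = fun a => v a j := by
      intro j
      have h2 : (C.bdyM W 0).mkQ (post (C.ι 0) (LinearMap.proj j) v) = 0 := congrFun hv j
      rw [Submodule.mkQ_apply, Submodule.Quotient.mk_eq_zero] at h2
      exact h2
    choose w hw using h1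
    refine ⟨fun b j => w j b, ?_⟩
    funext a j
    have h3 := congrFun (hw j) a
    rw [← h3]
    change (∑ b, C.d 0 a b • fun j => w j b) j = ∑ b, C.d 0 a b • w j b
    rw [Finset.sum_apply]
    rfl
  have hle : C.bdyM (Fin r → W) 0 ≤ LinearMap.ker f := by
    rintro _ ⟨w, rfl⟩
    rw [LinearMap.mem_ker]
    funext j
    change (C.bdyM W 0).mkQ (post (C.ι 0) (LinearMap.proj j) (C.dM (Fin r → W) 0 w)) = 0
    rw [← MCx.dM_post, Submodule.mkQ_apply, Submodule.Quotient.mk_eq_zero]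
    exact ⟨_, rfl⟩
  have hker : C.bdyM (Fin r → W) 0 = LinearMap.ker f := le_antisymm hle hf
  rw [hker, ← Λ.L_finset_pi, Λ.L_congr f.quotKerEquivRange]
  exact Λ.L_submodule_le _

section stairs

variable {M : ℕ} (hBL : BL C δ FF ZZ M) (hC : C.Len (n + 1)) (hE : Ent C W X N)
  (σ : Equiv.Perm (Fin n)) (ρ : Fin n → ℤ) (hρ : ∀ l, ρ l = -((σ l : ℕ) : ℤ) - 1)

include hρ in
lemma jj_nonneg {k : ℤ} (hk : 0 ≤ k) : KFin.jj ρ k = 0 := by
  unfold KFin.jj
  rw [Finset.card_eq_zero, Finset.filter_eq_empty_iff]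
  intro l _
  rw [hρ l]
  omega

include hρ in
lemma jj_neg {k : ℤ} (hk : k < -(n : ℤ)) : KFin.jj ρ k = n := by
  unfold KFin.jj
  rw [Finset.filter_true_of_mem, Finset.card_univ, Fintype.card_fin]
  intro l _
  rw [hρ l]
  have := (σ l).2
  omega

include hρ in
lemma ll_mid (b : ℕ → ℕ) (Λ0 : ℝ≥0∞) (i : ℕ) {k : ℤ} (hk : -(n : ℤ) ≤ k) (hk' : k < 0) :
    KFin.ll ρ b Λ0 i k = 0 := by
  have h1 : ∏ l, (k - ρ l) = 0 := by
    rw [Finset.prod_eq_zero_iff]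
    have h2 : (-k - 1).toNat < n := by omega
    refine ⟨σ.symm ⟨(-k - 1).toNat, h2⟩, Finset.mem_univ _, ?_⟩
    rw [hρ, Equiv.apply_symm_apply]
    push_cast
    omega
  unfold KFin.ll
  rw [h1]
  simp

include P hBL hC hE hρ in
/-- vanishing in positive degrees -/
lemma stair_pos (m : ℤ) (hm : 1 ≤ m) :
    h Λ (DD C δ) (HH C FF ρ fun _ => 0) (ZT C ZZ ρ) m = 0 := by
  have hD := DD_DD C P.δδ
  have st := stair P hC hE ρ
  have hGm : ∀ K : ℤ, ∀ i < n + 1, (fun _ : ℕ => K) i ≤ (fun _ : ℕ => K) (i + 1) + N := by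
    intro K i _; simp
  have hmono : ∀ m, HH C FF ρ (fun _ => 0) m ≤ HH C FF ρ (fun _ => 0 - (M : ℤ)) m := fun m =>
    HH_anti P hC ρ _ _ (fun _ _ => by simp) m
  have h1 := ii_zero (Λ := Λ) hBL ρ (K := 0) (G' := HH C FF ρ fun _ => 0) m le_rfl
  have h2 : h Λ (DD C δ) (HH C FF ρ fun _ => 0 - (M : ℤ)) (HH C FF ρ fun _ => 0) (m + 1) = 0 := by
    refine st.total_null hD _ _ (fun _ _ => by simp) (hGm _) (hGm _) (m + 1)
      fun i hi k _ hk hmk => ?_
    rcases lt_or_ge k (-(n : ℤ)) with h3 | h3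
    · exfalso
      rw [KFin.gg, jj_neg σ ρ hρ h3] at hmk
      omega
    · exact ll_mid σ ρ hρ _ _ i h3 hk
  rw [les_quot Λ hD (DD_const P hC ρ _) (DD_const P hC ρ 0) hmono (fun m => ZT_le P ρ _ m)
    (G'' := ZT C ZZ ρ), add_eq_zero, add_sub_cancel_right] at h2
  rw [les_sub Λ hD (DD_const P hC ρ 0) (ZT_stable P hC ρ) hmono (fun m => ZT_le P ρ _ m), h1, h2.2,
    add_zero]

include P hBL hC hE hρ in
/-- the bound for `h_0` -/
lemma stair_zero : h Λ (DD C δ) (HH C FF ρ fun _ => 0) (ZT C ZZ ρ) 0 ≤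
    ((n ! : ℕ) : ℝ≥0∞) * Λ.L ((C.ι 0 → W) ⧸ C.bdyM W 0) := by
  have hD := DD_DD C P.δδ
  have hDDx : ∀ x, DD C δ (DD C δ x) = 0 := fun x => LinearMap.congr_fun hD x
  have st := stair P hC hE ρ
  obtain ⟨ψ, hψ⟩ := P.stair σ
  obtain ⟨hψ0, hψδ, hψs⟩ := hψ ρ hρ
  set Ψ : (C.ι 0 → (Fin n ! → W)) →ₗ[A] UU C V := sgl C V 0 ∘ₗ post (C.ι 0) ψ with hΨ
  have hΨx : ∀ w, Ψ w = sgl C V 0 (post (C.ι 0) ψ w) := fun w => rfl
  have hDΨ : ∀ w, DD C δ (Ψ w) = 0 := by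
    intro w
    funext i a
    rw [DD_apply', hΨx]
    rw [sgl_ne C (Nat.succ_ne_zero i)]
    simp only [Pi.zero_apply, smul_zero, Finset.sum_const_zero, zero_add]
    by_cases hi : i = 0
    · subst hi
      rw [sgl_same, post_apply, hψδ]; simp
    · rw [sgl_ne C hi]; simp
  set S : Submodule A (UU C V) := (HH C FF ρ (fun _ => 0) (0 + 1)).map (DD C δ) ⊔ ZT C ZZ ρ 0
    with hS
  set T : ℤ → Submodule A (UU C V) := fun k =>
    HH C FF ρ (fun _ => k) 0 ⊓ (ZT C ZZ ρ (0 - 1)).comap (DD C δ) with hT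
  have hGm : ∀ K : ℤ, ∀ i < n + 1, (fun _ : ℕ => K) i ≤ (fun _ : ℕ => K) (i + 1) + N := by
    intro K i _; simp
  -- (1)
  have hTM : ∀ k : ℤ, (M : ℤ) ≤ k → T k ≤ S := by
    intro k hk x hx
    obtain ⟨y, hy, hxy⟩ := hBL ρ k 0 x hx.1 hx.2
    have : x = DD C δ y + (x - DD C δ y) := by abel
    rw [this]
    exact Submodule.add_mem_sup ⟨y, HH_anti P hC ρ _ _ (fun _ _ => by simpa using hk) _ hy, rfl⟩ hxy
  -- (2)
  have hstep : ∀ k : ℤ, 0 ≤ k → Λ.le0 (T (k + 1)) (S ⊔ LinearMap.range Ψ) →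
      Λ.le0 (T k) (S ⊔ LinearMap.range Ψ) := by
    intro k hk ih
    set κ : ℕ → ℤ := Function.update (fun _ => k + 1) 0 k with hκ
    have hκ0 : κ 0 = k := by rw [hκ]; exact Function.update_self _ _ _
    have hκ1 : ∀ i, κ (i + 1) = k + 1 := fun i => by
      rw [hκ]; exact Function.update_of_ne (Nat.succ_ne_zero i) _ _
    have hκs : ∀ i < n + 1, κ i ≤ κ (i + 1) + N := by
      intro i _
      cases i with
      | zero => rw [hκ0, hκ1]; omega
      | succ i => rw [hκ1, hκ1]; omega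
    have hκle : ∀ i ≤ n + 1, (fun _ : ℕ => k) i ≤ κ i := by
      intro i _
      cases i with
      | zero => rw [hκ0]
      | succ i => rw [hκ1]; simp
    have h2 : h Λ (DD C δ) (HH C FF ρ fun _ => k) (HH C FF ρ κ) 0 = 0 := by
      refine st.total_null hD _ _ hκle (hGm _) hκs 0 fun i hi k' hk1 hk2 hmk => ?_
      exfalso
      rw [KFin.gg, jj_nonneg σ ρ hρ (le_trans hk hk1)] at hmk
      have hi0 : i = 0 := by omega
      subst hi0
      rw [hκ0] at hk2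
      omega
    have h3 : Λ.le0 (T k) ((HH C FF ρ (fun _ => k) (0 + 1)).map (DD C δ) ⊔ HH C FF ρ κ 0) := by
      refine Λ.le0_mono h2 ?_ le_rfl
      exact inf_le_inf_left _ (Submodule.comap_mono (ZT_le P ρ κ _))
    have h4 : Λ.le0 (T k) (((HH C FF ρ (fun _ => k) (0 + 1)).map (DD C δ) ⊔ HH C FF ρ κ 0) ⊓
        (ZT C ZZ ρ (0 - 1)).comap (DD C δ)) := Λ.le0_inf h3 (Λ.le0_of_le inf_le_right)
    have h5 : ((HH C FF ρ (fun _ => k) (0 + 1)).map (DD C δ) ⊔ HH C FF ρ κ 0) ⊓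
        (ZT C ZZ ρ (0 - 1)).comap (DD C δ) ≤ T (k + 1) ⊔ (S ⊔ LinearMap.range Ψ) := by
      rintro x ⟨hx1, hx2⟩
      obtain ⟨_, ⟨y, hy, rfl⟩, z, hz, rfl⟩ := Submodule.mem_sup.1 hx1
      have hDz : DD C δ z ∈ ZT C ZZ ρ (0 - 1) := by
        rw [SetLike.mem_coe, Submodule.mem_comap, map_add, hDDx, zero_add] at hx2
        exact hx2
      have hy' : DD C δ y ∈ S := Submodule.mem_sup_left
        ⟨y, HH_anti P hC ρ _ _ (fun _ _ => hk) _ hy, rfl⟩
      -- the component `0`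
      have hz0 : ∀ a, δ (z 0 a) ∈ FF ρ (k + 1) 1 := by
        intro a
        have e1 := mem_ZT.1 hDz 0 a
        rw [DD_apply'] at e1
        have e2 : (∑ b, C.d 0 a b • z (0 + 1) b) ∈ FF ρ (k + 1) 1 := by
          refine Submodule.sum_mem _ fun b _ => Submodule.smul_mem _ _ ?_
          have e3 := mem_HH.1 hz (0 + 1) b
          rw [hκ1] at e3
          simpa using e3
        have e4 : (∑ b, C.d 0 a b • z (0 + 1) b) + (-1 : A) ^ 0 • δ (z 0 a) ∈ FF ρ (k + 1) 1 := by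
          refine P.ZZ_le ρ (k + 1) 1 ?_
          simpa using e1
        have e5 := Submodule.sub_mem _ e4 e2
        simpa using e5
      have hz1 : ∀ a, ∃ w, z 0 a - ψ w ∈ FF ρ (k + 1) 0 := by
        intro a
        refine hψs k hk _ ?_ (hz0 a)
        have e3 := mem_HH.1 hz 0 a
        rw [hκ0] at e3
        simpa using e3
      choose w hw using hz1
      have hzw : z - Ψ w ∈ T (k + 1) := by
        refine ⟨?_, ?_⟩
        · refine mem_HH.2 fun i a => ?_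
          cases i with
          | zero =>
            have e1 : (z - Ψ w) 0 a = z 0 a - ψ (w a) := by
              rw [hΨx, Pi.sub_apply, Pi.sub_apply, sgl_same]; rfl
            rw [e1]
            simpa using hw a
          | succ i =>
            have e1 : (z - Ψ w) (i + 1) a = z (i + 1) a := by
              rw [hΨx, Pi.sub_apply, Pi.sub_apply, sgl_ne C (Nat.succ_ne_zero i), Pi.zero_apply,
                sub_zero]
            rw [e1]
            have e3 := mem_HH.1 hz (i + 1) a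
            rw [hκ1] at e3
            exact e3
        · rw [SetLike.mem_coe, Submodule.mem_comap, map_sub, hDΨ, sub_zero]
          exact hDz
      have e6 : DD C δ y + z = (z - Ψ w) + (DD C δ y + Ψ w) := by abel
      rw [e6]
      exact Submodule.add_mem_sup hzw (Submodule.add_mem_sup hy' ⟨w, rfl⟩)
    refine Λ.le0_trans (Λ.le0_mono h4 le_rfl h5) ?_
    exact Λ.le0_sup ih (Λ.le0_refl _)
  -- (3)
  have hT0 : Λ.le0 (T 0) (S ⊔ LinearMap.range Ψ) := by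
    have key : ∀ r : ℕ, ∀ k : ℤ, 0 ≤ k → (M : ℤ) ≤ k + r → Λ.le0 (T k) (S ⊔ LinearMap.range Ψ) := by
      intro r
      induction r with
      | zero =>
        intro k _ hk
        exact Λ.le0_of_le ((hTM k (by simpa using hk)).trans le_sup_left)
      | succ r ih =>
        intro k hk hk'
        refine hstep k hk (ih (k + 1) (by omega) ?_)
        push_cast at hk' ⊢
        omega
    exact key M 0 le_rfl (by simp)
  -- (4)
  have hST : S ≤ T 0 := by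
    refine sup_le ?_ ?_
    · rintro _ ⟨y, hy, rfl⟩
      refine ⟨DD_const P hC ρ 0 0 ⟨y, hy, rfl⟩, ?_⟩
      rw [SetLike.mem_coe, Submodule.mem_comap, hDDx]; exact Submodule.zero_mem _
    · intro x hx
      exact ⟨ZT_le P ρ _ 0 hx, (ZT_stable P hC ρ).map_le 0 ⟨x, hx, rfl⟩⟩
  have e1 : h Λ (DD C δ) (HH C FF ρ fun _ => 0) (ZT C ZZ ρ) 0 = Λ.rel S (T 0) := rfl
  rw [e1]
  refine (Λ.rel_le_of_le_sup hT0 hST).trans ?_
  have e2 : Λ.rel S (LinearMap.range Ψ) = Λ.L ((C.ι 0 → (Fin n ! → W)) ⧸ S.comap Ψ) := by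
    rw [← Λ.rel_top, Λ.rel_comap, Submodule.map_top]
  rw [e2]
  refine le_trans ?_ (L_coker_pow Λ C W n !)
  have e3 : C.bdyM (Fin n ! → W) 0 ≤ S.comap Ψ := by
    rintro _ ⟨w, rfl⟩
    rw [Submodule.mem_comap]
    refine Submodule.mem_sup_left ⟨sgl C V 1 (post (C.ι 1) ψ w), ?_, ?_⟩
    · refine sgl_mem_fam fun a => ?_
      simpa using hψ0 (w a)
    · funext i a
      rw [DD_apply', hΨx]
      by_cases hi : i = 0
      · subst hi
        rw [← MCx.dM_post, sgl_ne C (by omega : (0 : ℕ) ≠ 1)]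
        have e4 : sgl C V 1 (post (C.ι 1) ψ w) (0 + 1) = post (C.ι 1) ψ w := sgl_same C 1 _
        have e5 : sgl C V 0 (C.dM V 0 (post (C.ι 1) ψ w)) 0 = C.dM V 0 (post (C.ι 1) ψ w) :=
          sgl_same C 0 _
        rw [e4]
        refine Eq.trans ?_ (congrFun e5 a).symm
        simp only [Pi.zero_apply, map_zero, smul_zero, add_zero]
        rfl
      · have e5 : (0 : ℕ) ≠ i := fun h => hi h.symm
        rw [sgl_ne C hi, sgl_ne C (by omega : i + 1 ≠ 1)]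
        simp only [Pi.zero_apply, smul_zero, Finset.sum_const_zero, zero_add]
        by_cases hi1 : i = 1
        · subst hi1
          rw [sgl_same, post_apply, hψδ]; simp
        · rw [sgl_ne C hi1]; simp
  exact Λ.L_le_of_surjective (Submodule.factor e3) (Submodule.factor_surjective e3)

include P hBL hC hE hρ in
theorem cc_stair (hL : Λ.L ((C.ι 0 → W) ⧸ C.bdyM W 0) ≠ ⊤) :
    cc Λ C δ FF ZZ ρ ≤ (n ! : ℝ) * (Λ.L ((C.ι 0 → W) ⧸ C.bdyM W 0)).toReal := by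
  unfold cc chi
  rw [finsum_eq_single _ (0 : ℤ)]
  · rw [zpow_zero, one_mul]
    have h1 := ENNReal.toReal_mono (ENNReal.mul_ne_top (ENNReal.natCast_ne_top _) hL)
      (stair_zero P hBL hC hE σ ρ hρ)
    rwa [ENNReal.toReal_mul, ENNReal.toReal_natCast] at h1
  · intro m hm
    rcases lt_or_gt_of_ne hm with h3 | h3
    · rw [tail_null P hBL hC hE ρ 0 (fun l => by rw [hρ l]; omega) m h3]; simp
    · rw [stair_pos P hBL hC hE σ ρ hρ m (by omega)]; simp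

end stairs

/-- **Theorem K** on the Čech package. -/
theorem theoremK (n : ℕ) (b : ℕ → ℕ)
    (hb : ∑ i ∈ Finset.range (n + 1 + 1), (-1 : ℤ) ^ i * b i = 0) :
    ∃ K : ℝ, 0 ≤ K ∧ ∀ (A : Type u) [CommRing A] (Λ : AddLen.{u, v} A) (W : Type v)
      [AddCommGroup W] [Module A W] (X : Fin (n + 1) → A) (V : Type v) [AddCommGroup V]
      [Module A V] (δ : V →ₗ[A] V) (FF : (Fin n → ℤ) → ℤ → ℤ → Submodule A V)
      (ZZ : (Fin n → ℤ) → ℤ → Submodule A V), Pkg Λ W X V δ FF ZZ → ∀ (C : MCx A),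
      C.Len (n + 1) → (∀ i, Fintype.card (C.ι i) = b i) → ∀ N : ℕ, 1 ≤ N → Ent C W X N →
      (∀ ν, ∃ N' : ℕ, C.NHom (X ν ^ N')) →
      Λ.L (W ⧸ ((Ideal.span (Set.range X)) • (⊤ : Submodule A W))) ≠ ⊤ →
      ENNReal.ofReal ((b 0 : ℝ) * (N : ℝ) ^ (n + 1) - K * (N : ℝ) ^ n) *
        Λ.L (W ⧸ ((Ideal.span (Set.range X)) • (⊤ : Submodule A W))) ≤
        Λ.L ((C.ι 0 → W) ⧸ C.bdyM W 0) := by
  obtain ⟨K, hK0, hK⟩ := final_of_c' n b hb
  refine ⟨K, hK0, ?_⟩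
  intro A _ Λ W _ _ X V _ _ δ FF ZZ P C hC hbC N hN hE hX hΛ0
  by_cases hL : Λ.L ((C.ι 0 → W) ⧸ C.bdyM W 0) = ⊤
  · rw [hL]; exact le_top
  -- uniform exponent
  have hN' : ∃ N' : ℕ, ∀ ν, X ν ^ N' ∈ C.nhI := by
    choose N1 hN1 using hX
    refine ⟨∑ ν, N1 ν, fun ν => ?_⟩
    have h1 : N1 ν ≤ ∑ ν, N1 ν := Finset.single_le_sum (fun _ _ => Nat.zero_le _) (Finset.mem_univ ν)
    have h2 : X ν ^ (∑ ν, N1 ν) = X ν ^ (∑ ν, N1 ν - N1 ν) * X ν ^ N1 ν := by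
      rw [← pow_add, Nat.sub_add_cancel h1]
    rw [h2]
    exact Ideal.mul_mem_left _ _ (hN1 ν)
  obtain ⟨N', hN'⟩ := hN'
  obtain ⟨M, hM⟩ := bounded_loss P hC N' hN'
  have hBL : BL C δ FF ZZ M := hM
  have key := hK N hN (Λ.L ((C.ι 0 → W) ⧸ C.bdyM W 0)).toReal (LX Λ W X).toReal
    ENNReal.toReal_nonneg (cc Λ C δ FF ZZ)
    (fun ρ l t => cc_aff P hBL hC hE hΛ0 ρ l t)
    (fun ρ => cc_shift P hBL hC hE hΛ0 hbC hb ρ)
    ⟨fun l => -((l : ℕ) : ℤ) - 1, fun σ => cc_stair P hBL hC hE σ _ (fun l => rfl) hL⟩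
    (fun τ _ ρ hρ => core_ineq P hBL hC hE ρ hΛ0 hN hbC hb hρ)
  change ENNReal.ofReal _ * LX Λ W X ≤ _
  rw [← ENNReal.ofReal_toReal hL, ← ENNReal.ofReal_toReal (a := LX Λ W X) hΛ0]
  rcases le_or_gt 0 ((b 0 : ℝ) * (N : ℝ) ^ (n + 1) - K * (N : ℝ) ^ n) with h1 | h1
  · rw [← ENNReal.ofReal_mul h1]
    exact ENNReal.ofReal_le_ofReal key
  · rw [ENNReal.ofReal_of_nonpos h1.le, zero_mul]
    exact zero_le

end Crest.Agent.R183.KT
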