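/-
R183 (Lech): Theorem K in the form `Core.KHyp`.    helper685
-/
import Mathlib
import Crest.Agent.R183.KT4
import Crest.Agent.R183.CoreMain

set_option autoImplicit false

namespace Crest.Agent.R183.KT

open scoped ENNReal Nat
open KF KHom Res

universe u

/-- the existence of the Čech packages. -/
def PkgHyp : Prop := ∀ (n : ℕ) (A : Type u) [CommRing A] (Λ : AddLen.{u, u} A) (W : Type u)
  [AddCommGroup W] [Module A W] (X : Fin (n + 1) → A),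
  ((kos (List.ofFn X)).cycM W 1 ≤ (kos (List.ofFn X)).bdyM W 1) →
  ∃ (V : Type u) (_ : AddCommGroup V) (_ : Module A V) (δ : V →ₗ[A] V)
    (FF : (Fin n → ℤ) → ℤ → ℤ → Submodule A V) (ZZ : (Fin n → ℤ) → ℤ → Submodule A V),
    Pkg Λ W X V δ FF ZZ

/-- **Theorem K.** -/
theorem kHyp_of_pkg (H : PkgHyp.{u}) (D : ℕ) (β : ℕ → ℕ) (hD : 0 < D) : Core.KHyp.{u} D β := by
  obtain ⟨n, rfl⟩ : ∃ n, D = n + 1 := ⟨D - 1, by omega⟩
  by_cases hb : ∑ i ∈ Finset.range (n + 1 + 1), (-1 : ℤ) ^ i * β i = 0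
  · obtain ⟨K, hK0, hK⟩ := theoremK.{u, u} n β hb
    refine ⟨K, hK0, ?_⟩
    intro C _ Λ X _ _ Y N Q hN hQ hlen _ hY hE hh hL
    obtain ⟨V, _, _, δ, FF, ZZ, P⟩ := H n C Λ X Y hY
    rw [Nat.add_sub_cancel]
    exact hK C Λ X Y V δ FF ZZ P Q hlen hQ N hN hE hh hL
  · refine ⟨0, le_rfl, ?_⟩
    intro C _ Λ X _ _ Y N Q hN hQ hlen hb' _ _ _ _
    exact absurd (by exact_mod_cast hb') hb

end Crest.Agent.R183.KT
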