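/-
R183 (Lech): **Theorem K** (`Core.KHyp`), unconditionally.    helper685
-/
import Mathlib
import Crest.Agent.R183.KT5
import Crest.Agent.R183.KH1
import Crest.Agent.R183.KInst

set_option autoImplicit false

namespace Crest.Agent.R183.KT

open KF Res

universe u

theorem pkgHyp : PkgHyp.{u} := fun _ _ _ Λ _ _ _ X h =>
  ⟨_, _, _, _, _, _, pkg Λ (H1_of_kos X _ h)⟩

/-- **Theorem K.** -/
theorem kHyp (D : ℕ) (β : ℕ → ℕ) (hD : 0 < D) : Core.KHyp.{u} D β := kHyp_of_pkg pkgHyp D β hD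

end Crest.Agent.R183.KT
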