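/-
R183 (Lech): `core_sop` after a base change `T → T₁` of the resolution (for INSEP).
helper811
-/
import Crest.Agent.R183.CoreA
import Crest.Agent.R183.KT6

set_option autoImplicit false

namespace Crest.Agent.R183.Core

open scoped ENNReal nonZeroDivisors
open Crest.Agent.R183 Crest.Agent.R183.Res Crest.Agent.R183.WG Crest.Agent.R183.Glue
open IsLocalRing Crest.Agent.R183.M

universe u

section basechange

variable {T T₁ : Type u} [CommRing T] [CommRing T₁] [Algebra T T₁]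

/-- `H_0` after base change. -/
theorem H0_map (F : MCx T) (J0 : Ideal T) (u0 : Unique (F.ι 0))
    (hu0 : ∀ (M : Type u) [AddCommGroup M] [Module T M] (v : F.ι 0 → M),
        v ∈ F.bdyM M 0 ↔ v u0.default ∈ (J0 • ⊤ : Submodule T M))
    (M : Type u) [AddCommGroup M] [Module T₁ M] (v : (F.map (algebraMap T T₁)).ι 0 → M) :
    v ∈ (F.map (algebraMap T T₁)).bdyM M 0 ↔
      v u0.default ∈ (J0.map (algebraMap T T₁) • ⊤ : Submodule T₁ M) := by
  let _ : Module T M := Module.compHom M (algebraMap T T₁)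
  have _ : IsScalarTower T T₁ M := ⟨fun a c y => by
    rw [Algebra.smul_def, mul_smul]; rfl⟩
  rw [mem_map_smul_iff, ← hu0 M v]
  have key : ∀ x : F.ι 1 → M, (F.map (algebraMap T T₁)).dM M 0 x = F.dM M 0 x := by
    intro x
    funext a
    show ∑ b, (algebraMap T T₁ (F.d 0 a b)) • x b = ∑ b, F.d 0 a b • x b
    refine Finset.sum_congr rfl fun b _ => ?_
    rw [algebraMap_smul]
  constructor
  · rintro ⟨x, hx⟩
    exact ⟨x, (key x).symm.trans hx⟩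
  · rintro ⟨x, hx⟩
    exact ⟨x, (key x).trans hx⟩

theorem nhI_map (F : MCx T) (J0 : Ideal T) (h : J0 ≤ F.nhI) :
    J0.map (algebraMap T T₁) ≤ (F.map (algebraMap T T₁)).nhI := by
  rw [Ideal.map_le_iff_le_comap]
  intro x hx
  exact MCx.NHom.map (h hx) (algebraMap T T₁)

/-- **`core_sop` over `T₁`**, with the resolution coming from `T`. -/
theorem core_base [IsLocalRing T] [IsLocalRing T₁] [IsNoetherianRing T₁]
    {To : Type u} [CommRing To] [Algebra T₁ To] (Λ : AddLen.{u, u} To) (hcont : Cont Λ)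
    (hΛ : ∀ I : Ideal T₁, Module.length T₁ (T₁ ⧸ I) ≠ ⊤ →
      Λ.L (To ⧸ I.map (algebraMap T₁ To)) = ((Module.length T₁ (T₁ ⧸ I) : ℕ∞) : ℝ≥0∞))
    (J0 : Ideal T) (hJ0 : J0.map (algebraMap T T₁) ≠ ⊤) {D d g : ℕ} (hD : ringKrullDim T₁ = D)
    (hd : ringKrullDim (T₁ ⧸ J0.map (algebraMap T T₁)) = d) (hgd : g + d = D) (hd0 : 0 < d)
    (w t : Fin D → T₁) (z : Fin d → T) (hwm : ∀ i, w i ∈ maximalIdeal T₁)
    (htm : ∀ i, t i ∈ maximalIdeal T₁) (hzm : ∀ i, z i ∈ maximalIdeal T) {a b : ℕ}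
    (hw : maximalIdeal T₁ ^ a ≤ Ideal.span (Set.range w))
    (hz : maximalIdeal T₁ ^ b ≤ J0.map (algebraMap T T₁) ⊔
      Ideal.span (Set.range fun i => algebraMap T T₁ (z i)))
    (rT rT' CT rS CS : ℕ)
    (hrS : ∀ n : ℕ, 0 < n → Module.length T₁ (T₁ ⧸ (J0.map (algebraMap T T₁) ⊔
        Ideal.span (Set.range fun i => (algebraMap T T₁ (z i)) ^ n)))
      ≤ ((rS * n ^ d + CS * n ^ (d - 1) : ℕ) : ℕ∞))
    (hrT : ∀ n : ℕ, 0 < n → ((rT * n ^ D : ℕ) : ℕ∞) ≤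
      Module.length T₁ (T₁ ⧸ Ideal.span (Set.range fun i => w i ^ n)))
    (hrT' : ∀ n : ℕ, 0 < n → Module.length T₁ (T₁ ⧸ Ideal.span (Set.range fun i => w i ^ n))
      ≤ ((rT' * n ^ D + CT * n ^ (D - 1) : ℕ) : ℕ∞))
    (F : MCx T) (hF : F.Len g) (hFent : F.EntriesIn (maximalIdeal T)) (hnh : J0 ≤ F.nhI)
    (hu0 : ∃ u0 : Unique (F.ι 0), ∀ (M : Type u) [AddCommGroup M] [Module T M] (v : F.ι 0 → M),
        v ∈ F.bdyM M 0 ↔ v u0.default ∈ (J0 • ⊤ : Submodule T M))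
    (p : ℕ) (hp : 1 < p) (c' : ℕ)
    (hst : ∀ e : ℕ, c' < p ^ e → ∃ Δ : T₁, Δ ∈ T₁⁰ ∧
      (∀ x, Δ * x ∈ J0.map (algebraMap T T₁) → x ∈ J0.map (algebraMap T T₁)) ∧
      Nonempty (Stage T₁ To w t Δ ((maximalIdeal T).map (algebraMap T T₁)) (p ^ e)
        (p ^ e - c'))) :
    rT ≤ rS := by
  obtain ⟨u0, hu0⟩ := hu0
  exact core_sop Λ hcont hΛ (J0.map (algebraMap T T₁)) hJ0 hD hd hgd hd0 w t
    (fun i => algebraMap T T₁ (z i)) hwm htm hw hz rT rT' CT rS CS hrS hrT hrT'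
    (F.map (algebraMap T T₁)) (hF.map _) _
    (MCx.EntriesIn.map hFent _ fun x hx => Ideal.mem_map_of_mem _ hx)
    (fun i => Ideal.mem_map_of_mem _ (hzm i)) (nhI_map F J0 hnh) u0
    (fun M _ _ v => H0_map F J0 u0 hu0 M v) (KT.kHyp _ _ (by omega)) p hp c' hst

end basechange

end Crest.Agent.R183.Core
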