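/-
R183 (Lech): INSEP, abstract part.

* `rank_theorem_ideal` (I1): the rank theorem for an `m`-primary ideal.
* `devissage` (I3), `insep` (I4): from `T₁ = Tq/P`, `S₁ = Sq/P` to `T`, `S`.
helper811 (the proofs of (I1), (I3) follow helper67's `rank_theorem`, helper693's
`domain_reduction_module`)
-/
import Crest.Agent.R183.CoreA

set_option autoImplicit false

namespace Crest.Agent.R183.CoreI

open Filter Topology IsLocalRing TensorProduct
open Crest.Agent.R183.M Crest.Agent.R183.HS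
open scoped ENNReal nonZeroDivisors

universe u

section rank

variable {R : Type u} [CommRing R] [IsLocalRing R]

/-- `l(R/𝔞^N)`. -/
noncomputable def hsI (𝔞 : Ideal R) (N : ℕ) : ℕ := (Module.length R (R ⧸ 𝔞 ^ N)).toNat

variable [IsNoetherianRing R]

theorem length_pow_ne_top' {𝔞 : Ideal R} {s : ℕ} (hs : maximalIdeal R ^ s ≤ 𝔞) (N : ℕ) :
    Module.length R (R ⧸ 𝔞 ^ N) ≠ ⊤ := by
  refine ne_top_of_le_ne_top (length_pow_ne_top (R := R) (s * N)) (length_quot_mono ?_)
  rw [pow_mul]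
  exact Ideal.pow_right_mono hs N

theorem coe_hsI {𝔞 : Ideal R} {s : ℕ} (hs : maximalIdeal R ^ s ≤ 𝔞) (N : ℕ) :
    (hsI 𝔞 N : ℕ∞) = Module.length R (R ⧸ 𝔞 ^ N) :=
  ENat.natCast_toNat (length_pow_ne_top' hs N)

theorem hsI_mono {𝔞 : Ideal R} {s : ℕ} (hs : maximalIdeal R ^ s ≤ 𝔞) : Monotone (hsI 𝔞) := by
  intro a b hab
  have h : (hsI 𝔞 a : ℕ∞) ≤ hsI 𝔞 b := by
    rw [coe_hsI hs, coe_hsI hs]
    exact length_quot_mono (Ideal.pow_le_pow_right hab)
  exact_mod_cast h

theorem UB_quot_pow' {𝔞 : Ideal R} {s : ℕ} (hs : maximalIdeal R ^ s ≤ 𝔞) {d : ℕ} (z : Fin d → R)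
    (hz : ∀ i, z i ∈ 𝔞) {t : ℕ}
    (ht : maximalIdeal R ^ t ≤ Ideal.span (Set.range z)) {N : ℕ} (hN : 0 < N) :
    UBf (hsI 𝔞) d
      (((Module.length R (R ⧸ Ideal.span (Set.range fun i => z i ^ N))).toNat : ℝ) / (N : ℝ) ^ d) := by
  refine UBf_of_mult (hsI_mono hs) hN fun j => ?_
  have hL : ((Module.length R (R ⧸ Ideal.span (Set.range fun i => z i ^ N))).toNat : ℕ∞) =
      Module.length R (R ⧸ Ideal.span (Set.range fun i => z i ^ N)) :=
    ENat.natCast_toNat (length_quot_pow_ne_top z ht N)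
  have h : (hsI 𝔞 (N * j) : ℕ∞) ≤
      cc d j * (Module.length R (R ⧸ Ideal.span (Set.range fun i => z i ^ N))).toNat := by
    rw [coe_hsI hs, hL]
    refine le_trans (length_quot_mono ?_) (length_quot_pow_le (fun i => z i ^ N) j)
    rw [pow_mul]
    refine Ideal.pow_right_mono ?_ j
    rw [Ideal.span_le]
    rintro _ ⟨i, rfl⟩
    exact Ideal.pow_mem_pow (hz i) N
  exact_mod_cast h

/-- **(I1)** the rank theorem for an `m`-primary ideal `𝔞` with reduction `y`. -/
theorem rank_theorem_ideal {𝔞 : Ideal R} {s : ℕ} (hs : maximalIdeal R ^ s ≤ 𝔞) {d : ℕ} (hd : 0 < d)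
    (y : Fin d → R) (hy : ∀ i, y i ∈ 𝔞) (c : ℕ)
    (hc : 𝔞 ^ (c + 1) = Ideal.span (Set.range y) * 𝔞 ^ c) :
    ∃ r C : ℕ, UBf (hsI 𝔞) d r ∧ LBf (hsI 𝔞) d r ∧
      (∀ N, Module.length R (R ⧸ Ideal.span (Set.range fun i => y i ^ N)) ≤
        (r * N ^ d + C * N ^ (d - 1) : ℕ)) ∧
      ∀ N, 0 < N → ((r * N ^ d : ℕ) : ℕ∞) ≤
        Module.length R (R ⧸ Ideal.span (Set.range fun i => y i ^ N)) := by
  have ht : maximalIdeal R ^ (s * (c + 1)) ≤ Ideal.span (Set.range y) := by
    rw [pow_mul]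
    refine (Ideal.pow_right_mono hs (c + 1)).trans ?_
    rw [hc]
    exact Ideal.mul_le_left
  have hred : ∀ k : ℕ, 𝔞 ^ (c + k) = Ideal.span (Set.range y) ^ k * 𝔞 ^ c := by
    intro k
    induction k with
    | zero => simp
    | succ k ih =>
      have h1 : 𝔞 ^ (c + (k + 1)) = 𝔞 ^ (c + 1) * 𝔞 ^ k := by
        rw [← pow_add]; congr 1; ring
      rw [h1, hc, mul_assoc, ← pow_add, ih, pow_succ', mul_assoc]
  obtain ⟨r, C, hup, hlow⟩ := exists_rank y ht
  have hLB : LBf (hsI 𝔞) d r := by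
    have h1 : LBf (fun N => r * cc d N) d r := by
      intro ε hε
      filter_upwards [eventually_gt_atTop 0] with N hN
      have h2 : r * N ^ d ≤ d.factorial * (r * cc d N) := by
        have := pow_le_factorial_mul_cc d N hN
        nlinarith
      have h3 : (r : ℝ) * (N : ℝ) ^ d ≤ (d.factorial : ℝ) * ((r * cc d N : ℕ) : ℝ) := by
        exact_mod_cast h2
      have h4 : (0 : ℝ) ≤ ε * (N : ℝ) ^ d := by positivity
      linarith
    refine h1.of_shift c (Eventually.of_forall fun N => ?_)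
    have h2 : ((r * cc d N : ℕ) : ℕ∞) ≤ (hsI 𝔞 (N + c) : ℕ∞) := by
      rw [coe_hsI hs]
      push_cast
      refine (hlow N).trans (length_quot_mono ?_)
      rw [add_comm, hred N]
      exact Ideal.mul_le_left
    exact_mod_cast h2
  have hUB : UBf (hsI 𝔞) d r := by
    refine UBf_of_forall fun ε hε => ?_
    obtain ⟨N, hN⟩ := exists_nat_gt ((C : ℝ) / ε)
    have hN0 : (0 : ℝ) < N := lt_of_le_of_lt (by positivity) hN
    have hN0' : 0 < N := by exact_mod_cast hN0
    have h1 := UB_quot_pow' hs y hy ht hN0'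
    refine h1.mono ?_
    have h2 : (Module.length R (R ⧸ Ideal.span (Set.range fun i => y i ^ N))).toNat ≤
        r * N ^ d + C * N ^ (d - 1) := by
      exact ENat.toNat_le_of_le_natCast (hup N)
    have h3 : ((Module.length R (R ⧸ Ideal.span (Set.range fun i => y i ^ N))).toNat : ℝ) ≤
        r * (N : ℝ) ^ d + C * (N : ℝ) ^ (d - 1) := by exact_mod_cast h2
    rw [div_le_iff₀ (by positivity)]
    refine h3.trans ?_
    rw [add_mul]
    have h4 : (N : ℝ) ^ d = (N : ℝ) * (N : ℝ) ^ (d - 1) := by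
      rw [← pow_succ']
      congr 1
      omega
    have h5 : (C : ℝ) ≤ ε * N := by
      rw [div_lt_iff₀ hε] at hN
      linarith
    have h6 : (C : ℝ) * (N : ℝ) ^ (d - 1) ≤ ε * (N : ℝ) ^ d := by
      rw [h4, ← mul_assoc]
      gcongr
    linarith
  refine ⟨r, C, hUB, hLB, hup, fun N hN => ?_⟩
  have h1 := hLB.le_of_UBf (UB_quot_pow' hs y hy ht hN)
  rw [le_div_iff₀ (by positivity)] at h1
  have h2 : r * N ^ d ≤ (Module.length R (R ⧸ Ideal.span (Set.range fun i => y i ^ N))).toNat := by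
    exact_mod_cast h1
  rw [← ENat.natCast_toNat (length_quot_pow_ne_top y ht N)]
  exact_mod_cast h2

end rank

section devissage

/-- a module killed by a nonzerodivisor has smaller dimension. -/
theorem UB_of_killed {T : Type u} [CommRing T] [IsLocalRing T] [IsNoetherianRing T] {D : ℕ}
    (hD : ringKrullDim T = D) {M : Type*} [AddCommGroup M] [Module T M] [Module.Finite T M]
    {t : T} (ht : t ∈ T⁰) (hM : ∀ x : M, t • x = 0) : UBf (hs T M) D 0 := by
  refine UB_of_supportDim_lt D ?_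
  rcases subsingleton_or_nontrivial M with hs | hs
  · rw [Module.supportDim_eq_bot_of_subsingleton]
    exact WithBot.bot_lt_coe _
  have h1 : Module.supportDim T M ≤ ringKrullDim (T ⧸ Ideal.span {t}) := by
    rw [Module.supportDim_eq_ringKrullDim_quotient_annihilator]
    have hle : Ideal.span {t} ≤ Module.annihilator T M := by
      rw [Ideal.span_singleton_le_iff_mem, Module.mem_annihilator]
      exact hM
    exact ringKrullDim_le_of_surjective (Ideal.Quotient.factor hle)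
      (Ideal.Quotient.factor_surjective hle)
  have hne : Ideal.span {t} ≠ ⊤ := by
    intro h
    rw [Ideal.span_singleton_eq_top] at h
    obtain ⟨u, rfl⟩ := h
    obtain ⟨x, hx⟩ := exists_ne (0 : M)
    apply hx
    have := hM x
    rwa [← Units.smul_def, smul_eq_zero_iff_eq] at this
  have i1 : Nontrivial (T ⧸ Ideal.span {t}) := Ideal.Quotient.nontrivial_iff.2 hne
  have i2 : IsLocalRing (T ⧸ Ideal.span {t}) :=
    IsLocalRing.of_surjective' _ Ideal.Quotient.mk_surjective
  have h2 := ringKrullDim_quotient_succ_le_of_nonZeroDivisor ht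
  rw [hD] at h2
  refine lt_of_le_of_lt h1 ?_
  have hnb : ringKrullDim (T ⧸ Ideal.span {t}) ≠ ⊥ := ringKrullDim_ne_bot
  obtain ⟨a, ha⟩ := WithBot.ne_bot_iff_exists.1 hnb
  rw [← ha] at h2 ⊢
  have h3 : a + 1 ≤ (D : ℕ∞) := by exact_mod_cast h2
  have h4 : a ≠ ⊤ := by
    rintro rfl
    simp at h3
  obtain ⟨n, rfl⟩ := ENat.ne_top_iff_exists.1 h4
  have h5 : n + 1 ≤ D := by exact_mod_cast h3
  exact_mod_cast (by omega : n < D)

variable {G T Tq S Sq : Type u} [CommRing G] [IsNoetherianRing G]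
  [CommRing T] [IsLocalRing T] [IsNoetherianRing T] [CommRing Tq] [Algebra T Tq] [Algebra G Tq]
  [Module.Finite T Tq]
  [CommRing S] [IsLocalRing S] [IsNoetherianRing S] [CommRing Sq] [Algebra S Sq] [Algebra G Sq]
  [Module.Finite S Sq] [Module.Flat G Sq]

/-- **(I3)** dévissage over `G`. -/
theorem devissage (D d : ℕ)
    (H : ∀ Q : Ideal G, Q.IsPrime →
      ∃ c : ℝ, UBf (hs T (Tq ⧸ Q.map (algebraMap G Tq))) D c ∧
        LBf (hs S (Sq ⧸ Q.map (algebraMap G Sq))) d c)
    (M : Type u) [AddCommGroup M] [Module G M] [Module.Finite G M] :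
    ∃ c : ℝ, UBf (hs T (Tq ⊗[G] M)) D c ∧ LBf (hs S (Sq ⊗[G] M)) d c := by
  induction ‹Module.Finite G M› using
    IsNoetherianRing.induction_on_isQuotientEquivQuotientPrime G with
  | subsingleton N =>
    refine ⟨0, ?_, LBf.zero _ _⟩
    have : hs T (Tq ⊗[G] N) = fun _ => 0 := by
      funext n
      unfold hs lenQ
      rw [Module.length_eq_zero]
      rfl
    rw [this]
    exact UBf.zero D
  | quotient N P e =>
    have hP := P.2
    obtain ⟨c, h1, h2⟩ := H P.1 hP
    refine ⟨c, ?_, ?_⟩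
    · rw [hs_congr (((e.baseChange G Tq N (G ⧸ P.1)).trans
        (tensorQuotEquiv G Tq P.1)).restrictScalars T)]
      exact h1
    · rw [hs_congr (((e.baseChange G Sq N (G ⧸ P.1)).trans
        (tensorQuotEquiv G Sq P.1)).restrictScalars S)]
      exact h2
  | exact N₁ N₂ N₃ f g hf hg hfg h₁ h₃ =>
    obtain ⟨c₁, h1, h1'⟩ := h₁
    obtain ⟨c₃, h3, h3'⟩ := h₃
    have j1 : Module.Finite T (Tq ⊗[G] N₁) := Module.Finite.trans Tq _
    have j2 : Module.Finite T (Tq ⊗[G] N₂) := Module.Finite.trans Tq _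
    have j3 : Module.Finite T (Tq ⊗[G] N₃) := Module.Finite.trans Tq _
    have k1 : Module.Finite S (Sq ⊗[G] N₁) := Module.Finite.trans Sq _
    have k2 : Module.Finite S (Sq ⊗[G] N₂) := Module.Finite.trans Sq _
    have k3 : Module.Finite S (Sq ⊗[G] N₃) := Module.Finite.trans Sq _
    refine ⟨c₁ + c₃, UB_of_exact ((f.baseChange Tq).restrictScalars T)
      ((g.baseChange Tq).restrictScalars T) ?_ ?_ h1 h3, ?_⟩
    · exact lTensor_exact Tq hfg hg
    · exact LinearMap.lTensor_surjective Tq hg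
    refine LB_of_exact ((f.baseChange Sq).restrictScalars S) ((g.baseChange Sq).restrictScalars S)
      ?_ ?_ ?_ h1' h3'
    · exact Module.Flat.lTensor_preserves_injective_linearMap f hf
    · exact lTensor_exact Sq hfg hg
    · exact LinearMap.lTensor_surjective Sq hg

/-- `hs` of a free module. -/
theorem hs_free {T M : Type u} [CommRing T] [IsLocalRing T] [IsNoetherianRing T] [AddCommGroup M]
    [Module T M] [Module.Free T M] [Module.Finite T M] (N : ℕ) :
    hs T M N = Module.finrank T M * hs T T N := by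
  have e : M ≃ₗ[T] (Fin (Module.finrank T M) → T) := (Module.finBasis T M).equivFun
  rw [hs_congr e]
  have h1 := Core.L_pi_quot (AddLen.ofLength.{u, u} T) (Module.finrank T M) (maximalIdeal T ^ N)
  rw [AddLen.ofLength_L, AddLen.ofLength_L] at h1
  have h2 : Module.length T ((Fin (Module.finrank T M) → T) ⧸
      (maximalIdeal T ^ N • (⊤ : Submodule T (Fin (Module.finrank T M) → T)))) =
      Module.finrank T M * Module.length T (T ⧸ maximalIdeal T ^ N) := by
    refine ENat.toENNReal_strictMono.injective ?_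
    rw [h1]
    simp
  have h3 : ((hs T (Fin (Module.finrank T M) → T) N : ℕ) : ℕ∞) =
      Module.finrank T M * (hs T T N : ℕ∞) := by
    rw [coe_hs, HS.coe_hs_self]
    exact h2
  exact_mod_cast h3

end devissage

section insep

theorem UBf_div {f : ℕ → ℕ} {D m : ℕ} (hm : 0 < m) {c : ℝ} (h : UBf (fun N => m * f N) D c) :
    UBf f D (c / m) := by
  intro ε hε
  have hm' : (0 : ℝ) < m := by exact_mod_cast hm
  filter_upwards [h (m * ε) (by positivity)] with N hN
  have h1 : (m : ℝ) * ((Nat.factorial D : ℝ) * (f N : ℝ)) ≤ m * ((c / m + ε) * (N : ℝ) ^ D) := by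
    have h2 : (m : ℝ) * ((c / m + ε) * (N : ℝ) ^ D) = (c + m * ε) * (N : ℝ) ^ D := by
      field_simp
    rw [h2]
    refine le_trans (le_of_eq ?_) hN
    push_cast
    ring
  exact le_of_mul_le_mul_left h1 hm'

theorem LBf_div {f : ℕ → ℕ} {D m : ℕ} (hm : 0 < m) {c : ℝ} (h : LBf (fun N => m * f N) D c) :
    LBf f D (c / m) := by
  intro ε hε
  have hm' : (0 : ℝ) < m := by exact_mod_cast hm
  filter_upwards [h (m * ε) (by positivity)] with N hN
  have h1 : (m : ℝ) * ((c / m - ε) * (N : ℝ) ^ D) ≤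
      m * ((Nat.factorial D : ℝ) * (f N : ℝ)) := by
    have h2 : (m : ℝ) * ((c / m - ε) * (N : ℝ) ^ D) = (c - m * ε) * (N : ℝ) ^ D := by
      field_simp
    rw [h2]
    refine le_trans hN (le_of_eq ?_)
    push_cast
    ring
  exact le_of_mul_le_mul_left h1 hm'

/-- **(I3) + (I4).** -/
theorem insep {R G T Tq S Sq : Type u} [CommRing R] [IsDomain R] [CommRing G] [IsNoetherianRing G]
    [CommRing T] [IsLocalRing T] [IsNoetherianRing T] [CommRing Tq] [Algebra T Tq] [Algebra G Tq]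
    [Module.Finite T Tq] [Module.Free T Tq]
    [CommRing S] [IsLocalRing S] [IsNoetherianRing S] [CommRing Sq] [Algebra S Sq] [Algebra G Sq]
    [Module.Finite S Sq] [Module.Free S Sq] [Module.Flat G Sq]
    [Algebra R T] [Module.Flat R T] [Algebra R G] [Algebra R Tq] [IsScalarTower R T Tq]
    [IsScalarTower R G Tq] {D d : ℕ} (hD : ringKrullDim T = D)
    (hrank : Module.finrank T Tq = Module.finrank S Sq) (hpos : 0 < Module.finrank T Tq)
    (q : ℕ) (hq : 0 < q) (ρ : G →+* R) (hρ : ∀ x, x ^ q = algebraMap R G (ρ x))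
    (H : ∃ c : ℝ, UBf (hs T (Tq ⧸ (RingHom.ker ρ).map (algebraMap G Tq))) D c ∧
        LBf (hs S (Sq ⧸ (RingHom.ker ρ).map (algebraMap G Sq))) d c) :
    ∃ c : ℝ, UBf (hs T T) D c ∧ LBf (hs S S) d c := by
  have H' : ∀ Q : Ideal G, Q.IsPrime →
      ∃ c : ℝ, UBf (hs T (Tq ⧸ Q.map (algebraMap G Tq))) D c ∧
        LBf (hs S (Sq ⧸ Q.map (algebraMap G Sq))) d c := by
    intro Q hQ
    by_cases hQP : Q = RingHom.ker ρ
    · rw [hQP]; exact H
    have hle : RingHom.ker ρ ≤ Q := by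
      intro x hx
      have h1 := hρ x
      rw [RingHom.mem_ker] at hx
      rw [hx, map_zero] at h1
      exact hQ.mem_of_pow_mem q (h1 ▸ Q.zero_mem)
    obtain ⟨x, hxQ, hxρ⟩ : ∃ x ∈ Q, x ∉ RingHom.ker ρ := by
      by_contra hcon
      push Not at hcon
      exact hQP (le_antisymm hcon hle)
    rw [RingHom.mem_ker] at hxρ
    have ht : algebraMap R T (ρ x) ∈ T⁰ := by
      have h2 : IsSMulRegular T (ρ x) := Module.Flat.isSMulRegular_of_isRegular
        (M := T) (IsRegular.of_ne_zero hxρ)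
      rw [mem_nonZeroDivisors_iff_right]
      intro y hy
      apply h2
      show ρ x • y = ρ x • 0
      rw [Algebra.smul_def, smul_zero, mul_comm]
      exact hy
    have hmem : algebraMap R Tq (ρ x) ∈ Q.map (algebraMap G Tq) := by
      rw [IsScalarTower.algebraMap_apply R G Tq, ← hρ x, map_pow]
      exact Ideal.pow_mem_of_mem _ (Ideal.mem_map_of_mem _ hxQ) q hq
    have j1 : Module.Finite T (Tq ⧸ Q.map (algebraMap G Tq)) := Module.Finite.trans Tq _
    refine ⟨0, UB_of_killed hD ht ?_, LBf.zero _ _⟩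
    intro y
    obtain ⟨y, rfl⟩ := Ideal.Quotient.mk_surjective y
    rw [Algebra.smul_def, IsScalarTower.algebraMap_apply T Tq (Tq ⧸ Q.map (algebraMap G Tq)),
      ← IsScalarTower.algebraMap_apply R T Tq]
    have h3 : algebraMap Tq (Tq ⧸ Q.map (algebraMap G Tq)) (algebraMap R Tq (ρ x)) = 0 :=
      Ideal.Quotient.eq_zero_iff_mem.2 hmem
    rw [h3, zero_mul]
  obtain ⟨c, h1, h2⟩ := devissage D d H' G
  have e1 : (Tq ⊗[G] G) ≃ₗ[T] Tq :=
    (AlgebraTensorModule.rid G Tq Tq).restrictScalars T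
  have e2 : (Sq ⊗[G] G) ≃ₗ[S] Sq :=
    (AlgebraTensorModule.rid G Sq Sq).restrictScalars S
  rw [hs_congr e1] at h1
  rw [hs_congr e2] at h2
  have f1 : hs T Tq = fun N => Module.finrank T Tq * hs T T N := funext hs_free
  have f2 : hs S Sq = fun N => Module.finrank T Tq * hs S S N := by
    funext N
    rw [hs_free, hrank]
  rw [f1] at h1
  rw [f2] at h2
  exact ⟨c / Module.finrank T Tq, UBf_div hpos h1, LBf_div hpos h2⟩

end insep

end Crest.Agent.R183.CoreI
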