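import Crest.Agent.R183.Z4
import Mathlib.RingTheory.Ideal.GoingUp

set_option autoImplicit false

/-! # R183 block [8b]: finite local algebras over `K[[x_1..x_d]]` -/

namespace Crest.Agent.R183.Z

open IsLocalRing MvPowerSeries Crest.Agent.R183.M Filter
open scoped Nat Topology

/-- local ring criterion -/
theorem isLocalRing_of_gen {B R' : Type*} [CommRing B] [IsLocalRing B] [CommRing R'] [Nontrivial R']
    [Algebra B R'] [Module.Finite B R'] (m : Ideal R')
    (h1 : ∀ r : R', ∃ b : B, r - algebraMap B R' b ∈ m) (k : ℕ)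
    (h2 : m ^ k ≤ (maximalIdeal B).map (algebraMap B R'))
    (h3 : (maximalIdeal B).map (algebraMap B R') ≤ m) :
    ∃ _ : IsLocalRing R', maximalIdeal R' = m := by
  have key : ∀ M : Ideal R', M.IsMaximal → m ≤ M := by
    intro M hM
    have := Ideal.isMaximal_comap_of_isIntegral_of_isMaximal (R := B) M
    have h4 : M.comap (algebraMap B R') = maximalIdeal B := IsLocalRing.eq_maximalIdeal this
    have h5 : (maximalIdeal B).map (algebraMap B R') ≤ M := by
      rw [Ideal.map_le_iff_le_comap, h4]
    exact hM.isPrime.le_of_pow_le (h2.trans h5)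
  obtain ⟨M0, hM0⟩ := Ideal.exists_maximal R'
  have hmne : m ≠ ⊤ := fun h => hM0.ne_top (top_le_iff.1 (h ▸ key M0 hM0))
  have hmax : m.IsMaximal := by
    rw [Ideal.isMaximal_iff]
    refine ⟨fun h => hmne ((Ideal.eq_top_iff_one _).2 h), fun J x hJ hx hxJ => ?_⟩
    obtain ⟨b, hb⟩ := h1 x
    have hbu : IsUnit b := by
      by_contra hb'
      have h6 : algebraMap B R' b ∈ m := h3 (Ideal.mem_map_of_mem _ hb')
      apply hx
      have := m.add_mem hb h6
      rwa [sub_add_cancel] at this
    have h7 : algebraMap B R' b ∈ J := by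
      have := J.sub_mem hxJ (hJ hb)
      rwa [sub_sub_cancel] at this
    have h8 : IsUnit (algebraMap B R' b) := hbu.map _
    rw [← Ideal.eq_top_iff_one]
    exact Ideal.eq_top_of_isUnit_mem _ h7 h8
  have hloc : IsLocalRing R' := by
    refine IsLocalRing.of_unique_max_ideal ⟨m, hmax, fun M hM => ?_⟩
    exact (hmax.eq_of_le hM.ne_top (key M hM)).symm
  exact ⟨hloc, (IsLocalRing.eq_maximalIdeal hmax).symm⟩

theorem lenQ_restrict_res {A R M : Type*} [CommRing A] [CommRing R] [IsLocalRing R] [Algebra A R]
    (hres : Function.Surjective (fun a : A => residue R (algebraMap A R a)))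
    [AddCommGroup M] [Module R M] [Module A M] [IsScalarTower A R M] (J : Ideal A) :
    lenQ J M = lenQ (J.map (algebraMap A R)) M := by
  unfold lenQ
  have h1 : (J • ⊤ : Submodule A M) =
      ((J.map (algebraMap A R) • ⊤ : Submodule R M)).restrictScalars A := by
    have := Ideal.smul_restrictScalars J (⊤ : Submodule R M)
    rw [this, Submodule.restrictScalars_top]
  rw [h1, (Submodule.Quotient.restrictScalarsEquiv A
    (J.map (algebraMap A R) • ⊤ : Submodule R M)).length_eq]
  exact length_restrict_eq A hres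

section

variable {B R' : Type*} [CommRing B] [IsLocalRing B] [IsNoetherianRing B] [CommRing R']
  [IsLocalRing R'] [Algebra B R'] [Module.Finite B R']

omit [IsNoetherianRing B] [Module.Finite B R'] in
theorem pow_add_le {t : ℕ}
    (ht : maximalIdeal R' ^ (t + 1) ≤ (maximalIdeal B).map (algebraMap B R') * maximalIdeal R' ^ t)
    (N : ℕ) :
    maximalIdeal R' ^ (N + t) ≤ ((maximalIdeal B).map (algebraMap B R')) ^ N := by
  have : ∀ N, maximalIdeal R' ^ (N + t) ≤
      ((maximalIdeal B).map (algebraMap B R')) ^ N * maximalIdeal R' ^ t := by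
    intro N
    induction N with
    | zero => simp
    | succ N ih =>
      calc maximalIdeal R' ^ (N + 1 + t) = maximalIdeal R' * maximalIdeal R' ^ (N + t) := by
            rw [← pow_succ']; congr 1; omega
        _ ≤ maximalIdeal R' * (((maximalIdeal B).map (algebraMap B R')) ^ N * maximalIdeal R' ^ t) :=
            Ideal.mul_mono_right ih
        _ = ((maximalIdeal B).map (algebraMap B R')) ^ N * maximalIdeal R' ^ (t + 1) := by ring
        _ ≤ ((maximalIdeal B).map (algebraMap B R')) ^ N *
            ((maximalIdeal B).map (algebraMap B R') * maximalIdeal R' ^ t) := Ideal.mul_mono_right ht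
        _ = _ := by ring
  exact (this N).trans Ideal.mul_le_left

theorem isNoetherian_of_finite (B R' : Type*) [CommRing B] [IsNoetherianRing B] [CommRing R']
    [Algebra B R'] [Module.Finite B R'] : IsNoetherianRing R' :=
  IsNoetherianRing.of_finite B R'

theorem hs_le_shift {t : ℕ} [IsNoetherianRing R']
    (hres : Function.Surjective (fun a : B => residue R' (algebraMap B R' a)))
    (ht : maximalIdeal R' ^ (t + 1) ≤ (maximalIdeal B).map (algebraMap B R') * maximalIdeal R' ^ t)
    (N : ℕ) : hs B R' N ≤ hs R' R' (N + t) := by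
  have h1 : lenQ (maximalIdeal B ^ N) R' ≤ lenQ (maximalIdeal R' ^ (N + t)) R' := by
    rw [lenQ_restrict_res hres, Ideal.map_pow]
    exact lenQ_mono (pow_add_le ht N)
  rw [← coe_hs, ← coe_hs] at h1
  exact_mod_cast h1

theorem hs_le_of_finite [IsNoetherianRing R']
    (hloc : (maximalIdeal B).map (algebraMap B R') ≤ maximalIdeal R') (N : ℕ) :
    hs R' R' N ≤ hs B R' N := by
  have h1 : lenQ (maximalIdeal R' ^ N) R' ≤ lenQ (maximalIdeal B ^ N) R' := by
    have h2 : ((maximalIdeal B).map (algebraMap B R')) ^ N ≤ maximalIdeal R' ^ N :=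
      Ideal.pow_right_mono hloc N
    refine (lenQ_mono h2).trans ?_
    rw [← Ideal.map_pow]
    unfold lenQ
    have h3 : (maximalIdeal B ^ N • ⊤ : Submodule B R') =
      (((maximalIdeal B ^ N).map (algebraMap B R') • ⊤ : Submodule R' R')).restrictScalars B := by
      have := Ideal.smul_restrictScalars (maximalIdeal B ^ N) (⊤ : Submodule R' R')
      rw [this, Submodule.restrictScalars_top]
    rw [h3, (Submodule.Quotient.restrictScalarsEquiv B
      ((maximalIdeal B ^ N).map (algebraMap B R') • ⊤ : Submodule R' R')).length_eq]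
    exact length_le_length_restrict B
  rw [← coe_hs, ← coe_hs] at h1
  exact_mod_cast h1

omit [IsNoetherianRing B] [Module.Finite B R'] in
/-- dimension bound from above -/
theorem ringKrullDim_le_of_minred {d : ℕ} [IsNoetherianRing R'] (x : Fin d → R') (k : ℕ)
    (hk : maximalIdeal R' ^ k ≤ Ideal.span (Set.range x)) (hx : ∀ i, x i ∈ maximalIdeal R') :
    ringKrullDim R' ≤ d := by
  have h0 : maximalIdeal R' ∈ (Ideal.span (Set.range x)).minimalPrimes := by
    refine ⟨⟨inferInstance, ?_⟩, ?_⟩
    · rw [Ideal.span_le]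
      rintro _ ⟨i, rfl⟩
      exact hx i
    · rintro P ⟨hP, hxP⟩ _
      exact hP.le_of_pow_le (hk.trans hxP)
  have h1 := Ideal.height_le_card_of_mem_minimalPrimes_span (Set.finite_range x) h0
  rw [← IsLocalRing.maximalIdeal_height_eq_ringKrullDim]
  have h2 : (Set.range x).ncard ≤ d := by
    rw [← Set.image_univ]
    refine (Set.ncard_image_le Set.finite_univ).trans ?_
    simp
  have h3 : (maximalIdeal R').height ≤ (d : ℕ∞) := h1.trans (by exact_mod_cast h2)
  exact WithBot.coe_le_coe.2 h3

omit [IsNoetherianRing B] [Module.Finite B R'] in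
/-- dimension bound from below -/
theorem le_ringKrullDim_of_LBf {d : ℕ} [IsNoetherianRing R'] {c : ℝ} (hc : 0 < c)
    (h : LBf (hs R' R') d c) : (d : WithBot ℕ∞) ≤ ringKrullDim R' := by
  by_contra hlt
  push Not at hlt
  have h1 : UBf (hs R' R') d 0 := by
    apply UB_of_supportDim_lt
    rw [Module.supportDim_self_eq_ringKrullDim]
    exact hlt
  exact absurd (h.le_of_UBf h1) (not_le.2 hc)

end

end Crest.Agent.R183.Z
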