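/-
R183 (Lech), INSEP, file 1: the multiplicity `e(y; R)` of an arbitrary system of parameters, and
its computation as a rank over `K[[y]]`.
helper499
-/
import Crest.Agent.R183.HSGrowth
import Crest.Agent.R183.Z5
import Crest.Agent.R183.BInf3
import Crest.Agent.R183.Cic

set_option autoImplicit false
set_option linter.unusedSectionVars false

namespace Crest.Agent.R183.PI

open IsLocalRing Filter Crest.Agent.R183.M Crest.Agent.R183.HS

universe u v

section full

variable {R : Type u} [CommRing R] [IsLocalRing R] [IsNoetherianRing R]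

/-- For any `y` with `m^t ≤ (y)`: the multiplicity `r = e(y; R)`. -/
theorem exists_rank_full {d : ℕ} (y : Fin d → R) {t : ℕ}
    (ht : maximalIdeal R ^ t ≤ Ideal.span (Set.range y)) :
    ∃ r C : ℕ, (∀ N : ℕ, Module.length R (R ⧸ Ideal.span (Set.range fun i => y i ^ N)) ≤
        (r * N ^ d + C * N ^ (d - 1) : ℕ)) ∧
      (∀ N : ℕ, 0 < N → ((r * N ^ d : ℕ) : ℕ∞) ≤
        Module.length R (R ⧸ Ideal.span (Set.range fun i => y i ^ N))) ∧
      (0 < d → UBf (fun k => (Module.length R (R ⧸ Ideal.span (Set.range y) ^ k)).toNat) d r ∧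
        LBf (fun k => (Module.length R (R ⧸ Ideal.span (Set.range y) ^ k)).toNat) d r) := by
  obtain ⟨r, C, h1, h2⟩ := exists_rank y ht
  have hfin : ∀ k, Module.length R (R ⧸ Ideal.span (Set.range y) ^ k) ≠ ⊤ := by
    intro k
    refine ne_top_of_le_ne_top (length_pow_ne_top (t * k)) (length_quot_mono ?_)
    rw [pow_mul]
    exact Ideal.pow_right_mono ht k
  have hmono : Monotone (fun k => (Module.length R (R ⧸ Ideal.span (Set.range y) ^ k)).toNat) := by
    intro a b hab
    have h : ((Module.length R (R ⧸ Ideal.span (Set.range y) ^ a)).toNat : ℕ∞) ≤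
        ((Module.length R (R ⧸ Ideal.span (Set.range y) ^ b)).toNat : ℕ∞) := by
      rw [ENat.natCast_toNat (hfin a), ENat.natCast_toNat (hfin b)]
      exact length_quot_mono (Ideal.pow_le_pow_right hab)
    exact_mod_cast h
  have hUB : ∀ N : ℕ, 0 < N →
      UBf (fun k => (Module.length R (R ⧸ Ideal.span (Set.range y) ^ k)).toNat) d
      (((Module.length R (R ⧸ Ideal.span (Set.range fun i => y i ^ N))).toNat : ℝ) /
        (N : ℝ) ^ d) := by
    intro N hN
    refine UBf_of_mult hmono hN fun j => ?_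
    have hL := ENat.natCast_toNat (length_quot_pow_ne_top y ht N)
    have h : ((Module.length R (R ⧸ Ideal.span (Set.range y) ^ (N * j))).toNat : ℕ∞) ≤
        cc d j * (Module.length R (R ⧸ Ideal.span (Set.range fun i => y i ^ N))).toNat := by
      rw [ENat.natCast_toNat (hfin _), hL]
      refine le_trans (length_quot_mono ?_) (length_quot_pow_le (fun i => y i ^ N) j)
      rw [pow_mul]
      refine Ideal.pow_right_mono ?_ j
      rw [Ideal.span_le]
      rintro _ ⟨i, rfl⟩
      have hyi : y i ∈ Ideal.span (Set.range y) := Ideal.subset_span ⟨i, rfl⟩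
      exact Ideal.pow_mem_pow hyi N
    exact_mod_cast h
  have hLB : LBf (fun k => (Module.length R (R ⧸ Ideal.span (Set.range y) ^ k)).toNat) d r := by
    intro ε hε
    filter_upwards [eventually_gt_atTop 0] with N hN
    have h3 : r * cc d N ≤ (Module.length R (R ⧸ Ideal.span (Set.range y) ^ N)).toNat := by
      have h4 := h2 N
      rw [← ENat.natCast_toNat (hfin N)] at h4
      exact_mod_cast h4
    have h5 : r * N ^ d ≤
        d.factorial * (Module.length R (R ⧸ Ideal.span (Set.range y) ^ N)).toNat := by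
      have := pow_le_factorial_mul_cc d N hN
      nlinarith
    have h6 : (r : ℝ) * (N : ℝ) ^ d ≤ (d.factorial : ℝ) *
        (((Module.length R (R ⧸ Ideal.span (Set.range y) ^ N)).toNat : ℕ) : ℝ) := by
      exact_mod_cast h5
    have h7 : (0 : ℝ) ≤ ε * (N : ℝ) ^ d := by positivity
    linarith
  refine ⟨r, C, h1, ?_, ?_⟩
  · intro N hN
    have h3 := hLB.le_of_UBf (hUB N hN)
    rw [le_div_iff₀ (by positivity)] at h3
    have h4 : r * N ^ d ≤
        (Module.length R (R ⧸ Ideal.span (Set.range fun i => y i ^ N))).toNat := by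
      exact_mod_cast h3
    rw [← ENat.natCast_toNat (length_quot_pow_ne_top y ht N)]
    exact_mod_cast h4
  · intro hd
    refine ⟨UBf_of_forall fun ε hε => ?_, hLB⟩
    obtain ⟨N, hN⟩ := exists_nat_gt ((C : ℝ) / ε)
    have hN0 : (0 : ℝ) < N := lt_of_le_of_lt (by positivity) hN
    have hN0' : 0 < N := by exact_mod_cast hN0
    refine (hUB N hN0').mono ?_
    have h2 : (Module.length R (R ⧸ Ideal.span (Set.range fun i => y i ^ N))).toNat ≤
        r * N ^ d + C * N ^ (d - 1) := by
      exact ENat.toNat_le_of_le_natCast (h1 N)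
    have h3 : ((Module.length R (R ⧸ Ideal.span (Set.range fun i => y i ^ N))).toNat : ℝ) ≤
        r * (N : ℝ) ^ d + C * (N : ℝ) ^ (d - 1) := by exact_mod_cast h2
    rw [div_le_iff₀ (by positivity)]
    refine h3.trans ?_
    rw [add_mul]
    have h4 : (N : ℝ) ^ d = (N : ℝ) * (N : ℝ) ^ (d - 1) := by
      rw [← pow_succ']
      congr 1
      omega
    have h5 : (C : ℝ) ≤ ε * N := by
      rw [div_lt_iff₀ hε] at hN
      linarith
    have h6 : (C : ℝ) * (N : ℝ) ^ (d - 1) ≤ ε * (N : ℝ) ^ d := by
      rw [h4, ← mul_assoc]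
      gcongr
    linarith

/-- the number `r` is determined by the growth. -/
theorem rank_unique {d : ℕ} (hd : 0 < d) (f : ℕ → ℕ∞) (r r' C : ℕ)
    (h1 : ∀ N, f N ≤ (r * N ^ d + C * N ^ (d - 1) : ℕ))
    (h2 : ∀ N : ℕ, 0 < N → ((r' * N ^ d : ℕ) : ℕ∞) ≤ f N) : r' ≤ r := by
  by_contra hlt
  push Not at hlt
  have h3 : ∀ N : ℕ, 0 < N → r' * N ^ d ≤ r * N ^ d + C * N ^ (d - 1) := by
    intro N hN
    have := (h2 N hN).trans (h1 N)
    exact_mod_cast this
  have h4 := h3 (C + 1) (Nat.succ_pos _)
  have h5 : (C + 1) ^ d = (C + 1) * (C + 1) ^ (d - 1) := by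
    rw [← pow_succ']
    congr 1
    omega
  have h6 : 0 < (C + 1) ^ (d - 1) := by positivity
  have h7 : (r + 1) * (C + 1) ^ d ≤ r' * (C + 1) ^ d := Nat.mul_le_mul_right _ hlt
  rw [h5] at h4 h7
  nlinarith

end full

section domain

variable {Q : Type u} [CommRing Q] [IsDomain Q] (M : Type v) [AddCommGroup M] [Module Q M]
  [Module.Finite Q M]

/-- a finite module over a domain is `Q^ρ` up to torsion. -/
theorem exists_free_sub : ∃ (f : (Fin (Module.finrank Q M) → Q) →ₗ[Q] M) (D : Q), D ≠ 0 ∧
    Function.Injective f ∧ ∀ m, D • m ∈ LinearMap.range f := by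
  obtain ⟨b, hb⟩ := exists_linearIndependent_of_le_finrank (R := Q) (M := M) le_rfl
  let f : (Fin (Module.finrank Q M) → Q) →ₗ[Q] M := Fintype.linearCombination Q b
  have hf : Function.Injective f := by
    rw [← LinearMap.ker_eq_bot, LinearMap.ker_eq_bot']
    intro c hc
    rw [Fintype.linearIndependent_iff] at hb
    funext i
    exact hb c (by simpa [f, Fintype.linearCombination_apply] using hc) i
  have h1 : Module.finrank Q (LinearMap.range f) = Module.finrank Q M := by
    rw [← (LinearEquiv.ofInjective f hf).finrank_eq, Module.finrank_fin_fun]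
  have h2 := Submodule.finrank_quotient_add_finrank (LinearMap.range f)
  have h3 : Module.finrank Q (M ⧸ LinearMap.range f) = 0 := by omega
  rw [Module.finrank_eq_zero_iff] at h3
  have h4 : Module.IsTorsion Q (M ⧸ LinearMap.range f) := by
    intro x
    obtain ⟨a, ha, hax⟩ := h3 x
    exact ⟨⟨a, mem_nonZeroDivisors_of_ne_zero ha⟩, hax⟩
  obtain ⟨D, hD1, hD2⟩ := Submodule.annihilator_top_inter_nonZeroDivisors h4
  refine ⟨f, D, nonZeroDivisors.ne_zero hD2, hf, fun m => ?_⟩
  have h5 := (Submodule.mem_annihilator.1 hD1) ((LinearMap.range f).mkQ m) trivial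
  rw [← map_smul] at h5
  exact (Submodule.Quotient.mk_eq_zero _).1 h5

variable [IsLocalRing Q] [IsNoetherianRing Q]

/-- rank and Hilbert–Samuel growth -/
theorem UBf_finrank {d : ℕ} (hdim : ringKrullDim Q ≤ d) (h : UBf (hs Q Q) d 1) :
    UBf (hs Q M) d (Module.finrank Q M) := by
  obtain ⟨f, D, hD, hf, hr⟩ := exists_free_sub (Q := Q) M
  have := Z.UBf_of_map hdim h f D hD hr
  rwa [mul_one] at this

theorem LBf_finrank {d : ℕ} (h : LBf (hs Q Q) d 1) :
    LBf (hs Q M) d (Module.finrank Q M) := by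
  obtain ⟨f, D, hD, hf, hr⟩ := exists_free_sub (Q := Q) M
  -- `m ↦ f⁻¹ (D m)`
  let e := LinearEquiv.ofInjective f hf
  let ph : M →ₗ[Q] (Fin (Module.finrank Q M) → Q) :=
    (e.symm : LinearMap.range f →ₗ[Q] _).comp
      (LinearMap.codRestrict (LinearMap.range f) (LinearMap.lsmul Q M D) hr)
  have hph : ∀ x, ph (f x) = D • x := by
    intro x
    show e.symm _ = _
    rw [LinearEquiv.symm_apply_eq]
    apply Subtype.ext
    show D • f x = f (D • x)
    rw [map_smul]
  have := Z.LBf_of_map h ph D hD (fun i => ⟨f (Pi.single i 1), by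
    rw [hph]
    funext j
    rw [Pi.smul_apply, smul_eq_mul]
    by_cases hij : j = i
    · subst hij; simp
    · simp [hij]⟩)
  rwa [mul_one] at this

end domain

section ps

variable {n : ℕ} {K : Type u} [Field K]

local notation "PS" => MvPowerSeries (Fin n) K

/-- **rank = multiplicity** for a finite `K[[y]]`-algebra `T` with residue field `K`. -/
theorem rank_eq (hn : 0 < n) (T : Type v) [CommRing T] [IsLocalRing T] [IsNoetherianRing T]
    [Algebra PS T] [Module.Finite PS T]
    (hres : ∀ x : T, ∃ a : PS, x - algebraMap PS T a ∈ maximalIdeal T) {t : ℕ}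
    (ht : maximalIdeal T ^ t ≤
      Ideal.span (Set.range fun i : Fin n => algebraMap PS T (MvPowerSeries.X i))) :
    ∃ C : ℕ, (∀ N : ℕ, Module.length T (T ⧸ Ideal.span (Set.range fun i : Fin n =>
        (algebraMap PS T (MvPowerSeries.X i)) ^ N)) ≤
        (Module.finrank PS T * N ^ n + C * N ^ (n - 1) : ℕ)) ∧
      (∀ N : ℕ, 0 < N → ((Module.finrank PS T * N ^ n : ℕ) : ℕ∞) ≤
        Module.length T (T ⧸ Ideal.span (Set.range fun i : Fin n =>
        (algebraMap PS T (MvPowerSeries.X i)) ^ N))) := by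
  obtain ⟨r, C, h1, h2, h3⟩ := exists_rank_full (fun i : Fin n =>
    algebraMap PS T (MvPowerSeries.X i)) ht
  obtain ⟨hU, hL⟩ := h3 hn
  have hmap : (maximalIdeal PS).map (algebraMap PS T) =
      Ideal.span (Set.range fun i : Fin n => algebraMap PS T (MvPowerSeries.X i)) := by
    rw [Z.maximalIdeal_eq_XI]
    unfold Z.XI
    rw [Ideal.map_span, ← Set.range_comp]
    rfl
  have hf : (fun k => (Module.length T (T ⧸ Ideal.span (Set.range fun i : Fin n =>
      algebraMap PS T (MvPowerSeries.X i)) ^ k)).toNat) = hs PS T := by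
    funext k
    unfold hs
    have hres' : Function.Surjective (fun a : PS => residue T (algebraMap PS T a)) := by
      intro y
      obtain ⟨x, rfl⟩ := residue_surjective y
      obtain ⟨a, ha⟩ := hres x
      refine ⟨a, ?_⟩
      have : residue T (x - algebraMap PS T a) = 0 := (residue_eq_zero_iff _).2 ha
      rw [map_sub, sub_eq_zero] at this
      exact this.symm
    rw [Z.lenQ_restrict_res hres', Ideal.map_pow, hmap, lenQ_self]
  rw [hf] at hU hL
  have hr : (r : ℝ) = (Module.finrank PS T : ℝ) := by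
    apply le_antisymm
    · exact hL.le_of_UBf (UBf_finrank T (Z.ringKrullDim_PS_le n K) (Z.UBf_PS n K))
    · exact (LBf_finrank T (Z.LBf_PS n K)).le_of_UBf hU
  have hr' : r = Module.finrank PS T := by exact_mod_cast hr
  subst hr'
  exact ⟨C, h1, h2⟩

end ps

end Crest.Agent.R183.PI
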