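/-
R183 (Lech), INSEP, file 2: the rank lemma (devissage over a Noetherian ring `G` with a unique
minimal prime).
helper499
-/
import Mathlib

set_option autoImplicit false
set_option linter.unusedSectionVars false

namespace Crest.Agent.R183.PI

open Module TensorProduct

universe u v w

section add

variable {Q : Type*} [CommRing Q] [IsDomain Q]

/-- additivity of the rank over a domain. -/
theorem finrank_add_of_exact {V₁ V₂ V₃ : Type*} [AddCommGroup V₁] [AddCommGroup V₂]
    [AddCommGroup V₃] [Module Q V₁] [Module Q V₂] [Module Q V₃] [Module.Finite Q V₂]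
    (f : V₁ →ₗ[Q] V₂) (g : V₂ →ₗ[Q] V₃) (hf : Function.Injective f) (hg : Function.Surjective g)
    (h : Function.Exact f g) : finrank Q V₂ = finrank Q V₁ + finrank Q V₃ := by
  have h1 := Submodule.finrank_quotient_add_finrank (LinearMap.range f)
  have h2 : finrank Q (LinearMap.range f) = finrank Q V₁ :=
    (LinearEquiv.ofInjective f hf).finrank_eq.symm
  have hk : LinearMap.ker g = LinearMap.range f := LinearMap.exact_iff.1 h
  have h3 : finrank Q (V₂ ⧸ LinearMap.range f) = finrank Q V₃ := by
    rw [← hk]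
    exact (g.quotKerEquivOfSurjective hg).finrank_eq
  omega

end add

section rk

variable (Q : Type*) [CommRing Q] (H : Type*) [CommRing H] [Algebra Q H]

/-- the rank over `Q` of a module over the `Q`-algebra `H`. -/
noncomputable def rk (V : Type*) [AddCommGroup V] [Module H V] : ℕ :=
  @finrank Q V _ _ (Module.compHom V (algebraMap Q H))

lemma rk_eq (V : Type*) [AddCommGroup V] [Module H V] [inst : Module Q V] [IsScalarTower Q H V] :
    rk Q H V = finrank Q V := by
  unfold rk
  congr 1
  refine Module.ext' _ _ fun a x => ?_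
  exact algebraMap_smul H a x

variable {H}

lemma rk_congr {V W : Type*} [AddCommGroup V] [Module H V] [AddCommGroup W] [Module H W]
    (e : V ≃ₗ[H] W) : rk Q H V = rk Q H W := by
  let _ : Module Q V := Module.compHom V (algebraMap Q H)
  let _ : Module Q W := Module.compHom W (algebraMap Q H)
  have _ : IsScalarTower Q H V := ⟨fun a c y => by rw [Algebra.smul_def, mul_smul]; rfl⟩
  have _ : IsScalarTower Q H W := ⟨fun a c y => by rw [Algebra.smul_def, mul_smul]; rfl⟩
  rw [rk_eq, rk_eq]
  exact (e.restrictScalars Q).finrank_eq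

lemma rk_add [IsDomain Q] [Module.Finite Q H] {V₁ V₂ V₃ : Type*} [AddCommGroup V₁] [AddCommGroup V₂]
    [AddCommGroup V₃] [Module H V₁] [Module H V₂] [Module H V₃] [Module.Finite H V₂]
    (f : V₁ →ₗ[H] V₂) (g : V₂ →ₗ[H] V₃) (hf : Function.Injective f) (hg : Function.Surjective g)
    (h : Function.Exact f g) : rk Q H V₂ = rk Q H V₁ + rk Q H V₃ := by
  let _ : Module Q V₁ := Module.compHom V₁ (algebraMap Q H)
  let _ : Module Q V₂ := Module.compHom V₂ (algebraMap Q H)
  let _ : Module Q V₃ := Module.compHom V₃ (algebraMap Q H)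
  have _ : IsScalarTower Q H V₁ := ⟨fun a c y => by rw [Algebra.smul_def, mul_smul]; rfl⟩
  have _ : IsScalarTower Q H V₂ := ⟨fun a c y => by rw [Algebra.smul_def, mul_smul]; rfl⟩
  have _ : IsScalarTower Q H V₃ := ⟨fun a c y => by rw [Algebra.smul_def, mul_smul]; rfl⟩
  have _ : Module.Finite Q V₂ := Module.Finite.trans H V₂
  rw [rk_eq, rk_eq, rk_eq]
  exact finrank_add_of_exact (f.restrictScalars Q) (g.restrictScalars Q) hf hg h

lemma rk_le_of_surjective [IsDomain Q] [Module.Finite Q H] {V W : Type*} [AddCommGroup V]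
    [Module H V] [AddCommGroup W] [Module H W] [Module.Finite H V] (g : V →ₗ[H] W)
    (hg : Function.Surjective g) : rk Q H W ≤ rk Q H V := by
  have := rk_add Q (LinearMap.ker g).subtype g (Submodule.subtype_injective _) hg
    (LinearMap.exact_subtype_ker_map g)
  omega

lemma rk_subsingleton (V : Type*) [AddCommGroup V] [Module H V] [Subsingleton V]
    [Nontrivial Q] : rk Q H V = 0 := by
  let _ : Module Q V := Module.compHom V (algebraMap Q H)
  have _ : IsScalarTower Q H V := ⟨fun a c y => by rw [Algebra.smul_def, mul_smul]; rfl⟩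
  rw [rk_eq]
  exact Module.finrank_zero_of_subsingleton

end rk

section lemma1

variable {G : Type u} [CommRing G]
variable {Q H : Type*} [CommRing Q] [IsDomain Q] [CommRing H] [Algebra Q H]
  [Module.Finite Q H] [Algebra G H] [Module.Flat G H]

omit [Module.Finite Q H] [IsDomain Q] [Module.Flat G H] in
lemma rk_tensor_congr {N N' : Type*} [AddCommGroup N] [Module G N] [AddCommGroup N'] [Module G N']
    (e : N ≃ₗ[G] N') : rk Q H (H ⊗[G] N) = rk Q H (H ⊗[G] N') :=
  rk_congr Q (TensorProduct.AlgebraTensorModule.congr (LinearEquiv.refl H H) e)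

lemma rk_tensor_add {N₁ N₂ N₃ : Type*} [AddCommGroup N₁] [Module G N₁] [AddCommGroup N₂]
    [Module G N₂] [AddCommGroup N₃] [Module G N₃] [Module.Finite G N₂]
    (f : N₁ →ₗ[G] N₂) (g : N₂ →ₗ[G] N₃) (hf : Function.Injective f) (hg : Function.Surjective g)
    (h : Function.Exact f g) :
    rk Q H (H ⊗[G] N₂) = rk Q H (H ⊗[G] N₁) + rk Q H (H ⊗[G] N₃) := by
  refine rk_add Q (TensorProduct.AlgebraTensorModule.lTensor H H f)
    (TensorProduct.AlgebraTensorModule.lTensor H H g) ?_ ?_ ?_
  · exact Module.Flat.lTensor_preserves_injective_linearMap f hf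
  · exact LinearMap.lTensor_surjective H hg
  · exact lTensor_exact H h hg

/-- the rank of `H/DH` vanishes if `D` is a nonzerodivisor on a module. -/
lemma rk_tensor_quotient_eq_zero (P p : Ideal G) [P.IsPrime] (hPp : P ≤ p) (D : G)
    (hD : D ∈ p) (hDP : D ∉ P) : rk Q H (H ⊗[G] (G ⧸ p)) = 0 := by
  let f : (G ⧸ P) →ₗ[G] (G ⧸ P) := LinearMap.lsmul G (G ⧸ P) D
  have hf : Function.Injective f := by
    rw [← LinearMap.ker_eq_bot, LinearMap.ker_eq_bot']
    intro x hx
    obtain ⟨x, rfl⟩ := Ideal.Quotient.mk_surjective x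
    have h1 : Ideal.Quotient.mk P (D * x) = 0 := hx
    rw [Ideal.Quotient.eq_zero_iff_mem] at h1 ⊢
    exact (‹P.IsPrime›.mem_or_mem h1).resolve_left hDP
  have h1 := rk_tensor_add (Q := Q) (H := H) f (LinearMap.range f).mkQ hf
    (Submodule.mkQ_surjective _) (LinearMap.exact_map_mkQ_range f)
  have h2 : rk Q H (H ⊗[G] ((G ⧸ P) ⧸ LinearMap.range f)) = 0 := by omega
  have hle : LinearMap.range f ≤ LinearMap.ker (Submodule.factor hPp) := by
    rintro _ ⟨x, rfl⟩
    obtain ⟨x, rfl⟩ := Ideal.Quotient.mk_surjective x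
    rw [LinearMap.mem_ker]
    show (Submodule.Quotient.mk (D * x) : G ⧸ p) = 0
    exact (Submodule.Quotient.mk_eq_zero _).2 (p.mul_mem_right x hD)
  let g : ((G ⧸ P) ⧸ LinearMap.range f) →ₗ[G] (G ⧸ p) :=
    (LinearMap.range f).liftQ (Submodule.factor hPp) hle
  have hg : Function.Surjective g := by
    intro y
    obtain ⟨x, rfl⟩ := Submodule.factor_surjective hPp y
    exact ⟨(LinearMap.range f).mkQ x, rfl⟩
  have h3 := rk_le_of_surjective Q (TensorProduct.AlgebraTensorModule.lTensor H H g)
    (LinearMap.lTensor_surjective H hg)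
  omega

end lemma1

section main

variable {G : Type u} [CommRing G] [IsNoetherianRing G]
variable {Q H Q' H' : Type*} [CommRing Q] [IsDomain Q] [CommRing H] [Algebra Q H]
  [Module.Finite Q H] [Algebra G H] [Module.Flat G H]
  [CommRing Q'] [IsDomain Q'] [CommRing H'] [Algebra Q' H']
  [Module.Finite Q' H'] [Algebra G H'] [Module.Flat G H']

/-- **the rank lemma**. -/
theorem rk_lemma (P : Ideal G) [P.IsPrime] (hP : ∀ x ∈ P, IsNilpotent x)
    (M : Type u) [AddCommGroup M] [Module G M] [hM : Module.Finite G M] :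
    rk Q H (H ⊗[G] M) * rk Q' H' (H' ⊗[G] (G ⧸ P)) =
      rk Q' H' (H' ⊗[G] M) * rk Q H (H ⊗[G] (G ⧸ P)) := by
  induction hM using IsNoetherianRing.induction_on_isQuotientEquivQuotientPrime G with
  | subsingleton N =>
    have : Subsingleton (H ⊗[G] N) := inferInstance
    have : Subsingleton (H' ⊗[G] N) := inferInstance
    rw [rk_subsingleton Q (H ⊗[G] N), rk_subsingleton Q' (H' ⊗[G] N), zero_mul, zero_mul]
  | quotient N p e =>
    rw [rk_tensor_congr (Q := Q) (H := H) e, rk_tensor_congr (Q := Q') (H := H') e]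
    have hPp : P ≤ p.1 := by
      intro x hx
      obtain ⟨n, hn⟩ := hP x hx
      exact p.2.mem_of_pow_mem n (by rw [hn]; exact zero_mem _)
    by_cases hp : p.1 ≤ P
    · have : p.1 = P := le_antisymm hp hPp
      rw [this]
      ring
    · obtain ⟨D, hD, hDP⟩ := Set.not_subset.1 hp
      rw [rk_tensor_quotient_eq_zero (Q := Q) (H := H) P p.1 hPp D hD hDP,
        rk_tensor_quotient_eq_zero (Q := Q') (H := H') P p.1 hPp D hD hDP, zero_mul, zero_mul]
  | exact N₁ N₂ N₃ f g hf hg hfg h₁ h₃ =>
    rw [rk_tensor_add (Q := Q) (H := H) f g hf hg hfg,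
      rk_tensor_add (Q := Q') (H := H') f g hf hg hfg, add_mul, add_mul, h₁, h₃]

/-- **the rank lemma**, ring form. -/
theorem rank_lemma (P : Ideal G) [P.IsPrime] (hP : ∀ x ∈ P, IsNilpotent x) :
    finrank Q H * finrank Q' (H' ⧸ P.map (algebraMap G H')) =
      finrank Q' H' * finrank Q (H ⧸ P.map (algebraMap G H)) := by
  have h1 := rk_lemma (Q := Q) (H := H) (Q' := Q') (H' := H') P hP G
  rw [rk_congr Q (TensorProduct.AlgebraTensorModule.rid G H H),
    rk_congr Q' (TensorProduct.AlgebraTensorModule.rid G H' H'),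
    ← rk_congr Q (Algebra.TensorProduct.quotIdealMapEquivTensorQuot H P).toLinearEquiv,
    ← rk_congr Q' (Algebra.TensorProduct.quotIdealMapEquivTensorQuot H' P).toLinearEquiv,
    rk_eq, rk_eq, rk_eq, rk_eq] at h1
  exact h1

end main

end Crest.Agent.R183.PI
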