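/-
R183 (Lech), INSEP, file 3: pushout forms.
helper499
-/
import Crest.Agent.R183.PI2

set_option autoImplicit false
set_option linter.unusedSectionVars false

namespace Crest.Agent.R183.PI

open Module TensorProduct

universe u v w

section ker

variable {T S T1 S1 : Type*} [CommRing T] [CommRing S] [CommRing T1] [CommRing S1]
  [Algebra T S] [Algebra T T1] [Algebra S S1] [Algebra T1 S1] [Algebra T S1]
  [IsScalarTower T S S1] [IsScalarTower T T1 S1]

/-- the pushout of a surjection is a surjection with the expected kernel. -/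
theorem ker_pushout [Algebra.IsPushout T T1 S S1]
    (hs : Function.Surjective (algebraMap T S)) :
    Function.Surjective (algebraMap T1 S1) ∧
      RingHom.ker (algebraMap T1 S1) = (RingHom.ker (algebraMap T S)).map (algebraMap T T1) := by
  let J := RingHom.ker (algebraMap T S)
  let eS : (T ⧸ J) ≃ₐ[T] S := Ideal.quotientKerAlgEquivOfSurjective (f := Algebra.ofId T S) hs
  let e1 : (T1 ⧸ J.map (algebraMap T T1)) ≃ₐ[T1] T1 ⊗[T] (T ⧸ J) :=
    Algebra.TensorProduct.quotIdealMapEquivTensorQuot T1 J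
  let e2 : T1 ⊗[T] (T ⧸ J) ≃ₐ[T1] T1 ⊗[T] S := Algebra.TensorProduct.congr AlgEquiv.refl eS
  let e3 : T1 ⊗[T] S ≃ₐ[T1] S1 := Algebra.IsPushout.equiv T T1 S S1
  let E : (T1 ⧸ J.map (algebraMap T T1)) ≃ₐ[T1] S1 := (e1.trans e2).trans e3
  have hE : ∀ x : T1, E (Ideal.Quotient.mk _ x) = algebraMap T1 S1 x := fun x => E.commutes x
  constructor
  · intro y
    obtain ⟨x, hx⟩ := Ideal.Quotient.mk_surjective (E.symm y)
    refine ⟨x, ?_⟩
    rw [← hE, hx, AlgEquiv.apply_symm_apply]
  · ext x
    rw [RingHom.mem_ker, ← hE, EmbeddingLike.map_eq_zero_iff, Ideal.Quotient.eq_zero_iff_mem]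

end ker

section rank

theorem finrank_quotient_pushout {G R1 Q H H1 : Type*} [CommRing G] [CommRing R1]
    [Algebra G R1] [CommRing Q] [CommRing H] [CommRing H1]
    [Algebra Q H] [Algebra G H] [Algebra H H1] [Algebra R1 H1]
    [Algebra G H1] [IsScalarTower G H H1] [IsScalarTower G R1 H1] [Algebra Q H1]
    [IsScalarTower Q H H1] [Algebra.IsPushout G H R1 H1]
    (hs : Function.Surjective (algebraMap G R1)) :
    finrank Q (H ⧸ (RingHom.ker (algebraMap G R1)).map (algebraMap G H)) = finrank Q H1 := by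
  obtain ⟨k1, k2⟩ := ker_pushout (T := G) (S := R1) (T1 := H) (S1 := H1) hs
  let e : (H ⧸ RingHom.ker (algebraMap H H1)) ≃ₐ[H] H1 :=
    Ideal.quotientKerAlgEquivOfSurjective (f := Algebra.ofId H H1) k1
  rw [← k2, ← rk_eq Q H (H ⧸ RingHom.ker (algebraMap H H1)), ← rk_eq Q H H1]
  exact rk_congr Q e.toLinearEquiv

variable {G R1 : Type u} [CommRing G] [IsNoetherianRing G] [CommRing R1] [IsDomain R1]
  [Algebra G R1]
variable {Q H H1 Q' H' H1' : Type*} [CommRing Q] [IsDomain Q] [CommRing H] [CommRing H1]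
  [Algebra Q H] [Module.Finite Q H] [Algebra G H] [Module.Flat G H] [Algebra H H1] [Algebra R1 H1]
  [Algebra G H1] [IsScalarTower G H H1] [IsScalarTower G R1 H1] [Algebra Q H1]
  [IsScalarTower Q H H1] [Algebra.IsPushout G H R1 H1]
  [CommRing Q'] [IsDomain Q'] [CommRing H'] [CommRing H1']
  [Algebra Q' H'] [Module.Finite Q' H'] [Algebra G H'] [Module.Flat G H'] [Algebra H' H1']
  [Algebra R1 H1'] [Algebra G H1'] [IsScalarTower G H' H1'] [IsScalarTower G R1 H1']
  [Algebra Q' H1'] [IsScalarTower Q' H' H1'] [Algebra.IsPushout G H' R1 H1']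

/-- **the rank lemma**, pushout form. -/
theorem rank_lemma_pushout (hs : Function.Surjective (algebraMap G R1))
    (hP : ∀ x, algebraMap G R1 x = 0 → IsNilpotent x) :
    finrank Q H * finrank Q' H1' = finrank Q' H' * finrank Q H1 := by
  have hprime : (RingHom.ker (algebraMap G R1)).IsPrime := RingHom.ker_isPrime _
  have h1 := rank_lemma (Q := Q) (H := H) (Q' := Q') (H' := H')
    (RingHom.ker (algebraMap G R1)) hP
  rw [finrank_quotient_pushout (G := G) (R1 := R1) (H := H) (H1 := H1) hs,
    finrank_quotient_pushout (G := G) (R1 := R1) (H := H') (H1 := H1') hs] at h1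
  exact h1

end rank

section pos

variable {Q V : Type*} [CommRing Q] [IsDomain Q] [CommRing V] [Algebra Q V] [Module.Finite Q V]

theorem finrank_pos_of_injective (h : Function.Injective (algebraMap Q V)) :
    0 < finrank Q V := by
  rw [Nat.pos_iff_ne_zero]
  intro h0
  rw [Module.finrank_eq_zero_iff] at h0
  obtain ⟨a, ha, hax⟩ := h0 1
  rw [Algebra.smul_def, mul_one] at hax
  exact ha (h (by rw [hax, map_zero]))

theorem injective_of_finrank_pos (h : 0 < finrank Q V) :
    Function.Injective (algebraMap Q V) := by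
  rw [injective_iff_map_eq_zero]
  intro a ha
  by_contra ha0
  have : finrank Q V = 0 := by
    rw [Module.finrank_eq_zero_iff]
    intro x
    exact ⟨a, ha0, by rw [Algebra.smul_def, ha, zero_mul]⟩
  omega

end pos

end Crest.Agent.R183.PI
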