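/-
R183 (Lech), INSEP, piece (D) of helper499's list: ranks over a domain.   helper389
-/
import Mathlib
import Crest.Agent.R183.PI2

set_option autoImplicit false

namespace Crest.Agent.R183.PI

open Module TensorProduct

section pi

variable {Q : Type*} [CommRing Q] [IsDomain Q]

theorem finrank_prod_of_domain (V W : Type*) [AddCommGroup V] [Module Q V] [Module.Finite Q V]
    [AddCommGroup W] [Module Q W] [Module.Finite Q W] :
    finrank Q (V × W) = finrank Q V + finrank Q W :=
  finrank_add_of_exact (LinearMap.inl Q V W) (LinearMap.snd Q V W) LinearMap.inl_injective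
    LinearMap.snd_surjective (by
      rw [LinearMap.exact_iff, LinearMap.range_inl])

theorem finrank_fin_of_domain (V : Type*) [AddCommGroup V] [Module Q V] [Module.Finite Q V]
    (m : ℕ) : finrank Q (Fin m → V) = m * finrank Q V := by
  induction m with
  | zero =>
    rw [zero_mul]
    exact finrank_zero_of_subsingleton
  | succ m ih =>
    rw [← (Fin.consLinearEquiv Q (fun _ : Fin (m + 1) => V)).finrank_eq,
      finrank_prod_of_domain V (Fin m → V), ih]
    ring

theorem finrank_pi_of_domain (V : Type*) [AddCommGroup V] [Module Q V] [Module.Finite Q V]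
    (ι : Type*) [Fintype ι] : finrank Q (ι → V) = Fintype.card ι * finrank Q V := by
  rw [(LinearEquiv.funCongrLeft Q V (Fintype.equivFin ι)).symm.finrank_eq, finrank_fin_of_domain]

/-- the rank over `Q` of a free module over a finite `Q`-algebra. -/
theorem finrank_of_basis {S H : Type*} [CommRing S] [Algebra Q S] [Module.Finite Q S]
    [AddCommGroup H] [Module Q H] [Module S H] [IsScalarTower Q S H] {ι : Type*} [Fintype ι]
    (b : Basis ι S H) : finrank Q H = Fintype.card ι * finrank Q S := by
  rw [← finrank_pi_of_domain S ι]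
  exact (b.equivFun.restrictScalars Q).finrank_eq

/-- base change of a free algebra: `Sq = Tq ⊗_T S`. -/
theorem finrank_of_isPushout {T S Tq Sq : Type*} [CommRing T] [CommRing S] [CommRing Tq]
    [CommRing Sq] [Algebra T S] [Algebra T Tq] [Algebra T Sq] [Algebra S Sq] [Algebra Tq Sq]
    [IsScalarTower T S Sq] [IsScalarTower T Tq Sq] [Algebra.IsPushout T S Tq Sq]
    [Algebra Q S] [Module.Finite Q S] [Algebra Q Sq] [IsScalarTower Q S Sq] {ι : Type*} [Fintype ι]
    (b : Basis ι T Tq) : finrank Q Sq = Fintype.card ι * finrank Q S :=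
  finrank_of_basis (IsBaseChange.basis b (Algebra.IsPushout.out (R := T) (S := S) (R' := Tq)
    (S' := Sq)))

/-- the tensor product in the order `Tq ⊗[T] S`, `Q` acting through `S`. -/
theorem finrank_tensor {T S Tq : Type*} [CommRing T] [CommRing S] [CommRing Tq]
    [Algebra T S] [Algebra T Tq] [Algebra Q S] [Module.Finite Q S]
    [Algebra Q (Tq ⊗[T] S)]
    (hQ : ∀ q : Q, algebraMap Q (Tq ⊗[T] S) q = 1 ⊗ₜ[T] algebraMap Q S q)
    {ι : Type*} [Fintype ι] (b : Basis ι T Tq) :
    finrank Q (Tq ⊗[T] S) = Fintype.card ι * finrank Q S := by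
  let _ : Algebra S (Tq ⊗[T] S) := Algebra.TensorProduct.rightAlgebra
  have _ : IsScalarTower Q S (Tq ⊗[T] S) := IsScalarTower.of_algebraMap_eq fun q => by
    rw [hQ]; rfl
  have _ : Algebra.IsPushout T S Tq (Tq ⊗[T] S) := inferInstance
  exact finrank_of_isPushout b

/-- the tensor product in the order `S ⊗[T] Tq`. -/
theorem finrank_tensor' {T S Tq : Type*} [CommRing T] [CommRing S] [CommRing Tq]
    [Algebra T S] [Algebra T Tq] [Algebra Q S] [Module.Finite Q S]
    [Algebra Q (S ⊗[T] Tq)] [IsScalarTower Q S (S ⊗[T] Tq)]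
    {ι : Type*} [Fintype ι] (b : Basis ι T Tq) :
    finrank Q (S ⊗[T] Tq) = Fintype.card ι * finrank Q S :=
  finrank_of_basis (Algebra.TensorProduct.basis S b)

end pi

end Crest.Agent.R183.PI
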