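import Crest.Agent.R183.RD9
import Crest.Agent.R183.CohenDim

/-!
# R183, block RD (helper680), part 10: dimension of `T`, regular elements, the reduction `w` of `m_T`
-/

set_option autoImplicit false
set_option linter.unusedSectionVars false

namespace Crest.Agent.R183.RD

open TensorProduct IsLocalRing MvPowerSeries Crest.Agent.R183.M Crest.Agent.R183.Cohen
open scoped nonZeroDivisors

universe u v w

section Dim

variable {A S : Type*} [CommRing A] [CommRing S] [Algebra A S]

theorem exists_ltSeries_lift [Algebra.IsIntegral A S] (hinj : Function.Injective (algebraMap A S))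
    (l : LTSeries (PrimeSpectrum A)) : ∃ L : LTSeries (PrimeSpectrum S), L.length = l.length := by
  obtain ⟨P, -, hP, hPl⟩ := Ideal.exists_ideal_over_prime_of_isIntegral
    l.head.asIdeal (⊥ : Ideal S) (by
      show RingHom.ker (algebraMap A S) ≤ _
      rw [(RingHom.injective_iff_ker_eq_bot _).1 hinj]; exact bot_le)
  have : P.LiesOver l.head.asIdeal := ⟨hPl.symm⟩
  have : Algebra.HasGoingUp A S := Algebra.HasGoingUp.of_isIntegral
  obtain ⟨L, hL, -, -⟩ := Ideal.exists_ltSeries_of_hasGoingUp l P
  exact ⟨L, hL⟩

/-- an injective integral extension has the same dimension -/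
theorem ringKrullDim_eq_of_isIntegral_of_injective [Algebra.IsIntegral A S]
    (hinj : Function.Injective (algebraMap A S)) : ringKrullDim S = ringKrullDim A := by
  refine le_antisymm ringKrullDim_le_of_isIntegral ?_
  refine iSup_le fun l => ?_
  obtain ⟨L, hL⟩ := exists_ltSeries_lift (S := S) hinj l
  rw [← hL]
  exact le_iSup (fun L : LTSeries (PrimeSpectrum S) => (L.length : WithBot ℕ∞)) L

end Dim

theorem algebraMap_mem_nonZeroDivisors_of_flat {R S : Type*} [CommRing R] [IsDomain R]
    [CommRing S] [Algebra R S] [Module.Flat R S] {r : R} (hr : r ≠ 0) :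
    algebraMap R S r ∈ S⁰ := by
  have h2 : IsSMulRegular S r := Module.Flat.isSMulRegular_of_isRegular
    (M := S) (IsRegular.of_ne_zero hr)
  rw [mem_nonZeroDivisors_iff_right]
  intro x hx
  apply h2
  show r • x = r • 0
  rw [Algebra.smul_def, smul_zero, mul_comm]
  exact hx

section Fact

variable {A R A' T S : Type*} [CommRing A] [CommRing R] [CommRing A']
    [CommRing T] [CommRing S] [Algebra A R] [Algebra A A'] [Algebra A T] [Algebra R T]
    [Algebra A' T] [Algebra R S] [IsScalarTower A R T] [IsScalarTower A A' T]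
    [Algebra.IsPushout A R A' T]

include A R in
theorem injective_of_pushout [Module.Flat A A'] (hinj : Function.Injective (algebraMap A R)) :
    Function.Injective (algebraMap A' T) := by
  have h1 : Function.Injective (LinearMap.lTensor A' (Algebra.linearMap A R)) :=
    Module.Flat.lTensor_preserves_injective_linearMap _ hinj
  have hpo : Algebra.IsPushout A A' R T := Algebra.IsPushout.symm inferInstance
  let e : A' ⊗[A] R ≃ₐ[A'] T := Algebra.IsPushout.equiv A A' R T
  have h2 : ∀ a' : A', algebraMap A' T a' =
      e (LinearMap.lTensor A' (Algebra.linearMap A R) (a' ⊗ₜ[A] 1)) := by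
    intro a'
    rw [LinearMap.lTensor_tmul, Algebra.linearMap_apply, map_one]
    have : (a' ⊗ₜ[A] (1 : R)) = algebraMap A' (A' ⊗[A] R) a' := rfl
    rw [this, AlgEquiv.commutes]
  intro x y hxy
  rw [h2, h2] at hxy
  have h3 := h1 (e.injective hxy)
  have h4 := congrArg (TensorProduct.rid A A') h3
  simpa using h4

variable [IsLocalRing A] [IsLocalRing R] [IsLocalRing A'] [IsLocalRing T] [IsLocalRing S]
    {g : ℕ} {π : T →+* S} {Y : ℕ → T}

include A R in
theorem IsCohenFact.injective_A'T (h : IsCohenFact A R A' T S g π Y)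
    (hinj : Function.Injective (algebraMap A R)) : Function.Injective (algebraMap A' T) := by
  have := h.flat_A'
  exact injective_of_pushout (A := A) (R := R) hinj

theorem IsCohenFact.ringKrullDim_T (h : IsCohenFact A R A' T S g π Y)
    (hinj : Function.Injective (algebraMap A R)) : ringKrullDim T = ringKrullDim A' := by
  have := h.finite_T
  exact ringKrullDim_eq_of_isIntegral_of_injective (h.injective_A'T hinj)

theorem IsCohenFact.regular_T [IsDomain R] (h : IsCohenFact A R A' T S g π Y) {r : R}
    (hr : r ≠ 0) : algebraMap R T r ∈ T⁰ := by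
  have := h.flat_T
  exact algebraMap_mem_nonZeroDivisors_of_flat hr

theorem IsCohenFact.Y_mem (h : IsCohenFact A R A' T S g π Y) (j : ℕ) (hj : j < g) :
    Y j ∈ maximalIdeal T := by
  rw [← h.max, pr]
  exact Ideal.mem_sup_right (Ideal.subset_span ⟨j, hj, rfl⟩)

theorem IsCohenFact.comap_maximalIdeal (h : IsCohenFact A R A' T S g π Y) {r : R}
    (hr : r ∈ maximalIdeal R) : algebraMap R T r ∈ maximalIdeal T :=
  mem_maximalIdeal_of_local _ h.local_T hr

/-- **The reduction `w = (z, Y)` of `m_T`**, with `z` in `R`. -/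
theorem IsCohenFact.exists_w [IsNoetherianRing R] [Infinite (ResidueField R)]
    (h : IsCohenFact A R A' T S g π Y) {d : ℕ} (hd : ringKrullDim R = d) :
    ∃ (z : Fin d → R) (c : ℕ), (∀ i, z i ∈ maximalIdeal R) ∧
      maximalIdeal R ^ (c + 1) = Ideal.span (Set.range z) * maximalIdeal R ^ c ∧
      (∀ i, (Fin.append (fun i => algebraMap R T (z i)) (fun j : Fin g => Y j)) i ∈
        maximalIdeal T) ∧
      maximalIdeal T ^ (c + 1) =
        Ideal.span (Set.range (Fin.append (fun i => algebraMap R T (z i))
          (fun j : Fin g => Y j))) * maximalIdeal T ^ c := by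
  obtain ⟨z, hz, c, hc⟩ := HS.exists_minimal_reduction hd (I := maximalIdeal R) le_rfl
    (t := 1) (by rw [pow_one])
  have hw : ∀ i, (Fin.append (fun i => algebraMap R T (z i)) (fun j : Fin g => Y j)) i ∈
        maximalIdeal T := by
    intro i
    refine Fin.addCases (fun i => ?_) (fun j => ?_) i
    · rw [Fin.append_left]
      exact h.comap_maximalIdeal (hz i)
    · rw [Fin.append_right]
      exact h.Y_mem j j.2
  refine ⟨z, c, hz, hc, hw, le_antisymm (h.reduction z c hc.le) ?_⟩
  rw [pow_succ']
  refine Ideal.mul_mono_left ?_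
  rw [Ideal.span_le]
  rintro _ ⟨i, rfl⟩
  exact hw i

end Fact

section Char

/-- residue characteristic -/
theorem charP_residueField {S : Type*} [CommRing S] [IsLocalRing S] (p : ℕ) [Fact p.Prime]
    (hp : (p : S) ∈ maximalIdeal S) : CharP (ResidueField S) p := by
  refine (CharP.charP_iff_prime_eq_zero Fact.out).2 ?_
  have : residue S (p : S) = 0 := (residue_eq_zero_iff _).2 hp
  rwa [map_natCast] at this

theorem ringKrullDim_mv_witt (p : ℕ) [Fact p.Prime] (K : Type*) [Field K] [CharP K p]
    [PerfectRing K p] (n : ℕ) :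
    ringKrullDim (MvPowerSeries (Fin n) (WittVector p K)) = ((n + 1 : ℕ) : WithBot ℕ∞) := by
  have hW : IsCohen p (WittVector p K) := isCohen_witt p K
  have h1 : IsNoetherianRing (WittVector p K) := hW.isNoetherianRing
  rw [ringKrullDim_mvPowerSeries, hW.ringKrullDim_eq]
  push_cast
  ring

theorem ringKrullDim_mv_field (K : Type*) [Field K] (n : ℕ) :
    ringKrullDim (MvPowerSeries (Fin n) K) = ((n : ℕ) : WithBot ℕ∞) := by
  rw [ringKrullDim_mvPowerSeries, ringKrullDim_eq_zero_of_field, zero_add]

end Char

end Crest.Agent.R183.RD
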