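/-
R183 (Lech), INSEP: Lech's inequality from the data over `T₁`.
helper811
-/
import Crest.Agent.R183.CoreB
import Crest.Agent.R183.PI1
import Crest.Agent.R183.PI3
import Crest.Agent.R183.PId
import Crest.Agent.R183.RD10

set_option autoImplicit false

namespace Crest.Agent.R183.CoreJ

open scoped ENNReal nonZeroDivisors
open Crest.Agent.R183 Crest.Agent.R183.Res Crest.Agent.R183.WG Crest.Agent.R183.Glue
open Crest.Agent.R183.PI
open IsLocalRing Crest.Agent.R183.M

universe u

/-- an integral map of local rings is local -/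
theorem isLocalHom_of_isIntegral {T T1 : Type*} [CommRing T] [CommRing T1] [IsLocalRing T]
    [IsLocalRing T1] [Algebra T T1] [Algebra.IsIntegral T T1] : IsLocalHom (algebraMap T T1) := by
  have h : ((maximalIdeal T1).comap (algebraMap T T1)).IsMaximal :=
    Ideal.isMaximal_comap_of_isIntegral_of_isMaximal (maximalIdeal T1)
  exact ((local_hom_TFAE (algebraMap T T1)).out 0 4).2 (IsLocalRing.eq_maximalIdeal h)

/-- an injection stays injective modulo the extension of a nil ideal. -/
theorem injective_pushout_nil {G R1 Q H H1 : Type*} [CommRing G] [CommRing R1] [Algebra G R1]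
    [CommRing Q] [IsReduced Q] [CommRing H] [CommRing H1] [Algebra Q H] [Algebra G H]
    [Algebra H H1] [Algebra R1 H1] [Algebra G H1] [IsScalarTower G H H1] [IsScalarTower G R1 H1]
    [Algebra Q H1] [IsScalarTower Q H H1] [Algebra.IsPushout G H R1 H1]
    (hs : Function.Surjective (algebraMap G R1))
    (hP : ∀ x, algebraMap G R1 x = 0 → IsNilpotent x)
    (hinj : Function.Injective (algebraMap Q H)) : Function.Injective (algebraMap Q H1) := by
  obtain ⟨k1, k2⟩ := ker_pushout (T := G) (S := R1) (T1 := H) (S1 := H1) hs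
  have hle : RingHom.ker (algebraMap H H1) ≤ nilradical H := by
    rw [k2, Ideal.map_le_iff_le_comap]
    intro x hx
    rw [Ideal.mem_comap, mem_nilradical]
    exact (hP x hx).map (algebraMap G H)
  rw [injective_iff_map_eq_zero]
  intro a ha
  rw [IsScalarTower.algebraMap_apply Q H H1] at ha
  obtain ⟨m, hm⟩ := hle ha
  rw [← map_pow] at hm
  have h1 : a ^ m = 0 := hinj (by rw [hm, map_zero])
  exact eq_zero_of_pow_eq_zero h1

/-- the closed fibre of an integral map of local rings. -/
theorem exists_pow_le_map (T T1 : Type*) [CommRing T] [CommRing T1] [IsLocalRing T]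
    [IsLocalRing T1] [IsNoetherianRing T1] [Algebra T T1] [Algebra.IsIntegral T T1] :
    ∃ a : ℕ, maximalIdeal T1 ^ a ≤ (maximalIdeal T).map (algebraMap T T1) := by
  refine Ideal.exists_pow_le_of_le_radical_of_fg ?_ (IsNoetherian.noetherian _)
  rw [Ideal.radical_eq_sInf]
  refine le_sInf ?_
  rintro P ⟨hP, hPp⟩
  have h1 : maximalIdeal T ≤ P.comap (algebraMap T T1) := Ideal.map_le_iff_le_comap.1 hP
  have h2 : (P.comap (algebraMap T T1)) = maximalIdeal T :=
    ((maximalIdeal.isMaximal T).eq_of_le (Ideal.IsPrime.ne_top inferInstance) h1).symm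
  have h3 : (P.comap (algebraMap T T1)).IsMaximal := by rw [h2]; infer_instance
  have h4 : P.IsMaximal := Ideal.isMaximal_of_isIntegral_of_isMaximal_comap P h3
  exact (IsLocalRing.eq_maximalIdeal h4).ge

theorem map_maximalIdeal_PS {n : ℕ} {K : Type u} [Field K] (T : Type*) [CommRing T]
    [Algebra (MvPowerSeries (Fin n) K) T] :
    (maximalIdeal (MvPowerSeries (Fin n) K)).map (algebraMap (MvPowerSeries (Fin n) K) T) =
      Ideal.span (Set.range fun i : Fin n =>
        algebraMap (MvPowerSeries (Fin n) K) T (MvPowerSeries.X i)) := by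
  rw [Z.maximalIdeal_eq_XI]
  unfold Z.XI
  rw [Ideal.map_span, ← Set.range_comp]
  rfl

section

variable {K : Type u} [Field K]

/-- **Lech's inequality from the rings `T₁`, `S₁`**, given the rank identity. -/
theorem lechC_of_rank {R S T R1 T1 S1 To : Type u} {n d g : ℕ}
    [CommRing R] [IsLocalRing R] [IsNoetherianRing R]
    [CommRing S] [IsLocalRing S] [IsNoetherianRing S]
    [CommRing T] [IsLocalRing T] [IsNoetherianRing T]
    [CommRing R1] [IsDomain R1] [CommRing T1] [IsLocalRing T1] [IsNoetherianRing T1]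
    [CommRing S1] [CommRing To]
    [Algebra R S] [Algebra R T] [Algebra T S] [IsScalarTower R T S]
    [Module.Flat R S] [Module.Flat R T] [IsLocalHom (algebraMap R T)]
    -- `A' = K[[x_1..x_n]]`, `Q' = K[[z_1..z_d]]`
    [Algebra (MvPowerSeries (Fin n) K) T] [Module.Finite (MvPowerSeries (Fin n) K) T]
    [Algebra (MvPowerSeries (Fin d) K) S] [Module.Finite (MvPowerSeries (Fin d) K) S]
    [Algebra R1 T1] [Algebra R1 S1] [Module.Flat R1 T1] [Module.Flat R1 S1]
    -- `T → T₁`, `S → S₁`
    [Algebra T T1] [Algebra S S1] [Algebra T1 S1] [Algebra T S1] [IsScalarTower T T1 S1]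
    [IsScalarTower T S S1] [IsScalarTower R1 T1 S1] [Algebra.IsPushout T T1 S S1]
    [Algebra (MvPowerSeries (Fin n) K) T1] [IsScalarTower (MvPowerSeries (Fin n) K) T T1]
    [Module.Finite (MvPowerSeries (Fin n) K) T1]
    [Algebra (MvPowerSeries (Fin d) K) S1] [IsScalarTower (MvPowerSeries (Fin d) K) S S1]
    [Module.Finite S S1]
    [Algebra T1 To]
    (hsurj : Function.Surjective (algebraMap T S)) (hdR : ringKrullDim R = d)
    (hgd : g + d = n) (hd0 : 0 < d)
    (Y : ℕ → T) (hprime : ∀ i ≤ g, (pr R T Y i).IsPrime) (hnot : ∀ i < g, Y i ∉ pr R T Y i)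
    (hmax : pr R T Y g = maximalIdeal T)
    -- `A' → T`
    (hinjT : Function.Injective (algebraMap (MvPowerSeries (Fin n) K) T))
    (hresT : ∀ x : T, ∃ a : MvPowerSeries (Fin n) K,
      x - algebraMap (MvPowerSeries (Fin n) K) T a ∈ maximalIdeal T)
    {c : ℕ} (hredT : maximalIdeal T ^ (c + 1) = Ideal.span (Set.range fun i : Fin n =>
      algebraMap (MvPowerSeries (Fin n) K) T (MvPowerSeries.X i)) * maximalIdeal T ^ c)
    (hxT : ∀ i : Fin n, algebraMap (MvPowerSeries (Fin n) K) T (MvPowerSeries.X i) ∈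
      maximalIdeal T)
    -- `Q' → S`
    (hinjS : Function.Injective (algebraMap (MvPowerSeries (Fin d) K) S))
    (hresS : ∀ x : S, ∃ a : MvPowerSeries (Fin d) K,
      x - algebraMap (MvPowerSeries (Fin d) K) S a ∈ maximalIdeal S)
    {cs : ℕ} (hredS : maximalIdeal S ^ (cs + 1) = Ideal.span (Set.range fun i : Fin d =>
      algebraMap (MvPowerSeries (Fin d) K) S (MvPowerSeries.X i)) * maximalIdeal S ^ cs)
    (hzS : ∀ i : Fin d, algebraMap (MvPowerSeries (Fin d) K) S (MvPowerSeries.X i) ∈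
      maximalIdeal S)
    -- `A' → T₁`
    (inj1 : Function.Injective (algebraMap (MvPowerSeries (Fin n) K) T1))
    (hresT1 : ∀ x : T1, ∃ a : MvPowerSeries (Fin n) K,
      x - algebraMap (MvPowerSeries (Fin n) K) T1 a ∈ maximalIdeal T1)
    (hr : Module.finrank (MvPowerSeries (Fin n) K) T * Module.finrank (MvPowerSeries (Fin d) K) S1 =
      Module.finrank (MvPowerSeries (Fin d) K) S * Module.finrank (MvPowerSeries (Fin n) K) T1)
    -- the stages
    (Λ : AddLen.{u, u} To) (hcont : Cont Λ)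
    (hΛ : ∀ I : Ideal T1, Module.length T1 (T1 ⧸ I) ≠ ⊤ →
      Λ.L (To ⧸ I.map (algebraMap T1 To)) = ((Module.length T1 (T1 ⧸ I) : ℕ∞) : ℝ≥0∞))
    (t : Fin n → T1) (htm : ∀ i, t i ∈ maximalIdeal T1) (δ : R1) (hδ : δ ≠ 0)
    (p : ℕ) (hp : 1 < p)
    (hst : ∀ (w : Fin n → T1) (𝔞 : Ideal T1) (c : ℕ),
        𝔞 ^ (c + 1) ≤ Ideal.span (Set.range w) * 𝔞 ^ c → ∀ e', c < p ^ e' →
        Nonempty (Core.Stage T1 To w t (algebraMap R1 T1 δ) 𝔞 (p ^ e') (p ^ e' - c))) :
    LechC R S d d := by
  have hn0 : 0 < n := by omega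
  have f9 : Module.Finite T T1 := Module.Finite.of_restrictScalars_finite
    (MvPowerSeries (Fin n) K) T T1
  have f8 : Module.Finite (MvPowerSeries (Fin d) K) S1 := Module.Finite.trans S S1
  have posT1 : 0 < Module.finrank (MvPowerSeries (Fin n) K) T1 := finrank_pos_of_injective inj1
  have posS : 0 < Module.finrank (MvPowerSeries (Fin d) K) S := finrank_pos_of_injective hinjS
  have hpos1 : 0 < Module.finrank (MvPowerSeries (Fin d) K) S1 := by
    rw [Nat.pos_iff_ne_zero]
    intro h0
    rw [h0, mul_zero] at hr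
    have := Nat.mul_pos posS posT1
    omega
  have inj2 : Function.Injective (algebraMap (MvPowerSeries (Fin d) K) S1) :=
    injective_of_finrank_pos hpos1
  -- dimensions
  have dimT1 : ringKrullDim T1 = (n : ℕ) := by
    rw [RD.ringKrullDim_eq_of_isIntegral_of_injective inj1, RD.ringKrullDim_mv_field]
  have dimS1 : ringKrullDim S1 = (d : ℕ) := by
    rw [RD.ringKrullDim_eq_of_isIntegral_of_injective inj2, RD.ringKrullDim_mv_field]
  -- `S₁`
  have nS1 : Nontrivial S1 := inj2.nontrivial
  obtain ⟨hsurj1, hker1⟩ := ker_pushout (T := T) (S := S) (T1 := T1) (S1 := S1) hsurj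
  have lS1 : IsLocalRing S1 := IsLocalRing.of_surjective' _ hsurj1
  have nnS1 : IsNoetherianRing S1 := isNoetherianRing_of_surjective _ _ _ hsurj1
  have locTT1 : IsLocalHom (algebraMap T T1) := isLocalHom_of_isIntegral
  have locSS1 : IsLocalHom (algebraMap S S1) := isLocalHom_of_isIntegral
  have locT1S1 : IsLocalHom (algebraMap T1 S1) := IsLocalHom.of_surjective _ hsurj1
  set J0 : Ideal T := RingHom.ker (algebraMap T S) with hJ0
  have hJne : J0 ≠ ⊤ := RingHom.ker_ne_top _
  have hJm : J0 ≤ maximalIdeal T := IsLocalRing.le_maximalIdeal hJne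
  have hJ1ne : J0.map (algebraMap T T1) ≠ ⊤ := by
    rw [← hker1]
    exact RingHom.ker_ne_top _
  let eS : (T ⧸ J0) ≃ₐ[T] S := Ideal.quotientKerAlgEquivOfSurjective (f := Algebra.ofId T S) hsurj
  have _ : Module.Flat R (T ⧸ J0) := Module.Flat.of_linearEquiv (eS.toLinearEquiv.restrictScalars R)
  have hdJ1 : ringKrullDim (T1 ⧸ J0.map (algebraMap T T1)) = d := by
    rw [← dimS1, ← hker1]
    exact ringKrullDim_eq_of_ringEquiv (RingHom.quotientKerEquivOfSurjective hsurj1)
  -- the resolution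
  obtain ⟨F, hF, hFent, hnh, hu0⟩ := exists_resolution (R := R) J0 hJm g Y (by
    intro i hi a ha
    have h1 := hprime i hi.le
    exact (h1.mem_or_mem ha).resolve_left (hnot i hi)) hmax
  -- lifts of `z`
  choose z hz using fun i : Fin d => hsurj (algebraMap (MvPowerSeries (Fin d) K) S
    (MvPowerSeries.X i))
  have hlocTS : IsLocalHom (algebraMap T S) := IsLocalHom.of_surjective _ hsurj
  have hzm : ∀ i, z i ∈ maximalIdeal T := by
    intro i
    have h1 : algebraMap T S (z i) ∈ maximalIdeal S := by rw [hz i]; exact hzS i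
    rw [mem_maximalIdeal, mem_nonunits_iff] at h1 ⊢
    exact fun h2 => h1 (h2.map _)
  have hz1 : ∀ i, algebraMap T1 S1 (algebraMap T T1 (z i)) =
      algebraMap (MvPowerSeries (Fin d) K) S1 (MvPowerSeries.X i) := by
    intro i
    rw [← IsScalarTower.algebraMap_apply T T1 S1, IsScalarTower.algebraMap_apply T S S1, hz i,
      ← IsScalarTower.algebraMap_apply (MvPowerSeries (Fin d) K) S S1]
  -- residue fields
  have hresS1 : ∀ x : S1, ∃ a : MvPowerSeries (Fin d) K,
      x - algebraMap (MvPowerSeries (Fin d) K) S1 a ∈ maximalIdeal S1 := by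
    intro x
    obtain ⟨y, rfl⟩ := hsurj1 x
    obtain ⟨a, ha⟩ := hresT1 y
    obtain ⟨b, hb⟩ := hresS (algebraMap T S (algebraMap (MvPowerSeries (Fin n) K) T a))
    refine ⟨b, ?_⟩
    have h1 := RD.mem_maximalIdeal_of_local _ locT1S1 ha
    have h2 := RD.mem_maximalIdeal_of_local _ locSS1 hb
    have h3 := add_mem h1 h2
    rw [map_sub, map_sub, IsScalarTower.algebraMap_apply (MvPowerSeries (Fin n) K) T T1,
      ← IsScalarTower.algebraMap_apply T T1 S1, ← IsScalarTower.algebraMap_apply T S S1,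
      ← IsScalarTower.algebraMap_apply (MvPowerSeries (Fin d) K) S S1, sub_add_sub_cancel] at h3
    exact h3
  -- parameters
  obtain ⟨a1, ha1⟩ := exists_pow_le_map (MvPowerSeries (Fin n) K) T1
  rw [map_maximalIdeal_PS] at ha1
  obtain ⟨a2, ha2⟩ := exists_pow_le_map (MvPowerSeries (Fin d) K) S1
  rw [map_maximalIdeal_PS] at ha2
  obtain ⟨a3, ha3⟩ := exists_pow_le_map (MvPowerSeries (Fin n) K) T
  rw [map_maximalIdeal_PS] at ha3
  obtain ⟨a4, ha4⟩ := exists_pow_le_map (MvPowerSeries (Fin d) K) S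
  rw [map_maximalIdeal_PS] at ha4
  obtain ⟨C1, hU1, hL1⟩ := rank_eq hn0 T1 hresT1 ha1
  obtain ⟨C2, hU2, hL2⟩ := rank_eq hd0 S1 hresS1 ha2
  obtain ⟨C3, hU3, hL3⟩ := rank_eq hn0 T hresT ha3
  obtain ⟨C4, hU4, hL4⟩ := rank_eq hd0 S hresS ha4
  have hmmap1 : (maximalIdeal T1).map (algebraMap T1 S1) = maximalIdeal S1 :=
    IsLocalRing.map_maximalIdeal_of_surjective _ hsurj1
  have hzpow : maximalIdeal T1 ^ a2 ≤ J0.map (algebraMap T T1) ⊔
      Ideal.span (Set.range fun i => algebraMap T T1 (z i)) := by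
    have h1 : (fun i : Fin d => algebraMap (MvPowerSeries (Fin d) K) S1 (MvPowerSeries.X i)) =
        fun i => algebraMap T1 S1 (algebraMap T T1 (z i)) := funext fun i => (hz1 i).symm
    have h2 : Ideal.span (Set.range fun i => algebraMap T1 S1 (algebraMap T T1 (z i))) =
        (Ideal.span (Set.range fun i => algebraMap T T1 (z i))).map (algebraMap T1 S1) := by
      rw [Ideal.map_span, ← Set.range_comp]
      rfl
    rw [h1, h2, ← hmmap1, ← Ideal.map_pow, Ideal.map_le_iff_le_comap,
      Ideal.comap_map_of_surjective _ hsurj1, sup_comm] at ha2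
    rw [← hker1]
    exact ha2
  -- nonzerodivisor
  have hδT : algebraMap R1 T1 δ ∈ T1⁰ := RD.algebraMap_mem_nonZeroDivisors_of_flat hδ
  have hδS : algebraMap R1 S1 δ ∈ S1⁰ := RD.algebraMap_mem_nonZeroDivisors_of_flat hδ
  have key : Module.finrank (MvPowerSeries (Fin n) K) T1 ≤
      Module.finrank (MvPowerSeries (Fin d) K) S1 := by
    refine Core.core_base Λ hcont hΛ J0 hJ1ne dimT1 hdJ1 hgd hd0
      (fun i => algebraMap (MvPowerSeries (Fin n) K) T1 (MvPowerSeries.X i)) t z ?_ htm hzm
      ha1 hzpow _ _ C1 _ C2 ?_ (fun k hk => hL1 k hk) (fun k hk => hU1 k) F hF hFent hnh hu0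
      p hp c ?_
    · intro i
      rw [IsScalarTower.algebraMap_apply (MvPowerSeries (Fin n) K) T T1]
      exact RD.mem_maximalIdeal_of_local _ locTT1 (hxT i)
    · intro k hk
      rw [← hker1, Core.length_quot_sup hsurj1, Ideal.map_span, ← Set.range_comp]
      have h1 : (algebraMap T1 S1) ∘ (fun i => (algebraMap T T1 (z i)) ^ k) =
          fun i => (algebraMap (MvPowerSeries (Fin d) K) S1 (MvPowerSeries.X i)) ^ k := by
        funext i
        rw [Function.comp_apply, map_pow, hz1 i]
      rw [h1]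
      exact hU2 k
    · intro e' he'
      refine ⟨algebraMap R1 T1 δ, hδT, ?_, hst _ _ c ?_ e' he'⟩
      · intro x hx
        rw [← hker1, RingHom.mem_ker] at hx ⊢
        rw [map_mul, ← IsScalarTower.algebraMap_apply R1 T1 S1, mul_comm] at hx
        exact (mem_nonZeroDivisors_iff_right.1 hδS) _ hx
      · have h1 : (fun i : Fin n => algebraMap (MvPowerSeries (Fin n) K) T1 (MvPowerSeries.X i)) =
            (algebraMap T T1) ∘ fun i : Fin n =>
              algebraMap (MvPowerSeries (Fin n) K) T (MvPowerSeries.X i) := by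
          funext i
          rw [IsScalarTower.algebraMap_apply (MvPowerSeries (Fin n) K) T T1]
          rfl
        rw [← Ideal.map_pow, hredT, Ideal.map_mul, Ideal.map_pow, Ideal.map_span,
          ← Set.range_comp, h1]
  have hTS : Module.finrank (MvPowerSeries (Fin n) K) T ≤
      Module.finrank (MvPowerSeries (Fin d) K) S := by
    have h1 : Module.finrank (MvPowerSeries (Fin n) K) T *
        Module.finrank (MvPowerSeries (Fin d) K) S1 ≤
        Module.finrank (MvPowerSeries (Fin d) K) S *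
        Module.finrank (MvPowerSeries (Fin d) K) S1 := by
      rw [hr]
      exact Nat.mul_le_mul_left _ key
    exact Nat.le_of_mul_le_mul_right h1 hpos1
  -- Hilbert-Samuel growth
  obtain ⟨rS, CS, hS1, hS2, hS3, hS4⟩ := HS.rank_theorem _ hzS cs hredS
  obtain ⟨rT, CT, hT1, hT2, hT3, hT4⟩ := HS.rank_theorem _ hxT c hredT
  have e1 : rT ≤ Module.finrank (MvPowerSeries (Fin n) K) T :=
    rank_unique hn0 (fun k => Module.length T (T ⧸ Ideal.span (Set.range fun i : Fin n =>
        (algebraMap (MvPowerSeries (Fin n) K) T (MvPowerSeries.X i)) ^ k))) _ _ C3 hU3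
      (fun k hk => hT4 k hk)
  have e2 : Module.finrank (MvPowerSeries (Fin d) K) S ≤ rS :=
    rank_unique hd0 (fun k => Module.length S (S ⧸ Ideal.span (Set.range fun i : Fin d =>
        (algebraMap (MvPowerSeries (Fin d) K) S (MvPowerSeries.X i)) ^ k))) _ _ CS
      (fun k => hS3 k) (fun k hk => hL4 k hk)
  have hfin : rT ≤ rS := e1.trans (hTS.trans e2)
  refine ⟨rS, ?_, hS2⟩
  refine UB_of_Sg_iterate_le R T (n := g) hdR ?_ ?_
  · exact Sg_iterate_hs_le R g T Y hprime hnot hmax
  · rw [add_comm d g, hgd]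
    exact hT1.mono (by exact_mod_cast hfin)


/-- **Lech's inequality from the data over `T₁`**. -/
theorem lechC_insep {R S T R1 T1 S1 G Tq Sq To : Type u} {n d g : ℕ}
    [CommRing R] [IsLocalRing R] [IsNoetherianRing R]
    [CommRing S] [IsLocalRing S] [IsNoetherianRing S]
    [CommRing T] [IsLocalRing T] [IsNoetherianRing T]
    [CommRing R1] [IsDomain R1] [CommRing T1] [IsLocalRing T1] [IsNoetherianRing T1]
    [CommRing S1] [CommRing G] [IsNoetherianRing G] [CommRing Tq] [CommRing Sq] [CommRing To]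
    [Algebra R S] [Algebra R T] [Algebra T S] [IsScalarTower R T S]
    [Module.Flat R S] [Module.Flat R T] [IsLocalHom (algebraMap R T)]
    -- `A' = K[[x_1..x_n]]`, `Q' = K[[z_1..z_d]]`
    [Algebra (MvPowerSeries (Fin n) K) T] [Module.Finite (MvPowerSeries (Fin n) K) T]
    [Algebra (MvPowerSeries (Fin d) K) S] [Module.Finite (MvPowerSeries (Fin d) K) S]
    -- `Tq`, `Sq` over `G`
    [Algebra T Tq] [Algebra S Sq] [Algebra G Tq] [Algebra G Sq] [Module.Flat G Tq]
    [Module.Flat G Sq]
    [Algebra G R1] [Algebra Tq T1] [Algebra R1 T1] [Algebra G T1] [IsScalarTower G Tq T1]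
    [IsScalarTower G R1 T1] [Algebra.IsPushout G Tq R1 T1]
    [Algebra Sq S1] [Algebra R1 S1] [Algebra G S1] [IsScalarTower G Sq S1]
    [IsScalarTower G R1 S1] [Algebra.IsPushout G Sq R1 S1]
    -- `T → T₁`, `S → S₁`
    [Algebra T T1] [IsScalarTower T Tq T1] [Algebra S S1] [IsScalarTower S Sq S1]
    [Algebra T1 S1] [Algebra T S1] [IsScalarTower T T1 S1] [IsScalarTower T S S1]
    [IsScalarTower R1 T1 S1]
    [Algebra.IsPushout T T1 S S1]
    [Algebra T1 To]
    (hsurj : Function.Surjective (algebraMap T S)) (hdR : ringKrullDim R = d)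
    (hgd : g + d = n) (hd0 : 0 < d)
    (Y : ℕ → T) (hprime : ∀ i ≤ g, (pr R T Y i).IsPrime) (hnot : ∀ i < g, Y i ∉ pr R T Y i)
    (hmax : pr R T Y g = maximalIdeal T)
    -- `A' → T`
    (hinjT : Function.Injective (algebraMap (MvPowerSeries (Fin n) K) T))
    (hresT : ∀ x : T, ∃ a : MvPowerSeries (Fin n) K,
      x - algebraMap (MvPowerSeries (Fin n) K) T a ∈ maximalIdeal T)
    {c : ℕ} (hredT : maximalIdeal T ^ (c + 1) = Ideal.span (Set.range fun i : Fin n =>
      algebraMap (MvPowerSeries (Fin n) K) T (MvPowerSeries.X i)) * maximalIdeal T ^ c)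
    (hxT : ∀ i : Fin n, algebraMap (MvPowerSeries (Fin n) K) T (MvPowerSeries.X i) ∈
      maximalIdeal T)
    -- `Q' → S`
    (hinjS : Function.Injective (algebraMap (MvPowerSeries (Fin d) K) S))
    (hresS : ∀ x : S, ∃ a : MvPowerSeries (Fin d) K,
      x - algebraMap (MvPowerSeries (Fin d) K) S a ∈ maximalIdeal S)
    {cs : ℕ} (hredS : maximalIdeal S ^ (cs + 1) = Ideal.span (Set.range fun i : Fin d =>
      algebraMap (MvPowerSeries (Fin d) K) S (MvPowerSeries.X i)) * maximalIdeal S ^ cs)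
    (hzS : ∀ i : Fin d, algebraMap (MvPowerSeries (Fin d) K) S (MvPowerSeries.X i) ∈
      maximalIdeal S)
    -- `G → R₁`
    (hGs : Function.Surjective (algebraMap G R1))
    (hGn : ∀ x, algebraMap G R1 x = 0 → IsNilpotent x)
    -- bases
    {ι : Type*} [Fintype ι] [Nonempty ι] (bT : Module.Basis ι T Tq) (bS : Module.Basis ι S Sq)
    -- residue field of `T₁`
    (hresT1 : ∀ x : T1, ∃ a : MvPowerSeries (Fin n) K,
      x - algebraMap T T1 (algebraMap (MvPowerSeries (Fin n) K) T a) ∈ maximalIdeal T1)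
    -- the stages
    (Λ : AddLen.{u, u} To) (hcont : Cont Λ)
    (hΛ : ∀ I : Ideal T1, Module.length T1 (T1 ⧸ I) ≠ ⊤ →
      Λ.L (To ⧸ I.map (algebraMap T1 To)) = ((Module.length T1 (T1 ⧸ I) : ℕ∞) : ℝ≥0∞))
    (t : Fin n → T1) (htm : ∀ i, t i ∈ maximalIdeal T1) (δ : R1) (hδ : δ ≠ 0)
    (p : ℕ) (hp : 1 < p)
    (hst : ∀ (w : Fin n → T1) (𝔞 : Ideal T1) (c : ℕ),
        𝔞 ^ (c + 1) ≤ Ideal.span (Set.range w) * 𝔞 ^ c → ∀ e', c < p ^ e' →
        Nonempty (Core.Stage T1 To w t (algebraMap R1 T1 δ) 𝔞 (p ^ e') (p ^ e' - c))) :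
    LechC R S d d := by
  -- instances
  let _ : Algebra (MvPowerSeries (Fin n) K) Tq :=
    ((algebraMap T Tq).comp (algebraMap (MvPowerSeries (Fin n) K) T)).toAlgebra
  have _ : IsScalarTower (MvPowerSeries (Fin n) K) T Tq := IsScalarTower.of_algebraMap_eq fun _ => rfl
  let _ : Algebra (MvPowerSeries (Fin n) K) T1 :=
    ((algebraMap T T1).comp (algebraMap (MvPowerSeries (Fin n) K) T)).toAlgebra
  have _ : IsScalarTower (MvPowerSeries (Fin n) K) T T1 := IsScalarTower.of_algebraMap_eq fun _ => rfl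
  have _ : IsScalarTower (MvPowerSeries (Fin n) K) Tq T1 := IsScalarTower.of_algebraMap_eq fun a => by
    show algebraMap T T1 (algebraMap (MvPowerSeries (Fin n) K) T a) = algebraMap Tq T1
      (algebraMap T Tq (algebraMap (MvPowerSeries (Fin n) K) T a))
    rw [← IsScalarTower.algebraMap_apply T Tq T1]
  let _ : Algebra (MvPowerSeries (Fin d) K) Sq :=
    ((algebraMap S Sq).comp (algebraMap (MvPowerSeries (Fin d) K) S)).toAlgebra
  have _ : IsScalarTower (MvPowerSeries (Fin d) K) S Sq := IsScalarTower.of_algebraMap_eq fun _ => rfl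
  let _ : Algebra (MvPowerSeries (Fin d) K) S1 :=
    ((algebraMap S S1).comp (algebraMap (MvPowerSeries (Fin d) K) S)).toAlgebra
  have _ : IsScalarTower (MvPowerSeries (Fin d) K) S S1 := IsScalarTower.of_algebraMap_eq fun _ => rfl
  have _ : IsScalarTower (MvPowerSeries (Fin d) K) Sq S1 := IsScalarTower.of_algebraMap_eq fun a => by
    show algebraMap S S1 (algebraMap (MvPowerSeries (Fin d) K) S a) = algebraMap Sq S1
      (algebraMap S Sq (algebraMap (MvPowerSeries (Fin d) K) S a))
    rw [← IsScalarTower.algebraMap_apply S Sq S1]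
  -- finiteness
  have f1 : Module.Finite T Tq := Module.Finite.of_basis bT
  have f2 : Module.Finite S Sq := Module.Finite.of_basis bS
  have f3 : Module.Finite (MvPowerSeries (Fin n) K) Tq := Module.Finite.trans T Tq
  have f4 : Module.Finite (MvPowerSeries (Fin d) K) Sq := Module.Finite.trans S Sq
  obtain ⟨kT1, kT2⟩ := ker_pushout (T := G) (S := R1) (T1 := Tq) (S1 := T1) hGs
  obtain ⟨kS1, kS2⟩ := ker_pushout (T := G) (S := R1) (T1 := Sq) (S1 := S1) hGs
  have f5 : Module.Finite Tq T1 := Module.Finite.of_surjective (Algebra.linearMap Tq T1) kT1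
  have f6 : Module.Finite Sq S1 := Module.Finite.of_surjective (Algebra.linearMap Sq S1) kS1
  have f7 : Module.Finite (MvPowerSeries (Fin n) K) T1 := Module.Finite.trans Tq T1
  have f8 : Module.Finite (MvPowerSeries (Fin d) K) S1 := Module.Finite.trans Sq S1
  have f9 : Module.Finite T T1 := Module.Finite.trans Tq T1
  have f10 : Module.Finite S S1 := Module.Finite.trans Sq S1
  -- flatness
  have po1 : Algebra.IsPushout G R1 Tq T1 := Algebra.IsPushout.symm inferInstance
  have po2 : Algebra.IsPushout G R1 Sq S1 := Algebra.IsPushout.symm inferInstance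
  have g1 : Module.Flat R1 T1 := RD.pushout_flat G R1 Tq T1
  have g2 : Module.Flat R1 S1 := RD.pushout_flat G R1 Sq S1
  -- injectivity
  have hT0 : Module.Free T Tq := Module.Free.of_basis bT
  have hS0 : Module.Free S Sq := Module.Free.of_basis bS
  have nTq : Nontrivial Tq := bT.repr.toEquiv.nontrivial
  have nSq : Nontrivial Sq := bS.repr.toEquiv.nontrivial
  have jT : Function.Injective (algebraMap T Tq) := FaithfulSMul.algebraMap_injective T Tq
  have jS : Function.Injective (algebraMap S Sq) := FaithfulSMul.algebraMap_injective S Sq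
  have inj1 : Function.Injective (algebraMap (MvPowerSeries (Fin n) K) T1) := by
    refine injective_pushout_nil (G := G) (R1 := R1) (H := Tq) hGs hGn ?_
    rw [IsScalarTower.algebraMap_eq (MvPowerSeries (Fin n) K) T Tq]
    exact jT.comp hinjT
  have inj2 : Function.Injective (algebraMap (MvPowerSeries (Fin d) K) S1) := by
    refine injective_pushout_nil (G := G) (R1 := R1) (H := Sq) hGs hGn ?_
    rw [IsScalarTower.algebraMap_eq (MvPowerSeries (Fin d) K) S Sq]
    exact jS.comp hinjS
  -- the rank lemma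
  have hr := rank_lemma_pushout (G := G) (R1 := R1) (Q := MvPowerSeries (Fin n) K) (H := Tq)
    (H1 := T1) (Q' := MvPowerSeries (Fin d) K) (H' := Sq) (H1' := S1) hGs hGn
  rw [finrank_of_basis (Q := MvPowerSeries (Fin n) K) bT,
    finrank_of_basis (Q := MvPowerSeries (Fin d) K) bS] at hr
  have hcard : 0 < Fintype.card ι := Fintype.card_pos
  have hr' : Module.finrank (MvPowerSeries (Fin n) K) T *
      Module.finrank (MvPowerSeries (Fin d) K) S1 =
      Module.finrank (MvPowerSeries (Fin d) K) S * Module.finrank (MvPowerSeries (Fin n) K) T1 := by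
    refine Nat.eq_of_mul_eq_mul_left hcard ?_
    rw [← mul_assoc, ← mul_assoc, hr]
  exact lechC_of_rank (R1 := R1) (T1 := T1) (S1 := S1) hsurj hdR hgd hd0 Y hprime hnot hmax hinjT hresT
    hredT hxT hinjS hresS hredS hzS inj1 hresT1 hr' Λ hcont hΛ t htm δ hδ p hp hst

end

end Crest.Agent.R183.CoreJ
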