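import Crest.Agent.R183.RegPS
import Crest.Agent.R183.CohenDim

/-!
# R183, INSEP (helper234), part 6: `K[[x, y]] → K[[y]]`
-/

set_option autoImplicit false

namespace Crest.Agent.R183.Ins

open IsLocalRing MvPowerSeries

/-- the kernel of `K[[x, y]] → K[[y]]` is generated by the `x_i`. -/
theorem ker_killCompl (K : Type*) [CommRing K] (d g : ℕ) :
    RingHom.ker (killCompl (R := K) (Fin.natAddEmb d : Fin g ↪ Fin (d + g))) =
      Ideal.span (Set.range fun i : Fin d => (X (Fin.castAdd g i) : MvPowerSeries (Fin (d + g)) K)) := by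
  classical
  apply le_antisymm
  · intro f hf
    have h1 := (PC.mem_span_X_pow_iff (R := K) 1 (List.ofFn fun i : Fin d => Fin.castAdd g i) f).2 (by
      intro m hm
      have hm' : ∀ i : Fin d, m (Fin.castAdd g i) = 0 := fun i => by
        have := hm (Fin.castAdd g i) (by simp)
        omega
      have hf' : killCompl (R := K) (Fin.natAddEmb d : Fin g ↪ Fin (d + g)) f = 0 := hf
      have h2 : m ∈ Set.range (Finsupp.embDomain (Fin.natAddEmb d : Fin g ↪ Fin (d + g)) (M := ℕ)) := by
        rw [Finsupp.mem_range_embDomain_iff]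
        intro j hj
        rw [Finset.mem_coe, Finsupp.mem_support_iff] at hj
        induction j using Fin.addCases with
        | left i => exact absurd (hm' i) hj
        | right i => exact ⟨i, rfl⟩
      obtain ⟨m', rfl⟩ := h2
      rw [← coeff_killCompl, hf', map_zero])
    refine (Ideal.span_le.2 ?_) h1
    intro y hy
    simp only [Set.mem_ofPred_eq, List.mem_map, List.mem_ofFn, pow_one] at hy
    obtain ⟨_, ⟨i, rfl⟩, rfl⟩ := hy
    exact Ideal.subset_span ⟨i, rfl⟩
  · rw [Ideal.span_le]
    rintro _ ⟨i, rfl⟩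
    refine killCompl_X_eq_zero ?_
    rintro ⟨j, hj⟩
    have := congrArg Fin.val hj
    simp at this
    omega

theorem maximalIdeal_eq_span (k : Type*) [Field k] (d : ℕ) :
    maximalIdeal (MvPowerSeries (Fin d) k) = Ideal.span (Set.range X) := by
  rw [Cohen.maximalIdeal_mvPowerSeries, maximalIdeal_eq_bot, Ideal.map_bot, bot_sup_eq]

theorem exists_rho {k K : Type*} [Field k] [Field K] (d g : ℕ)
    [Algebra (MvPowerSeries (Fin d) k) (MvPowerSeries (Fin (d + g)) K)]
    (hX : ∀ i, algebraMap (MvPowerSeries (Fin d) k) (MvPowerSeries (Fin (d + g)) K) (X i) =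
      X (Fin.castAdd g i)) :
    ∃ ρ : MvPowerSeries (Fin (d + g)) K →+* MvPowerSeries (Fin g) K, Function.Surjective ρ ∧
      RingHom.ker ρ = (maximalIdeal (MvPowerSeries (Fin d) k)).map
        (algebraMap (MvPowerSeries (Fin d) k) (MvPowerSeries (Fin (d + g)) K)) := by
  refine ⟨(killCompl (R := K) (Fin.natAddEmb d : Fin g ↪ Fin (d + g)) : _ →+* _), ?_, ?_⟩
  · intro f
    exact ⟨rename (Fin.natAddEmb d : Fin g ↪ Fin (d + g)) f, killCompl_rename_app f⟩
  · rw [maximalIdeal_eq_span, Ideal.map_span, ← Set.range_comp]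
    have := ker_killCompl K d g
    refine Eq.trans this ?_
    congr 2
    funext i
    exact (hX i).symm

end Crest.Agent.R183.Ins
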