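/-
R183 (Lech), INSEP, file 0: `Fr p e A` = the ring `A` viewed as the ring of `p^e`-th roots of `A`.
helper499
-/
import Mathlib

set_option autoImplicit false
set_option linter.unusedSectionVars false

namespace Crest.Agent.R183.PI

open Module

universe u v w

/-- `A^(1/p^e)`: the ring `A`, as an algebra over `A` via the Frobenius. -/
def Fr (_p _e : ℕ) (A : Type u) : Type u := A

section inst

variable (p e : ℕ) (A : Type u)

instance [CommRing A] : CommRing (Fr p e A) := inferInstanceAs (CommRing A)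
instance [CommRing A] [IsDomain A] : IsDomain (Fr p e A) := inferInstanceAs (IsDomain A)
instance [CommRing A] [IsLocalRing A] : IsLocalRing (Fr p e A) := inferInstanceAs (IsLocalRing A)
instance [CommRing A] [IsNoetherianRing A] : IsNoetherianRing (Fr p e A) :=
  inferInstanceAs (IsNoetherianRing A)
instance [CommRing A] [CharP A p] : CharP (Fr p e A) p := inferInstanceAs (CharP A p)
instance [CommRing A] [IsDomain A] [IsIntegrallyClosed A] : IsIntegrallyClosed (Fr p e A) :=
  inferInstanceAs (IsIntegrallyClosed A)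
instance [CommRing A] [IsReduced A] : IsReduced (Fr p e A) := inferInstanceAs (IsReduced A)

/-- the bijection `a ↦ a^(1/p^e)`. -/
def Fr.of [CommRing A] : A ≃+* Fr p e A := RingEquiv.refl A

variable {A}

/-- `A → B` gives `A^(1/p^e) → B^(1/p^e)`. -/
instance Fr.algebraFr (A : Type u) (B : Type v) [CommRing A] [CommRing B] [Algebra A B] :
    Algebra (Fr p e A) (Fr p e B) := inferInstanceAs (Algebra A B)

/-- `A → B → B^(1/p^e)`. -/
instance Fr.algebra (A : Type u) (B : Type v) [CommRing A] [CommRing B] [Fact p.Prime] [CharP B p]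
    [Algebra A B] : Algebra A (Fr p e B) :=
  RingHom.toAlgebra ((Fr.of p e B : B →+* Fr p e B).comp
    ((iterateFrobenius B p e).comp (algebraMap A B)))

lemma Fr.algebraMap_apply (A : Type u) (B : Type v) [CommRing A] [CommRing B] [Fact p.Prime]
    [CharP B p] [Algebra A B] (a : A) :
    algebraMap A (Fr p e B) a = Fr.of p e B (algebraMap A B a ^ p ^ e) := rfl

lemma Fr.algebraMap_self (B : Type v) [CommRing B] [Fact p.Prime] [CharP B p] (b : B) :
    algebraMap B (Fr p e B) b = (Fr.of p e B b) ^ p ^ e := rfl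

lemma Fr.algebraMap_of (A : Type u) (B : Type v) [CommRing A] [CommRing B] [Algebra A B] (a : A) :
    algebraMap (Fr p e A) (Fr p e B) (Fr.of p e A a) = Fr.of p e B (algebraMap A B a) := rfl

instance Fr.tower1 (A : Type u) (B : Type v) [CommRing A] [CommRing B] [Fact p.Prime] [CharP B p]
    [Algebra A B] : IsScalarTower A B (Fr p e B) :=
  IsScalarTower.of_algebraMap_eq fun _ => rfl

instance Fr.tower2 (A : Type u) (B : Type v) [CommRing A] [CommRing B] [Fact p.Prime] [CharP A p]
    [CharP B p] [Algebra A B] : IsScalarTower A (Fr p e A) (Fr p e B) :=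
  IsScalarTower.of_algebraMap_eq fun a => by
    rw [Fr.algebraMap_apply, Fr.algebraMap_self, map_pow, map_pow, Fr.algebraMap_of]

end inst

section PowerSeries

variable {d p : ℕ} [hp : Fact p.Prime] {K : Type u} [Field K] [CharP K p]

local notation "PS" => MvPowerSeries (Fin d) K

lemma coeff_pow_pow (e : ℕ) (b : PS) (m : Fin d →₀ ℕ) :
    MvPowerSeries.coeff (p ^ e • m) (b ^ p ^ e) = (MvPowerSeries.coeff m b) ^ p ^ e := by
  rw [← MvPowerSeries.map_iterateFrobenius_expand p hp.out.ne_zero b e,
    MvPowerSeries.coeff_map, MvPowerSeries.coeff_expand_smul, iterateFrobenius_def]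

lemma coeff_pow_pow_of_not_dvd (e : ℕ) (b : PS) (m : Fin d →₀ ℕ) (i : Fin d)
    (h : ¬ p ^ e ∣ m i) : MvPowerSeries.coeff m (b ^ p ^ e) = 0 := by
  rw [← MvPowerSeries.map_iterateFrobenius_expand p hp.out.ne_zero b e,
    MvPowerSeries.coeff_map, MvPowerSeries.coeff_expand_of_not_dvd _ _ _ h, map_zero]

/-- `α` as a Finsupp -/
noncomputable def toF {q : ℕ} (α : Fin d → Fin q) : Fin d →₀ ℕ :=
  Finsupp.equivFunOnFinite.symm fun i => (α i : ℕ)

lemma toF_apply {q : ℕ} (α : Fin d → Fin q) (i : Fin d) : toF α i = (α i : ℕ) := rfl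

lemma prod_X_pow {q : ℕ} (α : Fin d → Fin q) :
    (∏ i, (MvPowerSeries.X i : PS) ^ (α i : ℕ)) = MvPowerSeries.monomial (toF α) 1 := by
  rw [MvPowerSeries.monomial_eq', Finsupp.prod_fintype _ _ (fun i => by simp)]
  simp [toF_apply]

lemma coeff_sum (e : ℕ) (b : (Fin d → Fin (p ^ e)) → PS) (n : Fin d →₀ ℕ)
    (β : Fin d → Fin (p ^ e)) :
    MvPowerSeries.coeff (p ^ e • n + toF β)
      (∑ α, (∏ i, (MvPowerSeries.X i : PS) ^ (α i : ℕ)) * b α ^ p ^ e) =
      (MvPowerSeries.coeff n (b β)) ^ p ^ e := by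
  rw [map_sum, Finset.sum_eq_single β]
  · rw [prod_X_pow, MvPowerSeries.coeff_monomial_mul, if_pos (le_add_of_nonneg_left zero_le),
      one_mul, add_tsub_cancel_right, coeff_pow_pow]
  · intro α _ hα
    rw [prod_X_pow, MvPowerSeries.coeff_monomial_mul]
    split_ifs with h
    · rw [one_mul]
      obtain ⟨i, hi⟩ : ∃ i, α i ≠ β i := by
        by_contra hc
        exact hα (funext fun i => by_contra fun h' => hc ⟨i, h'⟩)
      apply coeff_pow_pow_of_not_dvd e (b α) _ i
      intro hdvd
      obtain ⟨k, hk⟩ := hdvd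
      have hle : (α i : ℕ) ≤ p ^ e * n i + (β i : ℕ) := by simpa [toF_apply] using h i
      rw [Finsupp.tsub_apply, Finsupp.add_apply, Finsupp.smul_apply, smul_eq_mul, toF_apply,
        toF_apply] at hk
      apply hi
      apply Fin.ext
      have h1 : p ^ e * n i + (β i : ℕ) = p ^ e * k + (α i : ℕ) := by omega
      have h2 := congrArg (· % p ^ e) h1
      simp only [Nat.mul_add_mod, Nat.mod_eq_of_lt (β i).2, Nat.mod_eq_of_lt (α i).2] at h2
      exact h2.symm
    · rfl
  · intro h; exact absurd (Finset.mem_univ _) h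

lemma exists_decomp {q : ℕ} (hq : 0 < q) (m : Fin d →₀ ℕ) :
    ∃ (n : Fin d →₀ ℕ) (β : Fin d → Fin q), m = q • n + toF β := by
  refine ⟨Finsupp.equivFunOnFinite.symm fun i => m i / q, fun i => ⟨m i % q, Nat.mod_lt _ hq⟩, ?_⟩
  ext i
  rw [Finsupp.add_apply, Finsupp.smul_apply, smul_eq_mul, toF_apply]
  exact (Nat.div_add_mod _ _).symm

variable (d p K) (e : ℕ) [CharP (MvPowerSeries (Fin d) K) p] [PerfectRing K p]

/-- `K[[X]]^(1/q)` is free over `K[[X]]` with basis the monomials, if `K` is perfect. -/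
noncomputable def frBasis : Basis (Fin d → Fin (p ^ e)) (MvPowerSeries (Fin d) K)
      (Fr p e (MvPowerSeries (Fin d) K)) :=
  Basis.mk (v := fun α => Fr.of p e (MvPowerSeries (Fin d) K)
      (∏ i, (MvPowerSeries.X i : MvPowerSeries (Fin d) K) ^ (α i : ℕ)))
    (by
      rw [Fintype.linearIndependent_iff]
      intro b hb β
      have hb' : ∑ α, (∏ i, (MvPowerSeries.X i : PS) ^ (α i : ℕ)) * b α ^ p ^ e = 0 := by
        refine Eq.trans (Finset.sum_congr rfl fun α _ => ?_) hb
        rw [Algebra.smul_def, mul_comm]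
        rfl
      ext n
      have h := coeff_sum e b n β
      rw [hb', map_zero] at h
      rw [map_zero]
      exact pow_eq_zero_iff (pow_ne_zero _ hp.out.ne_zero) |>.1 h.symm)
    (by
      rintro x -
      let x0 : PS := x
      let c : (Fin d → Fin (p ^ e)) → PS :=
        fun β n => (iterateFrobeniusEquiv K p e).symm (MvPowerSeries.coeff (p ^ e • n + toF β) x0)
      have hx : x = ∑ α, c α • Fr.of p e PS (∏ i, (MvPowerSeries.X i : PS) ^ (α i : ℕ)) := by
        have h1 : x0 = ∑ α, (∏ i, (MvPowerSeries.X i : PS) ^ (α i : ℕ)) * c α ^ p ^ e := by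
          ext m
          obtain ⟨n, β, rfl⟩ := exists_decomp (pow_pos hp.out.pos e) m
          rw [coeff_sum e c n β]
          change _ = ((iterateFrobeniusEquiv K p e).symm
            (MvPowerSeries.coeff (p ^ e • n + toF β) x0)) ^ p ^ e
          rw [← iterateFrobenius_def, ← iterateFrobeniusEquiv_apply, RingEquiv.apply_symm_apply]
        refine Eq.trans h1 (Finset.sum_congr rfl fun α _ => ?_)
        rw [Algebra.smul_def, mul_comm]
        rfl
      rw [hx]
      exact Submodule.sum_mem _ fun α _ => Submodule.smul_mem _ _ (Submodule.subset_span ⟨α, rfl⟩))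

instance frFinite :
    Module.Finite (MvPowerSeries (Fin d) K) (Fr p e (MvPowerSeries (Fin d) K)) :=
  Module.Finite.of_basis (frBasis d p K e)

instance frFree :
    Module.Free (MvPowerSeries (Fin d) K) (Fr p e (MvPowerSeries (Fin d) K)) :=
  Module.Free.of_basis (frBasis d p K e)

end PowerSeries

end Crest.Agent.R183.PI
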