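import Crest.Agent.R183.Ins1
import Crest.Agent.R183.PI0

/-!
# R183, INSEP (helper234), part 4: the ring `R₁ = A[R^q]` over `Fr p e A`
-/

set_option autoImplicit false
set_option linter.unusedSectionVars false

namespace Crest.Agent.R183.Ins

open IsLocalRing TensorProduct Crest.Agent.R183.PI

universe u v

section

variable (p : ℕ) [Fact p.Prime] (e : ℕ) (A R : Type u) [CommRing A] [CommRing R] [Algebra A R]

/-- the ring `A[R^q]` as a new type -/
def RR (p : ℕ) (e : ℕ) (A R : Type u) [CommRing A] [CommRing R] [Algebra A R] : Type u :=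
  fAdj A R p e

noncomputable instance RR.commRing : CommRing (RR p e A R) :=
  inferInstanceAs (CommRing (fAdj A R p e))

instance RR.isDomain [IsDomain R] : IsDomain (RR p e A R) :=
  inferInstanceAs (IsDomain (fAdj A R p e))

noncomputable instance RR.algebraFr : Algebra (Fr p e A) (RR p e A R) :=
  inferInstanceAs (Algebra A (fAdj A R p e))

/-- inclusion -/
noncomputable def RR.val : RR p e A R →+* R := (fAdj A R p e).val.toRingHom

theorem RR.val_injective : Function.Injective (RR.val p e A R) := Subtype.val_injective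

theorem RR.val_algebraMap (a : A) :
    RR.val p e A R (algebraMap (Fr p e A) (RR p e A R) (Fr.of p e A a)) = algebraMap A R a := rfl

variable [CharP A p] [CharP R p]

/-- `R → A[R^q]`, `r ↦ r^q` -/
noncomputable def RR.frob : R →+* RR p e A R where
  toFun r := (⟨r ^ p ^ e, pow_mem_fAdj A R p e r⟩ : fAdj A R p e)
  map_one' := Subtype.ext (one_pow _)
  map_mul' a b := Subtype.ext (mul_pow _ _ _)
  map_zero' := Subtype.ext (zero_pow (pow_ne_zero _ (Fact.out : p.Prime).ne_zero))
  map_add' a b := Subtype.ext (add_pow_char_pow a b p e)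

noncomputable instance RR.algebraR : Algebra R (RR p e A R) := (RR.frob p e A R).toAlgebra

noncomputable instance RR.algebraA : Algebra A (RR p e A R) :=
  ((RR.frob p e A R).comp (algebraMap A R)).toAlgebra

theorem RR.val_algebraMap_R (r : R) :
    RR.val p e A R (algebraMap R (RR p e A R) r) = r ^ p ^ e := rfl

instance RR.tower1 : IsScalarTower A R (RR p e A R) := IsScalarTower.of_algebraMap_eq fun _ => rfl

instance RR.tower2 : IsScalarTower A (Fr p e A) (RR p e A R) :=
  IsScalarTower.of_algebraMap_eq fun a => by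
    apply RR.val_injective p e A R
    change (algebraMap A R a) ^ p ^ e = algebraMap A R (a ^ p ^ e)
    rw [map_pow]

theorem RR.finite [IsNoetherianRing A] [Module.Finite A R] :
    Module.Finite (Fr p e A) (RR p e A R) := by
  have hN : IsNoetherian A R := isNoetherian_of_isNoetherianRing_of_finite A R
  exact inferInstanceAs (Module.Finite A (Subalgebra.toSubmodule (fAdj A R p e)))

/-- `R ⊗ A^{1/q} → A[R^q]` -/
noncomputable def RR.prod : (R ⊗[A] (Fr p e A)) →ₐ[A] RR p e A R :=
  Algebra.TensorProduct.productMap (IsScalarTower.toAlgHom A R (RR p e A R))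
        (IsScalarTower.toAlgHom A (Fr p e A) (RR p e A R))

theorem RR.prod_tmul (r : R) (a : Fr p e A) : RR.prod p e A R (r ⊗ₜ a) =
    algebraMap R (RR p e A R) r * algebraMap (Fr p e A) (RR p e A R) a := rfl

theorem RR.prod_surjective : Function.Surjective (RR.prod p e A R) := by
  rintro ⟨x, hx⟩
  have h : ∀ x ∈ fAdj A R p e, ∃ z, RR.val p e A R (RR.prod p e A R z) = x := by
    intro x hx
    induction hx using Algebra.adjoin_induction with
    | mem x hx =>
      obtain ⟨y, rfl⟩ := hx
      refine ⟨y ⊗ₜ 1, ?_⟩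
      rw [RR.prod_tmul, map_one, mul_one, RR.val_algebraMap_R]
    | algebraMap a =>
      refine ⟨1 ⊗ₜ (Fr.of p e A a), ?_⟩
      rw [RR.prod_tmul, map_one, one_mul, RR.val_algebraMap]
    | add x y _ _ hx hy =>
      obtain ⟨z, rfl⟩ := hx
      obtain ⟨w, rfl⟩ := hy
      exact ⟨z + w, by rw [map_add, map_add]⟩
    | mul x y _ _ hx hy =>
      obtain ⟨z, rfl⟩ := hx
      obtain ⟨w, rfl⟩ := hy
      exact ⟨z * w, by rw [map_mul, map_mul]⟩
  obtain ⟨z, hz⟩ := h x hx
  exact ⟨z, RR.val_injective p e A R hz⟩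

theorem RR.pow_eq (z : R ⊗[A] (Fr p e A)) :
    z ^ p ^ e = (RR.val p e A R (RR.prod p e A R z)) ⊗ₜ 1 := by
  have hch : CharP (R ⊗[A] (Fr p e A)) p ∨ Subsingleton (R ⊗[A] (Fr p e A)) := by
    rcases subsingleton_or_nontrivial (R ⊗[A] (Fr p e A)) with h | h
    · exact Or.inr h
    · left
      refine (CharP.charP_iff_prime_eq_zero Fact.out).2 ?_
      have : ((p : ℕ) : R ⊗[A] (Fr p e A)) = algebraMap R _ ((p : ℕ) : R) := by rw [map_natCast]
      rw [this, CharP.cast_eq_zero, map_zero]
  rcases hch with hch | hch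
  · induction z using TensorProduct.induction_on with
    | zero =>
      rw [zero_pow (pow_ne_zero _ (Fact.out : p.Prime).ne_zero), map_zero, map_zero,
        TensorProduct.zero_tmul]
    | add x y hx hy =>
      rw [add_pow_char_pow, hx, hy, map_add, map_add, TensorProduct.add_tmul]
    | tmul r a =>
      rw [Algebra.TensorProduct.tmul_pow, RR.prod_tmul, map_mul, RR.val_algebraMap_R]
      have h1 : (a ^ p ^ e : Fr p e A) = ((Fr.of p e A).symm a) • (1 : Fr p e A) := by
        rw [Algebra.smul_def, mul_one]; rfl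
      have h2 : RR.val p e A R (algebraMap (Fr p e A) (RR p e A R) a) =
        algebraMap A R ((Fr.of p e A).symm a) := rfl
      rw [h1, h2, ← TensorProduct.smul_tmul, Algebra.smul_def, mul_comm]
  · exact Subsingleton.elim _ _

theorem RR.pow_eq_zero (z : R ⊗[A] (Fr p e A)) (hz : RR.prod p e A R z = 0) : z ^ p ^ e = 0 := by
  rw [RR.pow_eq, hz, map_zero, TensorProduct.zero_tmul]

theorem RR.isIntegral_val [Module.Finite A R] : (RR.val p e A R).IsIntegral := by
  intro x
  obtain ⟨f, hf, hx⟩ := Algebra.IsIntegral.isIntegral (R := A) x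
  let φ : A →+* RR p e A R :=
    (algebraMap (Fr p e A) (RR p e A R)).comp (Fr.of p e A : A →+* Fr p e A)
  have hφ : (RR.val p e A R).comp φ = algebraMap A R := rfl
  refine ⟨f.map φ, hf.map _, ?_⟩
  rw [Polynomial.eval₂_map, hφ]
  exact hx

theorem RR.isLocalHom_val [Module.Finite A R] : IsLocalHom (RR.val p e A R) :=
  (RR.isIntegral_val p e A R).isLocalHom (RR.val_injective p e A R)

theorem RR.isLocalRing [Module.Finite A R] [IsLocalRing R] : IsLocalRing (RR p e A R) := by
  have := RR.isLocalHom_val p e A R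
  exact RingHom.domain_isLocalRing (RR.val p e A R)

theorem RR.exists_sub_mem [Module.Finite A R] [IsLocalRing R] [IsLocalRing (RR p e A R)]
    (hres : ∀ r : R, ∃ a : A, r - algebraMap A R a ∈ maximalIdeal R) (x : RR p e A R) :
    ∃ a : Fr p e A, x - algebraMap (Fr p e A) (RR p e A R) a ∈ maximalIdeal (RR p e A R) := by
  have := RR.isLocalHom_val p e A R
  obtain ⟨a, ha⟩ := hres (RR.val p e A R x)
  refine ⟨Fr.of p e A a, ?_⟩
  rw [mem_maximalIdeal, mem_nonunits_iff]
  intro hu
  have h1 := hu.map (RR.val p e A R)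
  rw [map_sub, RR.val_algebraMap] at h1
  exact ha h1

/-- **Generic separability**: trace data for `e` large. -/
theorem RR.exists_trData [IsDomain A] [IsNoetherianRing A] [IsIntegrallyClosed A] [IsDomain R]
    [Module.Finite A R] (hinj : Function.Injective (algebraMap A R)) :
    ∃ e₀, ∀ e ≥ e₀, ∃ D : PC.TrData p (Fr p e A) (RR p e A R), D.δ ≠ 0 := by
  obtain ⟨e₀, he₀⟩ := exists_trData_fAdj A R p hinj
  exact ⟨e₀, fun e he => he₀ e he⟩

end

end Crest.Agent.R183.Ins
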