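import Crest.Agent.R183.RD1

/-!
# R183, block RD (helper680), part 3: fibre criterion of flatness
-/

set_option autoImplicit false

namespace Crest.Agent.R183.RD

open TensorProduct IsLocalRing

universe u v w

/-- minimal generators -/
theorem exists_min_gens {R : Type u} [CommRing R] [IsLocalRing R] (J : Ideal R) (hJ : J.FG) :
    ∃ (s : ℕ) (a : Fin s → R), Ideal.span (Set.range a) = J ∧
      ∀ c : Fin s → R, ∑ l, c l * a l ∈ maximalIdeal R * J → ∀ l, c l ∈ maximalIdeal R := by
  classical
  have hex : ∃ s : ℕ, ∃ a : Fin s → R, Ideal.span (Set.range a) = J := by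
    obtain ⟨S, hS⟩ := hJ
    refine ⟨S.card, fun i => (S.equivFin.symm i : R), ?_⟩
    rw [← hS]
    congr 1
    ext x
    simp only [Set.mem_range, Finset.mem_coe]
    constructor
    · rintro ⟨i, rfl⟩
      exact (S.equivFin.symm i).2
    · intro hx
      exact ⟨S.equivFin ⟨x, hx⟩, by simp⟩
  obtain ⟨a, ha⟩ := Nat.find_spec hex
  refine ⟨Nat.find hex, a, ha, ?_⟩
  intro c hc l
  by_contra hcl
  have hunit : IsUnit (c l) := by
    by_contra h
    exact hcl ((mem_maximalIdeal _).2 h)
  generalize hs : Nat.find hex = s at a ha c hc l hcl hunit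
  cases s with
  | zero => exact l.elim0
  | succ t =>
    have hmin : ¬ ∃ b : Fin t → R, Ideal.span (Set.range b) = J :=
      Nat.find_min hex (by omega)
    apply hmin
    refine ⟨fun i => a (l.succAbove i), ?_⟩
    have h1 : Ideal.span (Set.range fun i => a (l.succAbove i)) ≤ J := by
      rw [← ha]
      apply Ideal.span_mono
      rintro _ ⟨i, rfl⟩
      exact ⟨_, rfl⟩
    refine le_antisymm h1 ?_
    refine Submodule.le_of_le_smul_of_le_jacobson_bot (I := maximalIdeal R) hJ
      (IsLocalRing.maximalIdeal_le_jacobson ⊥) ?_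
    conv_lhs => rw [← ha]
    rw [Ideal.span_le]
    rintro _ ⟨i, rfl⟩
    by_cases hi : i = l
    · subst hi
      obtain ⟨u, hu⟩ := hunit
      have h2 : a i = (↑u⁻¹ : R) * (∑ l, c l * a l) - ∑ j, (↑u⁻¹ * c (i.succAbove j)) *
          a (i.succAbove j) := by
        rw [Fin.sum_univ_succAbove _ i, mul_add, ← mul_assoc, ← hu, Units.inv_mul, one_mul,
          Finset.mul_sum]
        simp only [mul_assoc]
        ring
      rw [h2]
      refine Submodule.sub_mem _ (Submodule.mem_sup_right (Ideal.mul_mem_left _ _ hc)) ?_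
      refine Submodule.mem_sup_left (Ideal.sum_mem _ fun j _ => Ideal.mul_mem_left _ _ ?_)
      exact Ideal.subset_span ⟨j, rfl⟩
    · obtain ⟨j, rfl⟩ := Fin.exists_succAbove_eq hi
      exact Submodule.mem_sup_left (Ideal.subset_span ⟨j, rfl⟩)

/-- If `M` is flat over the local ring `R` and the `a l` are minimal generators of `J`, then
`∑ a l • u l ∈ m J M` implies `u l ∈ m M`. -/
theorem mem_of_min_gens {R : Type u} [CommRing R] [IsLocalRing R] {M : Type v} [AddCommGroup M]
    [Module R M] [Module.Flat R M] {J : Ideal R} {s : ℕ} {a : Fin s → R}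
    (ha : ∀ c : Fin s → R, ∑ l, c l * a l ∈ maximalIdeal R * J → ∀ l, c l ∈ maximalIdeal R)
    (u : Fin s → M) (hu : ∑ l, a l • u l ∈ ((maximalIdeal R * J) • ⊤ : Submodule R M)) (l : Fin s) :
    u l ∈ (maximalIdeal R • ⊤ : Submodule R M) := by
  obtain ⟨k, c, y, h1, h2⟩ := EqF.of_flat_self (maximalIdeal R * J) s a u hu
  have h3 : u l = (u l - ∑ j, c l j • y j) + ∑ j, c l j • y j := by abel
  rw [h3]
  refine add_mem (Submodule.smul_mono_left Ideal.mul_le_left (h1 l)) ?_
  refine Submodule.sum_mem _ fun j _ => Submodule.smul_mem_smul ?_ trivial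
  refine ha (fun l => c l j) ?_ l
  have h4 : ∑ l, c l j * a l = ∑ l, a l * c l j := Finset.sum_congr rfl fun l _ => mul_comm _ _
  rw [h4]
  exact h2 j

/-- FIBRE CRITERION: `R → A → B`, `R` Noetherian local, `A`, `B` Noetherian, `B` flat over `R`,
`B / m_R B` flat over `A / m_R A`, `m_R B` in the Jacobson radical; then `B` is flat over `A`. -/
theorem flat_of_fibers (R : Type w) {A : Type u} {B : Type v} [CommRing R] [IsLocalRing R]
    [IsNoetherianRing R] [CommRing A] [CommRing B] [Algebra R A] [Algebra A B] [Algebra R B]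
    [IsScalarTower R A B] [IsNoetherianRing A] [IsNoetherianRing B] [Module.Flat R B]
    (hI : (maximalIdeal R).map (algebraMap R B) ≤ Ideal.jacobson ⊥)
    (h : EqF ((maximalIdeal R).map (algebraMap R A)) B) : Module.Flat A B := by
  have hmap : ∀ J : Ideal R, (((J.map (algebraMap R A)) • ⊤ : Submodule A B).restrictScalars R) =
      (J • ⊤ : Submodule R B) := by
    intro J
    apply le_antisymm
    · intro x hx
      have hx' : x ∈ ((J.map (algebraMap R A)) • ⊤ : Submodule A B) := hx
      refine Submodule.smul_induction_on hx' ?_ ?_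
      · intro r hr b _
        refine Submodule.span_induction (p := fun r _ => ∀ b : B, r • b ∈ (J • ⊤ : Submodule R B))
          ?_ ?_ ?_ ?_ hr b
        · rintro _ ⟨r, hr, rfl⟩ b
          rw [algebraMap_smul]
          exact Submodule.smul_mem_smul hr trivial
        · intro b; rw [zero_smul]; exact zero_mem _
        · intro x y _ _ hx hy b
          rw [add_smul]; exact add_mem (hx b) (hy b)
        · intro a x _ hx b
          rw [smul_eq_mul, mul_comm, mul_smul]
          exact hx (a • b)
      · intro x y hx hy; exact add_mem hx hy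
    · rw [Submodule.smul_le]
      intro r hr b _
      show r • b ∈ ((J.map (algebraMap R A)) • ⊤ : Submodule A B)
      rw [← algebraMap_smul A r b]
      exact Submodule.smul_mem_smul (Ideal.mem_map_of_mem _ hr) trivial
  refine flat_of_forall_eqF ((maximalIdeal R).map (algebraMap R A)) ?_ ?_
  · rw [Ideal.map_map, ← IsScalarTower.algebraMap_eq]
    exact hI
  · intro n
    induction n with
    | zero =>
      intro n r m _
      refine ⟨0, fun _ j => j.elim0, fun j => j.elim0, fun i => ?_, fun j => j.elim0⟩
      rw [pow_zero, Ideal.one_eq_top, Submodule.top_smul]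
      trivial
    | succ n ih =>
      rw [pow_succ']
      obtain ⟨s, a, ha, hmin⟩ := exists_min_gens (maximalIdeal R ^ n)
        (IsNoetherian.noetherian _)
      obtain ⟨t, b, hb⟩ := exists_min_gens (maximalIdeal R) (IsNoetherian.noetherian _)
      refine EqF.mul (s := s) (fun l => algebraMap R A (a l)) ?_ (t := t)
        (fun l => algebraMap R A (b l)) ?_ ?_ h ih
      · rw [← Ideal.map_pow, ← ha, Ideal.map_span, ← Set.range_comp]
        rfl
      · rw [← hb.1, Ideal.map_span, ← Set.range_comp]
        rfl
      · intro u hu l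
        have h1 : ∑ l, a l • u l ∈ ((maximalIdeal R * maximalIdeal R ^ n) • ⊤ :
            Submodule R B) := by
          rw [← hmap, Ideal.map_mul, Ideal.map_pow]
          have h2 : ∑ l, a l • u l = ∑ l, algebraMap R A (a l) • u l :=
            Finset.sum_congr rfl fun l _ => (algebraMap_smul A (a l) (u l)).symm
          rw [h2]
          exact hu
        have h3 := mem_of_min_gens hmin u h1 l
        rw [← hmap] at h3
        exact h3

end Crest.Agent.R183.RD
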