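import Crest.Agent.R183.RD2
import Crest.Agent.R183.RD3
import Crest.Agent.R183.CohenStruct

/-!
# R183, block RD (helper680), part 4: the ring `T = R ⊗_A A'`

Abstract setting: `A → R` finite, `A → A'`, everything local Noetherian, `A → R` surjective on
residue fields, `T` a pushout of `R` and `A'` over `A`.
-/

set_option autoImplicit false

namespace Crest.Agent.R183.RD

open TensorProduct IsLocalRing

universe u v w

section Pushout

variable (A R A' T : Type*) [CommRing A] [CommRing R] [CommRing A'] [CommRing T]
  [Algebra A R] [Algebra A A'] [Algebra A T] [Algebra R T] [Algebra A' T]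
  [IsScalarTower A R T] [IsScalarTower A A' T] [Algebra.IsPushout A R A' T]

include A A' in
theorem pushout_flat [Module.Flat A A'] : Module.Flat R T :=
  Module.Flat.of_linearEquiv (Algebra.IsPushout.out (R := A) (S := R) (R' := A') (S' := T)).equiv.symm

include A R in
theorem pushout_finite [Module.Finite A R] : Module.Finite A' T := by
  have h : Algebra.IsPushout A A' R T := Algebra.IsPushout.symm inferInstance
  exact Module.Finite.equiv h.out.equiv

variable {A R A' T}

include A in
theorem pushout_induction (x : T) {P : T → Prop} (h0 : P 0) (hadd : ∀ x y, P x → P y → P (x + y))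
    (hmul : ∀ (r : R) (a : A'), P (algebraMap R T r * algebraMap A' T a)) : P x := by
  have h : IsBaseChange R (IsScalarTower.toAlgHom A A' T).toLinearMap :=
    Algebra.IsPushout.out
  obtain ⟨y, rfl⟩ := h.equiv.surjective x
  induction y using TensorProduct.induction_on with
  | zero => rw [map_zero]; exact h0
  | add x y hx hy => rw [map_add]; exact hadd _ _ hx hy
  | tmul r a =>
    rw [IsBaseChange.equiv_tmul]
    have : r • (IsScalarTower.toAlgHom A A' T).toLinearMap a =
        algebraMap R T r * algebraMap A' T a := by
      rw [Algebra.smul_def]; rfl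
    rw [this]
    exact hmul r a

/-- modulo `m_R T` every element of `T` comes from `A'`. -/
theorem exists_sub_mem [IsLocalRing R]
    (hres : ∀ r : R, ∃ a : A, r - algebraMap A R a ∈ maximalIdeal R) (x : T) :
    ∃ a : A', x - algebraMap A' T a ∈ (maximalIdeal R).map (algebraMap R T) := by
  refine pushout_induction (A := A) (R := R) (A' := A')
    (P := fun x => ∃ a : A', x - algebraMap A' T a ∈ (maximalIdeal R).map (algebraMap R T))
    x ?_ ?_ ?_
  · exact ⟨0, by simp⟩
  · rintro x y ⟨a, ha⟩ ⟨b, hb⟩
    refine ⟨a + b, ?_⟩
    rw [map_add]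
    have : x + y - (algebraMap A' T a + algebraMap A' T b) =
      (x - algebraMap A' T a) + (y - algebraMap A' T b) := by ring
    rw [this]
    exact add_mem ha hb
  · intro r a
    obtain ⟨c, hc⟩ := hres r
    refine ⟨algebraMap A A' c * a, ?_⟩
    have h1 : algebraMap A' T (algebraMap A A' c * a) =
        algebraMap R T (algebraMap A R c) * algebraMap A' T a := by
      rw [map_mul, ← IsScalarTower.algebraMap_apply A A' T, IsScalarTower.algebraMap_apply A R T]
    rw [h1, ← sub_mul, ← map_sub]
    exact Ideal.mul_mem_right _ _ (Ideal.mem_map_of_mem _ hc)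

/-- Hypotheses: `A → R` finite local, surjective on residue fields, `A → A'` local,
and there is a ring hom `π` from `T` to a local ring which is local on `R` and on `A'`. -/
theorem isLocalRing_pushout [IsLocalRing A] [IsLocalRing R] [IsLocalRing A'] [Module.Finite A R]
    (hres : ∀ r : R, ∃ a : A, r - algebraMap A R a ∈ maximalIdeal R)
    [IsLocalHom (algebraMap A A')]
    {S : Type*} [CommRing S] [IsLocalRing S] (π : T →+* S)
    (hπR : ∀ r ∈ maximalIdeal R, π (algebraMap R T r) ∈ maximalIdeal S)
    (hπA : ∀ r ∈ maximalIdeal A', π (algebraMap A' T r) ∈ maximalIdeal S) :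
    ∃ _ : IsLocalRing T, maximalIdeal T = (maximalIdeal R).map (algebraMap R T) ⊔
      (maximalIdeal A').map (algebraMap A' T) := by
  set M : Ideal T := (maximalIdeal R).map (algebraMap R T) ⊔
      (maximalIdeal A').map (algebraMap A' T) with hM
  have hMne : M ≠ ⊤ := by
    intro h
    have h1 : M ≤ (maximalIdeal S).comap π := by
      rw [hM, sup_le_iff, Ideal.map_le_iff_le_comap, Ideal.map_le_iff_le_comap]
      exact ⟨fun r hr => hπR r hr, fun r hr => hπA r hr⟩
    rw [h, top_le_iff, Ideal.comap_eq_top_iff] at h1
    exact (maximalIdeal.isMaximal S).ne_top h1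
  have hunit : ∀ x : T, x ∉ M → ∃ y : T, x * y - 1 ∈ M := by
    intro x hx
    obtain ⟨a, ha⟩ := exists_sub_mem (A := A) (R := R) (A' := A') hres x
    have ha' : a ∉ maximalIdeal A' := by
      intro h
      apply hx
      have : x = (x - algebraMap A' T a) + algebraMap A' T a := by ring
      rw [this]
      exact add_mem (Ideal.mem_sup_left ha) (Ideal.mem_sup_right (Ideal.mem_map_of_mem _ h))
    have hau : IsUnit a := by
      by_contra h
      exact ha' ((mem_maximalIdeal _).2 h)
    obtain ⟨b, hb⟩ := hau.exists_right_inv
    refine ⟨algebraMap A' T b, ?_⟩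
    have : x * algebraMap A' T b - 1 = (x - algebraMap A' T a) * algebraMap A' T b := by
      rw [sub_mul, ← map_mul, hb, map_one]
    rw [this]
    exact Ideal.mul_mem_right _ _ (Ideal.mem_sup_left ha)
  have hMmax : M.IsMaximal := by
    rw [Ideal.isMaximal_iff]
    refine ⟨fun h => hMne ((Ideal.eq_top_iff_one _).2 h), ?_⟩
    intro I x hMI hxM hxI
    obtain ⟨y, hy⟩ := hunit x hxM
    have : (1 : T) = x * y - (x * y - 1) := by ring
    rw [this]
    exact sub_mem (Ideal.mul_mem_right _ _ hxI) (hMI hy)
  have hfin : Module.Finite A' T := pushout_finite A R A' T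
  have hint : Algebra.IsIntegral A' T := inferInstance
  have hintR : Algebra.IsIntegral A R := inferInstance
  have huniq : ∀ I : Ideal T, I.IsMaximal → I = M := by
    intro I hI
    have hA' : I.comap (algebraMap A' T) = maximalIdeal A' := by
      have : (I.comap (algebraMap A' T)).IsMaximal := Ideal.isMaximal_comap_of_isIntegral_of_isMaximal I
      exact IsLocalRing.eq_maximalIdeal this
    have hR : I.comap (algebraMap R T) = maximalIdeal R := by
      have hprime : (I.comap (algebraMap R T)).IsPrime := Ideal.IsPrime.comap _
      have hmax : ((I.comap (algebraMap R T)).comap (algebraMap A R)).IsMaximal := by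
        have h1 : (I.comap (algebraMap R T)).comap (algebraMap A R) = maximalIdeal A := by
          rw [Ideal.comap_comap, ← IsScalarTower.algebraMap_eq, IsScalarTower.algebraMap_eq A A' T,
            ← Ideal.comap_comap, hA']
          exact ((local_hom_TFAE (algebraMap A A')).out 0 4).1 ‹IsLocalHom (algebraMap A A')›
        rw [h1]
        exact maximalIdeal.isMaximal A
      have := Ideal.isMaximal_of_isIntegral_of_isMaximal_comap (I.comap (algebraMap R T)) hmax
      exact IsLocalRing.eq_maximalIdeal this
    have hle : M ≤ I := by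
      rw [hM, sup_le_iff, Ideal.map_le_iff_le_comap, Ideal.map_le_iff_le_comap, hA', hR]
      exact ⟨le_rfl, le_rfl⟩
    exact (hMmax.eq_of_le hI.ne_top hle).symm
  have hloc : IsLocalRing T := IsLocalRing.of_unique_max_ideal ⟨M, hMmax, fun I hI => huniq I hI⟩
  refine ⟨hloc, ?_⟩
  exact (IsLocalRing.eq_maximalIdeal hMmax).symm

end Pushout

end Crest.Agent.R183.RD
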