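import Crest.Agent.R183.Ins3
import Crest.Agent.R183.Ins4
import Crest.Agent.R183.RD4

/-!
# R183, INSEP (helper234), part 5: `S ⊗_{A'} A'^{1/q}` is flat over `R ⊗_A A^{1/q}`
-/

set_option autoImplicit false
set_option linter.unusedSectionVars false

namespace Crest.Agent.R183.Ins

open IsLocalRing TensorProduct Crest.Agent.R183.PI

section quot

variable {A R A' T : Type*} [CommRing A] [CommRing R] [CommRing A'] [CommRing T]
  [Algebra A R] [Algebra A A'] [Algebra A T] [Algebra R T] [Algebra A' T]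
  [IsScalarTower A R T] [IsScalarTower A A' T] [Algebra.IsPushout A R A' T]

include A in
/-- modulo `I T` every element of `T` comes from `A'`. -/
theorem exists_sub_mem_map (I : Ideal R)
    (hres : ∀ r : R, ∃ a : A, r - algebraMap A R a ∈ I) (x : T) :
    ∃ a : A', x - algebraMap A' T a ∈ I.map (algebraMap R T) := by
  refine RD.pushout_induction (A := A) (R := R) (A' := A')
    (P := fun x => ∃ a : A', x - algebraMap A' T a ∈ I.map (algebraMap R T))
    x ?_ ?_ ?_
  · exact ⟨0, by simp⟩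
  · rintro x y ⟨a, ha⟩ ⟨b, hb⟩
    refine ⟨a + b, ?_⟩
    rw [map_add]
    have : x + y - (algebraMap A' T a + algebraMap A' T b) =
      (x - algebraMap A' T a) + (y - algebraMap A' T b) := by ring
    rw [this]
    exact add_mem ha hb
  · intro r a
    obtain ⟨c, hc⟩ := hres r
    refine ⟨algebraMap A A' c * a, ?_⟩
    have h1 : algebraMap A' T (algebraMap A A' c * a) =
        algebraMap R T (algebraMap A R c) * algebraMap A' T a := by
      rw [map_mul, ← IsScalarTower.algebraMap_apply A A' T, IsScalarTower.algebraMap_apply A R T]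
    rw [h1, ← sub_mul, ← map_sub]
    exact Ideal.mul_mem_right _ _ (Ideal.mem_map_of_mem _ hc)

/-- `T / I T = A' / J A'` if `A / J = R / I`. -/
theorem exists_sigma {B : Type*} [CommRing B] (I : Ideal R)
    (hI : ∀ r : R, ∃ a : A, r - algebraMap A R a ∈ I) (ρ : A' →+* B)
    (hρ : Function.Surjective ρ)
    (hker : RingHom.ker ρ = (I.comap (algebraMap A R)).map (algebraMap A A')) :
    ∃ σ : T →+* B, (∀ a, σ (algebraMap A' T a) = ρ a) ∧ Function.Surjective σ ∧
      RingHom.ker σ = I.map (algebraMap R T) := by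
  let f : A →+* R ⧸ I := (Ideal.Quotient.mk I).comp (algebraMap A R)
  have hf : Function.Surjective f := by
    intro x
    obtain ⟨r, rfl⟩ := Ideal.Quotient.mk_surjective x
    obtain ⟨a, ha⟩ := hI r
    exact ⟨a, ((Ideal.Quotient.mk_eq_mk_iff_sub_mem r _).2 ha).symm⟩
  have hfk : RingHom.ker f ≤ RingHom.ker (ρ.comp (algebraMap A A')) := by
    intro a ha
    have ha' : algebraMap A R a ∈ I := Ideal.Quotient.eq_zero_iff_mem.1 ha
    have : algebraMap A A' a ∈ RingHom.ker ρ := by
      rw [hker]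
      exact Ideal.mem_map_of_mem _ ha'
    exact this
  let τ₀ : R ⧸ I →+* B := RingHom.liftOfSurjective f hf ⟨ρ.comp (algebraMap A A'), hfk⟩
  have hτ₀ : ∀ a, τ₀ (f a) = ρ (algebraMap A A' a) := fun a =>
    RingHom.liftOfRightInverse_comp_apply f _ (Function.rightInverse_surjInv hf)
      ⟨ρ.comp (algebraMap A A'), hfk⟩ a
  let _ : Algebra A B := (ρ.comp (algebraMap A A')).toAlgebra
  let g1 : R →ₐ[A] B := ⟨τ₀.comp (Ideal.Quotient.mk I), fun a => hτ₀ a⟩
  let g2 : A' →ₐ[A] B := ⟨ρ, fun a => rfl⟩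
  let σ : T →ₐ[A] B := Algebra.pushoutDesc T g1 g2 (fun x y => mul_comm _ _)
  have hσ1 : ∀ a, σ (algebraMap A' T a) = ρ a := fun a =>
    Algebra.pushoutDesc_right (R := A) (S := R) (R' := A') T g1 g2 (fun x y => mul_comm _ _) a
  have hσ2 : ∀ r, σ (algebraMap R T r) = τ₀ (Ideal.Quotient.mk I r) := fun r =>
    Algebra.pushoutDesc_left (R := A) (S := R) (R' := A') T g1 g2 (fun x y => mul_comm _ _) r
  have hle : I.map (algebraMap R T) ≤ RingHom.ker (σ : T →+* B) := by
    rw [Ideal.map_le_iff_le_comap]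
    intro r hr
    rw [Ideal.mem_comap, RingHom.mem_ker]
    change σ _ = 0
    rw [hσ2, Ideal.Quotient.eq_zero_iff_mem.2 hr, map_zero]
  refine ⟨σ, hσ1, ?_, le_antisymm ?_ hle⟩
  · intro b
    obtain ⟨a, rfl⟩ := hρ b
    exact ⟨_, hσ1 a⟩
  · intro x hx
    have hx : σ x = 0 := hx
    obtain ⟨a, ha⟩ := exists_sub_mem_map (A := A) (A' := A') I hI x
    have h0 : σ (x - algebraMap A' T a) = 0 := hle ha
    rw [map_sub, hx, hσ1, zero_sub, neg_eq_zero] at h0
    have h1 : a ∈ RingHom.ker ρ := h0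
    rw [hker] at h1
    have h2 : algebraMap A' T a ∈ I.map (algebraMap R T) := by
      have h3 := Ideal.mem_map_of_mem (algebraMap A' T) h1
      rw [Ideal.map_map, ← IsScalarTower.algebraMap_eq, IsScalarTower.algebraMap_eq A R T,
        ← Ideal.map_map] at h3
      exact Ideal.map_mono Ideal.map_comap_le h3
    have : x = (x - algebraMap A' T a) + algebraMap A' T a := by ring
    rw [this]
    exact add_mem ha h2

end quot

section two

variable {A R A' T A1 G A1' Tq : Type*} [CommRing A] [CommRing R] [CommRing A'] [CommRing T]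
  [CommRing A1] [CommRing G] [CommRing A1'] [CommRing Tq]
  [Algebra A R] [Algebra A A'] [Algebra A T] [Algebra R T] [Algebra A' T]
  [IsScalarTower A R T] [IsScalarTower A A' T] [Algebra.IsPushout A R A' T]
  [Algebra A1 G] [Algebra A1 A1'] [Algebra A1 Tq] [Algebra G Tq] [Algebra A1' Tq]
  [IsScalarTower A1 G Tq] [IsScalarTower A1 A1' Tq] [Algebra.IsPushout A1 G A1' Tq]
  [Algebra R G] [Algebra R Tq] [Algebra T Tq] [Algebra A' A1'] [Algebra A' Tq]
  [IsScalarTower R G Tq] [IsScalarTower R T Tq] [IsScalarTower A' T Tq] [IsScalarTower A' A1' Tq]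

theorem map_map_le (I : Ideal R) (I1 : Ideal G) (hle : I.map (algebraMap R G) ≤ I1) :
    (I.map (algebraMap R T)).map (algebraMap T Tq) ≤ I1.map (algebraMap G Tq) := by
  rw [Ideal.map_map, ← IsScalarTower.algebraMap_eq, IsScalarTower.algebraMap_eq R G Tq,
    ← Ideal.map_map]
  exact Ideal.map_mono hle

include A A1 in
/-- `T / m_R T → Tq / m_G Tq` is flat. -/
theorem quot_flat {B₀ B₁ : Type*} [CommRing B₀] [CommRing B₁] (I : Ideal R) (I1 : Ideal G)
    (hI : ∀ r : R, ∃ a : A, r - algebraMap A R a ∈ I)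
    (hI1 : ∀ r : G, ∃ a : A1, r - algebraMap A1 G a ∈ I1)
    (hle : I.map (algebraMap R G) ≤ I1)
    (ρ : A' →+* B₀) (hρ : Function.Surjective ρ)
    (hker : RingHom.ker ρ = (I.comap (algebraMap A R)).map (algebraMap A A'))
    (ρ₁ : A1' →+* B₁) (hρ₁ : Function.Surjective ρ₁)
    (hker₁ : RingHom.ker ρ₁ = (I1.comap (algebraMap A1 G)).map (algebraMap A1 A1'))
    (φ : B₀ →+* B₁) (hcomp : ∀ a, φ (ρ a) = ρ₁ (algebraMap A' A1' a)) (hφ : φ.Flat) :
    ∃ (_ : Algebra (T ⧸ I.map (algebraMap R T)) (Tq ⧸ I1.map (algebraMap G Tq))),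
      IsScalarTower T (T ⧸ I.map (algebraMap R T)) (Tq ⧸ I1.map (algebraMap G Tq)) ∧
      Module.Flat (T ⧸ I.map (algebraMap R T)) (Tq ⧸ I1.map (algebraMap G Tq)) := by
  have hle2 : I.map (algebraMap R T) ≤ (I1.map (algebraMap G Tq)).comap (algebraMap T Tq) := by
    rw [← Ideal.map_le_iff_le_comap]
    exact map_map_le I I1 hle
  let ψ : T ⧸ I.map (algebraMap R T) →+* Tq ⧸ I1.map (algebraMap G Tq) :=
    Ideal.quotientMap _ (algebraMap T Tq) hle2
  obtain ⟨σ, hσ1, hσ2, hσ3⟩ := exists_sigma (T := T) I hI ρ hρ hker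
  obtain ⟨σ₁, hσ₁1, hσ₁2, hσ₁3⟩ := exists_sigma (T := Tq) I1 hI1 ρ₁ hρ₁ hker₁
  let e₀ : (T ⧸ I.map (algebraMap R T)) ≃+* B₀ :=
    (Ideal.quotEquivOfEq hσ3.symm).trans (RingHom.quotientKerEquivOfSurjective hσ2)
  let e₁ : (Tq ⧸ I1.map (algebraMap G Tq)) ≃+* B₁ :=
    (Ideal.quotEquivOfEq hσ₁3.symm).trans (RingHom.quotientKerEquivOfSurjective hσ₁2)
  have he₀ : ∀ x, e₀ (Ideal.Quotient.mk _ x) = σ x := fun x => rfl
  have he₁ : ∀ x, e₁ (Ideal.Quotient.mk _ x) = σ₁ x := fun x => rfl
  have hψ : ψ = (e₁.symm : B₁ →+* _).comp (φ.comp (e₀ : _ →+* B₀)) := by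
    refine Ideal.Quotient.ringHom_ext (RingHom.ext fun x => ?_)
    change ψ (Ideal.Quotient.mk _ x) = e₁.symm (φ (e₀ (Ideal.Quotient.mk _ x)))
    rw [RingEquiv.eq_symm_apply, he₀]
    change e₁ (Ideal.Quotient.mk _ (algebraMap T Tq x)) = _
    rw [he₁]
    obtain ⟨a, ha⟩ := exists_sub_mem_map (A := A) (A' := A') I hI x
    have h1 : σ x = ρ a := by
      have : σ (x - algebraMap A' T a) = 0 := by
        rw [← RingHom.mem_ker, hσ3]; exact ha
      rw [map_sub, sub_eq_zero] at this
      rw [this, hσ1]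
    have h2 : σ₁ (algebraMap T Tq x) = ρ₁ (algebraMap A' A1' a) := by
      have : σ₁ (algebraMap T Tq (x - algebraMap A' T a)) = 0 := by
        rw [← RingHom.mem_ker, hσ₁3]
        exact map_map_le (T := T) I I1 hle (Ideal.mem_map_of_mem _ ha)
      rw [map_sub, map_sub, sub_eq_zero] at this
      rw [this, ← IsScalarTower.algebraMap_apply A' T Tq,
        IsScalarTower.algebraMap_apply A' A1' Tq, hσ₁1]
    rw [h1, h2, hcomp]
  have hflat : ψ.Flat := by
    rw [hψ]
    exact (RingHom.Flat.of_bijective e₀.bijective |>.comp hφ).comp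
      (RingHom.Flat.of_bijective e₁.symm.bijective)
  let _ : Algebra (T ⧸ I.map (algebraMap R T)) (Tq ⧸ I1.map (algebraMap G Tq)) := ψ.toAlgebra
  exact ⟨ψ.toAlgebra, IsScalarTower.of_algebraMap_eq fun x => rfl, hflat⟩

end two

section three

/-- `T ⊗_{A'} A'₁ = G ⊗_{A₁} A'₁` for `T = R ⊗_A A'`, `G = R ⊗_A A₁`. -/
theorem isPushout_G (A R A' T A1 G A1' Tq : Type*) [CommRing A] [CommRing R] [CommRing A']
    [CommRing T] [CommRing A1] [CommRing G] [CommRing A1'] [CommRing Tq]
    [Algebra A R] [Algebra A A'] [Algebra A T] [Algebra R T] [Algebra A' T]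
    [IsScalarTower A R T] [IsScalarTower A A' T] [Algebra.IsPushout A R A' T]
    [Algebra A A1] [Algebra A G] [Algebra R G] [Algebra A1 G] [IsScalarTower A R G]
    [IsScalarTower A A1 G] [Algebra.IsPushout A R A1 G]
    [Algebra A' A1'] [Algebra A' Tq] [Algebra T Tq] [Algebra A1' Tq] [IsScalarTower A' T Tq]
    [IsScalarTower A' A1' Tq] [Algebra.IsPushout A' A1' T Tq]
    [Algebra A A1'] [Algebra A1 A1'] [IsScalarTower A A' A1'] [IsScalarTower A A1 A1']
    [Algebra G Tq] [Algebra R Tq] [Algebra A1 Tq] [IsScalarTower R T Tq] [IsScalarTower R G Tq]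
    [IsScalarTower A1 G Tq] [IsScalarTower A1 A1' Tq] : Algebra.IsPushout A1 G A1' Tq := by
  have h1 : Algebra.IsPushout A A' R T := Algebra.IsPushout.symm inferInstance
  have h2 : Algebra.IsPushout A A1 R G := Algebra.IsPushout.symm inferInstance
  let _ : Algebra A Tq := ((algebraMap A' Tq).comp (algebraMap A A')).toAlgebra
  have t1 : IsScalarTower A A' Tq := IsScalarTower.of_algebraMap_eq fun _ => rfl
  have t2 : IsScalarTower A A1' Tq := IsScalarTower.of_algebraMap_eq fun a => by
    rw [IsScalarTower.algebraMap_apply A A' A1', ← IsScalarTower.algebraMap_apply A' A1' Tq]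
    rfl
  have t3 : IsScalarTower A T Tq := IsScalarTower.of_algebraMap_eq fun a => by
    rw [IsScalarTower.algebraMap_apply A A' T, ← IsScalarTower.algebraMap_apply A' T Tq]
    rfl
  have t4 : IsScalarTower A R Tq := IsScalarTower.of_algebraMap_eq fun a => by
    rw [IsScalarTower.algebraMap_apply R T Tq, ← IsScalarTower.algebraMap_apply A R T,
      ← IsScalarTower.algebraMap_apply A T Tq]
  have t5 : IsScalarTower A G Tq := IsScalarTower.of_algebraMap_eq fun a => by
    rw [IsScalarTower.algebraMap_apply A R G, ← IsScalarTower.algebraMap_apply R G Tq,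
      ← IsScalarTower.algebraMap_apply A R Tq]
  have h3 : Algebra.IsPushout A A1' R Tq :=
    (Algebra.IsPushout.comp_iff A A' R (T := A1') (S' := T) (T' := Tq)).2 inferInstance
  have h4 : Algebra.IsPushout A1 A1' G Tq :=
    (Algebra.IsPushout.comp_iff A A1 R (T := A1') (S' := G) (T' := Tq)).1 h3
  exact h4.symm

end three

section four

theorem add_pow_of_natCast_eq_zero {G : Type*} [CommRing G] (p e : ℕ) [Fact p.Prime]
    (hp : (p : G) = 0) (x y : G) : (x + y) ^ p ^ e = x ^ p ^ e + y ^ p ^ e := by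
  rcases subsingleton_or_nontrivial G with h | h
  · exact Subsingleton.elim _ _
  · have : CharP G p := (CharP.charP_iff_prime_eq_zero Fact.out).2 hp
    exact add_pow_char_pow x y p e

theorem exists_pow_eq_of_isPushout (A R A1 G : Type*) [CommRing A] [CommRing R] [CommRing A1]
    [CommRing G] [Algebra A R] [Algebra A A1] [Algebra A G] [Algebra R G] [Algebra A1 G]
    [IsScalarTower A R G] [IsScalarTower A A1 G] [Algebra.IsPushout A R A1 G] (p e : ℕ)
    [Fact p.Prime] (hp : (p : G) = 0) (h : ∀ a : A1, ∃ b : A, a ^ p ^ e = algebraMap A A1 b)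
    (x : G) : ∃ r : R, x ^ p ^ e = algebraMap R G r := by
  refine RD.pushout_induction (A := A) (R := R) (A' := A1)
    (P := fun x => ∃ r : R, x ^ p ^ e = algebraMap R G r) x ?_ ?_ ?_
  · exact ⟨0, by rw [zero_pow (pow_ne_zero _ (Fact.out : p.Prime).ne_zero), map_zero]⟩
  · rintro x y ⟨a, ha⟩ ⟨b, hb⟩
    exact ⟨a + b, by rw [add_pow_of_natCast_eq_zero p e hp, ha, hb, map_add]⟩
  · intro r a
    obtain ⟨b, hb⟩ := h a
    refine ⟨r ^ p ^ e * algebraMap A R b, ?_⟩
    rw [mul_pow, ← map_pow, ← map_pow, hb, map_mul, ← IsScalarTower.algebraMap_apply A A1 G,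
      ← IsScalarTower.algebraMap_apply A R G]

theorem Fr.exists_pow_eq (p e : ℕ) [Fact p.Prime] (A : Type*) [CommRing A] [CharP A p]
    (a : Fr p e A) : ∃ b : A, a ^ p ^ e = algebraMap A (Fr p e A) b :=
  ⟨(Fr.of p e A).symm a, rfl⟩

end four

section five

universe u

variable (p e : ℕ) [Fact p.Prime] (A R : Type u) [CommRing A] [CommRing R] [Algebra A R]
  [CharP A p] [CharP R p] (G : Type u) [CommRing G] [Algebra A G] [Algebra R G]
  [Algebra (Fr p e A) G] [IsScalarTower A R G] [IsScalarTower A (Fr p e A) G]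
  [Algebra.IsPushout A R (Fr p e A) G]

/-- `G → R`, `r ⊗ a ↦ r^q a` -/
noncomputable def piG : G →+* R :=
  ((RR.val p e A R).comp (RR.prod p e A R : R ⊗[A] Fr p e A →+* RR p e A R)).comp
    ((Algebra.IsPushout.equiv A R (Fr p e A) G).symm : G →+* R ⊗[A] Fr p e A)

theorem pow_eq_piG (x : G) : x ^ p ^ e = algebraMap R G (piG p e A R G x) := by
  obtain ⟨z, rfl⟩ := (Algebra.IsPushout.equiv A R (Fr p e A) G).surjective x
  rw [← map_pow, RR.pow_eq, Algebra.IsPushout.equiv_tmul, map_one, mul_one]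
  congr 1
  change _ = RR.val p e A R (RR.prod p e A R ((Algebra.IsPushout.equiv A R (Fr p e A) G).symm
    (Algebra.IsPushout.equiv A R (Fr p e A) G z)))
  rw [AlgEquiv.symm_apply_apply]

theorem piG_R (r : R) : piG p e A R G (algebraMap R G r) = r ^ p ^ e := by
  change RR.val p e A R (RR.prod p e A R ((Algebra.IsPushout.equiv A R (Fr p e A) G).symm
    (algebraMap R G r))) = _
  rw [Algebra.IsPushout.equiv_symm_algebraMap_left, RR.prod_tmul, map_one, mul_one,
    RR.val_algebraMap_R]

theorem piG_A (a : Fr p e A) :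
    piG p e A R G (algebraMap (Fr p e A) G a) = algebraMap A R ((Fr.of p e A).symm a) := by
  change RR.val p e A R (RR.prod p e A R ((Algebra.IsPushout.equiv A R (Fr p e A) G).symm
    (algebraMap (Fr p e A) G a))) = _
  rw [Algebra.IsPushout.equiv_symm_algebraMap_right, RR.prod_tmul, map_one, one_mul]
  rfl

theorem isLocalHom_piG : IsLocalHom (piG p e A R G) := by
  constructor
  intro x hx
  have h : IsUnit (x ^ p ^ e) := by
    rw [pow_eq_piG p e A R G]
    exact hx.map _
  exact (isUnit_pow_iff (pow_ne_zero _ (Fact.out : p.Prime).ne_zero)).1 h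

include p e A in
theorem isLocalRing_G [IsLocalRing R] : IsLocalRing G := by
  have := isLocalHom_piG p e A R G
  exact RingHom.domain_isLocalRing (piG p e A R G)

include p e A in
theorem isLocalHom_algebraMap_G : IsLocalHom (algebraMap R G) := by
  constructor
  intro x hx
  have h : IsUnit (x ^ p ^ e) := by
    rw [← piG_R p e A R G]
    exact hx.map _
  exact (isUnit_pow_iff (pow_ne_zero _ (Fact.out : p.Prime).ne_zero)).1 h

include R in
theorem isLocalHom_algebraMap_FrG [IsLocalHom (algebraMap A R)] :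
    IsLocalHom (algebraMap (Fr p e A) G) := by
  constructor
  intro x hx
  have h := hx.map (piG p e A R G)
  rw [piG_A] at h
  exact isUnit_of_map_unit (algebraMap A R) _ h

theorem isLocalHom_of_finite [IsLocalRing A] [IsLocalRing R] [Module.Finite A R] :
    IsLocalHom (algebraMap A R) := by
  have h : ((maximalIdeal R).comap (algebraMap A R)).IsMaximal :=
    Ideal.isMaximal_comap_of_isIntegral_of_isMaximal (maximalIdeal R)
  exact ((local_hom_TFAE (algebraMap A R)).out 0 4).2 (IsLocalRing.eq_maximalIdeal h)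

end five

section six

universe u

attribute [local instance] Algebra.TensorProduct.rightAlgebra

/-- MAIN THEOREM: `Sq = T_q ⊗_T S` is flat over `G = R ⊗_A A^{1/q}`. -/
theorem flat_tensor (p e : ℕ) [Fact p.Prime] {A R A' T G Tq S B₀ : Type u} [CommRing A]
    [CommRing R] [CommRing A'] [CommRing T] [CommRing G] [CommRing Tq] [CommRing S] [CommRing B₀]
    [CharP A p] [CharP R p] [CharP A' p] [CharP B₀ p]
    [Algebra A R] [Algebra A A'] [Algebra A T] [Algebra R T] [Algebra A' T]
    [IsScalarTower A R T] [IsScalarTower A A' T] [Algebra.IsPushout A R A' T]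
    [Algebra A G] [Algebra R G] [Algebra (Fr p e A) G] [IsScalarTower A R G]
    [IsScalarTower A (Fr p e A) G] [Algebra.IsPushout A R (Fr p e A) G]
    [Algebra A' Tq] [Algebra T Tq] [Algebra (Fr p e A') Tq] [IsScalarTower A' T Tq]
    [IsScalarTower A' (Fr p e A') Tq] [Algebra.IsPushout A' (Fr p e A') T Tq]
    [Algebra G Tq] [Algebra R Tq] [Algebra (Fr p e A) Tq] [IsScalarTower R T Tq]
    [IsScalarTower R G Tq] [IsScalarTower (Fr p e A) G Tq]
    [IsScalarTower (Fr p e A) (Fr p e A') Tq]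
    [Algebra T S] [Algebra R S] [IsScalarTower R T S]
    [IsLocalRing A] [IsLocalRing R] [IsLocalRing S]
    [IsNoetherianRing A] [IsNoetherianRing S] [Module.Finite A R] [Module.Finite A' (Fr p e A')]
    [Module.Flat A A'] [Module.Flat R S] [IsLocalHom (algebraMap R S)]
    (hres : ∀ r : R, ∃ a : A, r - algebraMap A R a ∈ maximalIdeal R)
    (ρ : A' →+* B₀) (hρ : Function.Surjective ρ)
    (hker : RingHom.ker ρ = (maximalIdeal A).map (algebraMap A A'))
    [Module.Flat B₀ (Fr p e B₀)] : Module.Flat G (Tq ⊗[T] S) := by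
  -- local rings
  have hAR : IsLocalHom (algebraMap A R) := isLocalHom_of_finite A R
  have hG : IsLocalRing G := isLocalRing_G p e A R G
  have hRG : IsLocalHom (algebraMap R G) := isLocalHom_algebraMap_G p e A R G
  have hA1G : IsLocalHom (algebraMap (Fr p e A) G) := isLocalHom_algebraMap_FrG p e A R G
  -- Noetherian
  have hGfin : Module.Finite (Fr p e A) G := RD.pushout_finite A R (Fr p e A) G
  have hGN : IsNoetherianRing G := IsNoetherianRing.of_finite (Fr p e A) G
  have hTqfin : Module.Finite T Tq := RD.pushout_finite A' (Fr p e A') T Tq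
  have hSqfin : Module.Finite S (Tq ⊗[T] S) := RD.pushout_finite T Tq S (Tq ⊗[T] S)
  have hSqN : IsNoetherianRing (Tq ⊗[T] S) := IsNoetherianRing.of_finite S (Tq ⊗[T] S)
  -- pushout
  have hpo : Algebra.IsPushout (Fr p e A) G (Fr p e A') Tq :=
    isPushout_G A R A' T (Fr p e A) G (Fr p e A') Tq
  have hA1flat : Module.Flat (Fr p e A) (Fr p e A') := ‹Module.Flat A A'›
  have hGTq : Module.Flat G Tq := RD.pushout_flat (Fr p e A) G (Fr p e A') Tq
  -- characteristics
  have hpG : (p : G) = 0 := by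
    have : (p : G) = algebraMap R G (p : R) := by rw [map_natCast]
    rw [this, CharP.cast_eq_zero, map_zero]
  have hpTq : (p : Tq) = 0 := by
    have : (p : Tq) = algebraMap R Tq (p : R) := by rw [map_natCast]
    rw [this, CharP.cast_eq_zero, map_zero]
  have hpSq : (p : (Tq ⊗[T] S)) = 0 := by
    have : (p : (Tq ⊗[T] S)) = algebraMap Tq (Tq ⊗[T] S) (p : Tq) := by rw [map_natCast]
    rw [this, hpTq, map_zero]
  -- q-th powers
  have hpoTq : Algebra.IsPushout A' T (Fr p e A') Tq := Algebra.IsPushout.symm inferInstance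
  have hpoSq : Algebra.IsPushout T S Tq (Tq ⊗[T] S) := Algebra.IsPushout.symm inferInstance
  have powTq : ∀ y : Tq, ∃ s : T, y ^ p ^ e = algebraMap T Tq s :=
    exists_pow_eq_of_isPushout A' T (Fr p e A') Tq p e hpTq (Fr.exists_pow_eq p e A')
  have powSq : ∀ y : (Tq ⊗[T] S), ∃ s : S, y ^ p ^ e = algebraMap S (Tq ⊗[T] S) s :=
    exists_pow_eq_of_isPushout T S Tq (Tq ⊗[T] S) p e hpSq powTq
  have hq0 : p ^ e ≠ 0 := pow_ne_zero _ (Fact.out : p.Prime).ne_zero
  -- Jacobson radical
  have hjac : (maximalIdeal G).map (algebraMap G (Tq ⊗[T] S)) ≤ Ideal.jacobson ⊥ := by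
    rw [Ideal.map_le_iff_le_comap]
    intro x hx
    rw [Ideal.mem_comap, Ideal.mem_jacobson_bot]
    intro y
    obtain ⟨s, hs⟩ := powSq y
    have hxr := pow_eq_piG p e A R G x
    set r := piG p e A R G x with hr
    have hrm : r ∈ maximalIdeal R := by
      rw [mem_maximalIdeal, mem_nonunits_iff]
      intro h
      have : IsUnit (x ^ p ^ e) := by rw [hxr]; exact h.map _
      exact (mem_maximalIdeal x).1 hx ((isUnit_pow_iff hq0).1 this)
    have hrS : algebraMap R S r ∈ maximalIdeal S := by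
      rw [mem_maximalIdeal, mem_nonunits_iff]
      intro h
      exact (mem_maximalIdeal r).1 hrm (isUnit_of_map_unit (algebraMap R S) _ h)
    have hun : IsUnit (algebraMap R S r * s + 1) := by
      by_contra h
      have h1 : algebraMap R S r * s + 1 ∈ maximalIdeal S := (mem_maximalIdeal _).2 h
      have h2 : (1 : S) ∈ maximalIdeal S := by
        have : (1 : S) = (algebraMap R S r * s + 1) - algebraMap R S r * s := by ring
        rw [this]
        exact sub_mem h1 (Ideal.mul_mem_right _ _ hrS)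
      exact (maximalIdeal.isMaximal S).ne_top ((Ideal.eq_top_iff_one _).2 h2)
    have hpow : (algebraMap G (Tq ⊗[T] S) x * y + 1) ^ p ^ e =
        algebraMap S (Tq ⊗[T] S) (algebraMap R S r * s + 1) := by
      rw [add_pow_of_natCast_eq_zero p e hpSq, mul_pow, one_pow, hs, ← map_pow, hxr, map_add,
        map_one, map_mul]
      congr 2
      change (algebraMap G Tq (algebraMap R G r)) ⊗ₜ[T] (1 : S) = (1 : Tq) ⊗ₜ[T] algebraMap R S r
      rw [← IsScalarTower.algebraMap_apply R G Tq, IsScalarTower.algebraMap_apply R T Tq,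
        IsScalarTower.algebraMap_apply R T S]
      rw [Algebra.algebraMap_eq_smul_one (R := T) (A := Tq), TensorProduct.smul_tmul,
        Algebra.algebraMap_eq_smul_one (R := T) (A := S)]
    refine (isUnit_pow_iff hq0).1 ?_
    rw [hpow]
    exact hun.map _
  -- residue conditions
  have hle : (maximalIdeal R).map (algebraMap R G) ≤ maximalIdeal G := by
    rw [Ideal.map_le_iff_le_comap]
    intro r hr
    rw [Ideal.mem_comap, mem_maximalIdeal, mem_nonunits_iff]
    intro h
    exact (mem_maximalIdeal r).1 hr (isUnit_of_map_unit (algebraMap R G) _ h)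
  have hres1 : ∀ r : G, ∃ a : Fr p e A, r - algebraMap (Fr p e A) G a ∈ maximalIdeal G := by
    intro r
    obtain ⟨a, ha⟩ := exists_sub_mem_map (A := A) (A' := Fr p e A) (maximalIdeal R) hres r
    exact ⟨a, hle ha⟩
  -- the fibres
  have hcA : (maximalIdeal R).comap (algebraMap A R) = maximalIdeal A :=
    ((local_hom_TFAE (algebraMap A R)).out 0 4).1 hAR
  have hcA1 : (maximalIdeal G).comap (algebraMap (Fr p e A) G) = maximalIdeal (Fr p e A) :=
    ((local_hom_TFAE (algebraMap (Fr p e A) G)).out 0 4).1 hA1G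
  let ρ₁ : Fr p e A' →+* Fr p e B₀ :=
    ((Fr.of p e B₀ : B₀ →+* Fr p e B₀).comp ρ).comp
      ((Fr.of p e A').symm : Fr p e A' →+* A')
  have hρ₁ : Function.Surjective ρ₁ := hρ
  have hker₁ : RingHom.ker ρ₁ =
      (maximalIdeal (Fr p e A)).map (algebraMap (Fr p e A) (Fr p e A')) := hker
  have hcomp : ∀ a, algebraMap B₀ (Fr p e B₀) (ρ a) = ρ₁ (algebraMap A' (Fr p e A') a) := by
    intro a
    rw [Fr.algebraMap_self, Fr.algebraMap_self, map_pow]
    rfl
  obtain ⟨_, htow, hfl⟩ := quot_flat (T := T) (Tq := Tq) (maximalIdeal R) (maximalIdeal G) hres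
    hres1 hle ρ hρ (by rw [hcA]; exact hker) ρ₁ hρ₁ (by rw [hcA1]; exact hker₁)
    (algebraMap B₀ (Fr p e B₀)) hcomp ((RingHom.flat_algebraMap_iff).2 inferInstance)
  have hinj := rTensor_tensor_injective (T := T) (T' := Tq) (maximalIdeal R) (maximalIdeal G) S
  exact flat_of_maximal_rTensor_injective (maximalIdeal G) hjac hinj

/-- MAIN THEOREM, any model `Sq` of `T_q ⊗_T S`. -/
theorem flat_Sq (p e : ℕ) [Fact p.Prime] {A R A' T G Tq S Sq B₀ : Type u} [CommRing A]
    [CommRing R] [CommRing A'] [CommRing T] [CommRing G] [CommRing Tq] [CommRing S] [CommRing B₀]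
    [CommRing Sq] [CharP A p] [CharP R p] [CharP A' p] [CharP B₀ p]
    [Algebra A R] [Algebra A A'] [Algebra A T] [Algebra R T] [Algebra A' T]
    [IsScalarTower A R T] [IsScalarTower A A' T] [Algebra.IsPushout A R A' T]
    [Algebra A G] [Algebra R G] [Algebra (Fr p e A) G] [IsScalarTower A R G]
    [IsScalarTower A (Fr p e A) G] [Algebra.IsPushout A R (Fr p e A) G]
    [Algebra A' Tq] [Algebra T Tq] [Algebra (Fr p e A') Tq] [IsScalarTower A' T Tq]
    [IsScalarTower A' (Fr p e A') Tq] [Algebra.IsPushout A' (Fr p e A') T Tq]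
    [Algebra G Tq] [Algebra R Tq] [Algebra (Fr p e A) Tq] [IsScalarTower R T Tq]
    [IsScalarTower R G Tq] [IsScalarTower (Fr p e A) G Tq]
    [IsScalarTower (Fr p e A) (Fr p e A') Tq]
    [Algebra T S] [Algebra R S] [IsScalarTower R T S]
    [Algebra T Sq] [Algebra Tq Sq] [Algebra S Sq] [IsScalarTower T Tq Sq] [IsScalarTower T S Sq]
    [Algebra.IsPushout T Tq S Sq] [Algebra G Sq] [IsScalarTower G Tq Sq]
    [IsLocalRing A] [IsLocalRing R] [IsLocalRing S]
    [IsNoetherianRing A] [IsNoetherianRing S] [Module.Finite A R] [Module.Finite A' (Fr p e A')]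
    [Module.Flat A A'] [Module.Flat R S] [IsLocalHom (algebraMap R S)]
    (hres : ∀ r : R, ∃ a : A, r - algebraMap A R a ∈ maximalIdeal R)
    (ρ : A' →+* B₀) (hρ : Function.Surjective ρ)
    (hker : RingHom.ker ρ = (maximalIdeal A).map (algebraMap A A'))
    [Module.Flat B₀ (Fr p e B₀)] : Module.Flat G Sq := by
  have := flat_tensor p e (T := T) (Tq := Tq) (G := G) (S := S) hres ρ hρ hker
  exact Module.Flat.of_linearEquiv
    ((Algebra.IsPushout.equiv T Tq S Sq).toLinearEquiv.symm.restrictScalars G)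

end six

end Crest.Agent.R183.Ins
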