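import Mathlib

/-!
# R183, block RD (helper680), part 5: `MvPowerSeries (σ ⊕ τ) R ≃ MvPowerSeries σ (MvPowerSeries τ R)`
and the ideals `(X_0, …, X_{i-1})` of a power series ring over a domain.
-/

set_option autoImplicit false

namespace Crest.Agent.R183.RD

open MvPowerSeries

universe u v w

section SumEquiv

variable (σ τ R : Type*) [CommRing R]

/-- auxiliary -/
noncomputable def sumFun (p : MvPowerSeries (σ ⊕ τ) R) : MvPowerSeries σ (MvPowerSeries τ R) :=
  fun x => (show MvPowerSeries τ R from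
    fun y => coeff (Finsupp.sumFinsuppAddEquivProdFinsupp.symm (x, y)) p)

/-- auxiliary -/
noncomputable def sumInv (q : MvPowerSeries σ (MvPowerSeries τ R)) : MvPowerSeries (σ ⊕ τ) R :=
  fun z => coeff (Finsupp.sumFinsuppAddEquivProdFinsupp z).2
    (coeff (Finsupp.sumFinsuppAddEquivProdFinsupp z).1 q)

theorem coeff_coeff_sumFun (p : MvPowerSeries (σ ⊕ τ) R) (x : σ →₀ ℕ) (y : τ →₀ ℕ) :
    coeff y (coeff x (sumFun σ τ R p)) =
      coeff (Finsupp.sumFinsuppAddEquivProdFinsupp.symm (x, y)) p := rfl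

theorem coeff_sumInv (q : MvPowerSeries σ (MvPowerSeries τ R)) (z : σ ⊕ τ →₀ ℕ) :
    coeff z (sumInv σ τ R q) = coeff (Finsupp.sumFinsuppAddEquivProdFinsupp z).2
    (coeff (Finsupp.sumFinsuppAddEquivProdFinsupp z).1 q) := rfl

theorem sumFun_mul (p q : MvPowerSeries (σ ⊕ τ) R) :
    sumFun σ τ R (p * q) = sumFun σ τ R p * sumFun σ τ R q := by
  classical
  ext x y
  rw [coeff_coeff_sumFun, coeff_mul, coeff_mul, map_sum]
  simp only [coeff_mul, coeff_coeff_sumFun]
  rw [Finset.sum_sigma']
  refine Finset.sum_nbij'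
    (fun a => ⟨((Finsupp.sumFinsuppAddEquivProdFinsupp a.1).1,
        (Finsupp.sumFinsuppAddEquivProdFinsupp a.2).1),
      ((Finsupp.sumFinsuppAddEquivProdFinsupp a.1).2,
        (Finsupp.sumFinsuppAddEquivProdFinsupp a.2).2)⟩)
    (fun b => (Finsupp.sumFinsuppAddEquivProdFinsupp.symm (b.1.1, b.2.1),
      Finsupp.sumFinsuppAddEquivProdFinsupp.symm (b.1.2, b.2.2))) ?_ ?_ ?_ ?_ ?_
  · rintro ⟨a, b⟩ h
    rw [Finset.HasAntidiagonal.mem_antidiagonal] at h
    have h' : Finsupp.sumFinsuppAddEquivProdFinsupp a + Finsupp.sumFinsuppAddEquivProdFinsupp b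
        = (x, y) := by
      rw [← map_add, h, AddEquiv.apply_symm_apply]
    simp only [Finset.mem_sigma, Finset.HasAntidiagonal.mem_antidiagonal]
    exact ⟨congrArg Prod.fst h', congrArg Prod.snd h'⟩
  · rintro ⟨⟨a, b⟩, ⟨c, d⟩⟩ h
    simp only [Finset.mem_sigma, Finset.HasAntidiagonal.mem_antidiagonal] at h ⊢
    rw [← map_add, Prod.mk_add_mk, h.1, h.2]
  · rintro ⟨a, b⟩ _
    simp
  · rintro ⟨⟨a, b⟩, ⟨c, d⟩⟩ _
    simp
  · rintro ⟨a, b⟩ _
    simp only [Prod.mk.eta, AddEquiv.symm_apply_apply]

/-- power series in two sets of variables -/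
noncomputable def sumEquiv : MvPowerSeries (σ ⊕ τ) R ≃+* MvPowerSeries σ (MvPowerSeries τ R) where
  toFun := sumFun σ τ R
  invFun := sumInv σ τ R
  left_inv p := by
    ext z
    rw [coeff_sumInv, coeff_coeff_sumFun, Prod.mk.eta, AddEquiv.symm_apply_apply]
  right_inv q := by
    ext x y
    rw [coeff_coeff_sumFun, coeff_sumInv, AddEquiv.apply_symm_apply]
  map_add' p q := by
    ext x y
    rw [coeff_coeff_sumFun, map_add, map_add, map_add, coeff_coeff_sumFun, coeff_coeff_sumFun]
  map_mul' := sumFun_mul σ τ R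

variable {σ τ R}

theorem coeff_coeff_sumEquiv (p : MvPowerSeries (σ ⊕ τ) R) (x : σ →₀ ℕ) (y : τ →₀ ℕ) :
    coeff y (coeff x (sumEquiv σ τ R p)) =
      coeff (Finsupp.sumFinsuppAddEquivProdFinsupp.symm (x, y)) p := rfl

theorem sumEquiv_C (r : R) : sumEquiv σ τ R (C r) = C (C r) := by
  classical
  ext x y
  rw [coeff_coeff_sumEquiv, coeff_C, coeff_C]
  by_cases hx : x = 0
  · subst hx
    rw [if_pos rfl, coeff_C]
    by_cases hy : y = 0
    · subst hy
      rw [if_pos rfl, if_pos]
      exact map_zero _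
    · rw [if_neg hy, if_neg]
      intro h
      apply hy
      have := congrArg Finsupp.sumFinsuppAddEquivProdFinsupp h
      rw [AddEquiv.apply_symm_apply, map_zero] at this
      exact congrArg Prod.snd this
  · rw [if_neg hx, if_neg, map_zero]
    intro h
    apply hx
    have := congrArg Finsupp.sumFinsuppAddEquivProdFinsupp h
    rw [AddEquiv.apply_symm_apply, map_zero] at this
    exact congrArg Prod.fst this

theorem sumEquiv_X_inl (s : σ) : sumEquiv σ τ R (X (Sum.inl s)) = X s := by
  classical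
  have key : ∀ (x : σ →₀ ℕ) (y : τ →₀ ℕ),
      Finsupp.sumFinsuppAddEquivProdFinsupp.symm (x, y) = Finsupp.single (Sum.inl s) 1 ↔
        x = Finsupp.single s 1 ∧ y = 0 := by
    intro x y
    rw [AddEquiv.symm_apply_eq]
    have : Finsupp.sumFinsuppAddEquivProdFinsupp (M := ℕ) (Finsupp.single (Sum.inl s : σ ⊕ τ) 1) =
        (Finsupp.single s 1, 0) := by
      ext t
      · simp [Finsupp.single_apply]
      · simp
    rw [this, Prod.mk.injEq]
  ext x y
  rw [coeff_coeff_sumEquiv, coeff_X, coeff_X]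
  by_cases hx : x = Finsupp.single s 1
  · rw [if_pos hx]
    by_cases hy : y = 0
    · rw [if_pos ((key x y).2 ⟨hx, hy⟩), hy]
      simp
    · rw [if_neg (fun h => hy ((key x y).1 h).2), ← map_one C, coeff_C, if_neg hy]
  · rw [if_neg hx, if_neg (fun h => hx ((key x y).1 h).1), map_zero]

theorem sumEquiv_X_inr (t : τ) : sumEquiv σ τ R (X (Sum.inr t)) = C (X t) := by
  classical
  have key : ∀ (x : σ →₀ ℕ) (y : τ →₀ ℕ),
      Finsupp.sumFinsuppAddEquivProdFinsupp.symm (x, y) = Finsupp.single (Sum.inr t) 1 ↔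
        x = 0 ∧ y = Finsupp.single t 1 := by
    intro x y
    rw [AddEquiv.symm_apply_eq]
    have : Finsupp.sumFinsuppAddEquivProdFinsupp (M := ℕ) (Finsupp.single (Sum.inr t : σ ⊕ τ) 1) =
        (0, Finsupp.single t 1) := by
      ext t
      · simp
      · simp [Finsupp.single_apply]
    rw [this, Prod.mk.injEq]
  ext x y
  rw [coeff_coeff_sumEquiv, coeff_X, coeff_C]
  by_cases hx : x = 0
  · rw [if_pos hx, coeff_X]
    by_cases hy : y = Finsupp.single t 1
    · rw [if_pos ((key x y).2 ⟨hx, hy⟩), if_pos hy]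
    · rw [if_neg (fun h => hy ((key x y).1 h).2), if_neg hy]
  · rw [if_neg hx, if_neg (fun h => hx ((key x y).1 h).1), map_zero]

end SumEquiv

section VarIdeals

variable {σ K : Type*} [CommRing K]

theorem coeff_eq_zero_of_mem_span_X {s : Set σ} {f : MvPowerSeries σ K}
    (hf : f ∈ Ideal.span (X '' s : Set (MvPowerSeries σ K))) {m : σ →₀ ℕ}
    (hm : ∀ j ∈ s, m j = 0) : coeff m f = 0 := by
  classical
  refine Submodule.span_induction (p := fun f _ => ∀ m : σ →₀ ℕ, (∀ j ∈ s, m j = 0) →
    coeff m f = 0) ?_ ?_ ?_ ?_ hf m hm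
  · rintro _ ⟨j, hj, rfl⟩ m hm
    rw [coeff_X, if_neg]
    rintro rfl
    have := hm j hj
    simp at this
  · intro m _; rw [map_zero]
  · intro f g _ _ hf hg m hm
    rw [map_add, hf m hm, hg m hm, add_zero]
  · intro a f _ hf m hm
    rw [smul_eq_mul, coeff_mul]
    refine Finset.sum_eq_zero ?_
    rintro ⟨u, v⟩ huv
    rw [Finset.HasAntidiagonal.mem_antidiagonal] at huv
    have : coeff v f = 0 := hf v fun j hj => by
      have h1 := hm j hj
      rw [← huv, Finsupp.add_apply] at h1
      exact (Nat.add_eq_zero_iff.1 h1).2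
    rw [this, mul_zero]

theorem mem_span_X_of_coeff (s : Finset σ) : ∀ (f : MvPowerSeries σ K)
    (_ : ∀ m : σ →₀ ℕ, (∀ j ∈ s, m j = 0) → coeff m f = 0),
    f ∈ Ideal.span (X '' (s : Set σ) : Set (MvPowerSeries σ K)) := by
  classical
  induction s using Finset.induction_on with
  | empty =>
    intro f hf
    have : f = 0 := by
      ext m
      rw [hf m (by simp), map_zero]
    rw [this]; exact zero_mem _
  | insert a s ha ih =>
    intro f hf
    let fa : MvPowerSeries σ K := fun m => if m a = 0 then 0 else coeff m f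
    have hfa : ∀ m, coeff m fa = if m a = 0 then 0 else coeff m f := fun m => rfl
    have h1 : X a ∣ fa := by
      rw [X_dvd_iff]
      intro m hm
      rw [hfa, if_pos hm]
    have h2 : f - fa ∈ Ideal.span (X '' (s : Set σ) : Set (MvPowerSeries σ K)) := by
      apply ih
      intro m hm
      rw [map_sub, hfa]
      by_cases h : m a = 0
      · rw [if_pos h, sub_zero]
        apply hf
        intro j hj
        rw [Finset.mem_insert] at hj
        rcases hj with rfl | hj
        · exact h
        · exact hm j hj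
      · rw [if_neg h, sub_self]
    have h3 : f = (f - fa) + fa := by ring
    rw [h3]
    refine add_mem (Ideal.span_mono (Set.image_mono (by simp)) h2) ?_
    obtain ⟨c, hc⟩ := h1
    rw [hc]
    exact Ideal.mul_mem_right _ _ (Ideal.subset_span ⟨a, by simp, rfl⟩)

theorem mem_span_X_iff [Finite σ] (s : Set σ) (f : MvPowerSeries σ K) :
    f ∈ Ideal.span (X '' s : Set (MvPowerSeries σ K)) ↔
      ∀ m : σ →₀ ℕ, (∀ j ∈ s, m j = 0) → coeff m f = 0 := by
  constructor
  · intro hf m hm
    exact coeff_eq_zero_of_mem_span_X hf hm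
  · intro hf
    have := mem_span_X_of_coeff s.toFinite.toFinset f (fun m hm => hf m (fun j hj => hm j (by simpa)))
    simpa using this

theorem isPrime_span_X [Finite σ] [IsDomain K] (s : Set σ) :
    (Ideal.span (X '' s : Set (MvPowerSeries σ K))).IsPrime := by
  classical
  constructor
  · intro h
    have h1 : (1 : MvPowerSeries σ K) ∈ Ideal.span (X '' s : Set (MvPowerSeries σ K)) := by
      rw [h]; trivial
    have := (mem_span_X_iff s 1).1 h1 0 (by simp)
    simp at this
  · intro f g hfg
    by_contra hcon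
    push Not at hcon
    obtain ⟨hf, hg⟩ := hcon
    let r : MvPowerSeries σ K → MvPowerSeries σ K :=
      fun f => fun m => if ∀ j ∈ s, m j = 0 then coeff m f else 0
    have hr : ∀ f m, coeff m (r f) = if ∀ j ∈ s, m j = 0 then coeff m f else 0 := fun f m => rfl
    have hsub : ∀ f, f - r f ∈ Ideal.span (X '' s : Set (MvPowerSeries σ K)) := by
      intro f
      rw [mem_span_X_iff]
      intro m hm
      rw [map_sub, hr, if_pos hm, sub_self]
    have hne : ∀ f, f ∉ Ideal.span (X '' s : Set (MvPowerSeries σ K)) → r f ≠ 0 := by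
      intro f hf h0
      apply hf
      have := hsub f
      rwa [h0, sub_zero] at this
    have hmul : r f * r g = 0 := by
      have h1 : r f * r g ∈ Ideal.span (X '' s : Set (MvPowerSeries σ K)) := by
        have h2 : r f * r g = f * g - (f - r f) * g - r f * (g - r g) := by ring
        rw [h2]
        exact sub_mem (sub_mem hfg (Ideal.mul_mem_right _ _ (hsub f)))
          (Ideal.mul_mem_left _ _ (hsub g))
      ext m
      rw [map_zero]
      by_cases hm : ∀ j ∈ s, m j = 0
      · exact (mem_span_X_iff s _).1 h1 m hm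
      · push Not at hm
        obtain ⟨j, hj, hmj⟩ := hm
        rw [coeff_mul]
        refine Finset.sum_eq_zero ?_
        rintro ⟨u, v⟩ huv
        rw [Finset.HasAntidiagonal.mem_antidiagonal] at huv
        by_cases hu : u j = 0
        · have hv : v j ≠ 0 := by
            intro hv
            apply hmj
            rw [← huv, Finsupp.add_apply, hu, hv]
          rw [hr g v, if_neg (fun h => hv (h j hj)), mul_zero]
        · rw [hr f u, if_neg (fun h => hu (h j hj)), zero_mul]
    rcases mul_eq_zero.1 hmul with h | h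
    · exact hne f hf h
    · exact hne g hg h

theorem X_notMem_span_X [Finite σ] [Nontrivial K] {s : Set σ} {j : σ} (hj : j ∉ s) :
    (X j : MvPowerSeries σ K) ∉ Ideal.span (X '' s : Set (MvPowerSeries σ K)) := by
  classical
  intro h
  have := (mem_span_X_iff s _).1 h (Finsupp.single j 1) (fun i hi => by
    rw [Finsupp.single_apply, if_neg]
    rintro rfl
    exact hj hi)
  rw [coeff_X, if_pos rfl] at this
  exact one_ne_zero this

/-- the sequence of variables, extended by `0` -/
noncomputable def varSeq (K : Type*) [CommRing K] (g : ℕ) (j : ℕ) : MvPowerSeries (Fin g) K :=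
  if h : j < g then X ⟨j, h⟩ else 0

theorem varSeq_image (K : Type*) [CommRing K] (g i : ℕ) (hi : i ≤ g) :
    varSeq K g '' Set.Iio i = X '' {j : Fin g | j.val < i} := by
  ext f
  simp only [Set.mem_image, Set.mem_Iio, Set.mem_ofPred_eq]
  constructor
  · rintro ⟨j, hj, rfl⟩
    exact ⟨⟨j, by omega⟩, hj, by rw [varSeq, dif_pos]⟩
  · rintro ⟨j, hj, rfl⟩
    exact ⟨j.val, hj, by rw [varSeq, dif_pos j.2]⟩

theorem isPrime_varSeq (K : Type*) [CommRing K] [IsDomain K] (g i : ℕ) (hi : i ≤ g) :
    (Ideal.span (varSeq K g '' Set.Iio i)).IsPrime := by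
  rw [varSeq_image K g i hi]
  exact isPrime_span_X _

theorem varSeq_notMem (K : Type*) [CommRing K] [Nontrivial K] (g i : ℕ) (hi : i < g) :
    varSeq K g i ∉ Ideal.span (varSeq K g '' Set.Iio i) := by
  rw [varSeq_image K g i hi.le, varSeq, dif_pos hi]
  exact X_notMem_span_X (by simp)

theorem mem_span_varSeq_iff (K : Type*) [CommRing K] (g : ℕ) (f : MvPowerSeries (Fin g) K) :
    f ∈ Ideal.span (varSeq K g '' Set.Iio g) ↔ constantCoeff f = 0 := by
  rw [varSeq_image K g g le_rfl, mem_span_X_iff]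
  constructor
  · intro h
    rw [← coeff_zero_eq_constantCoeff_apply]
    exact h 0 (by simp)
  · intro h m hm
    have : m = 0 := by
      ext j
      exact hm j j.2
    rw [this, coeff_zero_eq_constantCoeff_apply, h]

end VarIdeals

end Crest.Agent.R183.RD
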