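import Crest.Agent.R183.Res6

/-!
# R183 (Lech), block [4] (R1): the length of the minimal resolution when the closed fibre is regular
-/

set_option autoImplicit false

namespace Crest.Agent.R183.Res

open IsLocalRing TensorProduct

universe u v w

theorem sat_triv {A : Type u} [CommRing A] {M : Type v} [AddCommGroup M] [Module A M]
    (B : Submodule A M) : (NullF.triv A).sat B = B := by
  refine le_antisymm ?_ ((NullF.triv A).le_sat B)
  intro m hm
  have h1 : col B m = ⊤ := hm
  have h2 : (1 : A) ∈ col B m := by rw [h1]; trivial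
  rw [mem_col, one_smul] at h2
  exact h2

section Flat

variable {R T : Type u} [CommRing R] [CommRing T] [Algebra R T]

theorem mem_smul_of_rTensor_zero (J : Ideal T) (N : Type u) [AddCommGroup N] [Module R N]
    (w : T ⊗[R] N) (hw : LinearMap.rTensor N (Ideal.Quotient.mkₐ R J).toLinearMap w = 0) :
    w ∈ (J • ⊤ : Submodule T (T ⊗[R] N)) := by
  have hex : Function.Exact (J.restrictScalars R).subtype (Ideal.Quotient.mkₐ R J).toLinearMap := by
    intro x
    constructor
    · intro hx
      have : x ∈ J := Ideal.Quotient.eq_zero_iff_mem.mp hx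
      exact ⟨⟨x, this⟩, rfl⟩
    · rintro ⟨y, rfl⟩
      exact Ideal.Quotient.eq_zero_iff_mem.mpr y.2
  have hs : Function.Surjective (Ideal.Quotient.mkₐ R J).toLinearMap := Ideal.Quotient.mk_surjective
  obtain ⟨z, rfl⟩ := (rTensor_exact N hex hs w).mp hw
  induction z using TensorProduct.induction_on with
  | zero => rw [map_zero]; exact Submodule.zero_mem _
  | tmul j n =>
    rw [LinearMap.rTensor_tmul]
    have : ((J.restrictScalars R).subtype j : T) ⊗ₜ[R] n = (j : T) • ((1 : T) ⊗ₜ[R] n) := by
      rw [TensorProduct.smul_tmul', smul_eq_mul, mul_one]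
      rfl
    rw [this]
    exact Submodule.smul_mem_smul j.2 trivial
  | add x y hx hy =>
    rw [map_add]
    refine Submodule.add_mem _ (hx ?_) (hy ?_)
    · exact (rTensor_exact N hex hs _).mpr ⟨x, rfl⟩
    · exact (rTensor_exact N hex hs _).mpr ⟨y, rfl⟩

theorem rTensor_zero_of_mem_smul (J : Ideal T) (N : Type u) [AddCommGroup N] [Module R N]
    (w : T ⊗[R] N) (hw : w ∈ (J • ⊤ : Submodule T (T ⊗[R] N))) :
    LinearMap.rTensor N (Ideal.Quotient.mkₐ R J).toLinearMap w = 0 := by
  refine Submodule.smul_induction_on hw ?_ ?_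
  · intro j hj z _
    induction z using TensorProduct.induction_on with
    | zero => rw [smul_zero, map_zero]
    | tmul t n =>
      rw [TensorProduct.smul_tmul', LinearMap.rTensor_tmul]
      have : (Ideal.Quotient.mkₐ R J).toLinearMap (j • t) = 0 := by
        apply Ideal.Quotient.eq_zero_iff_mem.mpr
        exact J.mul_mem_right _ hj
      rw [this, TensorProduct.zero_tmul]
    | add x y hx hy => rw [smul_add, map_add, hx trivial, hy trivial, add_zero]
  · intro x y hx hy
    rw [map_add, hx, hy, add_zero]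

/-- Flatness of `T/J`: `f : N' → N` injective, then `J (T ⊗ N) ∩ (T ⊗ N') = J (T ⊗ N')`. -/
theorem mem_smul_of_flat (J : Ideal T) [Module.Flat R (T ⧸ J)] {N' N : Type u} [AddCommGroup N']
    [Module R N'] [AddCommGroup N] [Module R N] (f : N' →ₗ[R] N) (hf : Function.Injective f)
    (w : T ⊗[R] N') (hw : LinearMap.baseChange T f w ∈ (J • ⊤ : Submodule T (T ⊗[R] N))) :
    w ∈ (J • ⊤ : Submodule T (T ⊗[R] N')) := by
  apply mem_smul_of_rTensor_zero
  have h1 := rTensor_zero_of_mem_smul J N _ hw
  have h2 : LinearMap.rTensor N (Ideal.Quotient.mkₐ R J).toLinearMap (LinearMap.baseChange T f w) =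
      LinearMap.lTensor (T ⧸ J) f
        (LinearMap.rTensor N' (Ideal.Quotient.mkₐ R J).toLinearMap w) := by
    rw [LinearMap.baseChange_eq_ltensor, ← LinearMap.comp_apply, ← LinearMap.comp_apply,
      LinearMap.rTensor_comp_lTensor, LinearMap.lTensor_comp_rTensor]
  rw [h2] at h1
  have hinj := Module.Flat.lTensor_preserves_injective_linearMap (M := T ⧸ J) f hf
  exact hinj (by rw [h1, map_zero])

variable (C : MCx T)

theorem null_self (hC : C.Exact) (i : ℕ) : C.NullM (NullF.triv T) T (i + 1) := by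
  intro v hv
  rw [sat_triv]
  obtain ⟨w, hw⟩ := hC i v hv
  exact ⟨w, hw⟩

variable [IsNoetherianRing R] [Module.Flat R T]

/-- The resolution of an `R`-flat `T/J` stays exact after tensoring with any f.g. `R`-module. -/
theorem null_tensor {J : Ideal T} [Module.Flat R (T ⧸ J)] (hC : C.Exact) (u : Unique (C.ι 0))
    (hu : ∀ v : C.ι 0 → T, (∃ w, act T (C.d 0) w = v) ↔ v u.default ∈ J) :
    ∀ (i : ℕ) (N : Type u) [AddCommGroup N] [Module R N] [Module.Finite R N],
      C.NullM (NullF.triv T) (T ⊗[R] N) (i + 1) := by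
  intro i
  induction i with
  | zero =>
    intro N _ _ _
    obtain ⟨n, f, hf⟩ := Module.Finite.exists_fin' R N
    have hinj : Function.Injective (LinearMap.baseChange T (LinearMap.ker f).subtype) := by
      rw [LinearMap.baseChange_eq_ltensor]
      exact Module.Flat.lTensor_preserves_injective_linearMap _ (Submodule.injective_subtype _)
    have hsurj : Function.Surjective (LinearMap.baseChange T f) := by
      rw [LinearMap.baseChange_eq_ltensor]
      exact LinearMap.lTensor_surjective T hf
    have hex : Function.Exact (LinearMap.baseChange T (LinearMap.ker f).subtype)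
        (LinearMap.baseChange T f) := by
      rw [LinearMap.baseChange_eq_ltensor, LinearMap.baseChange_eq_ltensor]
      exact lTensor_exact T (LinearMap.exact_subtype_ker_map f) hf
    refine MCx.null_of_quot' (NullF.triv T) C hinj hsurj hex 0 ?_ ?_
    · exact MCx.null_congr (NullF.triv T) C (TensorProduct.piScalarRight R T T (Fin n)).symm 1
        (MCx.null_pi (NullF.triv T) C (Fin n) 1 (null_self C hC 0))
    · intro w _ hw
      rw [sat_triv]
      rw [MCx.bdyM_zero_iff C u hu] at hw ⊢
      exact mem_smul_of_flat J _ (Submodule.injective_subtype _) _ hw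
  | succ i ih =>
    intro N _ _ _
    obtain ⟨n, f, hf⟩ := Module.Finite.exists_fin' R N
    have hinj : Function.Injective (LinearMap.baseChange T (LinearMap.ker f).subtype) := by
      rw [LinearMap.baseChange_eq_ltensor]
      exact Module.Flat.lTensor_preserves_injective_linearMap _ (Submodule.injective_subtype _)
    have hsurj : Function.Surjective (LinearMap.baseChange T f) := by
      rw [LinearMap.baseChange_eq_ltensor]
      exact LinearMap.lTensor_surjective T hf
    have hex : Function.Exact (LinearMap.baseChange T (LinearMap.ker f).subtype)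
        (LinearMap.baseChange T f) := by
      rw [LinearMap.baseChange_eq_ltensor, LinearMap.baseChange_eq_ltensor]
      exact lTensor_exact T (LinearMap.exact_subtype_ker_map f) hf
    refine MCx.null_of_quot (NullF.triv T) C hinj hsurj hex (i + 1) ?_ ?_
    · exact MCx.null_congr (NullF.triv T) C (TensorProduct.piScalarRight R T T (Fin n)).symm _
        (MCx.null_pi (NullF.triv T) C (Fin n) _ (null_self C hC (i + 1)))
    · exact ih (LinearMap.ker f)

/-- The resolution of an `R`-flat `T/J` stays exact modulo `I T`, `I` an ideal of `R`. -/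
theorem null_quot_map {J : Ideal T} [Module.Flat R (T ⧸ J)] (hC : C.Exact) (u : Unique (C.ι 0))
    (hu : ∀ v : C.ι 0 → T, (∃ w, act T (C.d 0) w = v) ↔ v u.default ∈ J) (I : Ideal R) (i : ℕ) :
    C.NullM (NullF.triv T) (T ⧸ I.map (algebraMap R T)) (i + 1) := by
  have h1 := null_tensor (R := R) C hC u hu i (R ⧸ I)
  exact MCx.null_congr (NullF.triv T) C
    (Algebra.TensorProduct.quotIdealMapEquivTensorQuot T I).toLinearEquiv.symm (i + 1) h1

end Flat

section Length

variable {R T : Type u} [CommRing R] [CommRing T] [Algebra R T] (C : MCx T)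

/-- One step: kill a regular element. -/
theorem null_quot_sup_span (I : Ideal T) (y : T) (hy : ∀ a, y * a ∈ I → a ∈ I) (i : ℕ)
    (h1 : C.NullM (NullF.triv T) (T ⧸ I) (i + 1)) (h0 : C.NullM (NullF.triv T) (T ⧸ I) i) :
    C.NullM (NullF.triv T) (T ⧸ (I ⊔ Ideal.span {y})) (i + 1) := by
  let f : (T ⧸ I) →ₗ[T] (T ⧸ I) := LinearMap.lsmul T (T ⧸ I) y
  let g : (T ⧸ I) →ₗ[T] (T ⧸ (I ⊔ Ideal.span {y})) := Submodule.mapQ I (I ⊔ Ideal.span {y})
    LinearMap.id le_sup_left
  refine MCx.null_of_quot (NullF.triv T) C (f := f) (g := g) ?_ ?_ ?_ i h1 h0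
  · rw [injective_iff_map_eq_zero]
    intro a ha
    obtain ⟨a, rfl⟩ := Ideal.Quotient.mk_surjective a
    have h2 : (Ideal.Quotient.mk I (y * a)) = 0 := ha
    exact Ideal.Quotient.eq_zero_iff_mem.mpr (hy a (Ideal.Quotient.eq_zero_iff_mem.mp h2))
  · intro a
    obtain ⟨a, rfl⟩ := Ideal.Quotient.mk_surjective a
    exact ⟨Ideal.Quotient.mk I a, rfl⟩
  · intro a
    obtain ⟨a, rfl⟩ := Ideal.Quotient.mk_surjective a
    constructor
    · intro ha
      have h2 : a ∈ I ⊔ Ideal.span {y} := Ideal.Quotient.eq_zero_iff_mem.mp ha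
      obtain ⟨b, hb, c, hc, rfl⟩ := Submodule.mem_sup.mp h2
      obtain ⟨c, rfl⟩ := Ideal.mem_span_singleton'.mp hc
      refine ⟨Ideal.Quotient.mk I c, ?_⟩
      show Ideal.Quotient.mk I (y * c) = Ideal.Quotient.mk I (b + c * y)
      rw [map_add, Ideal.Quotient.eq_zero_iff_mem.mpr hb, zero_add, mul_comm]
    · rintro ⟨c, hc⟩
      obtain ⟨c, rfl⟩ := Ideal.Quotient.mk_surjective c
      have h2 : Ideal.Quotient.mk I (y * c) = Ideal.Quotient.mk I a := hc
      have h3 : y * c - a ∈ I := Ideal.Quotient.eq.mp h2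
      apply Ideal.Quotient.eq_zero_iff_mem.mpr
      have h4 : a = -(y * c - a) + c * y := by ring
      rw [h4]
      exact Submodule.add_mem_sup (I.neg_mem h3) (Ideal.mem_span_singleton'.mpr ⟨c, rfl⟩)

/-- If `H_i(C ⊗ T/m) = 0` for `i > n` and the entries of `C` lie in `m`, then `C` has length `≤ n`. -/
theorem len_of_null [IsLocalRing T] (n : ℕ) (hent : C.EntriesIn (maximalIdeal T))
    (h : ∀ i, n ≤ i → C.NullM (NullF.triv T) (T ⧸ maximalIdeal T) (i + 1)) : C.Len n := by
  intro i hi
  obtain ⟨i, rfl⟩ : ∃ j, i = j + 1 := ⟨i - 1, by omega⟩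
  by_contra hne
  rw [not_isEmpty_iff] at hne
  have hd : ∀ j (v : C.ι (j + 1) → T ⧸ maximalIdeal T), C.dM (T ⧸ maximalIdeal T) j v = 0 := by
    intro j v
    funext a
    show ∑ b, C.d j a b • v b = 0
    refine Finset.sum_eq_zero (fun b _ => ?_)
    obtain ⟨t, ht⟩ := Ideal.Quotient.mk_surjective (v b)
    rw [← ht]
    show Ideal.Quotient.mk _ (C.d j a b * t) = 0
    exact Ideal.Quotient.eq_zero_iff_mem.mpr (Ideal.mul_mem_right _ _ (hent j a b))
  have h1 := h i (by omega)
  have h2 : (fun _ => 1 : C.ι (i + 1) → T ⧸ maximalIdeal T) ∈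
      C.cycM (T ⧸ maximalIdeal T) (i + 1) := hd i _
  have h3 := h1 h2
  rw [sat_triv] at h3
  obtain ⟨w, hw⟩ := h3
  have h4 : C.dM (T ⧸ maximalIdeal T) (i + 1) w = 0 := hd (i + 1) w
  have h5 : (0 : C.ι (i + 1) → T ⧸ maximalIdeal T) = fun _ => 1 := by
    rw [← h4]; exact hw
  have h6 := congrFun h5 hne.some
  exact zero_ne_one h6

variable [IsNoetherianRing R] [Module.Flat R T] [IsLocalRing R] [IsLocalRing T]

/-- The ideals `m_R T + (Y_0, .., Y_{i-1})`. -/
def prI (R : Type u) [CommRing R] [IsLocalRing R] [Algebra R T] (Y : ℕ → T) (i : ℕ) : Ideal T :=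
  (maximalIdeal R).map (algebraMap R T) ⊔ Ideal.span (Y '' Set.Iio i)

omit [IsNoetherianRing R] [Module.Flat R T] [IsLocalRing T] in
theorem prI_succ (Y : ℕ → T) (i : ℕ) : prI R Y (i + 1) = prI R Y i ⊔ Ideal.span {Y i} := by
  unfold prI
  rw [sup_assoc, ← Ideal.span_union]
  congr 2
  rw [← Set.image_singleton, ← Set.image_union]
  congr 1
  ext j
  simp only [Set.mem_Iio, Set.mem_union, Set.mem_singleton_iff]
  omega

/-- **The minimal resolution of an `R`-flat quotient `T/J` has length `≤ n`** if the closed fibre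
`T/m_R T` has its maximal ideal generated by a regular sequence `Y_0, .., Y_{n-1}`. -/
theorem len_of_regular_fibre {J : Ideal T} [Module.Flat R (T ⧸ J)] (hC : C.Exact)
    (u : Unique (C.ι 0))
    (hu : ∀ v : C.ι 0 → T, (∃ w, act T (C.d 0) w = v) ↔ v u.default ∈ J)
    (hent : C.EntriesIn (maximalIdeal T)) (n : ℕ) (Y : ℕ → T)
    (hreg : ∀ i < n, ∀ a, Y i * a ∈ prI R Y i → a ∈ prI R Y i)
    (hmax : prI R Y n = maximalIdeal T) : C.Len n := by
  have key : ∀ k ≤ n, ∀ i, k ≤ i → C.NullM (NullF.triv T) (T ⧸ prI R Y k) (i + 1) := by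
    intro k
    induction k with
    | zero =>
      intro _ i _
      have h0 : prI R Y 0 = (maximalIdeal R).map (algebraMap R T) := by
        unfold prI
        have : Set.Iio 0 = (∅ : Set ℕ) := by ext j; simp
        rw [this, Set.image_empty, Ideal.span_empty, sup_bot_eq]
      rw [h0]
      exact null_quot_map C hC u hu (maximalIdeal R) i
    | succ k ih =>
      intro hk i hi
      rw [prI_succ]
      obtain ⟨i, rfl⟩ : ∃ j, i = j + 1 := ⟨i - 1, by omega⟩
      exact null_quot_sup_span C _ _ (hreg k (by omega)) (i + 1) (ih (by omega) (i + 1) (by omega))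
        (ih (by omega) i (by omega))
  have h1 := key n le_rfl
  rw [hmax] at h1
  exact len_of_null C n hent h1

end Length

/-- **(R1)** The finite minimal free resolution of an `R`-flat quotient `T/J`, in the form used in
the proof of Lech's inequality. -/
theorem exists_resolution {R T : Type u} [CommRing R] [IsLocalRing R] [IsNoetherianRing R]
    [CommRing T] [IsLocalRing T] [IsNoetherianRing T] [Algebra R T] [Module.Flat R T]
    (J : Ideal T) (hJ : J ≤ maximalIdeal T) [Module.Flat R (T ⧸ J)] (n : ℕ) (Y : ℕ → T)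
    (hreg : ∀ i < n, ∀ a, Y i * a ∈ prI R Y i → a ∈ prI R Y i)
    (hmax : prI R Y n = maximalIdeal T) :
    ∃ C : MCx T, C.Len n ∧ C.EntriesIn (maximalIdeal T) ∧ J ≤ C.nhI ∧
      (∃ u : Unique (C.ι 0), ∀ (M : Type u) [AddCommGroup M] [Module T M] (v : C.ι 0 → M),
        v ∈ C.bdyM M 0 ↔ v u.default ∈ (J • ⊤ : Submodule T M)) := by
  obtain ⟨C, hC, hent, u, hu⟩ := exists_min_resolution J hJ
  refine ⟨C, len_of_regular_fibre (R := R) C hC u hu hent n Y hreg hmax, hent, ?_, u, ?_⟩
  · intro x hx
    refine MCx.NHom_of_exact C hC x (fun v => ?_)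
    apply (hu _).mpr
    exact J.mul_mem_right _ hx
  · intro M _ _ v
    exact MCx.bdyM_zero_iff C u hu M v

end Crest.Agent.R183.Res
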