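import Crest.Agent.R183.RD4
import Crest.Agent.R183.RD5
import Crest.Agent.R183.M6
import Crest.Agent.R183.Res7

/-!
# R183, block RD (helper680), part 6: the closed fibre of `R → T = R ⊗_A A'`
-/

set_option autoImplicit false

namespace Crest.Agent.R183.RD

open TensorProduct IsLocalRing Crest.Agent.R183.M

universe u v w

section Desc

variable (A R A' T : Type*) [CommRing A] [CommRing R] [CommRing A'] [CommRing T]
  [Algebra A R] [Algebra A A'] [Algebra A T] [Algebra R T] [Algebra A' T]
  [IsScalarTower A R T] [IsScalarTower A A' T] [Algebra.IsPushout A R A' T]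

theorem exists_desc {E : Type*} [CommRing E] (f : R →+* E) (g : A' →+* E)
    (h : f.comp (algebraMap A R) = g.comp (algebraMap A A')) :
    ∃ χ : T →+* E, χ.comp (algebraMap R T) = f ∧ χ.comp (algebraMap A' T) = g := by
  let _ : Algebra A E := (f.comp (algebraMap A R)).toAlgebra
  let f' : R →ₐ[A] E := { f with commutes' := fun a => rfl }
  have hg : ∀ a : A, g (algebraMap A A' a) = algebraMap A E a := fun a =>
    (congrArg (fun k : A →+* E => k a) h).symm
  let g' : A' →ₐ[A] E := { g with commutes' := hg }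
  let e := Algebra.IsPushout.equiv A R A' T
  refine ⟨(Algebra.TensorProduct.productMap f' g').toRingHom.comp e.symm.toRingEquiv.toRingHom,
    ?_, ?_⟩
  · ext r
    show Algebra.TensorProduct.productMap f' g' (e.symm (algebraMap R T r)) = f r
    rw [Algebra.IsPushout.equiv_symm_algebraMap_left, Algebra.TensorProduct.productMap_apply_tmul,
      map_one, mul_one]
    rfl
  · ext r
    show Algebra.TensorProduct.productMap f' g' (e.symm (algebraMap A' T r)) = g r
    rw [Algebra.IsPushout.equiv_symm_algebraMap_right, Algebra.TensorProduct.productMap_apply_tmul,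
      map_one, one_mul]
    rfl

variable {A R A' T}

/-- The descent of `ε : A' → E` (killing `m_A`) to `T`. -/
theorem exists_fibre_hom [IsLocalRing A] [IsLocalRing R] [IsLocalHom (algebraMap A R)]
    (hres : ∀ r : R, ∃ a : A, r - algebraMap A R a ∈ maximalIdeal R)
    {E : Type*} [CommRing E] (ε : A' →+* E)
    (hε : (maximalIdeal A).map (algebraMap A A') ≤ RingHom.ker ε) :
    ∃ χ : T →+* E, χ.comp (algebraMap A' T) = ε ∧
      (maximalIdeal R).map (algebraMap R T) ≤ RingHom.ker χ := by
  have hle : maximalIdeal A ≤ (maximalIdeal R).comap (algebraMap A R) :=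
    ((local_hom_TFAE (algebraMap A R)).out 0 3).1 ‹IsLocalHom (algebraMap A R)›
  let a1 : A ⧸ maximalIdeal A →+* R ⧸ maximalIdeal R := Ideal.quotientMap _ (algebraMap A R) hle
  have ha1 : Function.Bijective a1 := by
    constructor
    · let _ : Field (A ⧸ maximalIdeal A) := Ideal.Quotient.field _
      exact RingHom.injective a1
    · intro x
      obtain ⟨r, rfl⟩ := Ideal.Quotient.mk_surjective x
      obtain ⟨a, ha⟩ := hres r
      refine ⟨Ideal.Quotient.mk _ a, ?_⟩
      show Ideal.Quotient.mk _ (algebraMap A R a) = Ideal.Quotient.mk _ r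
      rw [eq_comm, Ideal.Quotient.eq]
      exact ha
  let e1 := RingEquiv.ofBijective a1 ha1
  let l : A ⧸ maximalIdeal A →+* E := Ideal.Quotient.lift _ (ε.comp (algebraMap A A')) (by
    intro a ha
    exact hε (Ideal.mem_map_of_mem _ ha))
  let ρ : R →+* E := l.comp (e1.symm.toRingHom.comp (Ideal.Quotient.mk (maximalIdeal R)))
  have hρ : ρ.comp (algebraMap A R) = ε.comp (algebraMap A A') := by
    ext a
    show l (e1.symm (Ideal.Quotient.mk _ (algebraMap A R a))) = ε (algebraMap A A' a)
    have : e1.symm (Ideal.Quotient.mk _ (algebraMap A R a)) = Ideal.Quotient.mk _ a := by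
      rw [RingEquiv.symm_apply_eq]
      rfl
    rw [this]
    rfl
  obtain ⟨χ, h1, h2⟩ := exists_desc A R A' T ρ ε hρ
  refine ⟨χ, h2, ?_⟩
  rw [Ideal.map_le_iff_le_comap]
  intro r hr
  rw [Ideal.mem_comap, RingHom.mem_ker]
  have : χ (algebraMap R T r) = ρ r := congrArg (fun k : R →+* E => k r) h1
  rw [this]
  show l (e1.symm (Ideal.Quotient.mk _ r)) = 0
  rw [Ideal.Quotient.eq_zero_iff_mem.2 hr, map_zero, map_zero]

/-- kernel and surjectivity of the descended map -/
theorem ker_fibre_hom [IsLocalRing A] [IsLocalRing R] [IsLocalHom (algebraMap A R)]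
    (hres : ∀ r : R, ∃ a : A, r - algebraMap A R a ∈ maximalIdeal R)
    {E : Type*} [CommRing E] (ε : A' →+* E)
    (hker : RingHom.ker ε = (maximalIdeal A).map (algebraMap A A'))
    (χ : T →+* E) (h1 : χ.comp (algebraMap A' T) = ε)
    (h2 : (maximalIdeal R).map (algebraMap R T) ≤ RingHom.ker χ) :
    RingHom.ker χ = (maximalIdeal R).map (algebraMap R T) := by
  refine le_antisymm ?_ h2
  intro x hx
  obtain ⟨a, ha⟩ := exists_sub_mem (A := A) (R := R) (A' := A') hres x
  have h3 : ε a = 0 := by
    have h4 : χ (x - algebraMap A' T a) = 0 := h2 ha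
    rw [map_sub, RingHom.mem_ker.1 hx, zero_sub, neg_eq_zero] at h4
    rw [← h1]
    exact h4
  have h4 : a ∈ (maximalIdeal A).map (algebraMap A A') := by
    rw [← hker]; exact h3
  have h5 : algebraMap A' T a ∈ (maximalIdeal R).map (algebraMap R T) := by
    have h6 := Ideal.mem_map_of_mem (algebraMap A' T) h4
    rw [Ideal.map_map, ← IsScalarTower.algebraMap_eq, IsScalarTower.algebraMap_eq A R T,
      ← Ideal.map_map] at h6
    refine Ideal.map_mono ?_ h6
    rw [Ideal.map_le_iff_le_comap]
    exact ((local_hom_TFAE (algebraMap A R)).out 0 3).1 ‹IsLocalHom (algebraMap A R)›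
  have : x = (x - algebraMap A' T a) + algebraMap A' T a := by ring
  rw [this]
  exact add_mem ha h5

end Desc

section Chain

variable {R : Type u} {T : Type v} [CommRing R] [IsLocalRing R] [CommRing T] [Algebra R T]
  {κ : Type*} [Field κ] {g : ℕ} (χ : T →+* MvPowerSeries (Fin g) κ)
  (hχ : Function.Surjective χ) (hker : RingHom.ker χ = (maximalIdeal R).map (algebraMap R T))
  (Y : ℕ → T) (hY : ∀ j, χ (Y j) = varSeq κ g j)

include hχ hker hY in
theorem pr_eq_comap (i : ℕ) :
    pr R T Y i = (Ideal.span (varSeq κ g '' Set.Iio i)).comap χ := by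
  have h1 : (Ideal.span (varSeq κ g '' Set.Iio i)) = (Ideal.span (Y '' Set.Iio i)).map χ := by
    rw [Ideal.map_span, ← Set.image_comp]
    congr 1
    refine Set.image_congr fun j _ => (hY j).symm
  rw [h1, Ideal.comap_map_of_surjective χ hχ, ← RingHom.ker_eq_comap_bot, hker, sup_comm]
  rfl

include hχ hker hY in
theorem pr_isPrime (i : ℕ) (hi : i ≤ g) : (pr R T Y i).IsPrime := by
  rw [pr_eq_comap χ hχ hker Y hY i]
  have := isPrime_varSeq κ g i hi
  exact Ideal.IsPrime.comap _

include hχ hker hY in
theorem Y_notMem_pr (i : ℕ) (hi : i < g) : Y i ∉ pr R T Y i := by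
  rw [pr_eq_comap χ hχ hker Y hY i, Ideal.mem_comap, hY]
  exact varSeq_notMem κ g i hi

include hχ hker hY in
theorem pr_eq_maximalIdeal [IsLocalRing T] : pr R T Y g = maximalIdeal T := by
  rw [pr_eq_comap χ hχ hker Y hY g]
  have h1 : Ideal.span (varSeq κ g '' Set.Iio g) =
      RingHom.ker (MvPowerSeries.constantCoeff (σ := Fin g) (R := κ)) := by
    ext f
    rw [mem_span_varSeq_iff, RingHom.mem_ker]
  have h2 : (Ideal.span (varSeq κ g '' Set.Iio g)).IsMaximal := by
    rw [h1]
    exact RingHom.ker_isMaximal_of_surjective _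
      (fun x => ⟨MvPowerSeries.C x, by simp⟩)
  have := h2
  exact IsLocalRing.eq_maximalIdeal (Ideal.comap_isMaximal_of_surjective χ hχ)

include hχ hker hY in
theorem reg_prI (i : ℕ) (hi : i < g) (a : T) (ha : Y i * a ∈ pr R T Y i) : a ∈ pr R T Y i := by
  rcases (pr_isPrime χ hχ hker Y hY i hi.le).mem_or_mem ha with h | h
  · exact absurd h (Y_notMem_pr χ hχ hker Y hY i hi)
  · exact h

end Chain

end Crest.Agent.R183.RD
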