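/-
R183 (Lech), INSEP, file 4: construction of `T1 = R1 ⊗ A1'`, `S1 = T1/J0 T1`, and the rank equation.
helper499
-/
import Crest.Agent.R183.PI3
import Crest.Agent.R183.PId
import Crest.Agent.R183.Ins4
import Crest.Agent.R183.Ins5
import Crest.Agent.R183.RD6

set_option autoImplicit false
set_option linter.unusedSectionVars false

namespace Crest.Agent.R183.PI

open Module TensorProduct Crest.Agent.R183.RD Crest.Agent.R183.Ins IsLocalRing

universe u

section exists_pushout

/-- pushouts exist. -/
theorem exists_pushout (A R B : Type u) [CommRing A] [CommRing R] [CommRing B] [Algebra A R]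
    [Algebra A B] : ∃ (T : Type u) (_ : CommRing T) (_ : Algebra A T) (_ : Algebra R T)
      (_ : Algebra B T) (_ : IsScalarTower A R T) (_ : IsScalarTower A B T),
      Algebra.IsPushout A R B T := by
  let _ : Algebra B (R ⊗[A] B) := Algebra.TensorProduct.rightAlgebra
  exact ⟨R ⊗[A] B, inferInstance, inferInstance, inferInstance, inferInstance, inferInstance,
    inferInstance, inferInstance⟩

/-- equality on a pushout -/
theorem pushout_ext {A R B T E : Type*} [CommRing A] [CommRing R] [CommRing B] [CommRing T]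
    [CommRing E] [Algebra A R] [Algebra A B] [Algebra A T] [Algebra R T] [Algebra B T]
    [IsScalarTower A R T] [IsScalarTower A B T] [Algebra.IsPushout A R B T] (f g : T →+* E)
    (h1 : ∀ r, f (algebraMap R T r) = g (algebraMap R T r))
    (h2 : ∀ b, f (algebraMap B T b) = g (algebraMap B T b)) (x : T) : f x = g x := by
  refine pushout_induction (A := A) (R := R) (A' := B) x (P := fun x => f x = g x) ?_ ?_ ?_
  · rw [map_zero, map_zero]
  · intro x y hx hy; rw [map_add, map_add, hx, hy]
  · intro r b; rw [map_mul, map_mul, h1, h2]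

/-- descent, pointwise form. -/
theorem exists_desc' (A R A' T : Type*) [CommRing A] [CommRing R] [CommRing A'] [CommRing T]
    [Algebra A R] [Algebra A A'] [Algebra A T] [Algebra R T] [Algebra A' T]
    [IsScalarTower A R T] [IsScalarTower A A' T] [Algebra.IsPushout A R A' T]
    {E : Type*} [CommRing E] (f : R →+* E) (g : A' →+* E)
    (h : ∀ a : A, f (algebraMap A R a) = g (algebraMap A A' a)) :
    ∃ χ : T →+* E, (∀ r, χ (algebraMap R T r) = f r) ∧ ∀ a, χ (algebraMap A' T a) = g a := by
  obtain ⟨χ, h1, h2⟩ := exists_desc A R A' T f g (RingHom.ext h)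
  exact ⟨χ, fun r => congrArg (fun k : R →+* E => k r) h1,
    fun r => congrArg (fun k : A' →+* E => k r) h2⟩

end exists_pushout

section main

variable {A R A' T S A1 A1' R1 G : Type u}
  [CommRing A] [CommRing R] [CommRing A'] [CommRing T] [CommRing S] [CommRing A1] [CommRing A1']
  [CommRing R1] [CommRing G]
  [Algebra A R] [Algebra A A'] [Algebra A T] [Algebra R T] [Algebra A' T] [IsScalarTower A R T]
  [IsScalarTower A A' T] [Algebra.IsPushout A R A' T]
  [Algebra A A1] [Algebra A' A1'] [Algebra A A1'] [Algebra A1 A1'] [IsScalarTower A A' A1']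
  [IsScalarTower A A1 A1']
  [Algebra A R1] [Algebra R R1] [Algebra A1 R1] [IsScalarTower A R R1] [IsScalarTower A A1 R1]
  [Algebra A G] [Algebra R G] [Algebra A1 G] [IsScalarTower A R G] [IsScalarTower A A1 G]
  [Algebra.IsPushout A R A1 G]
  [Algebra G R1] [IsScalarTower R G R1] [IsScalarTower A1 G R1]
  [Algebra T S]

include A R in
/-- The rings `T1`, `S1` and the rank equation, abstract form. -/
theorem insep_rings_aux
    (hflat : ∀ (Tq Sq : Type u) [CommRing Tq] [CommRing Sq]
      [Algebra A' Tq] [Algebra T Tq] [Algebra A1' Tq] [IsScalarTower A' T Tq]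
      [IsScalarTower A' A1' Tq] [Algebra.IsPushout A' A1' T Tq]
      [Algebra G Tq] [Algebra R Tq] [Algebra A1 Tq] [IsScalarTower R T Tq]
      [IsScalarTower R G Tq] [IsScalarTower A1 G Tq] [IsScalarTower A1 A1' Tq]
      [Algebra T Sq] [Algebra Tq Sq] [Algebra S Sq] [IsScalarTower T Tq Sq] [IsScalarTower T S Sq]
      [Algebra.IsPushout T Tq S Sq] [Algebra G Sq] [IsScalarTower G Tq Sq], Module.Flat G Sq)
    [Module.Flat A1 A1'] [IsNoetherianRing G] [IsDomain R1]
    (hsurj : Function.Surjective (algebraMap G R1))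
    (hnil : ∀ x, algebraMap G R1 x = 0 → IsNilpotent x)
    [IsDomain A'] [Module.Finite A' T] [Module.Finite A' A1'] [Module.Free A' A1']
    [Nontrivial A1'] :
    ∃ (T1 : Type u) (_ : CommRing T1) (_ : Algebra A1 T1) (_ : Algebra R1 T1)
      (_ : Algebra A1' T1) (_ : IsScalarTower A1 R1 T1) (_ : IsScalarTower A1 A1' T1)
      (_ : Algebra.IsPushout A1 R1 A1' T1)
      (_ : Algebra A' T1) (_ : IsScalarTower A' A1' T1)
      (_ : Algebra T T1) (_ : IsScalarTower A' T T1)
      (S1 : Type u) (_ : CommRing S1) (_ : Algebra T1 S1) (_ : Algebra S S1)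
      (_ : Algebra T S1) (_ : IsScalarTower T T1 S1) (_ : IsScalarTower T S S1)
      (_ : Algebra.IsPushout T T1 S S1)
      (_ : Algebra R1 S1) (_ : IsScalarTower R1 T1 S1),
      Module.Flat R1 T1 ∧ Module.Flat R1 S1 ∧ Module.Finite A' T1 ∧ Module.Finite S S1 ∧
      ∀ (Q : Type u) [CommRing Q] [IsDomain Q] [Algebra Q S] [Module.Finite Q S]
        [Algebra Q S1] [IsScalarTower Q S S1],
        finrank A' T * finrank Q S1 = finrank Q S * finrank A' T1 := by
  have tow : ∀ {X Y Z : Type u} [CommRing X] [CommRing Y] [CommRing Z] [Algebra X Y] [Algebra Y Z]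
      [Algebra X Z] [IsScalarTower X Y Z] (x : X),
      algebraMap Y Z (algebraMap X Y x) = algebraMap X Z x := fun x =>
    (IsScalarTower.algebraMap_apply _ _ _ x).symm
  -- `Tq`
  obtain ⟨Tq, _, _, _, _, _, _, _⟩ := exists_pushout A' T A1'
  let iRTq : Algebra R Tq := ((algebraMap T Tq).comp (algebraMap R T)).toAlgebra
  have tRTTq : IsScalarTower R T Tq := IsScalarTower.of_algebraMap_eq fun x => rfl
  let iATq : Algebra A Tq := ((algebraMap T Tq).comp (algebraMap A T)).toAlgebra
  have tATTq : IsScalarTower A T Tq := IsScalarTower.of_algebraMap_eq fun x => rfl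
  have tARTq : IsScalarTower A R Tq := IsScalarTower.of_algebraMap_eq fun x => by
    rw [← tow (Y := T) (Z := Tq), ← tow (X := R) (Y := T) (Z := Tq), tow (X := A) (Y := R)]
  have tAA'Tq : IsScalarTower A A' Tq := IsScalarTower.of_algebraMap_eq fun x => by
    rw [← tow (Y := T) (Z := Tq), ← tow (X := A') (Y := T) (Z := Tq), tow (X := A) (Y := A')]
  let iA1Tq : Algebra A1 Tq := ((algebraMap A1' Tq).comp (algebraMap A1 A1')).toAlgebra
  have tA1A1'Tq : IsScalarTower A1 A1' Tq := IsScalarTower.of_algebraMap_eq fun x => rfl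
  have tAA1'Tq : IsScalarTower A A1' Tq := IsScalarTower.of_algebraMap_eq fun x => by
    rw [← tow (X := A) (Y := A') (Z := Tq), ← tow (X := A') (Y := A1') (Z := Tq),
      tow (X := A) (Y := A')]
  have tAA1Tq : IsScalarTower A A1 Tq := IsScalarTower.of_algebraMap_eq fun x => by
    rw [← tow (X := A) (Y := A1') (Z := Tq), ← tow (X := A1) (Y := A1') (Z := Tq),
      tow (X := A) (Y := A1)]
  -- `G → Tq`
  obtain ⟨χG, hχG1, hχG2⟩ := exists_desc' A R A1 G (algebraMap R Tq) (algebraMap A1 Tq)
    (fun a => by rw [tow, tow])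
  let iGTq : Algebra G Tq := χG.toAlgebra
  have tRGTq : IsScalarTower R G Tq := IsScalarTower.of_algebraMap_eq fun x => (hχG1 x).symm
  have tA1GTq : IsScalarTower A1 G Tq := IsScalarTower.of_algebraMap_eq fun x => (hχG2 x).symm
  have tAGTq : IsScalarTower A G Tq := IsScalarTower.of_algebraMap_eq fun x => by
    rw [← tow (X := A) (Y := R) (Z := G), tow (X := R) (Y := G), tow (X := A) (Y := R)]
  -- pushouts
  have po1 : Algebra.IsPushout A A' R T := Algebra.IsPushout.symm inferInstance
  have po2 : Algebra.IsPushout A' A1' T Tq := Algebra.IsPushout.symm inferInstance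
  have po3 : Algebra.IsPushout A A1' R Tq :=
    (Algebra.IsPushout.comp_iff A A' R (S' := T) (T := A1') (T' := Tq)).2 po2
  have po4 : Algebra.IsPushout A A1 R G := Algebra.IsPushout.symm inferInstance
  have po5 : Algebra.IsPushout A1 A1' G Tq :=
    (Algebra.IsPushout.comp_iff A A1 R (S' := G) (T := A1') (T' := Tq)).1 po3
  have po6 : Algebra.IsPushout A1 G A1' Tq := po5.symm
  have flTq : Module.Flat G Tq := pushout_flat A1 G A1' Tq
  -- `T1`
  obtain ⟨T1, _, _, _, _, _, _, po7⟩ := exists_pushout A1 R1 A1'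
  let iA'T1 : Algebra A' T1 := ((algebraMap A1' T1).comp (algebraMap A' A1')).toAlgebra
  have tA'A1'T1 : IsScalarTower A' A1' T1 := IsScalarTower.of_algebraMap_eq fun x => rfl
  let iRT1 : Algebra R T1 := ((algebraMap R1 T1).comp (algebraMap R R1)).toAlgebra
  have tRR1T1 : IsScalarTower R R1 T1 := IsScalarTower.of_algebraMap_eq fun x => rfl
  obtain ⟨χT, hχT1, hχT2⟩ := exists_desc' A R A' T (algebraMap R T1) (algebraMap A' T1)
    (fun a => by
      rw [← tow (X := R) (Y := R1) (Z := T1), tow (X := A) (Y := R), ← tow (X := A) (Y := A1),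
        tow (X := A1) (Y := R1), ← tow (X := A') (Y := A1') (Z := T1), tow (X := A) (Y := A'),
        ← tow (X := A) (Y := A1) (Z := A1'), tow (X := A1) (Y := A1')])
  let iTT1 : Algebra T T1 := χT.toAlgebra
  have tRTT1 : IsScalarTower R T T1 := IsScalarTower.of_algebraMap_eq fun x => (hχT1 x).symm
  have tA'TT1 : IsScalarTower A' T T1 := IsScalarTower.of_algebraMap_eq fun x => (hχT2 x).symm
  obtain ⟨χTq, hχTq1, hχTq2⟩ := exists_desc' A' T A1' Tq (algebraMap T T1) (algebraMap A1' T1)
    (fun a => by rw [tow, tow])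
  let iTqT1 : Algebra Tq T1 := χTq.toAlgebra
  have tTTqT1 : IsScalarTower T Tq T1 := IsScalarTower.of_algebraMap_eq fun x => (hχTq1 x).symm
  have tA1'TqT1 : IsScalarTower A1' Tq T1 :=
    IsScalarTower.of_algebraMap_eq fun x => (hχTq2 x).symm
  have tA'TqT1 : IsScalarTower A' Tq T1 := IsScalarTower.of_algebraMap_eq fun x => by
    rw [← tow (X := A') (Y := T) (Z := T1), ← tow (X := T) (Y := Tq) (Z := T1),
      tow (X := A') (Y := T) (Z := Tq)]
  have tA1TqT1 : IsScalarTower A1 Tq T1 := IsScalarTower.of_algebraMap_eq fun x => by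
    rw [← tow (X := A1) (Y := A1') (Z := T1), ← tow (X := A1') (Y := Tq) (Z := T1),
      tow (X := A1) (Y := A1') (Z := Tq)]
  have tRTqT1 : IsScalarTower R Tq T1 := IsScalarTower.of_algebraMap_eq fun x => by
    rw [← tow (X := R) (Y := T) (Z := T1), ← tow (X := T) (Y := Tq) (Z := T1),
      tow (X := R) (Y := T) (Z := Tq)]
  let iGT1 : Algebra G T1 := ((algebraMap R1 T1).comp (algebraMap G R1)).toAlgebra
  have tGR1T1 : IsScalarTower G R1 T1 := IsScalarTower.of_algebraMap_eq fun x => rfl
  have tGTqT1 : IsScalarTower G Tq T1 := IsScalarTower.of_algebraMap_eq fun x => by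
    refine pushout_ext (A := A) (R := R) (B := A1) (algebraMap G T1)
      ((algebraMap Tq T1).comp (algebraMap G Tq)) ?_ ?_ x
    · intro r
      rw [RingHom.comp_apply, tow (X := R) (Y := G) (Z := Tq), tow (X := R) (Y := Tq) (Z := T1),
        ← tow (X := G) (Y := R1) (Z := T1), tow (X := R) (Y := G) (Z := R1),
        tow (X := R) (Y := R1) (Z := T1)]
    · intro a
      rw [RingHom.comp_apply, tow (X := A1) (Y := G) (Z := Tq), tow (X := A1) (Y := Tq) (Z := T1),
        ← tow (X := G) (Y := R1) (Z := T1), tow (X := A1) (Y := G) (Z := R1),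
        tow (X := A1) (Y := R1) (Z := T1)]
  have po8 : Algebra.IsPushout G R1 Tq T1 :=
    (Algebra.IsPushout.comp_iff A1 G A1' (S' := Tq) (T := R1) (T' := T1)).1 po7
  -- `Sq`
  obtain ⟨Sq, _, _, _, _, _, _, po9⟩ := exists_pushout T Tq S
  let iGSq : Algebra G Sq := ((algebraMap Tq Sq).comp (algebraMap G Tq)).toAlgebra
  have tGTqSq : IsScalarTower G Tq Sq := IsScalarTower.of_algebraMap_eq fun x => rfl
  have flSq : Module.Flat G Sq := hflat Tq Sq
  -- `S1`
  obtain ⟨S1, _, _, _, _, _, _, po10⟩ := exists_pushout Tq T1 Sq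
  let iTS1 : Algebra T S1 := ((algebraMap T1 S1).comp (algebraMap T T1)).toAlgebra
  have tTT1S1 : IsScalarTower T T1 S1 := IsScalarTower.of_algebraMap_eq fun x => rfl
  have tTTqS1 : IsScalarTower T Tq S1 := IsScalarTower.of_algebraMap_eq fun x => by
    rw [← tow (X := T) (Y := T1) (Z := S1), ← tow (X := T) (Y := Tq) (Z := T1),
      tow (X := Tq) (Y := T1) (Z := S1)]
  have tTSqS1 : IsScalarTower T Sq S1 := IsScalarTower.of_algebraMap_eq fun x => by
    rw [← tow (X := T) (Y := Tq) (Z := S1), ← tow (X := Tq) (Y := Sq) (Z := S1),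
      tow (X := T) (Y := Tq) (Z := Sq)]
  let iSS1 : Algebra S S1 := ((algebraMap Sq S1).comp (algebraMap S Sq)).toAlgebra
  have tSSqS1 : IsScalarTower S Sq S1 := IsScalarTower.of_algebraMap_eq fun x => rfl
  have tTSS1 : IsScalarTower T S S1 := IsScalarTower.of_algebraMap_eq fun x => by
    rw [← tow (X := S) (Y := Sq) (Z := S1), tow (X := T) (Y := S) (Z := Sq),
      tow (X := T) (Y := Sq) (Z := S1)]
  have po11 : Algebra.IsPushout T T1 S S1 :=
    (Algebra.IsPushout.comp_iff T Tq S (S' := Sq) (T := T1) (T' := S1)).2 po10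
  let iR1S1 : Algebra R1 S1 := ((algebraMap T1 S1).comp (algebraMap R1 T1)).toAlgebra
  have tR1T1S1 : IsScalarTower R1 T1 S1 := IsScalarTower.of_algebraMap_eq fun x => rfl
  let iGS1 : Algebra G S1 := ((algebraMap R1 S1).comp (algebraMap G R1)).toAlgebra
  have tGR1S1 : IsScalarTower G R1 S1 := IsScalarTower.of_algebraMap_eq fun x => rfl
  have tGT1S1 : IsScalarTower G T1 S1 := IsScalarTower.of_algebraMap_eq fun x => by
    rw [← tow (X := G) (Y := R1) (Z := S1), ← tow (X := R1) (Y := T1) (Z := S1),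
      tow (X := G) (Y := R1) (Z := T1)]
  have tGSqS1 : IsScalarTower G Sq S1 := IsScalarTower.of_algebraMap_eq fun x => by
    rw [← tow (X := G) (Y := T1) (Z := S1), ← tow (X := G) (Y := Tq) (Z := T1),
      tow (X := Tq) (Y := T1) (Z := S1), ← tow (X := Tq) (Y := Sq) (Z := S1),
      tow (X := G) (Y := Tq) (Z := Sq)]
  have po12 : Algebra.IsPushout G Tq R1 T1 := po8.symm
  have po13 : Algebra.IsPushout Tq Sq T1 S1 := po10.symm
  have po14 : Algebra.IsPushout G Sq R1 S1 :=
    (Algebra.IsPushout.comp_iff G Tq R1 (S' := T1) (T := Sq) (T' := S1)).2 po13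
  have po15 : Algebra.IsPushout G R1 Sq S1 := po14.symm
  have flT1 : Module.Flat R1 T1 := pushout_flat A1 R1 A1' T1
  have flS1 : Module.Flat R1 S1 := pushout_flat G R1 Sq S1
  -- finiteness
  have fin1 : Module.Finite A1' Tq := pushout_finite A' T A1' Tq
  have fin2 : Module.Finite A' Tq := Module.Finite.trans A1' Tq
  have fin3 : Module.Finite T Tq := pushout_finite A' A1' T Tq
  have fin4 : Module.Finite S Sq := pushout_finite T Tq S Sq
  have sur1 : Function.Surjective (algebraMap Tq T1) :=
    (ker_pushout (T := G) (S := R1) (T1 := Tq) (S1 := T1) hsurj).1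
  have sur2 : Function.Surjective (algebraMap Sq S1) :=
    (ker_pushout (T := G) (S := R1) (T1 := Sq) (S1 := S1) hsurj).1
  have fin5 : Module.Finite A' T1 :=
    Module.Finite.of_surjective (IsScalarTower.toAlgHom A' Tq T1).toLinearMap sur1
  have fin6 : Module.Finite S S1 :=
    Module.Finite.of_surjective (IsScalarTower.toAlgHom S Sq S1).toLinearMap sur2
  -- bases
  have hA' : Nontrivial A' := inferInstance
  let b0 := Module.Free.chooseBasis A' A1'
  let b : Basis _ T Tq := IsBaseChange.basis b0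
    (Algebra.IsPushout.out (R := A') (S := T) (R' := A1') (S' := Tq))
  have hcard : 0 < Fintype.card (Module.Free.ChooseBasisIndex A' A1') := by
    rw [Fintype.card_pos_iff]
    exact b0.index_nonempty
  refine ⟨T1, inferInstance, inferInstance, inferInstance, inferInstance, inferInstance,
    inferInstance, po7, iA'T1, tA'A1'T1, iTT1, tA'TT1, S1, inferInstance, inferInstance, iSS1,
    iTS1, tTT1S1, tTSS1, po11, iR1S1, tR1T1S1, flT1, flS1, fin5, fin6, ?_⟩
  intro Q _ _ _ _ _ _
  let iQSq : Algebra Q Sq := ((algebraMap S Sq).comp (algebraMap Q S)).toAlgebra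
  have tQSSq : IsScalarTower Q S Sq := IsScalarTower.of_algebraMap_eq fun x => rfl
  have tQSqS1 : IsScalarTower Q Sq S1 := IsScalarTower.of_algebraMap_eq fun x => by
    rw [← tow (X := Q) (Y := S) (Z := S1), ← tow (X := S) (Y := Sq) (Z := S1),
      tow (X := Q) (Y := S) (Z := Sq)]
  have fin7 : Module.Finite Q Sq := Module.Finite.trans S Sq
  have h1 := rank_lemma_pushout (G := G) (R1 := R1) (Q := A') (H := Tq) (H1 := T1) (Q' := Q)
    (H' := Sq) (H1' := S1) hsurj hnil
  have po16 : Algebra.IsPushout T S Tq Sq := po9.symm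
  rw [finrank_of_basis (Q := A') b, finrank_of_isPushout (Q := Q) (S := S) (Sq := Sq) b,
    mul_assoc, mul_assoc] at h1
  exact Nat.eq_of_mul_eq_mul_left hcard h1

end main

section concrete

/-- **The rings `T1`, `S1` of INSEP and the rank equation.** -/
theorem insep_rings (p e : ℕ) [Fact p.Prime] {A R A' T S B₀ : Type u} [CommRing A]
    [CommRing R] [CommRing A'] [CommRing T] [CommRing S] [CommRing B₀]
    [CharP A p] [CharP R p] [CharP A' p] [CharP B₀ p]
    [Algebra A R] [Algebra A A'] [Algebra A T] [Algebra R T] [Algebra A' T]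
    [IsScalarTower A R T] [IsScalarTower A A' T] [Algebra.IsPushout A R A' T]
    [Algebra T S] [Algebra R S] [IsScalarTower R T S]
    [IsLocalRing A] [IsLocalRing R] [IsLocalRing S] [IsDomain R] [IsDomain A']
    [IsNoetherianRing A] [IsNoetherianRing S] [Module.Finite A R]
    [Module.Finite A' (Fr p e A')] [Module.Free A' (Fr p e A')]
    [Module.Flat A A'] [Module.Flat R S] [IsLocalHom (algebraMap R S)]
    (hres : ∀ r : R, ∃ a : A, r - algebraMap A R a ∈ maximalIdeal R)
    (ρ : A' →+* B₀) (hρ : Function.Surjective ρ)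
    (hker : RingHom.ker ρ = (maximalIdeal A).map (algebraMap A A'))
    [Module.Flat B₀ (Fr p e B₀)] :
    ∃ (T1 : Type u) (_ : CommRing T1) (_ : Algebra (Fr p e A) T1)
      (_ : Algebra (RR p e A R) T1) (_ : Algebra (Fr p e A') T1)
      (_ : IsScalarTower (Fr p e A) (RR p e A R) T1)
      (_ : IsScalarTower (Fr p e A) (Fr p e A') T1)
      (_ : Algebra.IsPushout (Fr p e A) (RR p e A R) (Fr p e A') T1)
      (_ : Algebra A' T1) (_ : IsScalarTower A' (Fr p e A') T1)
      (_ : Algebra T T1) (_ : IsScalarTower A' T T1)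
      (S1 : Type u) (_ : CommRing S1) (_ : Algebra T1 S1) (_ : Algebra S S1)
      (_ : Algebra T S1) (_ : IsScalarTower T T1 S1) (_ : IsScalarTower T S S1)
      (_ : Algebra.IsPushout T T1 S S1)
      (_ : Algebra (RR p e A R) S1) (_ : IsScalarTower (RR p e A R) T1 S1),
      Module.Flat (RR p e A R) T1 ∧ Module.Flat (RR p e A R) S1 ∧ Module.Finite A' T1 ∧
      Module.Finite S S1 ∧
      ∀ (Q : Type u) [CommRing Q] [IsDomain Q] [Algebra Q S] [Module.Finite Q S]
        [Algebra Q S1] [IsScalarTower Q S S1],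
        finrank A' T * finrank Q S1 = finrank Q S * finrank A' T1 := by
  let _ : Algebra (Fr p e A) (R ⊗[A] Fr p e A) := Algebra.TensorProduct.rightAlgebra
  let _ : Algebra (R ⊗[A] Fr p e A) (RR p e A R) := (RR.prod p e A R).toRingHom.toAlgebra
  have hprod : ∀ x, algebraMap (R ⊗[A] Fr p e A) (RR p e A R) x = RR.prod p e A R x :=
    fun x => rfl
  have _ : IsScalarTower R (R ⊗[A] Fr p e A) (RR p e A R) :=
    IsScalarTower.of_algebraMap_eq fun r => by
      rw [hprod, Algebra.TensorProduct.algebraMap_apply, RR.prod_tmul, map_one, mul_one]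
      rfl
  have _ : IsScalarTower (Fr p e A) (R ⊗[A] Fr p e A) (RR p e A R) :=
    IsScalarTower.of_algebraMap_eq fun r => by
      rw [hprod]
      show _ = RR.prod p e A R (1 ⊗ₜ r)
      rw [RR.prod_tmul, map_one, one_mul]
  have _ : Module.Flat (Fr p e A) (Fr p e A') := inferInstanceAs (Module.Flat A A')
  have _ : Module.Finite (Fr p e A) (R ⊗[A] Fr p e A) :=
    pushout_finite A R (Fr p e A) (R ⊗[A] Fr p e A)
  have _ : IsNoetherianRing (R ⊗[A] Fr p e A) :=
    IsNoetherianRing.of_finite (Fr p e A) (R ⊗[A] Fr p e A)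
  have _ : Nontrivial (Fr p e A') := inferInstanceAs (Nontrivial A')
  have _ : Module.Finite A' T := pushout_finite A R A' T
  exact insep_rings_aux (A := A) (R := R) (A' := A') (T := T) (S := S) (A1 := Fr p e A)
    (A1' := Fr p e A') (R1 := RR p e A R) (G := R ⊗[A] Fr p e A)
    (fun Tq Sq => by
      intros
      exact flat_Sq p e (A := A) (R := R) (A' := A') (T := T) (G := R ⊗[A] Fr p e A) (Tq := Tq)
        (S := S) (Sq := Sq) hres ρ hρ hker)
    (RR.prod_surjective p e A R)
    (fun x hx => ⟨p ^ e, RR.pow_eq_zero p e A R x hx⟩)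

end concrete

end Crest.Agent.R183.PI
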