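/-
R183 (Lech), characteristic p: the stages of `CoreMain`.
helper499
-/
import Crest.Agent.R183.PC4
import Crest.Agent.R183.CoreMain

set_option autoImplicit false
set_option linter.unusedSectionVars false

namespace Crest.Agent.R183.PC

open Module TensorProduct Crest.Agent.R183.Glue Crest.Agent.R183.BInf
open TrData (mu mu_tmul)

universe u

section regL

variable {A : Type*} [CommRing A]

/-- `RegL` passes to flat modules. -/
theorem regL_of_flat {M : Type*} [AddCommGroup M] [Module A M] [Module.Flat A M] (l : List A)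
    (h : RegL A l) : RegL M l := by
  induction l with
  | nil => trivial
  | cons y l ih =>
    refine ⟨ih h.1, ?_⟩
    intro m hm
    set I : Ideal A := Ideal.span {y | y ∈ l} with hI
    have h2 : ∀ a : A, y * a ∈ I → a ∈ I := by
      intro a ha
      have h3 := h.2 a
      rw [smul_eq_mul, smul_eq_mul, Ideal.mul_top] at h3
      exact h3 ha
    -- write `y • m` as a finite combination
    have h4 : ∀ z ∈ I • (⊤ : Submodule A M), ∃ (n : ℕ) (a : Fin n → A) (v : Fin n → M),
        (∀ i, a i ∈ I) ∧ z = ∑ i, a i • v i := by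
      intro z hz
      induction hz using Submodule.smul_induction_on' with
      | smul r hr x hx => exact ⟨1, fun _ => r, fun _ => x, fun _ => hr, by simp⟩
      | add x hx x' hx' h1 h2 =>
        obtain ⟨n, a, v, ha, hs⟩ := h1
        obtain ⟨n', a', v', ha', hs'⟩ := h2
        refine ⟨n + n', Fin.append a a', Fin.append v v', ?_, ?_⟩
        · intro i
          refine Fin.addCases (fun i => ?_) (fun i => ?_) i
          · rw [Fin.append_left]; exact ha i
          · rw [Fin.append_right]; exact ha' i
        · rw [Fin.sum_univ_add, hs, hs']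
          simp [Fin.append_left, Fin.append_right]
    obtain ⟨n, a, v, ha, hs⟩ := h4 _ hm
    let f : Fin (n + 1) → A := Fin.cons y (fun i => - a i)
    let x : Fin (n + 1) → M := Fin.cons m v
    have hrel : ∑ i, f i • x i = 0 := by
      rw [Fin.sum_univ_succ]
      simp only [f, x, Fin.cons_zero, Fin.cons_succ, neg_smul, Finset.sum_neg_distrib]
      rw [hs, add_neg_cancel]
    obtain ⟨κ, b, z, hxz, hb⟩ := (Module.Flat.isTrivialRelation_of_sum_smul_eq_zero hrel)
    have hm0 : m = ∑ j, b 0 j • z j := hxz 0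
    rw [hm0]
    refine Submodule.sum_mem _ fun j _ => Submodule.smul_mem_smul ?_ trivial
    apply h2
    have h5 := hb j
    rw [Fin.sum_univ_succ] at h5
    simp only [f, Fin.cons_zero, Fin.cons_succ, neg_mul, Finset.sum_neg_distrib] at h5
    rw [add_neg_eq_zero] at h5
    rw [h5]
    exact Ideal.sum_mem _ fun i _ => Ideal.mul_mem_right _ _ (ha i)

/-- `RegL` does not depend on the ring. -/
theorem regL_map_up {A B : Type*} [CommRing A] [CommRing B] [Algebra A B] {X : Type*}
    [AddCommGroup X] [Module A X] [Module B X] [IsScalarTower A B X] (l : List A)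
    (h : RegL X l) : RegL X (l.map (algebraMap A B)) := by
  induction l with
  | nil => trivial
  | cons x l ih =>
    refine ⟨ih h.1, ?_⟩
    intro m hm
    have e : Ideal.span {y | y ∈ l.map (algebraMap A B)} =
        (Ideal.span {y | y ∈ l}).map (algebraMap A B) := by
      rw [Ideal.map_span]
      congr 1
      ext y
      simp [List.mem_map]
    have key : ∀ m : X, m ∈ (Ideal.span {y | y ∈ l.map (algebraMap A B)} • (⊤ : Submodule B X)) ↔
        m ∈ (Ideal.span {y | y ∈ l} • (⊤ : Submodule A X)) := by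
      intro m
      rw [e]
      have h := Ideal.smul_restrictScalars (Ideal.span {y | y ∈ l}) (⊤ : Submodule B X)
      rw [Submodule.restrictScalars_top] at h
      rw [← h, Submodule.restrictScalars_mem]
    have hm' : (algebraMap A B x) • m ∈
        (Ideal.span {y | y ∈ l.map (algebraMap A B)} • (⊤ : Submodule B X)) := hm
    rw [key, algebraMap_smul] at hm'
    exact (key m).2 (h.2 m hm')

end regL

section stage

variable {p : ℕ} [Fact p.Prime]
variable {T B : Type u} (W Bi : Type u) [CommRing T] [CommRing B] [CommRing W]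
  [CommRing Bi] [CharP T p] [CharP B p] [CharP W p] [CharP Bi p] [PerfectRing W p]
  [PerfectRing Bi p] [Algebra T W] [Algebra B Bi] [IsPRadical (algebraMap T W) p]
  [IsPRadical (algebraMap B Bi) p] [Algebra B T] [Algebra Bi W] [Algebra B W]
  [IsScalarTower B Bi W] [IsScalarTower B T W]

include W in
/-- **The characteristic `p` stage** (abstract perfect closures). -/
theorem exists_stage_aux (D : TrData p B T) (hδ : ∀ t : T, D.δ • t = 0 → t = 0)
    {n : ℕ} (t : Fin n → B) (ht : ∀ k : ℕ, 0 < k → RegL B ((List.ofFn t).map (· ^ k)))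
    (hflat : Module.Flat B Bi) (w : Fin n → T) (𝔞 : Ideal T) (c : ℕ)
    (h𝔞 : 𝔞 ^ (c + 1) ≤ Ideal.span (Set.range w) * 𝔞 ^ c) (e : ℕ) (he : c < p ^ e) :
    Nonempty (Core.Stage T (T ⊗[B] Bi) w (fun i => algebraMap B T (t i))
      (algebraMap B T (D.δ ^ 2)) 𝔞 (p ^ e) (p ^ e - c)) := by
  let _ : Algebra (T ⊗[B] Bi) W := (mu W Bi).toRingHom.toAlgebra
  have hmu : ∀ s : T ⊗[B] Bi, algebraMap (T ⊗[B] Bi) W s = mu W Bi s := fun s => rfl
  have hT : ∀ x : T, algebraMap (T ⊗[B] Bi) W (algebraMap T (T ⊗[B] Bi) x) = algebraMap T W x := by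
    intro x
    rw [hmu, Algebra.TensorProduct.algebraMap_apply, mu_tmul, map_one, mul_one]
    rfl
  have hB : ∀ b : B, algebraMap (T ⊗[B] Bi) W (algebraMap T (T ⊗[B] Bi) (algebraMap B T b)) =
      algebraMap Bi W (algebraMap B Bi b) := by
    intro b
    rw [hT, ← IsScalarTower.algebraMap_apply, IsScalarTower.algebraMap_apply B Bi W]
  have hdl0 : ∀ x : W, algebraMap Bi W (algebraMap B Bi D.δ) * x = 0 → x = 0 := by
    intro x hx
    apply D.dl_reg W Bi hδ 0 x
    rw [D.dl_zero Bi]
    exact hx
  have hflatX : Module.Flat B (D.X W Bi) := by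
    have h1 := D.flat_X W Bi hδ
    exact Module.Flat.trans B Bi (D.X W Bi)
  refine ⟨{
    C := W
    X := D.X W Bi
    Y := fun i => rt p e (algebraMap T W (w i))
    hY := ?_
    c := 1
    hc := one_pos
    x := fun _ => ⟨algebraMap Bi W (algebraMap B Bi D.δ), 0, by rw [D.dl_zero Bi]⟩
    hΔ := ?_
    hker := ?_
    reg := ?_
    amp := ?_ }⟩
  · intro i
    rw [rt_pow, hT]
  · intro y
    obtain ⟨s, hs⟩ := D.exists_mu_eq W Bi (y : W)
    refine ⟨fun _ => s, ?_⟩
    apply Subtype.ext
    rw [Fin.sum_univ_one, hB, hmu, hs]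
    simp only [SetLike.val_smul, smul_eq_mul, map_pow]
    ring
  · intro v hv i
    rw [Fin.sum_univ_one] at hv
    have hv' := congrArg Subtype.val hv
    simp only [SetLike.val_smul, smul_eq_mul, ZeroMemClass.coe_zero] at hv'
    rw [mul_comm] at hv'
    have h1 := hdl0 _ hv'
    have h2 := D.smul_eq_zero_of_mu_eq_zero W Bi (v 0) h1
    have hi : i = 0 := Subsingleton.elim _ _
    rw [hi]
    have h3 : algebraMap T (T ⊗[B] Bi) (algebraMap B T D.δ) * v 0 = D.δ • v 0 := by
      rw [Algebra.smul_def, IsScalarTower.algebraMap_apply B T (T ⊗[B] Bi)]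
    rw [map_pow, map_pow, pow_two, mul_assoc, h3, h2, mul_zero]
  · intro k hk
    have h1 : RegL (D.X W Bi) ((List.ofFn t).map (· ^ k)) := regL_of_flat _ (ht k hk)
    have h2 := regL_map_up (B := W) _ h1
    convert h2 using 1
    rw [List.map_ofFn, List.map_ofFn, List.map_ofFn]
    congr 1
    funext i
    simp only [Function.comp_apply]
    rw [hT, map_pow, ← IsScalarTower.algebraMap_apply]
  · intro a ha y
    rw [hT]
    refine Submodule.smul_mem_smul ?_ trivial
    refine amplifier (W := W) 𝔞 w c h𝔞 e (p ^ e - c) (by omega) ?_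
    exact Ideal.mem_map_of_mem _ ha

end stage

section stageBInf

variable {p : ℕ} [hp : Fact p.Prime]
variable {T B : Type u} [CommRing T] [CommRing B] [CharP T p] [CharP B p] [Algebra B T]

/-- **The characteristic `p` stage.** -/
theorem exists_stage (D : TrData p B T) (hδ : ∀ t : T, D.δ • t = 0 → t = 0)
    {n : ℕ} (t : Fin n → B) (ht : ∀ k : ℕ, 0 < k → RegL B ((List.ofFn t).map (· ^ k)))
    (hPB : PBasis p t) (w : Fin n → T) (𝔞 : Ideal T) (c : ℕ)
    (h𝔞 : 𝔞 ^ (c + 1) ≤ Ideal.span (Set.range w) * 𝔞 ^ c) (e : ℕ) (he : c < p ^ e) :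
    Nonempty (Core.Stage T (T ⊗[B] (BInf p t)) w (fun i => algebraMap B T (t i))
      (algebraMap B T (D.δ ^ 2)) 𝔞 (p ^ e) (p ^ e - c)) := by
  have _ : PerfectRing (BInf p t) p := perfectRing_BInf t hPB
  have _ : IsPRadical (algebraMap B (BInf p t)) p := isPRadical_BInf t
  let _ : Algebra T (PerfectClosure T p) := (PerfectClosure.of T p).toAlgebra
  have _ : IsPRadical (algebraMap T (PerfectClosure T p)) p := PerfectClosure.isPRadical T p
  let _ : Algebra B (PerfectClosure T p) := ((PerfectClosure.of T p).comp (algebraMap B T)).toAlgebra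
  have _ : IsScalarTower B T (PerfectClosure T p) := IsScalarTower.of_algebraMap_eq fun x => rfl
  let _ : Algebra (BInf p t) (PerfectClosure T p) :=
    (PerfectRing.lift (algebraMap B (BInf p t)) (algebraMap B (PerfectClosure T p)) p).toAlgebra
  have _ : @IsScalarTower B (BInf p t) (PerfectClosure T p) Algebra.toSMul Algebra.toSMul
      Algebra.toSMul :=
    IsScalarTower.of_algebraMap_eq fun x => (PerfectRing.lift_comp_apply _ _ p x).symm
  exact exists_stage_aux (PerfectClosure T p) (BInf p t) D hδ t ht inferInstance w 𝔞 c h𝔞 e he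

end stageBInf

end Crest.Agent.R183.PC
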