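/-
R183 (Lech), INSEP, helper499's (A): the stages over `T₁ = R₁ ⊗_{A^(1/q)} K[[X]]^(1/q)`.
helper811
-/
import Crest.Agent.R183.PI0
import Crest.Agent.R183.PC5
import Crest.Agent.R183.RegPS
import Crest.Agent.R183.CoreA
import Crest.Agent.R183.BInf3b

set_option autoImplicit false

namespace Crest.Agent.R183.PI

open TensorProduct IsLocalRing
open Crest.Agent.R183.Glue Crest.Agent.R183.BInf Crest.Agent.R183.PC
open scoped ENNReal

universe u

section

variable (p : ℕ) [hp : Fact p.Prime] {n e : ℕ} {K : Type u} [Field K] [CharP K p]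
  [PerfectRing K p] [CharP (MvPowerSeries (Fin n) K) p]

/-- The variables of `K[[X]]^(1/q)`. -/
noncomputable abbrev frX (p e : ℕ) {n : ℕ} {K : Type u} [Field K] (i : Fin n) :
    Fr p e (MvPowerSeries (Fin n) K) :=
  Fr.of p e _ (MvPowerSeries.X i)

omit [CharP (MvPowerSeries (Fin n) K) p] in
theorem pBasis_fr : PC.PBasis p (frX (K := K) (n := n) p e) :=
  (pBasis_mvPowerSeries (d := n) (p := p) (K := K))

omit hp [CharP K p] [PerfectRing K p] [CharP (MvPowerSeries (Fin n) K) p] in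
theorem regL_fr (k : ℕ) : RegL (Fr p e (MvPowerSeries (Fin n) K))
    ((List.ofFn (frX (K := K) (n := n) p e)).map (· ^ k)) :=
  (regL_mvPowerSeries (n := n) (R := K) k)

omit hp [CharP K p] [PerfectRing K p] [CharP (MvPowerSeries (Fin n) K) p] in
theorem frX_mem (i : Fin n) :
    frX (K := K) (n := n) p e i ∈ maximalIdeal (Fr p e (MvPowerSeries (Fin n) K)) := by
  have h : (MvPowerSeries.X i : MvPowerSeries (Fin n) K) ∈
      maximalIdeal (MvPowerSeries (Fin n) K) := by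
    rw [mem_maximalIdeal, mem_nonunits_iff, MvPowerSeries.isUnit_iff_constantCoeff,
      MvPowerSeries.constantCoeff_X]
    exact not_isUnit_zero
  exact h

/-- the length on `T₁ ⊗_B B_∞`, abstractly. -/
theorem exists_To_aux {B T₁ Bi : Type u} [CommRing B] [CommRing T₁] [CommRing Bi]
    [Algebra B T₁] [Algebra B Bi] (Λ₀ : AddLen.{u, u} Bi) (hcont : WG.Cont Λ₀)
    (hΛ : ∀ (To : Type u) [CommRing To] [Algebra T₁ To] [Algebra B To] [Algebra Bi To]
      [IsScalarTower B T₁ To] [IsScalarTower B Bi To] [Algebra.IsPushout B Bi T₁ To]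
      (I : Ideal T₁), (Λ₀.restrict (algebraMap Bi To)).L (To ⧸ I.map (algebraMap T₁ To)) =
        ((Module.length T₁ (T₁ ⧸ I) : ℕ∞) : ℝ≥0∞)) :
    ∃ Λ : AddLen.{u, u} (T₁ ⊗[B] Bi), WG.Cont Λ ∧
      ∀ I : Ideal T₁, Λ.L ((T₁ ⊗[B] Bi) ⧸ I.map (algebraMap T₁ (T₁ ⊗[B] Bi))) =
          ((Module.length T₁ (T₁ ⧸ I) : ℕ∞) : ℝ≥0∞) := by
  let _ : Algebra Bi (T₁ ⊗[B] Bi) := Algebra.TensorProduct.rightAlgebra
  refine ⟨Λ₀.restrict (algebraMap Bi (T₁ ⊗[B] Bi)), Core.cont_restrict _ hcont _, ?_⟩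
  intro I
  exact hΛ (T₁ ⊗[B] Bi) I

/-- **The stages over `T₁`** (helper499's (A)). -/
theorem stage_T1 {A1 R1 T1 : Type u} [CommRing A1] [CommRing R1] [CommRing T1] [IsDomain R1]
    [IsLocalRing T1] [IsNoetherianRing T1] [CharP T1 p] [Algebra A1 R1]
    [Algebra A1 (Fr p e (MvPowerSeries (Fin n) K))] [Algebra (Fr p e (MvPowerSeries (Fin n) K)) T1]
    [Algebra R1 T1] [Algebra A1 T1] [IsScalarTower A1 R1 T1]
    [IsScalarTower A1 (Fr p e (MvPowerSeries (Fin n) K)) T1]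
    [hPO : Algebra.IsPushout A1 R1 (Fr p e (MvPowerSeries (Fin n) K)) T1]
    (hfl : Module.Flat R1 T1) (D : PC.TrData p A1 R1) (hD : algebraMap A1 R1 D.δ ≠ 0)
    (hres : ∀ x : T1, ∃ b : Fr p e (MvPowerSeries (Fin n) K),
      x - algebraMap (Fr p e (MvPowerSeries (Fin n) K)) T1 b ∈ maximalIdeal T1) :
    ∃ (To : Type u) (_ : CommRing To) (_ : Algebra T1 To) (Λ : AddLen.{u, u} To),
      WG.Cont Λ ∧
      (∀ I : Ideal T1, Module.length T1 (T1 ⧸ I) ≠ ⊤ →
        Λ.L (To ⧸ I.map (algebraMap T1 To)) = ((Module.length T1 (T1 ⧸ I) : ℕ∞) : ℝ≥0∞)) ∧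
      ∀ (w : Fin n → T1) (𝔞 : Ideal T1) (c : ℕ),
        𝔞 ^ (c + 1) ≤ Ideal.span (Set.range w) * 𝔞 ^ c → ∀ e', c < p ^ e' →
        Nonempty (Core.Stage T1 To w
          (fun i => algebraMap (Fr p e (MvPowerSeries (Fin n) K)) T1
            (Fr.of p e _ (MvPowerSeries.X i)))
          (algebraMap A1 T1 (D.δ ^ 2)) 𝔞 (p ^ e') (p ^ e' - c)) := by
  have hbc : IsBaseChange (Fr p e (MvPowerSeries (Fin n) K))
      (IsScalarTower.toAlgHom A1 R1 T1).toLinearMap := (Algebra.IsPushout.symm hPO).out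
  let D' := D.baseChange (Fr p e (MvPowerSeries (Fin n) K)) T1 hbc
  have hD'δ : D'.δ = algebraMap A1 (Fr p e (MvPowerSeries (Fin n) K)) D.δ := rfl
  have hδ : ∀ t : T1, D'.δ • t = 0 → t = 0 := by
    intro t ht
    rw [hD'δ, Algebra.smul_def, ← IsScalarTower.algebraMap_apply,
      IsScalarTower.algebraMap_apply A1 R1 T1, ← Algebra.smul_def] at ht
    have h2 : IsSMulRegular T1 (algebraMap A1 R1 D.δ) := Module.Flat.isSMulRegular_of_isRegular
      (M := T1) (IsRegular.of_ne_zero hD)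
    apply h2
    show algebraMap A1 R1 D.δ • t = algebraMap A1 R1 D.δ • (0 : T1)
    rw [ht, smul_zero]
  obtain ⟨Λ, hΛ1, hΛ2⟩ := exists_To_aux (B := Fr p e (MvPowerSeries (Fin n) K)) (T₁ := T1)
    (AddLen.ofTower (tower p (frX (K := K) (n := n) p e) hp.out.pos)) (Core.cont_ofTower _)
    (fun To _ _ _ _ _ _ _ I => L_quot_pushout p (frX (K := K) (n := n) p e) hp.out.pos
      (fun i => frX_mem p i) hres I)
  refine ⟨_, inferInstance, inferInstance, Λ, hΛ1, fun I _ => hΛ2 I, ?_⟩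
  intro w 𝔞 c hc e' he'
  have h1 := exists_stage D' hδ (frX (K := K) (n := n) p e) (fun k _ => regL_fr p k)
    (pBasis_fr (K := K) (n := n) p) w 𝔞 c hc e' he'
  have h2 : algebraMap (Fr p e (MvPowerSeries (Fin n) K)) T1 (D'.δ ^ 2) =
      algebraMap A1 T1 (D.δ ^ 2) := by
    rw [hD'δ, ← map_pow, ← IsScalarTower.algebraMap_apply]
  rw [h2] at h1
  exact h1

end

end Crest.Agent.R183.PI
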