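import Crest.Agent.R183.RD10

/-!
# R183 (Lech), INSEP, file b (helper680): the finite map `K[[x]] → S` and the local ring `T₁`
-/

set_option autoImplicit false
set_option linter.unusedSectionVars false

namespace Crest.Agent.R183.PI

open IsLocalRing MvPowerSeries Crest.Agent.R183.M Crest.Agent.R183.Cohen Crest.Agent.R183.RD

section B1

/-- **(B1)** `K[[x_1..x_d]] → S` finite injective with given parameters. -/
theorem exists_phi {A R T S : Type*} {K : Type*} [Field K] {n : ℕ}
    [CommRing A] [CommRing R]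
    [CommRing T] [CommRing S] [Algebra A R] [Algebra A (MvPowerSeries (Fin n) K)] [Algebra A T]
    [Algebra R T] [Algebra (MvPowerSeries (Fin n) K) T] [Algebra R S]
    [IsLocalRing A] [IsLocalRing R] [IsLocalRing T] [IsLocalRing S]
    [IsNoetherianRing S] [IsAdicComplete (maximalIdeal S) S]
    {g : ℕ} {π : T →+* S} {Y : ℕ → T}
    (h : IsCohenFact A R (MvPowerSeries (Fin n) K) T S g π Y)
    {d : ℕ} (hd : ringKrullDim S = (d : ℕ)) (zs : Fin d → S) (hz : ∀ i, zs i ∈ maximalIdeal S)
    {c : ℕ} (hc : maximalIdeal S ^ c ≤ Ideal.span (Set.range zs)) :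
    ∃ φ : MvPowerSeries (Fin d) K →+* S, (∀ i, φ (X i) = zs i) ∧ φ.Finite ∧
      Function.Injective φ ∧ ∀ x : S, ∃ a, x - φ a ∈ maximalIdeal S := by
  let ρ : MvPowerSeries (Fin n) K →+* S := π.comp (algebraMap (MvPowerSeries (Fin n) K) T)
  have hρ : Function.Surjective ρ := h.surjective'
  have hρl : IsLocalHom ρ := IsLocalHom.of_surjective _ hρ
  let γ : K →+* S := ρ.comp C
  have hres : ∀ x : S, ∃ a : K, x - γ a ∈ maximalIdeal S := by
    intro x
    obtain ⟨f, rfl⟩ := hρ x
    refine ⟨constantCoeff f, ?_⟩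
    show ρ f - ρ (C (constantCoeff f)) ∈ maximalIdeal S
    rw [← map_sub]
    refine mem_maximalIdeal_of_local ρ hρl ?_
    rw [mem_maximalIdeal_mv_iff]
    simp
  have hfin : ((residue S).comp γ).Finite := by
    refine RingHom.Finite.of_surjective _ fun x => ?_
    obtain ⟨y, rfl⟩ := residue_surjective x
    obtain ⟨a, ha⟩ := hres y
    refine ⟨a, ?_⟩
    rw [← residue_eq_zero_iff, map_sub, sub_eq_zero] at ha
    exact ha.symm
  obtain ⟨h1, h2⟩ := noether_equal γ hfin hd zs hz hc
  refine ⟨psEval (maximalIdeal S) γ zs hz, fun i => by rw [psEval_X], h2, h1, fun x => ?_⟩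
  obtain ⟨a, ha⟩ := hres x
  exact ⟨C a, by rw [psEval_C]; exact ha⟩

end B1

section B2

variable (A1 R1 A1' T1 : Type*) [CommRing A1] [CommRing R1] [CommRing A1'] [CommRing T1]
  [Algebra A1 R1] [Algebra A1 A1'] [Algebra A1 T1] [Algebra R1 T1] [Algebra A1' T1]
  [IsScalarTower A1 R1 T1] [IsScalarTower A1 A1' T1] [Algebra.IsPushout A1 R1 A1' T1]

include A1 R1 in
/-- **(B2)** the pushout `T₁` is local Noetherian with the residue field of `A₁'`. -/
theorem isLocalRing_T1 [IsLocalRing A1] [IsLocalRing R1] [IsLocalRing A1'] [IsNoetherianRing A1']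
    [Module.Finite A1 R1] (hloc : IsLocalHom (algebraMap A1 A1'))
    (hres : ∀ r : R1, ∃ a : A1, r - algebraMap A1 R1 a ∈ maximalIdeal R1) :
    ∃ _ : IsLocalRing T1, IsNoetherianRing T1 ∧
      (∀ x : T1, ∃ a : A1', x - algebraMap A1' T1 a ∈ maximalIdeal T1) ∧
      maximalIdeal T1 = (maximalIdeal R1).map (algebraMap R1 T1) ⊔
        (maximalIdeal A1').map (algebraMap A1' T1) ∧
      IsLocalHom (algebraMap R1 T1) ∧ IsLocalHom (algebraMap A1' T1) := by
  have hlocR : IsLocalHom (algebraMap A1 R1) := by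
    have hmax : ((maximalIdeal R1).comap (algebraMap A1 R1)).IsMaximal :=
      Ideal.isMaximal_comap_of_isIntegral_of_isMaximal (maximalIdeal R1)
    have hcom := IsLocalRing.eq_maximalIdeal hmax
    exact ((local_hom_TFAE (algebraMap A1 R1)).out 0 4).2 hcom
  have hε : (maximalIdeal A1).map (algebraMap A1 A1') ≤ RingHom.ker (residue A1') := by
    rw [ker_residue, Ideal.map_le_iff_le_comap]
    exact ((local_hom_TFAE (algebraMap A1 A1')).out 0 3).1 hloc
  obtain ⟨χ, h1, h2⟩ := exists_fibre_hom (A := A1) (R := R1) (A' := A1') (T := T1) hres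
    (residue A1') hε
  have hπR : ∀ r ∈ maximalIdeal R1, χ (algebraMap R1 T1 r) ∈ maximalIdeal (ResidueField A1') := by
    intro r hr
    have : χ (algebraMap R1 T1 r) = 0 := h2 (Ideal.mem_map_of_mem _ hr)
    rw [this]
    exact Ideal.zero_mem _
  have hπA : ∀ r ∈ maximalIdeal A1', χ (algebraMap A1' T1 r) ∈
      maximalIdeal (ResidueField A1') := by
    intro r hr
    have h3 : χ (algebraMap A1' T1 r) = residue A1' r := RingHom.congr_fun h1 r
    rw [h3, (residue_eq_zero_iff r).2 hr]
    exact Ideal.zero_mem _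
  obtain ⟨hT, hm⟩ := isLocalRing_pushout (A := A1) (R := R1) (A' := A1') (T := T1) hres χ hπR hπA
  have hfin : Module.Finite A1' T1 := pushout_finite A1 R1 A1' T1
  refine ⟨hT, IsNoetherianRing.of_finite A1' T1, fun x => ?_, hm, ?_, ?_⟩
  · obtain ⟨a, ha⟩ := exists_sub_mem (A := A1) (R := R1) (A' := A1') hres x
    exact ⟨a, by rw [hm]; exact Ideal.mem_sup_left ha⟩
  · refine ((local_hom_TFAE (algebraMap R1 T1)).out 0 2).2 ?_
    rw [hm]; exact le_sup_left
  · refine ((local_hom_TFAE (algebraMap A1' T1)).out 0 2).2 ?_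
    rw [hm]; exact le_sup_right

end B2

end Crest.Agent.R183.PI
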