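import Crest.Agent.R183.RD10
import Crest.Agent.R183.CohenFieldZero

/-!
# R183, block RD (helper680), part 11: existence of the Cohen factorisation in characteristic `p`
-/

set_option autoImplicit false
set_option linter.unusedSectionVars false

namespace Crest.Agent.R183.RD

open TensorProduct IsLocalRing MvPowerSeries Crest.Agent.R183.M Crest.Agent.R183.Cohen

universe u v w

/-- lifting of homomorphisms from a field along surjections of complete Noetherian local rings of
characteristic `p` -/
theorem exists_lift_of_surjective_charP (p : ℕ) [Fact p.Prime] {k : Type*} [Field k]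
    {S T : Type*} [CommRing S] [CommRing T]
    [IsLocalRing S] [IsNoetherianRing S] [IsAdicComplete (maximalIdeal S) S] [Nontrivial T]
    (hpS : (p : S) = 0) (π : S →+* T) (hπ : Function.Surjective π) (c : k →+* T) :
    ∃ g : k →+* S, π.comp g = c := by
  have hKJ : RingHom.ker π ≤ maximalIdeal S := le_maximalIdeal (RingHom.ker_ne_top π)
  have hK : ∀ x : S, (∀ m : ℕ, x ∈ maximalIdeal S ^ m ⊔ RingHom.ker π) → x ∈ RingHom.ker π := by
    intro x hx
    have hH : IsHausdorff (maximalIdeal S) (S ⧸ RingHom.ker π) := inferInstance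
    rw [← Ideal.Quotient.eq_zero_iff_mem]
    refine hH.haus' _ fun n => ?_
    rw [SModEq.zero]
    have h1 := hx n
    obtain ⟨a, ha, b, hb, rfl⟩ := Submodule.mem_sup.1 h1
    rw [map_add, Ideal.Quotient.eq_zero_iff_mem.2 hb, add_zero]
    have h2 : Ideal.Quotient.mk (RingHom.ker π) a = a • (1 : S ⧸ RingHom.ker π) := by
      rw [Algebra.smul_def, mul_one]; rfl
    rw [h2]
    exact Submodule.smul_mem_smul ha Submodule.mem_top
  have hcS : CharP S p := (CharP.charP_iff_prime_eq_zero Fact.out).2 hpS
  have hpT : (p : T) = 0 := by rw [← map_natCast π, hpS, map_zero]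
  have hck : CharP k p := by
    refine (CharP.charP_iff_prime_eq_zero Fact.out).2 ?_
    apply c.injective
    rw [map_natCast, hpT, map_zero]
  let _ : Algebra (ZMod p) S := ZMod.algebra S p
  let _ : Algebra (ZMod p) k := ZMod.algebra k p
  let e := RingHom.quotientKerEquivOfSurjective hπ
  obtain ⟨g, hg⟩ := exists_lift_complete_of_formallySmooth (formallySmooth_zmod k p)
    (maximalIdeal S) (RingHom.ker π) hKJ hK
    (⟨e.symm.toRingHom.comp c, fun r => RingHom.congr_fun (RingHom.ext_zmod
      ((e.symm.toRingHom.comp c).comp (algebraMap (ZMod p) k))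
      (algebraMap (ZMod p) (S ⧸ RingHom.ker π))) r⟩ : k →ₐ[ZMod p] S ⧸ RingHom.ker π)
  refine ⟨g.toRingHom, ?_⟩
  ext x
  have h1 : Ideal.Quotient.mk (RingHom.ker π) (g x) = e.symm (c x) := AlgHom.congr_fun hg x
  have h2 : e (Ideal.Quotient.mk _ (g x)) = e (e.symm (c x)) := congrArg e h1
  rw [RingEquiv.apply_symm_apply] at h2
  exact h2

theorem flat_of_field {k Q : Type*} [Field k] [CommRing Q] (γ : k →+* Q) : γ.Flat := by
  let _ : Algebra k Q := γ.toAlgebra
  show Module.Flat k Q
  infer_instance

/-- **Cohen factorisation, characteristic `p`.** The images `z i` of the variables of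
`A = k[[X_1, …, X_d]]` in `R` form a (given) system of parameters. -/
theorem exists_equal_of_sop (p : ℕ) [Fact p.Prime] (d : ℕ) (R S : Type u) [CommRing R]
    [IsLocalRing R] [IsNoetherianRing R] [IsAdicComplete (maximalIdeal R) R]
    [CommRing S] [IsLocalRing S] [IsNoetherianRing S] [IsAdicComplete (maximalIdeal S) S]
    [Algebra R S] [IsLocalHom (algebraMap R S)] (hp : (p : R) = 0)
    (hd : ringKrullDim R = (d : ℕ)) (z : Fin d → R) (hz : ∀ i, z i ∈ maximalIdeal R) {c : ℕ}
    (hc : maximalIdeal R ^ c ≤ Ideal.span (Set.range z)) :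
    ∃ (g : ℕ)
      (_ : Algebra (MvPowerSeries (Fin d) (ResidueField R)) R)
      (_ : Algebra (MvPowerSeries (Fin d) (ResidueField R))
        (MvPowerSeries (Fin (d + g)) (ResidueField S)))
      (T : Type u) (_ : CommRing T) (_ : Algebra (MvPowerSeries (Fin d) (ResidueField R)) T)
      (_ : Algebra R T) (_ : Algebra (MvPowerSeries (Fin (d + g)) (ResidueField S)) T)
      (_ : IsScalarTower (MvPowerSeries (Fin d) (ResidueField R)) R T)
      (_ : IsScalarTower (MvPowerSeries (Fin d) (ResidueField R))
        (MvPowerSeries (Fin (d + g)) (ResidueField S)) T)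
      (_ : Algebra.IsPushout (MvPowerSeries (Fin d) (ResidueField R)) R
        (MvPowerSeries (Fin (d + g)) (ResidueField S)) T)
      (_ : IsLocalRing T) (_ : IsNoetherianRing T) (π : T →+* S),
      IsCohenFact (MvPowerSeries (Fin d) (ResidueField R)) R
        (MvPowerSeries (Fin (d + g)) (ResidueField S)) T S g π
        (fun j => algebraMap (MvPowerSeries (Fin (d + g)) (ResidueField S)) T
          (yvar d g (ResidueField S) j)) ∧
      Function.Injective (algebraMap (MvPowerSeries (Fin d) (ResidueField R)) R) ∧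
      (∀ i, algebraMap (MvPowerSeries (Fin d) (ResidueField R)) R (X i) = z i) ∧
      (∀ i, algebraMap (MvPowerSeries (Fin d) (ResidueField R))
        (MvPowerSeries (Fin (d + g)) (ResidueField S)) (X i) = X (Fin.castAdd g i)) := by
  have hpS : (p : S) = 0 := by rw [← map_natCast (algebraMap R S), hp, map_zero]
  obtain ⟨φ, hφ⟩ := exists_coefficientField_charP p R hp
  obtain ⟨w, hw⟩ := exists_coefficientField_charP p S hpS
  have hφl : IsLocalHom φ := inferInstance
  have hwloc : IsLocalHom w := inferInstance
  have hφres : ∀ x : R, ∃ c : ResidueField R, x - φ c ∈ maximalIdeal R := by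
    intro x
    refine ⟨residue R x, ?_⟩
    rw [← residue_eq_zero_iff, map_sub, hφ, sub_self]
  have hres : ((residue R).comp φ).Finite := by
    refine RingHom.Finite.of_surjective _ fun x => ⟨x, hφ x⟩
  obtain ⟨hinj, hfin⟩ := noether_equal φ hres hd z hz hc
  have hwsurj : Function.Surjective ((residue S).comp w) := fun x => ⟨x, hw x⟩
  obtain ⟨g, s, hs, hsgen⟩ := exists_gens S
  have hbot : maximalIdeal (ResidueField S) = ⊥ := IsLocalRing.maximalIdeal_eq_bot
  have hbotR : maximalIdeal (ResidueField R) = ⊥ := IsLocalRing.maximalIdeal_eq_bot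
  have hKc : IsAdicComplete (maximalIdeal (ResidueField S)) (ResidueField S) := by
    rw [hbot]; infer_instance
  let ψ : MvPowerSeries (Fin g) (ResidueField S) →+* S := psEval (maximalIdeal S) w s hs
  have hψ : Function.Surjective ψ := psEval_surjective w hwloc hwsurj s hs hsgen
  have hQc : IsAdicComplete (maximalIdeal (MvPowerSeries (Fin g) (ResidueField S)))
    (MvPowerSeries (Fin g) (ResidueField S)) := isAdicComplete_mv
  have hpK : (p : ResidueField S) = 0 := by
    rw [← map_natCast (residue S), hpS, map_zero]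
  have hpQ : (p : MvPowerSeries (Fin g) (ResidueField S)) = 0 := by
    have : C (σ := Fin g) (p : ResidueField S) = 0 := by rw [hpK, map_zero]
    rwa [map_natCast] at this
  obtain ⟨γ, hγ⟩ := exists_lift_of_surjective_charP p hpQ ψ hψ ((algebraMap R S).comp φ)
  have hγflat : γ.Flat := flat_of_field γ
  have hx0 : maximalIdeal (ResidueField S) = Ideal.span {0} := by
    rw [hbot, Ideal.span_singleton_eq_bot.2 rfl]
  have hc0 : maximalIdeal (ResidueField R) = Ideal.span {0} := by
    rw [hbotR, Ideal.span_singleton_eq_bot.2 rfl]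
  obtain ⟨i1, i2, T, i3, i4, i5, i6, i7, i8, i9, i10, i11, i12, i13, π, h1, h2, h3, h4, h5⟩ :=
    exists_T (R := R) (S := S) hx0 hc0 γ (by rw [map_zero, map_zero]) hγflat φ hφl hφres z hz
      hfin ψ hψ hγ (psEquiv d g (ResidueField S))
  have hYf : (fun j => algebraMap (MvPowerSeries (Fin (d + g)) (ResidueField S)) T
      ((psEquiv d g (ResidueField S)).symm
        (C (varSeq (ResidueField S) g j)))) =
      (fun j => algebraMap (MvPowerSeries (Fin (d + g)) (ResidueField S)) T
          (yvar d g (ResidueField S) j)) := by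
    funext j
    rw [psEquiv_symm_varSeq]
  rw [hYf] at h1
  refine ⟨g, i1, i2, T, i3, i4, i5, i6, i7, i8, i9, i12, i13, π, h1, ?_, ?_, ?_⟩
  · rw [h2]
    exact hinj
  · intro i
    rw [h2, psEval_X]
  · intro i
    rw [h3]
    show (psEquiv d g (ResidueField S)).symm (MvPowerSeries.map γ (X i)) = _
    rw [map_X, psEquiv_symm_X]

/-- **Cohen factorisation, characteristic `p`**, with the variables of `A'` a reduction of `m_T`. -/
theorem exists_equal (p : ℕ) [Fact p.Prime] (d : ℕ) (R S : Type u) [CommRing R]
    [IsLocalRing R] [IsNoetherianRing R] [IsAdicComplete (maximalIdeal R) R]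
    [Infinite (ResidueField R)]
    [CommRing S] [IsLocalRing S] [IsNoetherianRing S] [IsAdicComplete (maximalIdeal S) S]
    [Algebra R S] [IsLocalHom (algebraMap R S)] (hp : (p : R) = 0)
    (hd : ringKrullDim R = (d : ℕ)) :
    ∃ (g : ℕ)
      (_ : Algebra (MvPowerSeries (Fin d) (ResidueField R)) R)
      (_ : Algebra (MvPowerSeries (Fin d) (ResidueField R))
        (MvPowerSeries (Fin (d + g)) (ResidueField S)))
      (T : Type u) (_ : CommRing T) (_ : Algebra (MvPowerSeries (Fin d) (ResidueField R)) T)
      (_ : Algebra R T) (_ : Algebra (MvPowerSeries (Fin (d + g)) (ResidueField S)) T)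
      (_ : IsScalarTower (MvPowerSeries (Fin d) (ResidueField R)) R T)
      (_ : IsScalarTower (MvPowerSeries (Fin d) (ResidueField R))
        (MvPowerSeries (Fin (d + g)) (ResidueField S)) T)
      (_ : Algebra.IsPushout (MvPowerSeries (Fin d) (ResidueField R)) R
        (MvPowerSeries (Fin (d + g)) (ResidueField S)) T)
      (_ : IsLocalRing T) (_ : IsNoetherianRing T) (π : T →+* S) (c : ℕ),
      IsCohenFact (MvPowerSeries (Fin d) (ResidueField R)) R
        (MvPowerSeries (Fin (d + g)) (ResidueField S)) T S g π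
        (fun j => algebraMap (MvPowerSeries (Fin (d + g)) (ResidueField S)) T
          (yvar d g (ResidueField S) j)) ∧
      Function.Injective (algebraMap (MvPowerSeries (Fin d) (ResidueField R)) R) ∧
      (∀ i, algebraMap (MvPowerSeries (Fin d) (ResidueField R))
        (MvPowerSeries (Fin (d + g)) (ResidueField S)) (X i) = X (Fin.castAdd g i)) ∧
      (∀ i, algebraMap (MvPowerSeries (Fin (d + g)) (ResidueField S)) T (X i) ∈
        maximalIdeal T) ∧
      maximalIdeal R ^ (c + 1) = Ideal.span (Set.range fun i =>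
        algebraMap (MvPowerSeries (Fin d) (ResidueField R)) R (X i)) * maximalIdeal R ^ c ∧
      maximalIdeal T ^ (c + 1) = Ideal.span (Set.range fun i =>
        algebraMap (MvPowerSeries (Fin (d + g)) (ResidueField S)) T (X i)) *
          maximalIdeal T ^ c := by
  obtain ⟨z, hz, c, hc⟩ := HS.exists_minimal_reduction hd (I := maximalIdeal R) le_rfl
    (t := 1) (by rw [pow_one])
  obtain ⟨g, i1, i2, T, i3, i4, i5, i6, i7, i8, i9, i10, i11, π, h1, h2, h3, h4⟩ :=
    exists_equal_of_sop p d R S hp hd z hz (c := c + 1) (by rw [hc]; exact Ideal.mul_le_left)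
  have hw : (Fin.append (fun i => algebraMap R T (z i)) (fun j : Fin g =>
      algebraMap (MvPowerSeries (Fin (d + g)) (ResidueField S)) T
          (yvar d g (ResidueField S) j))) =
      fun i => algebraMap (MvPowerSeries (Fin (d + g)) (ResidueField S)) T (X i) := by
    funext i
    refine Fin.addCases (fun i => ?_) (fun j => ?_) i
    · rw [Fin.append_left, ← h3, ← h4,
        ← IsScalarTower.algebraMap_apply (MvPowerSeries (Fin d) (ResidueField R)) R T,
        ← IsScalarTower.algebraMap_apply (MvPowerSeries (Fin d) (ResidueField R))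
          (MvPowerSeries (Fin (d + g)) (ResidueField S)) T]
    · rw [Fin.append_right, yvar_apply]
  have hwm : ∀ i, algebraMap (MvPowerSeries (Fin (d + g)) (ResidueField S)) T (X i) ∈
        maximalIdeal T := by
    intro i
    rw [← congrFun hw i]
    refine Fin.addCases (fun i => ?_) (fun j => ?_) i
    · rw [Fin.append_left]
      exact h1.comap_maximalIdeal (hz i)
    · rw [Fin.append_right]
      exact h1.Y_mem j j.2
  refine ⟨g, i1, i2, T, i3, i4, i5, i6, i7, i8, i9, i10, i11, π, c, h1, h2, h4, hwm, ?_,
    le_antisymm ?_ ?_⟩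
  · have : (fun i => algebraMap (MvPowerSeries (Fin d) (ResidueField R)) R (X i)) = z :=
      funext h3
    rw [this, hc]
  · have := h1.reduction z c hc.le
    rwa [hw] at this
  · rw [pow_succ']
    refine Ideal.mul_mono_left ?_
    rw [Ideal.span_le]
    rintro _ ⟨i, rfl⟩
    exact hwm i

end Crest.Agent.R183.RD
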