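import Crest.Agent.R183.LocG
import Crest.Agent.R183.M6

/-!
# R183, block RE, part H: the localisation inequality in terms of `hs` and `Sg`
-/

set_option autoImplicit false

namespace Crest.Agent.R183.RE

open IsLocalRing Crest.Agent.R183.M

universe u

lemma Sg_zero_of {f : ℕ → ℕ} (hf : f 0 = 0) : Sg f 0 = 0 := by simp [Sg, hf]

lemma cast_Sg {f : ℕ → ℕ} (hf : f 0 = 0) (N : ℕ) :
    ((Sg f N : ℕ) : ℕ∞) = sg (fun k => (f k : ℕ∞)) N := by
  unfold Sg sg
  rw [Finset.sum_range_succ', hf, add_zero]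
  push_cast
  rfl

lemma cast_Sg_iterate {f : ℕ → ℕ} (hf : f 0 = 0) (r : ℕ) :
    Sg^[r] f 0 = 0 ∧ ∀ N, ((Sg^[r] f N : ℕ) : ℕ∞) = sg^[r] (fun k => (f k : ℕ∞)) N := by
  induction r with
  | zero => exact ⟨hf, fun _ => rfl⟩
  | succ r ih =>
    rw [Function.iterate_succ_apply']
    refine ⟨Sg_zero_of ih.1, fun N => ?_⟩
    rw [Function.iterate_succ_apply', cast_Sg ih.1, funext ih.2]

/-- Localisation inequality (RE), `ℕ`-valued version: `S` complete local, `q ≠ n` a prime with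
`dim S/q ≤ 1`. -/
theorem Sg_hs_localization_le (S : Type u) [CommRing S] [IsLocalRing S] [IsNoetherianRing S]
    [IsPrecomplete (maximalIdeal S) S] (q : Ideal S) [q.IsPrime] (hq : q ≠ maximalIdeal S)
    [Ring.KrullDimLE 1 (S ⧸ q)] :
    ∃ r : ℕ, ∀ N, Sg^[r + 1] (hs (Localization.AtPrime q) (Localization.AtPrime q)) N ≤
      Sg^[r] (hs S S) N := by
  obtain ⟨r, hr⟩ := localisation_inequality S q hq
  refine ⟨r, fun N => ?_⟩
  have h1 := (cast_Sg_iterate (hs_zero' (Localization.AtPrime q)) (r + 1)).2 N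
  have h2 := (cast_Sg_iterate (hs_zero' S) r).2 N
  have e1 : (fun k => ((hs (Localization.AtPrime q) (Localization.AtPrime q) k : ℕ) : ℕ∞)) =
      hf (Localization.AtPrime q) := funext fun k => coe_hs_self _ k
  have e2 : (fun k => ((hs S S k : ℕ) : ℕ∞)) = hf S := funext fun k => coe_hs_self _ k
  rw [e1] at h1
  rw [e2] at h2
  have := hr N
  rw [← h1, ← h2] at this
  exact_mod_cast this

end Crest.Agent.R183.RE
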