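import Mathlib
import Crest.Agent.R183.LocH
import Crest.Agent.R183.G5

/-!
# R183, block RE (helper715): reduction to equal dimension

Induction with completions and localisations: from `R → S` flat local with `dim S = dim R + f` to
`R → S'` flat local, `S'` complete, `dim S' = dim R`, with control of the Hilbert functions, given the
one-step localisation inequality (`StepHyp`).
-/

set_option autoImplicit false

namespace Crest.Agent.R183.Loc

open IsLocalRing Crest.Agent.R183.M

universe u v

/-- In a Noetherian local ring of dimension `f + 1` there is a prime of height `f` which is maximal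
among the non-maximal primes. -/
theorem exists_prime_covBy {F : Type*} [CommRing F] [IsLocalRing F] [IsNoetherianRing F] (f : ℕ)
    (hF : (maximalIdeal F).height = ((f + 1 : ℕ) : ℕ∞)) :
    ∃ q : Ideal F, q.IsPrime ∧ q < maximalIdeal F ∧
      (∀ q' : Ideal F, q'.IsPrime → q < q' → q' = maximalIdeal F) ∧ q.height = (f : ℕ∞) := by
  have h1 : ¬ (maximalIdeal F).height ≤ (f : ℕ∞) := by
    rw [hF]
    exact not_le.2 (by exact_mod_cast Nat.lt_succ_self f)
  rw [Ideal.height_le_iff_covBy] at h1
  push Not at h1
  obtain ⟨q, hq, hlt, hcov, hle⟩ := h1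
  refine ⟨q, hq, hlt, fun q' hq' hqq' => ?_, le_antisymm ?_ hle⟩
  · by_contra hne
    exact hcov q' hq' hqq' (lt_of_le_of_ne (le_maximalIdeal hq'.ne_top) hne)
  · have h2 : q.height + 1 ≤ (maximalIdeal F).height := Ideal.height_add_one_le_of_lt_of_isPrime hlt
    rw [hF] at h2
    have h3 : q.height + 1 ≤ (f : ℕ∞) + 1 := by simpa using h2
    exact (ENat.add_le_add_iff_right ENat.one_ne_top).1 h3

theorem ringKrullDim_quotient_eq_one {S : Type*} [CommRing S] [IsLocalRing S] (q : Ideal S)
    [hq : q.IsPrime] (hlt : q < maximalIdeal S)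
    (hcov : ∀ q' : Ideal S, q'.IsPrime → q < q' → q' = maximalIdeal S) :
    ringKrullDim (S ⧸ q) = 1 := by
  have hloc : IsLocalRing (S ⧸ q) := IsLocalRing.of_surjective' _ Ideal.Quotient.mk_surjective
  refine le_antisymm ?_ ?_
  · have h1 : Ring.KrullDimLE 1 (S ⧸ q) := by
      rw [Ring.krullDimLE_one_iff_of_isPrime_bot]
      intro I hI hIp
      have hc : (I.comap (Ideal.Quotient.mk q)).IsPrime := Ideal.comap_isPrime _ _
      have hle : q ≤ I.comap (Ideal.Quotient.mk q) := by
        intro x hx
        rw [Ideal.mem_comap, Ideal.Quotient.eq_zero_iff_mem.2 hx]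
        exact I.zero_mem
      have hne : q ≠ I.comap (Ideal.Quotient.mk q) := by
        intro he
        apply hI
        rw [eq_bot_iff]
        intro x hx
        obtain ⟨x, rfl⟩ := Ideal.Quotient.mk_surjective x
        have : x ∈ q := by rw [he]; exact hx
        rw [Ideal.Quotient.eq_zero_iff_mem.2 this]
        exact Ideal.zero_mem _
      have := hcov _ hc (lt_of_le_of_ne hle hne)
      have h2 : I = maximalIdeal (S ⧸ q) := by
        refine le_antisymm (le_maximalIdeal hIp.ne_top) ?_
        intro x hx
        obtain ⟨x, rfl⟩ := Ideal.Quotient.mk_surjective x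
        have h3 : x ∈ maximalIdeal S := by
          rw [mem_maximalIdeal] at hx ⊢
          exact fun hu => hx (hu.map _)
        rw [← this] at h3
        exact h3
      rw [h2]
      exact maximalIdeal.isMaximal _
    exact_mod_cast Ring.krullDimLE_iff.1 h1
  · by_contra hcon
    have h1 : ringKrullDim (S ⧸ q) ≤ 0 := by
      by_contra h0
      apply hcon
      have h0' := lt_of_not_ge h0
      have h5 := (ENat.WithBot.add_one_le_iff (n := 0)).2 (by exact_mod_cast h0')
      simpa using h5
    have h2 : Ring.KrullDimLE 0 (S ⧸ q) := Ring.krullDimLE_iff.2 (by exact_mod_cast h1)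
    have h3 : (⊥ : Ideal (S ⧸ q)).IsMaximal := Ring.krullDimLE_zero_iff.1 h2 ⊥ Ideal.isPrime_bot
    have h4 : q.IsMaximal := Ideal.Quotient.maximal_of_isField q
      ((Ring.isField_iff_maximal_bot).2 h3)
    exact hlt.ne (eq_maximalIdeal h4)

theorem exists_natCast_ringKrullDim (R : Type*) [CommRing R] [IsLocalRing R] [IsNoetherianRing R] :
    ∃ d : ℕ, ringKrullDim R = (d : WithBot ℕ∞) := by
  have h1 : (maximalIdeal R).height ≠ ⊤ := Ideal.height_ne_top_of_isPrime
  obtain ⟨d, hd⟩ := ENat.ne_top_iff_exists.1 h1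
  refine ⟨d, ?_⟩
  rw [← IsLocalRing.maximalIdeal_height_eq_ringKrullDim, ← hd]
  rfl

/-- (b2) A prime `q` containing `m S` with `dim S/q = 1` and `dim S_q = dim R + f` if
`dim S = dim R + f + 1`. -/
theorem exists_prime_step (R : Type u) (S : Type v) [CommRing R] [IsLocalRing R]
    [IsNoetherianRing R] [CommRing S] [IsLocalRing S] [IsNoetherianRing S] [Algebra R S]
    [Module.Flat R S] [IsLocalHom (algebraMap R S)] (f : ℕ)
    (hdim : ringKrullDim S = ringKrullDim R + ((f + 1 : ℕ) : WithBot ℕ∞)) :
    ∃ q : Ideal S, ∃ _ : q.IsPrime, (maximalIdeal R).map (algebraMap R S) ≤ q ∧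
      ringKrullDim (S ⧸ q) = 1 ∧
      ringKrullDim (Localization.AtPrime q) = ringKrullDim R + (f : WithBot ℕ∞) := by
  obtain ⟨d, hd⟩ := exists_natCast_ringKrullDim R
  have hle : (maximalIdeal R).map (algebraMap R S) ≤ maximalIdeal S := G.map_maximalIdeal_le R S
  set I := (maximalIdeal R).map (algebraMap R S) with hI
  have hnt : Nontrivial (S ⧸ I) := Ideal.Quotient.nontrivial_iff.2
    (fun h => (maximalIdeal.isMaximal S).ne_top (top_le_iff.1 (h ▸ hle)))
  have hloc : IsLocalRing (S ⧸ I) := IsLocalRing.of_surjective' _ Ideal.Quotient.mk_surjective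
  have h1 := ringKrullDim_eq_add_of_flat R S
  obtain ⟨g, hg⟩ := exists_natCast_ringKrullDim (S ⧸ I)
  rw [← hI, hdim, hg, hd] at h1
  have h2 : d + (f + 1) = d + g := by exact_mod_cast h1
  have h3 : (maximalIdeal (S ⧸ I)).height = ((f + 1 : ℕ) : ℕ∞) := by
    have h4 := IsLocalRing.maximalIdeal_height_eq_ringKrullDim (R := S ⧸ I)
    rw [hg] at h4
    have h5 : g = f + 1 := by omega
    rw [h5] at h4
    exact_mod_cast h4
  obtain ⟨q, hq, hlt, hcov, hht⟩ := exists_prime_covBy f h3
  have hmax : (maximalIdeal (S ⧸ I)).comap (Ideal.Quotient.mk I) = maximalIdeal S :=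
    eq_maximalIdeal (Ideal.comap_isMaximal_of_surjective _ Ideal.Quotient.mk_surjective)
  have hqI : I ≤ q.comap (Ideal.Quotient.mk I) := by
    intro x hx
    rw [Ideal.mem_comap, Ideal.Quotient.eq_zero_iff_mem.2 hx]
    exact q.zero_mem
  have hqp : (q.comap (Ideal.Quotient.mk I)).IsPrime := Ideal.comap_isPrime _ _
  have hinj := Ideal.comap_injective_of_surjective (Ideal.Quotient.mk I)
    Ideal.Quotient.mk_surjective
  refine ⟨q.comap (Ideal.Quotient.mk I), hqp, hqI, ?_, ?_⟩
  · refine ringKrullDim_quotient_eq_one _ ?_ ?_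
    · rw [← hmax]
      exact lt_of_le_of_ne (Ideal.comap_mono hlt.le) (fun h => hlt.ne (hinj h))
    · intro q' hq' hlt'
      have hIq' : I ≤ q' := hqI.trans hlt'.le
      have hker : RingHom.ker (Ideal.Quotient.mk I) ≤ q' := by rwa [Ideal.mk_ker]
      have h5 : (q'.map (Ideal.Quotient.mk I)).comap (Ideal.Quotient.mk I) = q' := by
        rw [Ideal.comap_map_of_surjective' _ Ideal.Quotient.mk_surjective, Ideal.mk_ker]
        exact sup_eq_left.2 hIq'
      have h6 : (q'.map (Ideal.Quotient.mk I)).IsPrime :=
        Ideal.map_isPrime_of_surjective Ideal.Quotient.mk_surjective hker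
      have h7 : q ≤ q'.map (Ideal.Quotient.mk I) := by
        have := Ideal.map_mono (f := Ideal.Quotient.mk I) hlt'.le
        rwa [Ideal.map_comap_of_surjective _ Ideal.Quotient.mk_surjective] at this
      have h8 : q ≠ q'.map (Ideal.Quotient.mk I) := by
        intro he
        rw [he, h5] at hlt'
        exact lt_irrefl _ hlt'
      have h9 := hcov _ h6 (lt_of_le_of_ne h7 h8)
      rw [← h5, h9, hmax]
  · have hlo : (q.comap (Ideal.Quotient.mk I)).LiesOver (maximalIdeal R) := by
      refine ⟨?_⟩
      rw [Ideal.under_def]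
      refine le_antisymm (Ideal.map_le_iff_le_comap.1 hqI) ?_
      exact le_maximalIdeal (Ideal.comap_ne_top _ hqp.ne_top)
    have h5 := Ideal.height_eq_height_add_of_liesOver_of_hasGoingDown (maximalIdeal R)
      (q.comap (Ideal.Quotient.mk I))
    rw [← hI, Ideal.map_comap_of_surjective _ Ideal.Quotient.mk_surjective, hht] at h5
    rw [IsLocalization.AtPrime.ringKrullDim_eq_height (q.comap (Ideal.Quotient.mk I)), h5,
      ← IsLocalRing.maximalIdeal_height_eq_ringKrullDim]
    rfl

theorem exists_completion_aux (R : Type u) [CommRing R] [IsLocalRing R]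
    (S : Type v) [CommRing S] [IsLocalRing S] [Algebra R S]
    [Module.Flat R S] [IsLocalHom (algebraMap R S)] (A : Type v) [CommRing A] [IsLocalRing A]
    [Algebra S A] [Module.Flat S A] [IsLocalHom (algebraMap S A)] :
    ∃ (_ : Algebra R A) (_ : Module.Flat R A), IsLocalHom (algebraMap R A) := by
  letI : Algebra R A := ((algebraMap S A).comp (algebraMap R S)).toAlgebra
  haveI : IsScalarTower R S A := IsScalarTower.of_algebraMap_eq fun x => rfl
  have hflat' : Module.Flat R A := Module.Flat.trans R S A
  have hl2 : IsLocalHom (algebraMap R A) := by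
    have : algebraMap R A = (algebraMap S A).comp (algebraMap R S) := rfl
    rw [this]
    infer_instance
  exact ⟨inferInstance, hflat', hl2⟩

/-- The completion of a flat local extension. -/
theorem exists_completion (R : Type u) [CommRing R] [IsLocalRing R]
    (S : Type v) [CommRing S] [IsLocalRing S] [IsNoetherianRing S] [Algebra R S]
    [Module.Flat R S] [IsLocalHom (algebraMap R S)] :
    ∃ (S' : Type v) (_ : CommRing S') (_ : IsLocalRing S') (_ : IsNoetherianRing S')
      (_ : IsAdicComplete (maximalIdeal S') S') (_ : Algebra R S') (_ : Module.Flat R S')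
      (_ : IsLocalHom (algebraMap R S')), ringKrullDim S' = ringKrullDim S ∧
        hs S' S' = hs S S := by
  let A := AdicCompletion (maximalIdeal S) S
  have hmA : (maximalIdeal S).map (algebraMap S A) = maximalIdeal A :=
    AdicCompletion.maximalIdeal_eq_map.symm
  have hcomp : IsAdicComplete (maximalIdeal A) A := by
    rw [← hmA]
    exact AdicCompletion.isAdicComplete_self (maximalIdeal S) (IsNoetherian.noetherian _)
  have hflat : Module.Flat S A := AdicCompletion.flat_of_isNoetherian _
  have hl1 : IsLocalHom (algebraMap S A) := G.isLocalHom_of_map_maximalIdeal hmA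
  obtain ⟨k1, k2, k3⟩ := exists_completion_aux R S A
  refine ⟨A, inferInstance, inferInstance, inferInstance, hcomp, k1, k2, k3, ?_, ?_⟩
  · exact G.ringKrullDim_eq_of_map_maximalIdeal hmA
  · exact (hs_eq_of_flat S A hmA).symm

/-- Reduction to equal dimension: from `R → S` flat local with `dim S = dim R + f` to
`R → S'` flat local, `S'` complete, `dim S' = dim R`, with `Sg^[r+f] H_{S'} ≤ Sg^[r] H_S`. -/
theorem exists_equidim (R : Type u) [CommRing R] [IsLocalRing R] [IsNoetherianRing R] (f : ℕ) :
    ∀ (S : Type v) [CommRing S] [IsLocalRing S] [IsNoetherianRing S] [Algebra R S]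
      [Module.Flat R S] [IsLocalHom (algebraMap R S)],
      ringKrullDim S = ringKrullDim R + (f : WithBot ℕ∞) →
      ∃ (S' : Type v) (_ : CommRing S') (_ : IsLocalRing S') (_ : IsNoetherianRing S')
        (_ : IsAdicComplete (maximalIdeal S') S') (_ : Algebra R S') (_ : Module.Flat R S')
        (_ : IsLocalHom (algebraMap R S')), ringKrullDim S' = ringKrullDim R ∧
          ∃ r : ℕ, ∀ N, Sg^[r + f] (hs S' S') N ≤ Sg^[r] (hs S S) N := by
  induction f with
  | zero =>
    intro S _ _ _ _ _ _ hdim
    obtain ⟨S', i1, i2, i3, i4, i5, i6, i7, h1, h2⟩ := exists_completion R S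
    refine ⟨S', i1, i2, i3, i4, i5, i6, i7, ?_, 0, fun N => ?_⟩
    · rw [h1, hdim]
      simp
    · rw [h2]
  | succ f ih =>
    intro S _ _ _ _ _ _ hdim
    obtain ⟨T, i1, i2, i3, i4, i5, i6, i7, h1, h2⟩ := exists_completion R S
    have hdim' : ringKrullDim T = ringKrullDim R + ((f + 1 : ℕ) : WithBot ℕ∞) := by rw [h1, hdim]
    obtain ⟨q, hq, hle, hq1, hq2⟩ := exists_prime_step R T f hdim'
    have hqne : q ≠ maximalIdeal T := by
      intro he
      subst he
      have h3 : ringKrullDim (T ⧸ maximalIdeal T) = 0 :=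
        ringKrullDim_eq_zero_of_isField (Ideal.Quotient.field (maximalIdeal T)).toIsField
      rw [h3] at hq1
      exact absurd hq1 (by norm_num)
    have hK : Ring.KrullDimLE 1 (T ⧸ q) := Ring.krullDimLE_iff.2 (by rw [hq1]; rfl)
    obtain ⟨r, hr⟩ := RE.Sg_hs_localization_le T q hqne
    -- `R → T_q`
    have hflat : Module.Flat R (Localization.AtPrime q) := Module.Flat.trans R T _
    have hunder : q.comap (algebraMap R T) = maximalIdeal R :=
      le_antisymm (le_maximalIdeal (Ideal.comap_ne_top _ hq.ne_top))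
        (Ideal.map_le_iff_le_comap.1 hle)
    have hloc : IsLocalHom (algebraMap R (Localization.AtPrime q)) := by
      apply ((IsLocalRing.local_hom_TFAE (algebraMap R (Localization.AtPrime q))).out 0 2).mpr
      rw [IsScalarTower.algebraMap_eq R T (Localization.AtPrime q), ← Ideal.map_map]
      rw [Ideal.map_le_iff_le_comap, ← Ideal.under_def,
        IsLocalization.AtPrime.under_maximalIdeal (Localization.AtPrime q) q]
      exact hle
    obtain ⟨S', j1, j2, j3, j4, j5, j6, j7, h3, r', hr'⟩ := ih (Localization.AtPrime q) hq2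
    refine ⟨S', j1, j2, j3, j4, j5, j6, j7, h3, r + r', fun N => ?_⟩
    have h4 : Sg^[r + r' + (f + 1)] (hs S' S') N ≤
        Sg^[r + 1 + r'] (hs (Localization.AtPrime q) (Localization.AtPrime q)) N := by
      have e1 : r + r' + (f + 1) = (r + 1) + (r' + f) := by ring
      rw [e1, Function.iterate_add_apply, Function.iterate_add_apply Sg (r + 1) r']
      exact Sg_iterate_mono hr' (r + 1) N
    have h5 : Sg^[r + 1 + r'] (hs (Localization.AtPrime q) (Localization.AtPrime q)) N ≤
        Sg^[r + r'] (hs T T) N := by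
      have e1 : r + 1 + r' = r' + (r + 1) := by ring
      have e2 : r + r' = r' + r := by ring
      rw [e1, e2, Function.iterate_add_apply, Function.iterate_add_apply Sg r' r]
      exact Sg_iterate_mono hr r' N
    rw [← h2]
    exact h4.trans h5

end Crest.Agent.R183.Loc
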