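import Crest.Agent.R183.G12
import Crest.Agent.R183.LocDim
import Crest.Agent.R183.M7

/-!
# R183 (Lech's conjecture, S0273): the top of the assembly

`result_of_core` : the statement S0273 follows from `Core`, i.e. Lech's inequality for flat local
homomorphisms `R → S` with `dim R = dim S = d`, `R` a complete Noetherian local domain with infinite
residue field and `S` a complete Noetherian local ring with algebraically closed residue field.

`result_of_cases` : the same from the three cases (residue characteristic `0`; `p = 0` in `R`;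
residue characteristic `p` and `p ≠ 0` in `R`), `d ≥ 1`.

`lechC_of_coreEqual` : Lech's inequality for ALL flat local homomorphisms of rings with `p = 0`
from `CoreEqual p`.
-/

set_option autoImplicit false

namespace Crest.Agent.R183.Top

open IsLocalRing Crest.Agent.R183.M

universe u v

/-- Lech's inequality for pairs of complete local rings of the same dimension, `R` a domain, the
residue field of `S` algebraically closed. -/
def Core : Prop :=
  ∀ (d : ℕ) (R : Type u) (S : Type v) [CommRing R] [IsLocalRing R] [IsNoetherianRing R]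
    [IsDomain R] [IsAdicComplete (maximalIdeal R) R]
    [CommRing S] [IsLocalRing S] [IsNoetherianRing S]
    [IsAdicComplete (maximalIdeal S) S] [Algebra R S] [Module.Flat R S]
    [IsLocalHom (algebraMap R S)] [IsAlgClosed (ResidueField S)] [Infinite (ResidueField R)],
    ringKrullDim R = d → ringKrullDim S = d → LechC R S d d

/-- The core in equal characteristic `p > 0`, dimension `d + 1`. -/
def CoreEqual (p : ℕ) : Prop :=
  ∀ (d : ℕ) (R : Type u) (S : Type v) [CommRing R] [IsLocalRing R] [IsNoetherianRing R]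
    [IsDomain R] [IsAdicComplete (maximalIdeal R) R] [CharP R p]
    [CommRing S] [IsLocalRing S] [IsNoetherianRing S]
    [IsAdicComplete (maximalIdeal S) S] [Algebra R S] [Module.Flat R S]
    [IsLocalHom (algebraMap R S)] [IsAlgClosed (ResidueField S)] [Infinite (ResidueField R)],
    ringKrullDim R = ((d + 1 : ℕ) : WithBot ℕ∞) → ringKrullDim S = ((d + 1 : ℕ) : WithBot ℕ∞) →
      LechC R S (d + 1) (d + 1)

/-- The core in mixed characteristic `(0, p)`, dimension `d + 1`. -/
def CoreMixed (p : ℕ) : Prop :=
  ∀ (d : ℕ) (R : Type u) (S : Type v) [CommRing R] [IsLocalRing R] [IsNoetherianRing R]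
    [IsDomain R] [IsAdicComplete (maximalIdeal R) R]
    [CommRing S] [IsLocalRing S] [IsNoetherianRing S]
    [IsAdicComplete (maximalIdeal S) S] [Algebra R S] [Module.Flat R S]
    [IsLocalHom (algebraMap R S)] [IsAlgClosed (ResidueField S)] [Infinite (ResidueField R)],
    (p : R) ≠ 0 → (p : R) ∈ maximalIdeal R →
    ringKrullDim R = ((d + 1 : ℕ) : WithBot ℕ∞) → ringKrullDim S = ((d + 1 : ℕ) : WithBot ℕ∞) →
      LechC R S (d + 1) (d + 1)

/-- The core in residue characteristic `0`, dimension `d + 1`. -/
def CoreZero : Prop :=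
  ∀ (d : ℕ) (R : Type u) (S : Type v) [CommRing R] [IsLocalRing R] [IsNoetherianRing R]
    [IsDomain R] [IsAdicComplete (maximalIdeal R) R]
    [CommRing S] [IsLocalRing S] [IsNoetherianRing S]
    [IsAdicComplete (maximalIdeal S) S] [Algebra R S] [Module.Flat R S]
    [IsLocalHom (algebraMap R S)] [IsAlgClosed (ResidueField S)] [Infinite (ResidueField R)]
    [CharZero (ResidueField S)] [CharZero (ResidueField R)],
    ringKrullDim R = ((d + 1 : ℕ) : WithBot ℕ∞) → ringKrullDim S = ((d + 1 : ℕ) : WithBot ℕ∞) →
      LechC R S (d + 1) (d + 1)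

/-- Dimension zero. -/
theorem lechC_zero (R : Type u) (S : Type v) [CommRing R] [IsLocalRing R] [IsDomain R]
    [CommRing S] [IsLocalRing S] [IsNoetherianRing S]
    (hd : ringKrullDim R = 0) : LechC R S 0 0 := by
  have hR : maximalIdeal R = ⊥ := by
    have h1 : Ring.KrullDimLE 0 R := (Ring.krullDimLE_iff).2 hd.le
    exact (eq_maximalIdeal (Ideal.isPrime_bot.isMaximal')).symm
  have hR1 : ∀ N, 1 ≤ N → hs R R N = 1 := by
    intro N hN
    have h1 : maximalIdeal R ^ N = maximalIdeal R := by
      rw [hR, ← Ideal.zero_eq_bot, zero_pow (by omega)]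
    rw [hs_self, h1]
    have h2 : Module.length R (R ⧸ maximalIdeal R) = 1 := G.length_quotient_maximalIdeal
    rw [h2]; rfl
  have hS1 : ∀ N, 1 ≤ N → 1 ≤ hs S S N := by
    intro N hN
    rw [hs_self]
    have h1 : Module.length S (S ⧸ maximalIdeal S ^ N) ≠ ⊤ := HS.length_ne_top_of_pow_le le_rfl
    have h2 : Module.length S (S ⧸ maximalIdeal S ^ N) ≠ 0 := by
      rw [Ne, Module.length_eq_zero_iff, not_subsingleton_iff_nontrivial]
      refine Ideal.Quotient.nontrivial_iff.2 fun h => ?_
      have h3 : maximalIdeal S ^ N ≤ maximalIdeal S := Ideal.pow_le_self (by omega)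
      rw [h, top_le_iff] at h3
      exact (maximalIdeal.isMaximal S).ne_top h3
    have h3 : (Module.length S (S ⧸ maximalIdeal S ^ N)).toNat ≠ 0 := by
      rw [Ne, ENat.toNat_eq_zero, not_or]
      exact ⟨h2, h1⟩
    omega
  refine ⟨1, ?_, ?_⟩
  · intro ε hε
    filter_upwards [Filter.eventually_ge_atTop 1] with N hN
    rw [hR1 N hN]
    simp only [Nat.factorial_zero, Nat.cast_one, mul_one, pow_zero]
    linarith
  · intro ε hε
    filter_upwards [Filter.eventually_ge_atTop 1] with N hN
    have h1 : (1 : ℝ) ≤ hs S S N := by exact_mod_cast hS1 N hN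
    simp only [Nat.factorial_zero, Nat.cast_one, mul_one, pow_zero, one_mul]
    linarith

theorem core_of_cases (h0 : CoreZero.{u, v}) (h1 : ∀ p : ℕ, p.Prime → CoreEqual.{u, v} p)
    (h2 : ∀ p : ℕ, p.Prime → CoreMixed.{u, v} p) : Core.{u, v} := by
  intro d R S _ _ _ _ _ _ _ _ _ _ _ _ _ _ hd hd'
  rcases d with _ | d
  · exact lechC_zero R S hd
  obtain ⟨p, hp⟩ := CharP.exists (ResidueField S)
  rcases CharP.char_is_prime_or_zero (ResidueField S) p with hpp | rfl
  · have h3 : (p : R) ∈ maximalIdeal R := by
      rw [mem_maximalIdeal, mem_nonunits_iff]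
      intro h4
      have h5 : IsUnit (p : S) := by
        have := h4.map (algebraMap R S)
        rwa [map_natCast] at this
      have h6 : IsUnit ((p : ℕ) : ResidueField S) := by
        have := h5.map (residue S)
        rwa [map_natCast] at this
      rw [CharP.cast_eq_zero] at h6
      exact not_isUnit_zero h6
    by_cases h4 : (p : R) = 0
    · have : Fact p.Prime := ⟨hpp⟩
      have h5 : CharP R p := (CharP.charP_iff_prime_eq_zero hpp).2 h4
      exact h1 p hpp d R S hd hd'
    · exact h2 p hpp d R S h4 h3 hd hd'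
  · have h3 : CharZero (ResidueField S) := CharP.charP_to_charZero _
    have h4 : CharZero (ResidueField R) :=
      (ResidueField.map (algebraMap R S)).charZero
    exact h0 d R S hd hd'

/-- From the core to arbitrary flat local homomorphisms, general form: a property `P` of rings
inherited by algebras; `R` with infinite residue field. -/
theorem lechC_of_core_infinite (P : ∀ (R : Type u) [CommRing R], Prop)
    (hP : ∀ (R R₁ : Type u) [CommRing R] [CommRing R₁], (R →+* R₁) → P R → P R₁)
    (H : ∀ (d : ℕ) (R : Type u) (S : Type v) [CommRing R] [IsLocalRing R] [IsNoetherianRing R]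
      [IsDomain R] [IsAdicComplete (maximalIdeal R) R]
      [CommRing S] [IsLocalRing S] [IsNoetherianRing S]
      [IsAdicComplete (maximalIdeal S) S] [Algebra R S] [Module.Flat R S]
      [IsLocalHom (algebraMap R S)] [IsAlgClosed (ResidueField S)] [Infinite (ResidueField R)],
      P R → ringKrullDim R = d → ringKrullDim S = d → LechC R S d d)
    (R : Type u) (S : Type v) [CommRing R] [IsLocalRing R]
    [IsNoetherianRing R] [CommRing S] [IsLocalRing S] [IsNoetherianRing S] [Algebra R S]
    [Module.Flat R S] [IsLocalHom (algebraMap R S)] [Infinite (ResidueField R)]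
    (hR : P R) (d d' : ℕ)
    (hd : ringKrullDim R = d) (hd' : ringKrullDim S = d') : LechC R S d d' := by
  -- the dimension of the closed fibre
  have hne : (maximalIdeal R).map (algebraMap R S) ≠ ⊤ :=
    (IsLocalRing.map_maximalIdeal_lt_top (algebraMap R S)).ne
  have : Nontrivial (S ⧸ (maximalIdeal R).map (algebraMap R S)) :=
    Ideal.Quotient.nontrivial_iff.2 hne
  have : IsLocalRing (S ⧸ (maximalIdeal R).map (algebraMap R S)) :=
    IsLocalRing.of_surjective' _ Ideal.Quotient.mk_surjective
  obtain ⟨f, hf⟩ := Loc.exists_natCast_ringKrullDim (S ⧸ (maximalIdeal R).map (algebraMap R S))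
  have hdim := ringKrullDim_eq_add_of_flat R S
  rw [hf] at hdim
  have hdd : d' = d + f := by
    rw [hd', hd] at hdim
    exact_mod_cast hdim
  -- reduction to equal dimensions
  obtain ⟨S', _, _, _, _, _, _, _, hS', r, hr⟩ := Loc.exists_equidim R f S hdim
  -- normalisation and the core
  have hL : LechC R S' d d := G.lechC_of_normalized' R S' d d hd (hS'.trans hd)
    fun R₁ S₁ _ _ _ _ _ _ _ _ _ _ _ _ _ φ hφ h1 h2 => by
      have : Infinite (ResidueField R₁) :=
        Infinite.of_injective (ResidueField.map φ) (RingHom.injective _)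
      exact H d R₁ S₁ (hP R R₁ φ hR) h1 h2
  obtain ⟨c, hc, hc'⟩ := hL
  obtain ⟨e, heU, heL⟩ := exists_mult S hd'
  subst hdd
  exact ⟨e, hc.mono (le_of_Sg_iterate_le hr hc' heU), heL⟩

/-- From the core to arbitrary flat local homomorphisms, general form: a property `P` of rings
inherited by algebras. -/
theorem lechC_of_core' (P : ∀ (R : Type u) [CommRing R], Prop)
    (hP : ∀ (R R₁ : Type u) [CommRing R] [CommRing R₁], (R →+* R₁) → P R → P R₁)
    (H : ∀ (d : ℕ) (R : Type u) (S : Type v) [CommRing R] [IsLocalRing R] [IsNoetherianRing R]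
      [IsDomain R] [IsAdicComplete (maximalIdeal R) R]
      [CommRing S] [IsLocalRing S] [IsNoetherianRing S]
      [IsAdicComplete (maximalIdeal S) S] [Algebra R S] [Module.Flat R S]
      [IsLocalHom (algebraMap R S)] [IsAlgClosed (ResidueField S)] [Infinite (ResidueField R)],
      P R → ringKrullDim R = d → ringKrullDim S = d → LechC R S d d)
    (R : Type u) (S : Type v) [CommRing R] [IsLocalRing R]
    [IsNoetherianRing R] [CommRing S] [IsLocalRing S] [IsNoetherianRing S] [Algebra R S]
    [Module.Flat R S] [IsLocalHom (algebraMap R S)] (hR : P R) (d d' : ℕ)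
    (hd : ringKrullDim R = d) (hd' : ringKrullDim S = d') : LechC R S d d' := by
  let alg : Algebra (RX R) (RX S) := (RXmap R S).toAlgebra
  have i1 : Module.Flat (RX R) (RX S) := RXmap_flat R S
  have i2 : IsLocalHom (algebraMap (RX R) (RX S)) := RXmap_isLocalHom R S
  have h := lechC_of_core_infinite P hP H (RX R) (RX S) (hP R (RX R) (algebraMap R (RX R)) hR) d d'
    ((ringKrullDim_RX R).trans hd) ((ringKrullDim_RX S).trans hd')
  exact LechC.of_flat_left (hs_RX R).symm (LechC.of_flat_right (hs_RX S).symm h)

/-- From the core to arbitrary flat local homomorphisms. -/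
theorem lechC_of_core (H : Core.{u, v}) (R : Type u) (S : Type v) [CommRing R] [IsLocalRing R]
    [IsNoetherianRing R] [CommRing S] [IsLocalRing S] [IsNoetherianRing S] [Algebra R S]
    [Module.Flat R S] [IsLocalHom (algebraMap R S)] (d d' : ℕ) (hd : ringKrullDim R = d)
    (hd' : ringKrullDim S = d') : LechC R S d d' :=
  lechC_of_core' (fun _ _ => True) (fun _ _ _ _ _ _ => trivial)
    (fun d R S _ _ _ _ _ _ _ _ _ _ _ _ _ _ _ h1 h2 => H d R S h1 h2) R S trivial d d' hd hd'

/-- Lech's inequality for all flat local homomorphisms in equal characteristic `p`. -/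
theorem lechC_of_coreEqual (p : ℕ) (hp : p.Prime) (H : CoreEqual.{u, v} p) (R : Type u)
    (S : Type v) [CommRing R] [IsLocalRing R]
    [IsNoetherianRing R] [CommRing S] [IsLocalRing S] [IsNoetherianRing S] [Algebra R S]
    [Module.Flat R S] [IsLocalHom (algebraMap R S)] (hR : (p : R) = 0) (d d' : ℕ)
    (hd : ringKrullDim R = d) (hd' : ringKrullDim S = d') : LechC R S d d' :=
  lechC_of_core' (fun R _ => (p : R) = 0)
    (fun R R₁ _ _ φ h => by
      have := congrArg φ h
      rwa [map_natCast, map_zero] at this)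
    (fun d R S _ _ _ _ _ _ _ _ _ _ _ _ _ _ h h1 h2 => by
      rcases d with _ | d
      · exact lechC_zero R S h1
      have h5 : CharP R p := (CharP.charP_iff_prime_eq_zero hp).2 h
      exact H d R S h1 h2) R S hR d d' hd hd'

/-- The statement of S0273 from the core. -/
theorem result_of_core (H : Core.{0, 0}) (R S : Type) [CommRing R]
    [CommRing S] [IsNoetherianRing R] [IsNoetherianRing S] [IsLocalRing R] [IsLocalRing S]
    (f : R →+* S) (hf : IsLocalHom f) (hflat : f.Flat) (d d' : ℕ) (hd : ringKrullDim R = d)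
    (hd' : ringKrullDim S = d') (e e' : ℝ)
    (he : Filter.Tendsto (fun N : ℕ => (Nat.factorial d : ℝ) *
        ((Module.length R (R ⧸ IsLocalRing.maximalIdeal R ^ N)).toNat : ℝ) / (N : ℝ) ^ d)
      Filter.atTop (nhds e))
    (he' : Filter.Tendsto (fun N : ℕ => (Nat.factorial d' : ℝ) *
        ((Module.length S (S ⧸ IsLocalRing.maximalIdeal S ^ N)).toNat : ℝ) / (N : ℝ) ^ d')
      Filter.atTop (nhds e')) :
    e ≤ e' := by
  let alg : Algebra R S := f.toAlgebra
  have i1 : Module.Flat R S := hflat
  have i2 : IsLocalHom (algebraMap R S) := hf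
  exact le_of_LechC (lechC_of_core H R S d d' hd hd') he he'

/-- The statement of S0273 from the three cases. -/
theorem result_of_cases (h0 : CoreZero.{0, 0}) (h1 : ∀ p : ℕ, p.Prime → CoreEqual.{0, 0} p)
    (h2 : ∀ p : ℕ, p.Prime → CoreMixed.{0, 0} p) (R S : Type) [CommRing R]
    [CommRing S] [IsNoetherianRing R] [IsNoetherianRing S] [IsLocalRing R] [IsLocalRing S]
    (f : R →+* S) (hf : IsLocalHom f) (hflat : f.Flat) (d d' : ℕ) (hd : ringKrullDim R = d)
    (hd' : ringKrullDim S = d') (e e' : ℝ)
    (he : Filter.Tendsto (fun N : ℕ => (Nat.factorial d : ℝ) *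
        ((Module.length R (R ⧸ IsLocalRing.maximalIdeal R ^ N)).toNat : ℝ) / (N : ℝ) ^ d)
      Filter.atTop (nhds e))
    (he' : Filter.Tendsto (fun N : ℕ => (Nat.factorial d' : ℝ) *
        ((Module.length S (S ⧸ IsLocalRing.maximalIdeal S ^ N)).toNat : ℝ) / (N : ℝ) ^ d')
      Filter.atTop (nhds e')) :
    e ≤ e' :=
  result_of_core (core_of_cases h0 h1 h2) R S f hf hflat d d' hd hd' e e' he he'

end Crest.Agent.R183.Top
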