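/-
R183 (Lech): the core in equal characteristic `p`.
helper811
-/
import Crest.Agent.R183.CoreJ
import Crest.Agent.R183.PI4
import Crest.Agent.R183.PIa
import Crest.Agent.R183.PIb
import Crest.Agent.R183.Ins6
import Crest.Agent.R183.RD11
import Crest.Agent.R183.Cic
import Crest.Agent.R183.Top

set_option autoImplicit false

namespace Crest.Agent.R183.CoreK

open scoped ENNReal nonZeroDivisors
open Crest.Agent.R183 Crest.Agent.R183.PI Crest.Agent.R183.Ins
open IsLocalRing Crest.Agent.R183.M

universe u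

theorem charP_mv (p : ℕ) [Fact p.Prime] (n : ℕ) (K : Type u) [Field K] [CharP K p] :
    CharP (MvPowerSeries (Fin n) K) p :=
  charP_of_injective_ringHom (f := (MvPowerSeries.C : K →+* MvPowerSeries (Fin n) K))
    (RingHom.injective _) p

theorem lechC_fact (p : ℕ) [Fact p.Prime] {d g : ℕ} {k K R S T : Type u} [Field k] [Field K]
    [CharP k p] [CharP K p] [PerfectRing K p]
    [CommRing R] [IsLocalRing R] [IsNoetherianRing R] [IsDomain R] [CharP R p]
    [CommRing S] [IsLocalRing S] [IsNoetherianRing S] [IsAdicComplete (maximalIdeal S) S]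
    [Algebra R S] [Module.Flat R S] [IsLocalHom (algebraMap R S)] [Infinite (ResidueField S)]
    [CommRing T] [IsLocalRing T] [IsNoetherianRing T]
    [Algebra (MvPowerSeries (Fin d) k) R]
    [Algebra (MvPowerSeries (Fin d) k) (MvPowerSeries (Fin (d + g)) K)]
    [Algebra (MvPowerSeries (Fin d) k) T] [Algebra R T]
    [Algebra (MvPowerSeries (Fin (d + g)) K) T]
    [IsScalarTower (MvPowerSeries (Fin d) k) R T]
    [IsScalarTower (MvPowerSeries (Fin d) k) (MvPowerSeries (Fin (d + g)) K) T]
    [Algebra.IsPushout (MvPowerSeries (Fin d) k) R (MvPowerSeries (Fin (d + g)) K) T]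
    (π : T →+* S) (Y : ℕ → T)
    (h : RD.IsCohenFact (MvPowerSeries (Fin d) k) R (MvPowerSeries (Fin (d + g)) K) T S g π Y)
    (hinj : Function.Injective (algebraMap (MvPowerSeries (Fin d) k) R))
    (hX : ∀ i, algebraMap (MvPowerSeries (Fin d) k) (MvPowerSeries (Fin (d + g)) K)
      (MvPowerSeries.X i) = MvPowerSeries.X (Fin.castAdd g i))
    (hxm : ∀ i, algebraMap (MvPowerSeries (Fin (d + g)) K) T (MvPowerSeries.X i) ∈
        maximalIdeal T) (c : ℕ)
    (hredT : maximalIdeal T ^ (c + 1) = Ideal.span (Set.range fun i =>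
        algebraMap (MvPowerSeries (Fin (d + g)) K) T (MvPowerSeries.X i)) * maximalIdeal T ^ c)
    (hdR : ringKrullDim R = d) (hdS : ringKrullDim S = d) (hd0 : 0 < d) :
    LechC R S d d := by
  -- instances
  have c1 : CharP (MvPowerSeries (Fin d) k) p := charP_mv p d k
  have c2 : CharP (MvPowerSeries (Fin (d + g)) K) p := charP_mv p (d + g) K
  have c3 : CharP (MvPowerSeries (Fin g) K) p := charP_mv p g K
  have i1 := h.finite_R
  have i2 := h.flat_A'
  have i3 := h.flat_T
  have i4 := h.finite_T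
  have i5 := h.local_A'
  have i6 := h.local_T
  let _ : Algebra T S := π.toAlgebra
  have i7 : IsScalarTower R T S := IsScalarTower.of_algebraMap_eq fun r => by
    rw [← h.comp]; rfl
  have hinjT : Function.Injective (algebraMap (MvPowerSeries (Fin (d + g)) K) T) :=
    h.injective_A'T hinj
  have hsurj : Function.Surjective (algebraMap T S) := h.surjective
  -- trace data
  obtain ⟨e, he⟩ := RR.exists_trData p (MvPowerSeries (Fin d) k) R hinj
  obtain ⟨D, hD⟩ := he e le_rfl
  -- the rings
  obtain ⟨ρ, hρ, hker⟩ := exists_rho (k := k) (K := K) d g hX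
  obtain ⟨T1, _, _, _, _, _, _, po1, _, _, _, _, S1, _, _, _, _, _, _, po2, _, _, fl1, fl2, fin1,
    fin2, hrank⟩ := insep_rings p e (A := MvPowerSeries (Fin d) k) (R := R)
      (A' := MvPowerSeries (Fin (d + g)) K) (T := T) (S := S) h.res_R ρ hρ hker
  have j1 : Module.Finite (Fr p e (MvPowerSeries (Fin d) k)) (RR p e (MvPowerSeries (Fin d) k) R) :=
    RR.finite p e _ _
  have j2 : IsLocalRing (RR p e (MvPowerSeries (Fin d) k) R) := RR.isLocalRing p e _ _
  have j3 : Module.Flat (Fr p e (MvPowerSeries (Fin d) k))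
      (Fr p e (MvPowerSeries (Fin (d + g)) K)) :=
    inferInstanceAs (Module.Flat (MvPowerSeries (Fin d) k) (MvPowerSeries (Fin (d + g)) K))
  have hloc : IsLocalHom (algebraMap (Fr p e (MvPowerSeries (Fin d) k))
      (Fr p e (MvPowerSeries (Fin (d + g)) K))) := h.local_A'
  have hres1 : ∀ x : RR p e (MvPowerSeries (Fin d) k) R, ∃ a : Fr p e (MvPowerSeries (Fin d) k),
      x - algebraMap (Fr p e (MvPowerSeries (Fin d) k)) (RR p e (MvPowerSeries (Fin d) k) R) a ∈
        maximalIdeal (RR p e (MvPowerSeries (Fin d) k) R) :=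
    fun x => RR.exists_sub_mem p e _ _ h.res_R x
  obtain ⟨lT1, nT1, resT1, -, loc1, loc2⟩ := isLocalRing_T1 (Fr p e (MvPowerSeries (Fin d) k))
    (RR p e (MvPowerSeries (Fin d) k) R) (Fr p e (MvPowerSeries (Fin (d + g)) K)) T1
    hloc hres1
  have chT1 : CharP T1 p := by
    refine (CharP.charP_iff_prime_eq_zero Fact.out).2 ?_
    rw [← map_natCast (algebraMap (MvPowerSeries (Fin (d + g)) K) T1), CharP.cast_eq_zero, map_zero]
  -- injectivity
  have injA1 : Function.Injective (algebraMap (Fr p e (MvPowerSeries (Fin d) k))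
      (RR p e (MvPowerSeries (Fin d) k) R)) := by
    intro a b hab
    have h1 := congrArg (RR.val p e _ R) hab
    exact hinj h1
  have injA1' : Function.Injective (algebraMap (Fr p e (MvPowerSeries (Fin (d + g)) K)) T1) :=
    RD.injective_of_pushout (A := Fr p e (MvPowerSeries (Fin d) k))
      (R := RR p e (MvPowerSeries (Fin d) k) R) injA1
  have inj1 : Function.Injective (algebraMap (MvPowerSeries (Fin (d + g)) K) T1) := by
    rw [IsScalarTower.algebraMap_eq (MvPowerSeries (Fin (d + g)) K)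
      (Fr p e (MvPowerSeries (Fin (d + g)) K)) T1]
    refine injA1'.comp ?_
    exact FaithfulSMul.algebraMap_injective _ _
  -- residue field of `T₁` over `A'`
  have hresT1 : ∀ x : T1, ∃ a : MvPowerSeries (Fin (d + g)) K,
      x - algebraMap (MvPowerSeries (Fin (d + g)) K) T1 a ∈ maximalIdeal T1 := by
    intro x
    obtain ⟨b, hb⟩ := resT1 x
    let b0 : MvPowerSeries (Fin (d + g)) K := b
    let a0 : K := (iterateFrobeniusEquiv K p e).symm (MvPowerSeries.constantCoeff b0)
    have ha0 : a0 ^ p ^ e = MvPowerSeries.constantCoeff b0 := by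
      rw [← iterateFrobenius_def, ← iterateFrobeniusEquiv_apply, RingEquiv.apply_symm_apply]
    refine ⟨MvPowerSeries.C a0, ?_⟩
    have h1 : b0 - MvPowerSeries.C (MvPowerSeries.constantCoeff b0) ∈
        maximalIdeal (MvPowerSeries (Fin (d + g)) K) := by
      rw [mem_maximalIdeal, mem_nonunits_iff, MvPowerSeries.isUnit_iff_constantCoeff, map_sub,
        MvPowerSeries.constantCoeff_C, sub_self]
      exact not_isUnit_zero
    have h2 : Fr.of p e _ (b0 - MvPowerSeries.C (MvPowerSeries.constantCoeff b0)) ∈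
        maximalIdeal (Fr p e (MvPowerSeries (Fin (d + g)) K)) := h1
    have h3 := RD.mem_maximalIdeal_of_local _ loc2 h2
    have h4 : algebraMap (MvPowerSeries (Fin (d + g)) K) (Fr p e (MvPowerSeries (Fin (d + g)) K))
        (MvPowerSeries.C a0) = Fr.of p e _ (MvPowerSeries.C (MvPowerSeries.constantCoeff b0)) := by
      rw [Fr.algebraMap_self, ← map_pow, ← map_pow, ha0]
    rw [map_sub, map_sub, ← h4, ← IsScalarTower.algebraMap_apply] at h3
    have h5 := add_mem hb h3
    have h6 : Fr.of p e (MvPowerSeries (Fin (d + g)) K) b0 = b := rfl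
    rw [h6, sub_add_sub_cancel] at h5
    exact h5
  -- parameters of `S`
  obtain ⟨zs, hzs, cs, hcs⟩ := HS.exists_minimal_reduction (R := S) hdS (I := maximalIdeal S) le_rfl
    (t := 1) (by rw [pow_one])
  obtain ⟨φ, hφX, hφf, hφi, hφr⟩ := exists_phi h hdS zs hzs (c := cs + 1)
    (by rw [hcs]; exact Ideal.mul_le_left)
  let _ : Algebra (MvPowerSeries (Fin d) K) S := φ.toAlgebra
  have k1 : Module.Finite (MvPowerSeries (Fin d) K) S := hφf
  let _ : Algebra (MvPowerSeries (Fin d) K) S1 := ((algebraMap S S1).comp φ).toAlgebra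
  have k2 : IsScalarTower (MvPowerSeries (Fin d) K) S S1 :=
    IsScalarTower.of_algebraMap_eq fun _ => rfl
  have hzX : (fun i : Fin d => algebraMap (MvPowerSeries (Fin d) K) S (MvPowerSeries.X i)) = zs :=
    funext hφX
  -- the stages
  obtain ⟨To, _, _, Λ, hcont, hΛ, hst⟩ := stage_T1 (p := p) (n := d + g) (e := e) (K := K)
    (A1 := Fr p e (MvPowerSeries (Fin d) k)) (R1 := RR p e (MvPowerSeries (Fin d) k) R)
    (T1 := T1) fl1 D (fun h0 => hD (injA1 (by rw [h0, map_zero]))) resT1
  have hδ : algebraMap (Fr p e (MvPowerSeries (Fin d) k)) (RR p e (MvPowerSeries (Fin d) k) R)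
      (D.δ ^ 2) ≠ 0 := by
    rw [map_pow]
    exact pow_ne_zero 2 (fun h0 => hD (injA1 (by rw [h0, map_zero])))
  refine CoreJ.lechC_of_rank (R1 := RR p e (MvPowerSeries (Fin d) k) R) (T1 := T1) (S1 := S1)
    (To := To) (n := d + g) (d := d) (g := g) (K := K) hsurj hdR (add_comm g d) hd0 Y
    (fun i hi => h.prime i hi) (fun i hi => h.notMem i hi) h.max hinjT h.res_T hredT hxm hφi hφr
    (cs := cs) (by rw [hzX]; exact hcs) (fun i => by rw [congrFun hzX i]; exact hzs i) inj1 hresT1
    (hrank (MvPowerSeries (Fin d) K)) Λ hcont hΛ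
    (fun i => algebraMap (Fr p e (MvPowerSeries (Fin (d + g)) K)) T1
            (Fr.of p e _ (MvPowerSeries.X i)))
    (fun i => RD.mem_maximalIdeal_of_local _ loc2 (frX_mem p i)) _ hδ p
    (Fact.out : p.Prime).one_lt ?_
  intro w 𝔞 c' hc' e' he'
  rw [← IsScalarTower.algebraMap_apply]
  exact hst w 𝔞 c' hc' e' he'

/-- **The core in equal characteristic `p`.** -/
theorem coreEqual (p : ℕ) (hp : p.Prime) : Top.CoreEqual.{u, u} p := by
  intro d R S _ _ _ _ _ _ _ _ _ _ _ _ _ _ _ hdR hdS
  have hpf : Fact p.Prime := ⟨hp⟩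
  obtain ⟨g, _, _, T, _, _, _, _, _, _, _, _, _, π, c, hCF, hinj, hX, hxm, hredR, hredT⟩ :=
    RD.exists_equal p (d + 1) R S (CharP.cast_eq_zero R p) hdR
  have hpm : (p : R) ∈ maximalIdeal R := by rw [CharP.cast_eq_zero]; exact zero_mem _
  have hpS : (p : S) ∈ maximalIdeal S := by
    rw [← map_natCast (algebraMap R S), CharP.cast_eq_zero, map_zero]; exact zero_mem _
  have c1 : CharP (ResidueField R) p := RD.charP_residueField p hpm
  have c2 : CharP (ResidueField S) p := RD.charP_residueField p hpS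
  have c3 : PerfectRing (ResidueField S) p := inferInstance
  have c4 : Infinite (ResidueField S) := inferInstance
  exact lechC_fact p π _ hCF hinj hX hxm c hredT hdR hdS (Nat.succ_pos d)

end Crest.Agent.R183.CoreK
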