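/-
R183 (Lech): the normalised length on completed rings `To = Ω₀ ⊗_B T`, `Ω₀` the `p`-completion of
`B_∞`:  `λ(To / I To) = ℓ_T(T / I)`.
helper811
-/
import Crest.Agent.R183.BInf3b
import Crest.Agent.R183.CoreA
import Crest.Agent.R183.Om3

set_option autoImplicit false

namespace Crest.Agent.R183.CoreL

open scoped ENNReal TensorProduct NNRat
open Crest.Agent.R183 Crest.Agent.R183.WG Crest.Agent.R183.Core

universe u

section comp

variable {B A C : Type*} [CommRing B] [CommRing A] [CommRing C] [Algebra B A] [Algebra B C]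
  [Algebra A C] [IsScalarTower B A C] {N : Type*} [AddCommGroup N] [Module B N]

/-- `A ⊗ N → C ⊗ N`. -/
noncomputable def cmap : A ⊗[B] N →ₗ[A] C ⊗[B] N :=
  TensorProduct.AlgebraTensorModule.map (Algebra.linearMap A C) (LinearMap.id : N →ₗ[B] N)

lemma cmap_tmul (a : A) (n : N) :
    (cmap (C := C) : A ⊗[B] N →ₗ[A] C ⊗[B] N) (a ⊗ₜ n) = algebraMap A C a ⊗ₜ n := rfl

/-- completion does not change the tensor product with a module killed by `b`. -/
theorem cmap_bijective (b : B) (hN : ∀ n : N, b • n = 0)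
    (hdense : ∀ c : C, ∃ a : A, ∃ c' : C, c = algebraMap A C a + algebraMap B C b * c')
    (hsat : ∀ (a : A) (c' : C), algebraMap A C a = algebraMap B C b * c' →
      ∃ a', a = algebraMap B A b * a') :
    Function.Bijective (cmap (C := C) : A ⊗[B] N →ₗ[A] C ⊗[B] N) := by
  have kill : ∀ (a : A) (n : N), (algebraMap B A b * a) ⊗ₜ[B] n = (0 : A ⊗[B] N) := by
    intro a n
    rw [← Algebra.smul_def, TensorProduct.smul_tmul, hN, TensorProduct.tmul_zero]
  have killC : ∀ (a : C) (n : N), (algebraMap B C b * a) ⊗ₜ[B] n = (0 : C ⊗[B] N) := by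
    intro a n
    rw [← Algebra.smul_def, TensorProduct.smul_tmul, hN, TensorProduct.tmul_zero]
  have uniq : ∀ (a a' : A) (c' : C), algebraMap A C (a - a') = algebraMap B C b * c' →
      ∀ n : N, a ⊗ₜ[B] n = a' ⊗ₜ[B] n := by
    intro a a' c' h n
    obtain ⟨a'', h''⟩ := hsat _ _ h
    rw [← sub_eq_zero, ← TensorProduct.sub_tmul, h'', kill]
  choose r s hrs using hdense
  let g0 : C →ₗ[B] N →ₗ[B] A ⊗[B] N :=
    LinearMap.mk₂ B (fun c n => r c ⊗ₜ[B] n)
      (by
        intro c c' n
        rw [← TensorProduct.add_tmul]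
        refine uniq _ _ (s c + s c' - s (c + c')) ?_ n
        have h1 := hrs c
        have h2 := hrs c'
        have h3 := hrs (c + c')
        rw [map_sub, map_add]
        linear_combination (-1 : C) * h3 + h1 + h2)
      (by
        intro x c n
        rw [TensorProduct.smul_tmul']
        refine uniq _ _ (x • s c - s (x • c)) ?_ n
        have h1 := hrs c
        have h3 := hrs (x • c)
        rw [Algebra.smul_def] at h3
        rw [map_sub, Algebra.smul_def, Algebra.smul_def, Algebra.smul_def, map_mul,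
          ← IsScalarTower.algebraMap_apply]
        linear_combination (-1 : C) * h3 + (algebraMap B C x) * h1)
      (by intro c n n'; rw [TensorProduct.tmul_add])
      (by intro x c n; rw [TensorProduct.tmul_smul])
  let g : C ⊗[B] N →ₗ[B] A ⊗[B] N := TensorProduct.lift g0
  have hg : ∀ x, g (cmap (C := C) x) = x := by
    intro x
    induction x with
    | zero => rw [map_zero, map_zero]
    | add x y hx hy => rw [map_add, map_add, hx, hy]
    | tmul a n =>
      rw [cmap_tmul]
      show r (algebraMap A C a) ⊗ₜ[B] n = a ⊗ₜ[B] n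
      refine uniq _ _ (- s (algebraMap A C a)) ?_ n
      have h1 := hrs (algebraMap A C a)
      rw [map_sub]
      linear_combination (-1 : C) * h1
  refine ⟨fun x y h => by rw [← hg x, ← hg y, h], ?_⟩
  intro x
  induction x with
  | zero => exact ⟨0, map_zero _⟩
  | add x y hx hy =>
    obtain ⟨x', rfl⟩ := hx
    obtain ⟨y', rfl⟩ := hy
    exact ⟨x' + y', map_add _ _ _⟩
  | tmul c n =>
    refine ⟨r c ⊗ₜ n, ?_⟩
    rw [cmap_tmul]
    conv_rhs => rw [hrs c, TensorProduct.add_tmul, killC, add_zero]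

end comp

section pushout

variable {B C T To : Type*} [CommRing B] [CommRing C] [CommRing T] [CommRing To] [Algebra B C]
  [Algebra B T] [Algebra T To] [Algebra B To] [Algebra C To] [IsScalarTower B T To]
  [IsScalarTower B C To] [Algebra.IsPushout B C T To]

theorem exists_quot_pushout_equiv (I : Ideal T) :
    Nonempty ((To ⧸ I.map (algebraMap T To)) ≃ₗ[C] C ⊗[B] (T ⧸ I)) := by
  let e : C ⊗[B] T ≃ₐ[C] To := Algebra.IsPushout.equiv B C T To
  have he : ∀ x : T, e (Algebra.TensorProduct.includeRight x) = algebraMap T To x := by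
    intro x
    change e (1 ⊗ₜ x) = _
    rw [Algebra.IsPushout.equiv_tmul, map_one, one_mul]
  let φ : C ⊗[B] T →+* To := (e : C ⊗[B] T →+* To)
  let ψ : To →+* C ⊗[B] T := (e.symm : To →+* C ⊗[B] T)
  let J : Ideal (C ⊗[B] T) :=
    I.map (Algebra.TensorProduct.includeRight : T →ₐ[B] C ⊗[B] T)
  have h1 : J ≤ (I.map (algebraMap T To)).comap φ := by
    refine Ideal.map_le_iff_le_comap.mpr fun x hx => ?_
    change φ (Algebra.TensorProduct.includeRight x) ∈ I.map (algebraMap T To)
    have : φ (Algebra.TensorProduct.includeRight x) = algebraMap T To x := he x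
    rw [this]
    exact Ideal.mem_map_of_mem _ hx
  have h2 : I.map (algebraMap T To) ≤ J.comap ψ := by
    refine Ideal.map_le_iff_le_comap.mpr fun x hx => ?_
    change ψ (algebraMap T To x) ∈ J
    have : ψ (algebraMap T To x) = Algebra.TensorProduct.includeRight x := by
      change e.symm _ = _
      rw [← he x, AlgEquiv.symm_apply_apply]
    rw [this]
    exact Ideal.mem_map_of_mem _ hx
  have hmap : Submodule.map (e.toLinearEquiv : C ⊗[B] T →ₗ[C] To) (J.restrictScalars C) =
      (I.map (algebraMap T To)).restrictScalars C := by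
    ext y
    constructor
    · rintro ⟨x, hx, rfl⟩
      exact h1 hx
    · intro hy
      exact ⟨e.symm y, h2 hy, e.apply_symm_apply y⟩
  have E : ((C ⊗[B] T) ⧸ J) ≃ₗ[C] (To ⧸ I.map (algebraMap T To)) :=
    ((Submodule.Quotient.restrictScalarsEquiv C J).symm.trans
      (Submodule.Quotient.equiv _ _ e.toLinearEquiv hmap)).trans
      (Submodule.Quotient.restrictScalarsEquiv C (I.map (algebraMap T To)))
  exact ⟨E.symm.trans
    (Algebra.TensorProduct.tensorQuotientEquiv (R := B) C T C I).toLinearEquiv.symm⟩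

end pushout

section main

variable {d : ℕ} (p : ℕ) {B : Type u} [CommRing B] (t : Fin d → B) (hp : 0 < p)
variable [IsNoetherianRing B] [IsLocalRing B]
variable {Ω₀ T To : Type u} [CommRing Ω₀] [CommRing T] [CommRing To]
  [Algebra (BInf.BInf p t) Ω₀] [Algebra B Ω₀] [IsScalarTower B (BInf.BInf p t) Ω₀]
  [IsLocalRing T] [IsNoetherianRing T] [Algebra B T]
  [Algebra T To] [Algebra B To] [Algebra Ω₀ To] [IsScalarTower B T To] [IsScalarTower B Ω₀ To]
  [Algebra.IsPushout B Ω₀ T To]

/-- the normalised length on `To`, with `Ω₀` between. -/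
noncomputable def LamTo : AddLen.{u, u} To :=
  ((AddLen.ofTower (BInf.tower p t hp)).restrict (algebraMap (BInf.BInf p t) Ω₀)).restrict
    (algebraMap Ω₀ To)

omit [Algebra B Ω₀] [IsScalarTower B (BInf.BInf p t) Ω₀] [Algebra B T] [Algebra T To] [Algebra B To]
  [IsScalarTower B T To] [IsScalarTower B Ω₀ To] [Algebra.IsPushout B Ω₀ T To] [IsLocalRing T]
  [IsNoetherianRing T] [CommRing T] in
theorem cont_LamTo : Cont (LamTo (Ω₀ := Ω₀) (To := To) p t hp) :=
  cont_restrict _ (cont_restrict _ (cont_ofTower _) _) _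

/-- **`λ(To/I To) = ℓ_T(T/I)`**, `To = Ω₀ ⊗_B T`, `Ω₀` the `p`-completion of `B_∞`. -/
theorem LamTo_quot (hcomp : Om.IsCompl ((p : ℕ) : BInf.BInf p t) (algebraMap (BInf.BInf p t) Ω₀))
    (hpT : ((p : ℕ) : T) ∈ IsLocalRing.maximalIdeal T)
    (ht : ∀ i, t i ∈ IsLocalRing.maximalIdeal B)
    (hres : ∀ x : T, ∃ b : B, x - algebraMap B T b ∈ IsLocalRing.maximalIdeal T)
    (I : Ideal T) (hI : Module.length T (T ⧸ I) ≠ ⊤) :
    (LamTo (Ω₀ := Ω₀) (To := To) p t hp).L (To ⧸ I.map (algebraMap T To)) =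
      ((Module.length T (T ⧸ I) : ℕ∞) : ℝ≥0∞) := by
  -- `p ^ k ∈ I`
  obtain ⟨k, hk⟩ : ∃ k : ℕ, ((p : ℕ) : T) ^ k ∈ I := by
    have h1 : IsFiniteLength T (T ⧸ I) := Module.length_ne_top_iff.1 hI
    have h2 := (isFiniteLength_iff_isNoetherian_isArtinian.1 h1).2
    have h3 : IsArtinianRing (T ⧸ I) := isArtinian_of_tower T h2
    obtain ⟨k, hk⟩ := IsLocalRing.exists_maximalIdeal_pow_le_of_isArtinianRing_quotient I
    exact ⟨k, hk (Ideal.pow_mem_pow hpT k)⟩
  obtain ⟨E⟩ := exists_quot_pushout_equiv (B := B) (C := Ω₀) (T := T) (To := To) I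
  unfold LamTo
  rw [AddLen.restrict_L _ (algebraMap Ω₀ To) (To ⧸ I.map (algebraMap T To))
    (fun a x => (algebraMap_smul To a x).symm)]
  rw [AddLen.L_congr _ E]
  rw [AddLen.restrict_L _ (algebraMap (BInf.BInf p t) Ω₀) (Ω₀ ⊗[B] (T ⧸ I))
    (fun a x => (algebraMap_smul Ω₀ a x).symm), AddLen.ofTower_L]
  have hb : ∀ n : T ⧸ I, ((p : B) ^ k) • n = 0 := by
    intro n
    obtain ⟨n, rfl⟩ := Ideal.Quotient.mk_surjective n
    rw [← Ideal.Quotient.mk_eq_mk, ← Submodule.Quotient.mk_smul, Submodule.Quotient.mk_eq_zero,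
      Algebra.smul_def, map_pow, map_natCast]
    exact I.mul_mem_right _ hk
  have hpk : algebraMap B Ω₀ ((p : B) ^ k) = algebraMap (BInf.BInf p t) Ω₀ (p : BInf.BInf p t) ^ k := by
    rw [map_pow, map_natCast, map_natCast]
  have hpk' : algebraMap B (BInf.BInf p t) ((p : B) ^ k) = (p : BInf.BInf p t) ^ k := by
    rw [map_pow, map_natCast]
  have hbij := cmap_bijective (A := BInf.BInf p t) (C := Ω₀) (N := T ⧸ I) ((p : B) ^ k) hb
    (by
      intro c
      obtain ⟨a, c', hc⟩ := hcomp.dense k c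
      refine ⟨a, c', ?_⟩
      rw [hpk, ← hc]
      ring)
    (by
      intro a c' h
      rw [hpk] at h
      obtain ⟨a', ha'⟩ := hcomp.sat k a ⟨c', h⟩
      exact ⟨a', by rw [hpk']; exact ha'⟩)
  rw [← (BInf.tower p t hp).lam_congr (LinearEquiv.ofBijective _ hbij),
    BInf.lam_tensor p t hp ht (T ⧸ I), Lam.length_eq_of_isLocalRing hres (T ⧸ I)]

end main


end Crest.Agent.R183.CoreL
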