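/-
R183 (Lech): the mixed characteristic core from the stages.

`MixStage p` : existence of the stages over a Cohen factorisation;
`coreMixed_of_stage` : `MixStage p` and Theorem K imply `Top.CoreMixed p`.
helper811
-/
import Crest.Agent.R183.CoreL
import Crest.Agent.R183.RD10
import Crest.Agent.R183.BInf5
import Crest.Agent.R183.Env1
import Crest.Agent.R183.Top

set_option autoImplicit false

namespace Crest.Agent.R183.CoreM

open IsLocalRing MvPowerSeries Crest.Agent.R183.M Crest.Agent.R183.Cohen Crest.Agent.R183.RD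
open scoped nonZeroDivisors

universe u

/-- `A = C₀[[t_1..t_d]]`. -/
abbrev AA (C₀ : Type u) [CommRing C₀] (d : ℕ) : Type u := MvPowerSeries (Fin d) C₀

/-- `A' = W(K)[[t_1..t_n]]`. -/
abbrev AW (p : ℕ) [Fact p.Prime] (K : Type u) [CommRing K] (n : ℕ) : Type u :=
  MvPowerSeries (Fin n) (WittVector p K)

/-- `A'_∞`. -/
abbrev Boo (p : ℕ) [Fact p.Prime] (K : Type u) [CommRing K] (n : ℕ) : Type u :=
  BInf.BInf p (BInf.tb n p (WittVector p K))

/-- the `p^e`-th root of `p` in `A'_∞`. -/
noncomputable abbrev rtp (p : ℕ) [hp : Fact p.Prime] (K : Type u) [CommRing K] (n : ℕ) (e : ℕ) :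
    Boo p K n :=
  BInf.rt p (BInf.tb n p (WittVector p K)) hp.out.pos e 0

/-- The variables `y_j` in `T`. -/
noncomputable abbrev YT (p : ℕ) [Fact p.Prime] (K : Type u) [CommRing K] (d g : ℕ) (T : Type u)
    [CommRing T] [Algebra (AW p K (d + g)) T] (j : ℕ) : T :=
  algebraMap (AW p K (d + g)) T (yvar d g (WittVector p K) j)

/-- **The mixed characteristic stages** (to be proved by the `Mix` files). -/
def MixStage (p : ℕ) [hp : Fact p.Prime] : Prop :=
  ∀ (d g : ℕ) (C₀ K R T S Ω₀ To : Type u)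
    [CommRing C₀] [IsLocalRing C₀] [Field K] [CharP K p] [PerfectRing K p]
    [CommRing R] [IsLocalRing R] [IsNoetherianRing R] [IsDomain R]
    [CommRing T] [IsLocalRing T] [IsNoetherianRing T]
    [CommRing S] [IsLocalRing S] [Algebra R S] [CommRing Ω₀] [CommRing To]
    [Algebra (AA C₀ d) R] [Algebra (AA C₀ d) (AW p K (d + g))] [Algebra (AA C₀ d) T]
    [Algebra R T] [Algebra (AW p K (d + g)) T]
    [IsScalarTower (AA C₀ d) R T] [IsScalarTower (AA C₀ d) (AW p K (d + g)) T]
    [Algebra.IsPushout (AA C₀ d) R (AW p K (d + g)) T]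
    [Algebra (Boo p K (d + g)) Ω₀] [Algebra (AW p K (d + g)) Ω₀]
    [IsScalarTower (AW p K (d + g)) (Boo p K (d + g)) Ω₀]
    [Algebra T To] [Algebra (AW p K (d + g)) To] [Algebra Ω₀ To]
    [IsScalarTower (AW p K (d + g)) T To] [IsScalarTower (AW p K (d + g)) Ω₀ To]
    [Algebra.IsPushout (AW p K (d + g)) Ω₀ T To]
    (π : T →+* S),
    IsCohen p C₀ →
    IsCohenFact (AA C₀ d) R (AW p K (d + g)) T S g π (YT p K d g T) →
    Function.Injective (algebraMap (AA C₀ d) R) →
    (∀ i, algebraMap (AA C₀ d) (AW p K (d + g)) (X i) = X (Fin.castAdd g i)) →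
    ∀ (z : Fin (d + 1) → R) (c : ℕ), (∀ i, z i ∈ maximalIdeal R) → (∀ i, z i ≠ 0) →
    maximalIdeal R ^ (c + 1) = Ideal.span (Set.range z) * maximalIdeal R ^ c →
    ∀ (M₀ : Env.Model p Ω₀ (fun e => algebraMap (Boo p K (d + g)) Ω₀ (rtp p K (d + g) e))),
    Om.IsCompl (p : Boo p K (d + g)) (algebraMap (Boo p K (d + g)) Ω₀) →
    (∀ D : Boo p K (d + g), Om.RegMod D (p : Boo p K (d + g)) →
      Om.RegMod (algebraMap (Boo p K (d + g)) Ω₀ D) (p : Ω₀)) →
    ∃ t : Fin (d + 1 + g) → T, (∀ i, t i ∈ maximalIdeal T) ∧ ∃ c' : ℕ, ∀ e : ℕ, c' < p ^ e →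
      ∃ Δ : R, Δ ∈ R⁰ ∧ Nonempty (Core.Stage T To
        (Fin.append (fun i => algebraMap R T (z i)) (fun j : Fin g => YT p K d g T j)) t
        (algebraMap R T Δ) (maximalIdeal T) (p ^ e) (p ^ e - c'))

/-- a system of parameters does not contain `0`. -/
theorem ne_zero_of_reduction {R : Type*} [CommRing R] [IsLocalRing R] [IsNoetherianRing R] {d : ℕ}
    (hd : ringKrullDim R = ((d + 1 : ℕ) : WithBot ℕ∞)) (z : Fin (d + 1) → R)
    (hz : ∀ i, z i ∈ maximalIdeal R) {c : ℕ}
    (hc : maximalIdeal R ^ (c + 1) ≤ Ideal.span (Set.range z)) (i : Fin (d + 1)) : z i ≠ 0 := by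
  classical
  intro h0
  let s : Finset R := (Finset.univ.erase i).image z
  have hs : Ideal.span (s : Set R) = Ideal.span (Set.range z) := by
    refine le_antisymm (Ideal.span_mono ?_) ?_
    · intro x hx
      rw [Finset.mem_coe, Finset.mem_image] at hx
      obtain ⟨j, _, rfl⟩ := hx
      exact ⟨j, rfl⟩
    · rw [Ideal.span_le]
      rintro _ ⟨j, rfl⟩
      by_cases hj : j = i
      · rw [hj, h0]; exact zero_mem _
      · refine Ideal.subset_span ?_
        rw [Finset.mem_coe, Finset.mem_image]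
        exact ⟨j, Finset.mem_erase.2 ⟨hj, Finset.mem_univ j⟩, rfl⟩
  have hmin : maximalIdeal R ∈ (Ideal.span (s : Set R)).minimalPrimes := by
    rw [hs]
    refine ⟨⟨inferInstance, ?_⟩, ?_⟩
    · rw [Ideal.span_le]
      rintro _ ⟨j, rfl⟩
      exact hz j
    · rintro q ⟨hq, hle⟩ _
      exact hq.le_of_pow_le (hc.trans hle)
  have h1 := Ideal.height_le_card_of_mem_minimalPrimes_span_finset hmin
  have h2 : s.card ≤ d := by
    refine Finset.card_image_le.trans ?_
    rw [Finset.card_erase_of_mem (Finset.mem_univ i), Finset.card_univ, Fintype.card_fin]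
    omega
  have h3 : ((maximalIdeal R).height : WithBot ℕ∞) = ((d + 1 : ℕ) : WithBot ℕ∞) := by
    rw [maximalIdeal_height_eq_ringKrullDim, hd]
  have h4 : (maximalIdeal R).height = ((d + 1 : ℕ) : ℕ∞) := WithBot.coe_injective h3
  rw [h4] at h1
  have h5 : d + 1 ≤ s.card := by exact_mod_cast h1
  omega

open TensorProduct in
/-- existence of pushouts. -/
theorem exists_pushout (A' Ω₀ T : Type u) [CommRing A'] [CommRing Ω₀] [CommRing T] [Algebra A' Ω₀]
    [Algebra A' T] : ∃ (To : Type u) (_ : CommRing To) (_ : Algebra T To) (_ : Algebra A' To)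
      (_ : Algebra Ω₀ To) (_ : IsScalarTower A' T To) (_ : IsScalarTower A' Ω₀ To),
      Algebra.IsPushout A' Ω₀ T To := by
  letI : Algebra T (Ω₀ ⊗[A'] T) := Algebra.TensorProduct.rightAlgebra
  exact ⟨Ω₀ ⊗[A'] T, inferInstance, inferInstance, inferInstance, inferInstance, inferInstance,
    inferInstance, inferInstance⟩

/-- **The mixed characteristic core** from the stages and Theorem K. -/
theorem coreMixed_of_stage (p : ℕ) [hp : Fact p.Prime]
    (hK : ∀ (D : ℕ) (β : ℕ → ℕ), 0 < D → Core.KHyp.{u} D β) (hM : MixStage.{u} p) :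
    Top.CoreMixed.{u, u} p := by
  intro d R S _ _ _ _ _ _ _ _ _ _ _ _ _ _ hp0 hpm hdR hdS
  have hpS : (p : S) ∈ maximalIdeal S := by
    have := mem_maximalIdeal_of_local (algebraMap R S) ‹_› hpm
    rwa [map_natCast] at this
  have i1 : CharP (ResidueField S) p := charP_residueField p hpS
  have i2 : PerfectRing (ResidueField S) p := inferInstance
  obtain ⟨C₀, _, _, hC, g, _, _, T, _, _, _, _, _, _, _, _, _, π, hfact, hinj, hX⟩ :=
    exists_mixed p d R S hp0 hpm hdR
  obtain ⟨z, c, hz, hc, hw, hwc⟩ := hfact.exists_w hdR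
  have hz0 : ∀ i, z i ≠ 0 := fun i => ne_zero_of_reduction hdR z hz
    (c := c) (by rw [hc]; exact Ideal.mul_le_left) i
  have hW : IsCohen p (WittVector p (ResidueField S)) := isCohen_witt p (ResidueField S)
  have i3 : IsNoetherianRing (WittVector p (ResidueField S)) := hW.isNoetherianRing
  -- the base
  have hPB := BInf.pbasis_witt (d + g) p (ResidueField S)
  obtain ⟨Ω₀, _, _, P₀, _, _, _, θ₀, ϖ, hcompl, hpd, hreg, hadic, hunit, hθs, hθk, hϖr, hϖu, hPc,
    hroots, hsharp, hregmod⟩ := Env.exists_base hPB.pdata hPB.not_isUnit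
  let M₀ : Env.Model p Ω₀ (fun e => algebraMap (Boo p (ResidueField S) (d + g)) Ω₀
      (rtp p (ResidueField S) (d + g) e)) :=
    { P := P₀, θ := θ₀, π := ϖ, surj := hθs, ker := hθk, reg := hϖr, nonunit := hϖu,
      roots := hroots }
  let _ : Algebra (AW p (ResidueField S) (d + g)) Ω₀ :=
    ((algebraMap (Boo p (ResidueField S) (d + g)) Ω₀).comp
      (algebraMap (AW p (ResidueField S) (d + g)) (Boo p (ResidueField S) (d + g)))).toAlgebra
  have _ : IsScalarTower (AW p (ResidueField S) (d + g)) (Boo p (ResidueField S) (d + g)) Ω₀ :=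
    IsScalarTower.of_algebraMap_eq (R := AW p (ResidueField S) (d + g))
      (S := Boo p (ResidueField S) (d + g)) (A := Ω₀) fun _ => rfl
  -- the algebra `To`
  obtain ⟨To, _, _, _, _, _, _, _⟩ := exists_pushout (AW p (ResidueField S) (d + g)) Ω₀ T
  obtain ⟨t, ht, c', hst⟩ := hM d g C₀ (ResidueField S) R T S Ω₀ To π hC hfact hinj hX z c hz hz0
    hc M₀ hcompl hregmod
  -- instances
  have _ : Module.Flat R T := hfact.flat_T
  have _ : IsLocalHom (algebraMap R T) := hfact.local_T
  let _ : Algebra T S := π.toAlgebra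
  have _ : IsScalarTower R T S := IsScalarTower.of_algebraMap_eq (R := R) (S := T) (A := S)
    fun x => (RingHom.congr_fun hfact.comp x).symm
  have hdT : ringKrullDim T = ((d + 1 + g : ℕ) : WithBot ℕ∞) := by
    rw [hfact.ringKrullDim_T hinj, ringKrullDim_mv_witt, show d + g + 1 = d + 1 + g by omega]
  have hmA' : ∀ i, BInf.tb (d + g) p (WittVector p (ResidueField S)) i ∈
      maximalIdeal (AW p (ResidueField S) (d + g)) := by
    intro i
    rw [mem_maximalIdeal, mem_nonunits_iff, MvPowerSeries.isUnit_iff_constantCoeff]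
    refine Fin.cases ?_ (fun i => ?_) i
    · rw [BInf.tb_zero, map_natCast]
      intro hu
      have h1 : (p : WittVector p (ResidueField S)) ∈ maximalIdeal _ := by
        rw [hW.maximalIdeal_eq]
        exact Ideal.mem_span_singleton_self _
      exact h1 hu
    · rw [BInf.tb_succ, MvPowerSeries.constantCoeff_X]
      exact not_isUnit_zero
  have hpT : ((p : ℕ) : T) ∈ maximalIdeal T := by
    have := hfact.comap_maximalIdeal hpm
    rwa [map_natCast] at this
  exact Core.lechC_of_stages (R := R) (S := S) (T := T) (To := To) hfact.surjective hdR hdS hdT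
    (by omega) (by omega) (YT p (ResidueField S) d g T) hfact.prime hfact.notMem hfact.max
    (CoreL.LamTo p (BInf.tb (d + g) p (WittVector p (ResidueField S))) hp.out.pos)
    (CoreL.cont_LamTo p _ hp.out.pos)
    (CoreL.LamTo_quot p _ hp.out.pos hcompl hpT hmA' hfact.res_T)
    _ t hw ht c hwc hK p hp.out.one_lt c' hst

end Crest.Agent.R183.CoreM
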