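import Mathlib

/-!
# The digit trick (R183, S0273)

`P` a perfect ring of characteristic `p`, `W = 𝕎 P`.  For an ideal `J` of `P` which is *convex*
(`J ^ (p^n) ≤ φ^n(J)` for all `n`) the closed ideal of `W` generated by the Teichmüller lifts
of elements of `J` has `p`-torsion free quotient, and therefore
`[h] ∈ W(J) + ξ W`, `ϖ^n ∈ J` imply `h ∈ J`.
-/

namespace Crest.Agent.R183.Digit

open WittVector

variable {p : ℕ} [hp : Fact p.Prime] {P : Type*} [CommRing P] [CharP P p] [PerfectRing P p]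

local notation "𝕎" => WittVector p
local notation "τ" => WittVector.teichmuller p

/-- Convexity of an ideal of a perfect ring: `x₁ ⋯ x_{p^n}` with `xᵢ ^ (p^n) ∈ J` is in `J`. -/
def Convex (p : ℕ) {P : Type*} [CommRing P] (J : Ideal P) : Prop :=
  ∀ n : ℕ, ∀ x : P, x ^ (p ^ n) ∈ J ^ (p ^ n) → x ∈ J

omit hp [CharP P p] [PerfectRing P p] in
/-- The ideal generated by Teichmüller lifts of an ideal. -/
noncomputable def tI (p : ℕ) [Fact p.Prime] {P : Type*} [CommRing P] (J : Ideal P) :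
    Ideal (WittVector p P) :=
  Ideal.span ((WittVector.teichmuller p) '' (J : Set P))

omit [CharP P p] [PerfectRing P p] in
lemma mem_tI {J : Ideal P} {a : P} (ha : a ∈ J) : τ a ∈ tI p J :=
  Ideal.subset_span ⟨a, ha, rfl⟩

omit [CharP P p] [PerfectRing P p] in
lemma tI_mono {J K : Ideal P} (h : J ≤ K) : tI p J ≤ tI p K :=
  Ideal.span_mono (Set.image_mono h)

omit [CharP P p] [PerfectRing P p] in
lemma tI_mul_le (J K : Ideal P) : tI p J * tI p K ≤ tI p (J * K) := by
  unfold tI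
  rw [Ideal.span_mul_span']
  refine Ideal.span_le.2 ?_
  rintro _ ⟨_, ⟨a, ha, rfl⟩, _, ⟨b, hb, rfl⟩, rfl⟩
  simp only [SetLike.mem_coe]
  rw [← map_mul]
  exact Ideal.subset_span ⟨a * b, Ideal.mul_mem_mul ha hb, rfl⟩

omit [CharP P p] [PerfectRing P p] in
lemma tI_pow_le (J : Ideal P) (n : ℕ) : tI p J ^ n ≤ tI p (J ^ n) := by
  induction n with
  | zero =>
    simp only [pow_zero, Ideal.one_eq_top]
    intro x _
    have : (1 : 𝕎 P) ∈ tI p (⊤ : Ideal P) := by
      have := mem_tI (p := p) (J := (⊤ : Ideal P)) (a := 1) trivial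
      simpa using this
    simpa using Ideal.mul_mem_left _ x this
  | succ n ih =>
    rw [pow_succ, pow_succ]
    exact (Ideal.mul_mono_left ih).trans (tI_mul_le _ _)

lemma dvd_of_coeff_zero {x : 𝕎 P} (h : x.coeff 0 = 0) : (p : 𝕎 P) ∣ x := by
  rw [← Ideal.mem_span_singleton]
  exact (mem_span_p_iff_coeff_zero_eq_zero x).2 h

lemma p_mul_cancel {x y : 𝕎 P} (h : (p : 𝕎 P) * x = p * y) : x = y := by
  have := eq_zero_of_p_mul_eq_zero (x - y) (by rw [sub_mul, mul_comm x, mul_comm y, h, sub_self])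
  exact sub_eq_zero.1 this

omit [CharP P p] [PerfectRing P p] in
lemma coeff_zero_mem {J : Ideal P} {x : 𝕎 P} (hx : x ∈ tI p J) : x.coeff 0 ∈ J := by
  have h1 : tI p J ≤ J.comap (constantCoeff (p := p) (R := P)) := by
    refine Ideal.span_le.2 ?_
    rintro _ ⟨a, ha, rfl⟩
    simpa [Ideal.mem_comap, constantCoeff] using ha
  exact h1 hx

/-- every element is `[x₀] + p x'`. -/
lemma exists_eq_teich_add (x : 𝕎 P) : ∃ y : 𝕎 P, x = τ (x.coeff 0) + p * y := by
  have : (p : 𝕎 P) ∣ x - τ (x.coeff 0) := by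
    apply dvd_of_coeff_zero
    have : constantCoeff (p := p) (R := P) (x - τ (x.coeff 0)) = 0 := by
      rw [map_sub]; simp [constantCoeff]
    simpa [constantCoeff] using this
  obtain ⟨y, hy⟩ := this
  exact ⟨y, by rw [← hy]; ring⟩

/-- An element of `tI J` is a finite sum of Teichmüller lifts plus `p` times an element. -/
lemma exists_sum {J : Ideal P} {x : 𝕎 P} (hx : x ∈ tI p J) :
    ∃ (l : List P) (t : 𝕎 P), (∀ a ∈ l, a ∈ J) ∧ t ∈ tI p J ∧ x = (l.map (fun a => τ a)).sum + p * t := by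
  unfold tI at hx
  refine Submodule.span_induction (p := fun x _ => ∃ (l : List P) (t : 𝕎 P), (∀ a ∈ l, a ∈ J) ∧
    t ∈ tI p J ∧ x = (l.map (fun a => τ a)).sum + p * t) ?_ ?_ ?_ ?_ hx
  · rintro _ ⟨a, ha, rfl⟩
    exact ⟨[a], 0, by simpa using ha, Ideal.zero_mem _, by simp⟩
  · exact ⟨[], 0, by simp, Ideal.zero_mem _, by simp⟩
  · rintro x y _ _ ⟨l, t, hl, ht, rfl⟩ ⟨l', t', hl', ht', rfl⟩
    refine ⟨l ++ l', t + t', ?_, Ideal.add_mem _ ht ht', by simp; ring⟩
    intro a ha
    rcases List.mem_append.1 ha with h | h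
    · exact hl a h
    · exact hl' a h
  · rintro c x _ ⟨l, t, hl, ht, rfl⟩
    obtain ⟨c', hc'⟩ := exists_eq_teich_add c
    refine ⟨l.map (fun a => c.coeff 0 * a), c' * (l.map (fun a => τ a)).sum + c * t, ?_, ?_, ?_⟩
    · intro a ha
      rw [List.mem_map] at ha
      obtain ⟨b, hb, rfl⟩ := ha
      exact Ideal.mul_mem_left _ _ (hl b hb)
    · refine Ideal.add_mem _ (Ideal.mul_mem_left _ _ ?_) (Ideal.mul_mem_left _ _ ht)
      refine list_sum_mem ?_
      intro y hy
      rw [List.mem_map] at hy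
      obtain ⟨b, hb, rfl⟩ := hy
      exact mem_tI (hl b hb)
    · have h1 : (List.map (fun a => τ a) (l.map (fun a => c.coeff 0 * a))).sum =
          τ (c.coeff 0) * (l.map (fun a => τ a)).sum := by
        rw [List.map_map, ← List.sum_map_mul_left]
        congr 1
        apply List.map_congr_left
        intro a _
        simp
      rw [h1, smul_eq_mul]
      conv_lhs => rw [mul_add]
      conv_lhs => enter [1]; rw [hc']
      ring

/-- binomial theorem modulo `p`, with control of the degree. -/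
lemma sum_pow_sub {A : Type*} [CommRing A] (I : Ideal A) (n : ℕ) (l : List A)
    (hl : ∀ a ∈ l, a ∈ I) :
    ∃ g ∈ I ^ (p ^ n), (l.map (fun a => a ^ (p ^ n))).sum = l.sum ^ (p ^ n) + p * g := by
  induction l with
  | nil =>
    refine ⟨0, Ideal.zero_mem _, ?_⟩
    have : p ^ n ≠ 0 := (pow_pos hp.out.pos n).ne'
    simp [zero_pow this]
  | cons a l ih =>
    obtain ⟨g, hg, hg'⟩ := ih (fun b hb => hl b (List.mem_cons_of_mem _ hb))
    have ha : a ∈ I := hl a (by simp)
    have hs : l.sum ∈ I := list_sum_mem (fun b hb => hl b (List.mem_cons_of_mem _ hb))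
    have key := add_pow_prime_pow_eq hp.out a l.sum n
    refine ⟨g - a * l.sum * ∑ k ∈ Finset.Ioo 0 (p ^ n), a ^ (k - 1) * l.sum ^ (p ^ n - k - 1) *
      ((p ^ n).choose k / p : ℕ), ?_, ?_⟩
    · refine Ideal.sub_mem _ hg ?_
      rw [Finset.mul_sum]
      refine Ideal.sum_mem _ ?_
      intro k hk
      rw [Finset.mem_Ioo] at hk
      have e1 : a * l.sum * (a ^ (k - 1) * l.sum ^ (p ^ n - k - 1) *
          (((p ^ n).choose k / p : ℕ) : A)) =
          (a ^ k * l.sum ^ (p ^ n - k)) * (((p ^ n).choose k / p : ℕ) : A) := by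
        have h1 : a ^ k = a * a ^ (k - 1) := by
          rw [← pow_succ']; congr 1; omega
        have h2 : l.sum ^ (p ^ n - k) = l.sum * l.sum ^ (p ^ n - k - 1) := by
          rw [← pow_succ']; congr 1; omega
        rw [h1, h2]; ring
      rw [e1]
      refine Ideal.mul_mem_right _ _ ?_
      have h3 : I ^ (p ^ n) = I ^ k * I ^ (p ^ n - k) := by
        rw [← pow_add]; congr 1; omega
      rw [h3]
      exact Ideal.mul_mem_mul (Ideal.pow_mem_pow ha _) (Ideal.pow_mem_pow hs _)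
    · rw [List.map_cons, List.sum_cons, List.sum_cons, hg', key]
      ring

/-- `φ^{-n} J` -/
def root (p : ℕ) [Fact p.Prime] {P : Type*} [CommRing P] [CharP P p] (n : ℕ) (J : Ideal P) :
    Ideal P := J.comap (iterateFrobenius P p n)

omit [PerfectRing P p] in
lemma mem_root {n : ℕ} {J : Ideal P} {x : P} : x ∈ root p n J ↔ x ^ (p ^ n) ∈ J := by
  simp [root, Ideal.mem_comap, iterateFrobenius_def]

omit [PerfectRing P p] in
lemma root_pow_le {J : Ideal P} (hJ : Convex p J) (n : ℕ) : root p n J ^ (p ^ n) ≤ J := by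
  intro x hx
  apply hJ n x
  have h1 : (root p n J ^ (p ^ n)).map (iterateFrobenius P p n) ≤ J ^ (p ^ n) := by
    rw [Ideal.map_pow]
    exact Ideal.pow_right_mono (Ideal.map_comap_le) _
  have := h1 (Ideal.mem_map_of_mem _ hx)
  simpa [iterateFrobenius_def] using this

/-- A finite sum of Teichmüller lifts of elements of a convex ideal which is `0` modulo `p`
is `p` times something in `tI J` modulo `p^(n+1)`. -/
lemma sum_teich {J : Ideal P} (hJ : Convex p J) (n : ℕ) (l : List P) (hl : ∀ a ∈ l, a ∈ J)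
    (h0 : l.sum = 0) :
    ∃ g ∈ tI p J, ∃ h : 𝕎 P, (l.map (fun a => τ a)).sum = p * g + p ^ (n + 1) * h := by
  set r : P → P := fun a => ((_root_.frobeniusEquiv P p).symm)^[n] a with hr
  have hrpow : ∀ a, (r a) ^ (p ^ n) = a := by
    intro a
    rw [hr]
    exact iterate_frobeniusEquiv_symm_pow_p_pow P p a n
  -- list of roots
  set l' : List (𝕎 P) := l.map (fun a => τ (r a)) with hl'
  have hl'mem : ∀ a ∈ l', a ∈ tI p (root p n J) := by
    intro a ha
    rw [hl', List.mem_map] at ha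
    obtain ⟨b, hb, rfl⟩ := ha
    refine mem_tI ?_
    rw [mem_root, hrpow]
    exact hl b hb
  obtain ⟨g, hg, hg'⟩ := sum_pow_sub (p := p) (tI p (root p n J)) n l' hl'mem
  have e1 : (l'.map (fun a => a ^ (p ^ n))).sum = (l.map (fun a => τ a)).sum := by
    rw [hl', List.map_map]
    congr 1
    apply List.map_congr_left
    intro a _
    simp only [Function.comp_apply]
    rw [← map_pow, hrpow]
  have e2 : (l'.sum).coeff 0 = 0 := by
    have h1 : constantCoeff (p := p) (R := P) l'.sum = (l.map r).sum := by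
      rw [map_list_sum, hl', List.map_map]
      congr 1
    have h2 : ((l.map r).sum) ^ (p ^ n) = 0 := by
      have : iterateFrobenius P p n (l.map r).sum = l.sum := by
        rw [map_list_sum, List.map_map]
        congr 1
        conv_rhs => rw [← List.map_id l]
        apply List.map_congr_left
        intro a _
        simpa only [Function.comp_apply, iterateFrobenius_def, id] using hrpow a
      rw [iterateFrobenius_def] at this
      rw [this, h0]
    have h3 : (l.map r).sum = 0 := by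
      apply (bijective_iterateFrobenius P p n).injective
      rw [map_zero, iterateFrobenius_def, h2]
    rw [h3] at h1
    simpa [constantCoeff] using h1
  obtain ⟨s, hs⟩ := dvd_of_coeff_zero e2
  refine ⟨g, ?_, p ^ (p ^ n - (n + 1)) * s ^ (p ^ n), ?_⟩
  · exact tI_mono (root_pow_le hJ n) (tI_pow_le _ _ hg)
  · rw [← e1, hg', hs, mul_pow]
    have h4 : n + 1 ≤ p ^ n := Nat.succ_le_of_lt (Nat.lt_pow_self hp.out.one_lt)
    have h5 : (p : 𝕎 P) ^ (p ^ n) = p ^ (n + 1) * p ^ (p ^ n - (n + 1)) := by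
      rw [← pow_add]; congr 1; omega
    rw [h5]; ring

/-- The finite-level version of `W(J)`. -/
noncomputable def WJ (p : ℕ) [Fact p.Prime] {P : Type*} [CommRing P] (J : Ideal P) (n : ℕ) :
    Ideal (WittVector p P) := tI p J ⊔ Ideal.span {(p : WittVector p P) ^ n}

omit [CharP P p] [PerfectRing P p] in
lemma mem_WJ {J : Ideal P} {n : ℕ} {x : 𝕎 P} :
    x ∈ WJ p J n ↔ ∃ g ∈ tI p J, ∃ h : 𝕎 P, x = g + p ^ n * h := by
  unfold WJ
  rw [Submodule.mem_sup]
  constructor
  · rintro ⟨y, hy, z, hz, rfl⟩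
    obtain ⟨h, rfl⟩ := Ideal.mem_span_singleton.1 hz
    exact ⟨y, hy, h, rfl⟩
  · rintro ⟨g, hg, h, rfl⟩
    exact ⟨g, hg, _, Ideal.mem_span_singleton.2 ⟨h, rfl⟩, rfl⟩

/-- `p`-torsion freeness of `W / W(J)`. -/
theorem torsion_free {J : Ideal P} (hJ : Convex p J) {n : ℕ} {u : 𝕎 P}
    (hu : (p : 𝕎 P) * u ∈ WJ p J (n + 1)) : u ∈ WJ p J n := by
  rw [mem_WJ] at hu
  obtain ⟨g, hg, h, hgh⟩ := hu
  obtain ⟨l, t, hl, ht, rfl⟩ := exists_sum hg
  have h0 : l.sum = 0 := by
    have h1 := congrArg (constantCoeff (p := p) (R := P)) hgh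
    simp only [map_mul, map_add, map_pow, map_natCast, CharP.cast_eq_zero, zero_mul] at h1
    rw [map_list_sum, List.map_map] at h1
    have h2 : (l.map (⇑(constantCoeff (p := p) (R := P)) ∘ fun a => τ a)) = l := by
      conv_rhs => rw [← List.map_id l]
      apply List.map_congr_left
      intro a _
      simp [constantCoeff]
    rw [h2] at h1
    simp at h1
    exact h1.symm
  obtain ⟨g', hg', h', hgh'⟩ := sum_teich hJ n l hl h0
  rw [mem_WJ]
  refine ⟨g' + t, Ideal.add_mem _ hg' ht, h' + h, ?_⟩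
  apply p_mul_cancel
  rw [hgh, hgh']
  ring

lemma mem_of_teich_mem_WJ {J : Ideal P} {n : ℕ} {h : P} (hh : τ h ∈ WJ p J (n + 1)) : h ∈ J := by
  rw [mem_WJ] at hh
  obtain ⟨g, hg, y, hy⟩ := hh
  have h1 := congrArg (constantCoeff (p := p) (R := P)) hy
  simp only [map_mul, map_add, map_pow, map_natCast, CharP.cast_eq_zero] at h1
  have h2 : constantCoeff (p := p) (R := P) g = g.coeff 0 := rfl
  have h3 : constantCoeff (p := p) (R := P) (τ h) = h := by simp [constantCoeff]
  rw [h3, h2] at h1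
  simp at h1
  rw [h1]
  exact coeff_zero_mem hg

/-- comparison of digits -/
lemma digit {J : Ideal P} (hJ : Convex p J) (ϖ h : P) {u : 𝕎 P} (hu : IsUnit u) (n : ℕ)
    (H : τ h * ∑ i ∈ Finset.range (n + 1), (p * u) ^ i * τ ϖ ^ (n - i) ∈ WJ p J (n + 1)) :
    h ∈ J := by
  induction n with
  | zero =>
    simp at H
    exact mem_of_teich_mem_WJ (n := 0) (by simpa using H)
  | succ n ih =>
    have e1 : τ h * ∑ i ∈ Finset.range (n + 1 + 1), (p * u) ^ i * τ ϖ ^ (n + 1 - i) =
        τ (h * ϖ ^ (n + 1)) + p * (u * (τ h *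
          ∑ i ∈ Finset.range (n + 1), (p * u) ^ i * τ ϖ ^ (n - i))) := by
      rw [Finset.sum_range_succ', mul_add, add_comm]
      congr 1
      · simp
      · rw [Finset.mul_sum, Finset.mul_sum, Finset.mul_sum, Finset.mul_sum]
        refine Finset.sum_congr rfl ?_
        intro i _
        have : n + 1 - (i + 1) = n - i := by omega
        rw [this]; ring
    rw [e1] at H
    have h1 : h * ϖ ^ (n + 1) ∈ J := by
      rw [mem_WJ] at H
      obtain ⟨g, hg, y, hy⟩ := H
      have h1 := congrArg (constantCoeff (p := p) (R := P)) hy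
      simp only [map_mul, map_add, map_pow, map_natCast, CharP.cast_eq_zero, zero_mul, add_zero]
        at h1
      have h3 : ∀ a : P, constantCoeff (p := p) (R := P) (τ a) = a := by
        intro a; simp [constantCoeff]
      have h2 : constantCoeff (p := p) (R := P) g = g.coeff 0 := rfl
      rw [h2] at h1
      simp [h3] at h1
      rw [h1]
      exact coeff_zero_mem hg
    have h2 : τ (h * ϖ ^ (n + 1)) ∈ WJ p J (n + 1 + 1) := Ideal.mem_sup_left (mem_tI h1)
    have h3 := (Ideal.add_mem_iff_right _ h2).1 H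
    have h4 := torsion_free hJ h3
    have h5 : τ h * ∑ i ∈ Finset.range (n + 1), (p * u) ^ i * τ ϖ ^ (n - i) ∈
        WJ p J (n + 1) := (Ideal.unit_mul_mem_iff_mem _ hu).1 h4
    exact ih h5

/-- **Digit trick.** -/
theorem digit_trick {J : Ideal P} (hJ : Convex p J) {ϖ h : P} {u : 𝕎 P} (hu : IsUnit u) {n : ℕ}
    (hϖ : ϖ ^ n ∈ J)
    (H : τ h ∈ tI p J ⊔ Ideal.span {(p : 𝕎 P) * u - τ ϖ}) : h ∈ J := by
  rcases Nat.eq_zero_or_pos n with rfl | hn
  · have : J = ⊤ := by
      rw [Ideal.eq_top_iff_one]; simpa using hϖ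
    rw [this]; trivial
  obtain ⟨m, rfl⟩ : ∃ m, n = m + 1 := ⟨n - 1, by omega⟩
  refine digit hJ ϖ h hu m ?_
  rw [Submodule.mem_sup] at H
  obtain ⟨w, hw, z, hz, hwz⟩ := H
  obtain ⟨v, rfl⟩ := Ideal.mem_span_singleton.1 hz
  have hs : (∑ i ∈ Finset.range (m + 1), ((p : 𝕎 P) * u) ^ i * τ ϖ ^ (m - i)) *
      ((p : 𝕎 P) * u - τ ϖ) = (p * u) ^ (m + 1) - τ ϖ ^ (m + 1) := by
    have := (Commute.all ((p : 𝕎 P) * u) (τ ϖ)).geom_sum₂_mul (m + 1)
    simpa using this
  rw [mem_WJ, ← hwz]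
  refine ⟨w * (∑ i ∈ Finset.range (m + 1), ((p : 𝕎 P) * u) ^ i * τ ϖ ^ (m - i)) -
    τ (ϖ ^ (m + 1)) * v, ?_, u ^ (m + 1) * v, ?_⟩
  · exact Ideal.sub_mem _ (Ideal.mul_mem_right _ _ hw) (Ideal.mul_mem_right _ _ (mem_tI hϖ))
  · have : (w + ((p : 𝕎 P) * u - τ ϖ) * v) *
      (∑ i ∈ Finset.range (m + 1), ((p : 𝕎 P) * u) ^ i * τ ϖ ^ (m - i)) =
      w * (∑ i ∈ Finset.range (m + 1), ((p : 𝕎 P) * u) ^ i * τ ϖ ^ (m - i)) +
      ((∑ i ∈ Finset.range (m + 1), ((p : 𝕎 P) * u) ^ i * τ ϖ ^ (m - i)) *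
      ((p : 𝕎 P) * u - τ ϖ)) * v := by ring
    rw [this, hs, map_pow]
    ring

end Crest.Agent.R183.Digit
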