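import Mathlib
import Crest.Agent.R183.Digit

/-!
# Convex ideals from multiplicative filtrations; Riemann extension for sharps (R183, S0273)
-/

namespace Crest.Agent.R183.Digit

open WittVector

variable {p : ℕ} [hp : Fact p.Prime] {P : Type*} [CommRing P] [CharP P p]

local notation "𝕎" => WittVector p
local notation "τ" => WittVector.teichmuller p

/-- multiplicative filtration -/
structure MulFilt {P : Type*} [CommRing P] (G : ℕ → Ideal P) : Prop where
  anti : Antitone G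
  mul : ∀ i j, G i * G j ≤ G (i + j)
  one : G 0 = ⊤

lemma MulFilt.pow {P : Type*} [CommRing P] {G : ℕ → Ideal P} (hG : MulFilt G) (i m : ℕ) :
    G i ^ m ≤ G (m * i) := by
  induction m with
  | zero => simp [hG.one]
  | succ m ih =>
    rw [pow_succ]
    calc G i ^ m * G i ≤ G (m * i) * G i := Ideal.mul_mono_left ih
      _ ≤ G (m * i + i) := hG.mul _ _
      _ = G ((m + 1) * i) := by congr 1; ring

lemma MulFilt.pow_mem {P : Type*} [CommRing P] {G : ℕ → Ideal P} (hG : MulFilt G) {i m : ℕ}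
    {x : P} (hx : x ∈ G i) : x ^ m ∈ G (m * i) :=
  hG.pow i m (Ideal.pow_mem_pow hx m)

omit hp in
/-- monotonicity in the level -/
lemma MulFilt.lift {P : Type*} [CommRing P] {G : ℕ → Ideal P} (hG : MulFilt G) {T e e' : ℕ}
    (he : e ≤ e') {h : P} (hh : h ^ p ^ e ∈ G (T * p ^ e)) : h ^ p ^ e' ∈ G (T * p ^ e') := by
  obtain ⟨k, rfl⟩ := Nat.exists_eq_add_of_le he
  rw [pow_add, pow_mul]
  have := hG.pow_mem (m := p ^ k) hh
  have e1 : p ^ k * (T * p ^ e) = T * (p ^ e * p ^ k) := by ring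
  rwa [e1] at this

/-- The convex ideal attached to a multiplicative filtration. -/
def JT (p : ℕ) [hp : Fact p.Prime] {P : Type*} [CommRing P] [CharP P p] {G : ℕ → Ideal P}
    (hG : MulFilt G) (T : ℕ) : Ideal P where
  carrier := {h | ∃ e, h ^ p ^ e ∈ G (T * p ^ e)}
  zero_mem' := ⟨0, by simp⟩
  add_mem' := by
    rintro a b ⟨e, he⟩ ⟨e', he'⟩
    refine ⟨max e e', ?_⟩
    rw [add_pow_char_pow]
    exact Ideal.add_mem _ (hG.lift (le_max_left _ _) he) (hG.lift (le_max_right _ _) he')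
  smul_mem' := by
    rintro c a ⟨e, he⟩
    refine ⟨e, ?_⟩
    rw [smul_eq_mul, mul_pow]
    exact Ideal.mul_mem_left _ _ he

lemma mem_JT {G : ℕ → Ideal P} {hG : MulFilt G} {T : ℕ} {h : P} :
    h ∈ JT p hG T ↔ ∃ e, h ^ p ^ e ∈ G (T * p ^ e) := Iff.rfl

lemma le_JT {G : ℕ → Ideal P} (hG : MulFilt G) (T : ℕ) : G T ≤ JT p hG T := by
  intro h hh
  exact ⟨0, by simpa using hh⟩

lemma JT_pow {G : ℕ → Ideal P} (hG : MulFilt G) (T m : ℕ) {y : P} (hy : y ∈ JT p hG T ^ m) :
    ∃ e, y ^ p ^ e ∈ G (m * T * p ^ e) := by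
  induction m generalizing y with
  | zero => exact ⟨0, by simp [hG.one]⟩
  | succ m ih =>
    rw [pow_succ] at hy
    refine Submodule.mul_induction_on hy ?_ ?_
    · intro a ha b hb
      obtain ⟨e, he⟩ := ih ha
      obtain ⟨e', he'⟩ := hb
      refine ⟨max e e', ?_⟩
      rw [mul_pow]
      have h1 := hG.lift (p := p) (T := m * T) (le_max_left e e') he
      have h2 := hG.lift (p := p) (T := T) (le_max_right e e') he'
      have h3 := hG.mul _ _ (Ideal.mul_mem_mul h1 h2)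
      have e1 : m * T * p ^ max e e' + T * p ^ max e e' = (m + 1) * T * p ^ max e e' := by ring
      rwa [e1] at h3
    · rintro a b ⟨e, he⟩ ⟨e', he'⟩
      refine ⟨max e e', ?_⟩
      rw [add_pow_char_pow]
      exact Ideal.add_mem _ (hG.lift (le_max_left _ _) he) (hG.lift (le_max_right _ _) he')

/-- **The ideals `JT` are convex.** -/
theorem convex_JT {G : ℕ → Ideal P} (hG : MulFilt G) (T : ℕ) : Convex p (JT p hG T) := by
  intro n x hx
  obtain ⟨e, he⟩ := JT_pow hG T (p ^ n) hx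
  refine ⟨n + e, ?_⟩
  rw [pow_add, pow_mul]
  have e1 : T * (p ^ n * p ^ e) = p ^ n * T * p ^ e := by ring
  rwa [e1]

/-- powers of an ideal -/
lemma mulFilt_pow {P : Type*} [CommRing P] (I : Ideal P) : MulFilt (fun k => I ^ k) where
  anti := fun _ _ h => Ideal.pow_le_pow_right h
  mul := fun i j => by rw [← pow_add]
  one := by simp

/-- Two-variable weighted filtration: `I` has weight `m`, `ϖ` has weight `w`. -/
def wF {P : Type*} [CommRing P] (I : Ideal P) (ϖ : P) (m w k : ℕ) : Ideal P :=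
  ⨆ (a : ℕ) (b : ℕ) (_ : k ≤ m * a + w * b), I ^ a * Ideal.span {ϖ ^ b}

lemma le_wF {P : Type*} [CommRing P] (I : Ideal P) (ϖ : P) {m w k a b : ℕ}
    (h : k ≤ m * a + w * b) : I ^ a * Ideal.span {ϖ ^ b} ≤ wF I ϖ m w k :=
  le_iSup_of_le a (le_iSup_of_le b (le_iSup_of_le h le_rfl))

lemma mulFilt_wF {P : Type*} [CommRing P] (I : Ideal P) (ϖ : P) (m w : ℕ) :
    MulFilt (wF I ϖ m w) where
  anti := by
    intro k k' hk
    unfold wF
    refine iSup_le fun a => iSup_le fun b => iSup_le fun h => ?_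
    exact le_wF I ϖ (hk.trans h)
  mul := by
    intro i j
    unfold wF
    simp only [Submodule.iSup_mul, Submodule.mul_iSup]
    refine iSup_le fun a => iSup_le fun b => iSup_le fun h => ?_
    refine iSup_le fun a' => iSup_le fun b' => iSup_le fun h' => ?_
    have e1 : I ^ a' * Ideal.span {ϖ ^ b'} * (I ^ a * Ideal.span {ϖ ^ b}) =
        I ^ (a + a') * Ideal.span {ϖ ^ (b + b')} := by
      rw [pow_add, pow_add ϖ, ← Ideal.span_singleton_mul_span_singleton]
      ring
    rw [e1]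
    exact le_wF I ϖ (by nlinarith)
  one := by
    rw [eq_top_iff]
    refine le_trans ?_ (le_wF I ϖ (a := 0) (b := 0) (by simp))
    simp

section perfect
variable [PerfectRing P p]

/-- `e`-fold inverse Frobenius -/
noncomputable def rt (p : ℕ) [Fact p.Prime] {P : Type*} [CommRing P] [CharP P p]
    [PerfectRing P p] (e : ℕ) (x : P) : P := ((_root_.frobeniusEquiv P p).symm)^[e] x

@[simp] lemma rt_pow (e : ℕ) (x : P) : rt p e x ^ p ^ e = x :=
  iterate_frobeniusEquiv_symm_pow_p_pow P p x e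

lemma pow_inj {e : ℕ} {x y : P} (h : x ^ p ^ e = y ^ p ^ e) : x = y := by
  apply (bijective_iterateFrobenius P p e).injective
  simpa [iterateFrobenius_def] using h

lemma rt_unique {e : ℕ} {x y : P} (h : y ^ p ^ e = x) : y = rt p e x :=
  pow_inj (e := e) (by rw [h, rt_pow])

lemma rt_mul (e : ℕ) (x y : P) : rt p e (x * y) = rt p e x * rt p e y := by
  symm; apply rt_unique; rw [mul_pow, rt_pow, rt_pow]

lemma rt_add (e f : ℕ) (x : P) : rt p (e + f) x ^ p ^ f = rt p e x := by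
  apply rt_unique
  rw [← pow_mul, ← pow_add, add_comm f e, rt_pow]

/-- extracting roots from an ideal generated by two elements -/
lemma mem_span_pair_of_pow {e : ℕ} {y A B : P}
    (h : y ^ p ^ e ∈ Ideal.span {A ^ p ^ e, B ^ p ^ e}) : y ∈ Ideal.span {A, B} := by
  rw [Ideal.mem_span_pair] at h ⊢
  obtain ⟨α, β, hαβ⟩ := h
  refine ⟨rt p e α, rt p e β, ?_⟩
  apply pow_inj (p := p) (e := e)
  rw [add_pow_char_pow, mul_pow, mul_pow, rt_pow, rt_pow, hαβ]

/-- **(B), two-parameter form**: if `[h₀ x^(p^f)] ∈ ([D^(p^f)], ξ)` then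
`h₀^(1/p^f) x ∈ (D^(1-1/p^g), ϖ^M)` for all `g, M`. -/
theorem riemann_pair {ϖ D x h₀ : P} {u : 𝕎 P} (hu : IsUnit u) (f : ℕ)
    (H : τ (h₀ * x ^ p ^ f) ∈ Ideal.span {τ (D ^ p ^ f)} ⊔ Ideal.span {(p : 𝕎 P) * u - τ ϖ})
    (g M : ℕ) :
    rt p f h₀ * x ∈ Ideal.span {rt p g D ^ (p ^ g - 1), ϖ ^ M} := by
  set j := p ^ f with hj
  have hjpos : 0 < j := pow_pos hp.out.pos f
  set m := M * j * p ^ g with hm
  have hG := mulFilt_wF (Ideal.span {D}) ϖ m j
  -- digit trick
  have h1 : h₀ * x ^ j ∈ JT p hG (m * j) := by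
    refine digit_trick (convex_JT hG (m * j)) hu (ϖ := ϖ) (n := m) ?_ ?_
    · refine le_JT hG _ ?_
      refine le_wF (Ideal.span {D}) ϖ (a := 0) (b := m) (by ring_nf; rfl) ?_
      simp [Ideal.mem_span_singleton]
    · refine (sup_le_sup_right (a := Ideal.span {τ (D ^ j)}) ?_ _) H
      refine Ideal.span_le.2 ?_
      rintro _ rfl
      refine mem_tI ?_
      refine le_JT hG _ ?_
      refine le_wF (Ideal.span {D}) ϖ (a := j) (b := 0) (by simp) ?_
      simp [Ideal.span_singleton_pow, Ideal.mem_span_singleton]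
  obtain ⟨e₀, he₀⟩ := h1
  have h2 := hG.lift (p := p) (Nat.le_max_left e₀ g) he₀
  set e := max e₀ g with he
  obtain ⟨c, hc⟩ : ∃ c, e = g + c := ⟨e - g, by omega⟩
  have hq : p ^ e = p ^ g * p ^ c := by rw [hc, pow_add]
  have hpg : 0 < p ^ g := pow_pos hp.out.pos g
  have hpc : 0 < p ^ c := pow_pos hp.out.pos c
  -- inclusion of ideals
  have h3 : wF (Ideal.span {D}) ϖ m j (m * j * p ^ e) ≤
      Ideal.span {(rt p g D ^ (p ^ g - 1)) ^ p ^ (e + f), (ϖ ^ M) ^ p ^ (e + f)} := by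
    unfold wF
    refine iSup_le fun a => iSup_le fun b => iSup_le fun h => ?_
    rw [Ideal.span_singleton_pow, Ideal.span_singleton_mul_span_singleton]
    refine Ideal.span_le.2 ?_
    rintro _ rfl
    have eD : (rt p g D ^ (p ^ g - 1)) ^ p ^ (e + f) = D ^ ((p ^ g - 1) * (p ^ c * j)) := by
      rw [← pow_mul]
      have : (p ^ g - 1) * p ^ (e + f) = p ^ g * ((p ^ g - 1) * (p ^ c * j)) := by
        rw [pow_add, hq]; ring
      rw [this, pow_mul, rt_pow]
    have eϖ : (ϖ ^ M) ^ p ^ (e + f) = ϖ ^ (M * (p ^ e * j)) := by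
      rw [← pow_mul, pow_add]
    rw [eD, eϖ]
    by_cases hab : (p ^ g - 1) * (p ^ c * j) ≤ a
    · have : D ^ a * ϖ ^ b = D ^ (a - (p ^ g - 1) * (p ^ c * j)) * ϖ ^ b *
          D ^ ((p ^ g - 1) * (p ^ c * j)) := by
        rw [mul_assoc, mul_comm (ϖ ^ b), ← mul_assoc, ← pow_add, Nat.sub_add_cancel hab]
      rw [this]
      exact Ideal.mul_mem_left _ _ (Ideal.subset_span (by simp))
    · have hb : M * (p ^ e * j) ≤ b := by
        by_contra hcon
        push Not at hab hcon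
        -- a < (p^g-1) p^c j, b < M p^e j ⟹ m a + j b < m j p^e
        obtain ⟨G1, hG1⟩ : ∃ G1, p ^ g = G1 + 1 := ⟨p ^ g - 1, by omega⟩
        rw [hG1] at hab hm hq
        simp only [Nat.add_sub_cancel] at hab
        rw [hq] at h hcon
        have h4 : m * a + j * b < m * a + j * (M * ((G1 + 1) * p ^ c * j)) :=
          Nat.add_lt_add_left (Nat.mul_lt_mul_of_pos_left hcon hjpos) _
        have h5 : m * a ≤ m * (G1 * (p ^ c * j)) := Nat.mul_le_mul_left _ hab.le
        have h6 : m * (G1 * (p ^ c * j)) + j * (M * ((G1 + 1) * p ^ c * j)) =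
            m * j * ((G1 + 1) * p ^ c) := by
          rw [hm]; ring
        omega
      have : D ^ a * ϖ ^ b = D ^ a * ϖ ^ (b - M * (p ^ e * j)) * ϖ ^ (M * (p ^ e * j)) := by
        rw [mul_assoc, ← pow_add, Nat.sub_add_cancel hb]
      rw [this]
      exact Ideal.mul_mem_left _ _ (Ideal.subset_span (by simp))
  have h4 := h3 h2
  apply mem_span_pair_of_pow (p := p) (e := e + f)
  have : (rt p f h₀ * x) ^ p ^ (e + f) = (h₀ * x ^ j) ^ p ^ e := by
    rw [mul_pow, mul_pow, ← pow_mul, add_comm e f, pow_add, pow_mul, rt_pow]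
  rwa [this]

end perfect

end Crest.Agent.R183.Digit
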