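import Mathlib

/-!
# Transfer theorem, block T1: one-variable Tougeron-Hensel and the triangular system lemma
-/

namespace Crest.Agent.R183.EZ

open Polynomial

universe u v w

/-- A polynomial `1 + X + (terms of degree ≥ 2 with coefficients in `m`)` over a Henselian local
ring has a root. -/
theorem exists_root_one_add_X {C : Type*} [CommRing C] [HenselianLocalRing C] (Q : C[X])
    (h0 : Q.coeff 0 = 1) (h1 : Q.coeff 1 = 1)
    (h2 : ∀ i, 2 ≤ i → Q.coeff i ∈ IsLocalRing.maximalIdeal C) : ∃ v : C, Q.eval v = 0 := by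
  classical
  set N : ℕ := Q.natDegree + 2 with hN
  set F : C[X] := reflect N Q with hF
  have hcoef : ∀ i, F.coeff i = Q.coeff (revAt N i) := fun i => coeff_reflect N Q i
  have hFN : F.coeff N = 1 := by
    rw [hcoef, revAt_le le_rfl]; simp [h0]
  have hFdeg : F.natDegree ≤ N := by
    rw [natDegree_le_iff_coeff_eq_zero]
    intro k hk
    rw [hcoef, revAt_eq_self_of_lt hk]
    exact coeff_eq_zero_of_natDegree_lt (by omega)
  have hmon : F.Monic := monic_of_natDegree_le_of_coeff_eq_one N hFdeg hFN
  -- reduction modulo the maximal ideal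
  have hmapQ : Q.map (IsLocalRing.residue C) = 1 + X := by
    ext i
    rw [coeff_map]
    rcases i with _ | _ | i
    · simp [h0]
    · simp [h1, coeff_one]
    · have := h2 (i + 2) (by omega)
      rw [(IsLocalRing.residue_eq_zero_iff _).2 this]
      simp [coeff_one, coeff_X]
  have hmapF : F.map (IsLocalRing.residue C) = X ^ N + X ^ (N - 1) := by
    rw [hF, ← reflect_map, hmapQ, reflect_add]
    congr 1
    · have := reflect_C (1 : IsLocalRing.ResidueField C) N
      rwa [map_one, one_mul] at this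
    · have := reflect_monomial (R := IsLocalRing.ResidueField C) N 1
      rw [pow_one, revAt_le (by omega)] at this
      exact this
  have hN1 : N = (N - 1) + 1 := by omega
  have hN2 : N - 1 = (N - 2) + 1 := by omega
  have he : F.eval (-1) ∈ IsLocalRing.maximalIdeal C := by
    rw [← IsLocalRing.residue_eq_zero_iff]
    have : IsLocalRing.residue C (F.eval (-1)) = (F.map (IsLocalRing.residue C)).eval (-1) := by
      have := (Polynomial.eval_map_apply (IsLocalRing.residue C) (p := F) (-1 : C))
      simpa using this.symm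
    rw [this, hmapF, eval_add, eval_pow, eval_pow, eval_X]
    rw [show N = (N - 1) + 1 from hN1, pow_succ]
    simp
  have hd : IsUnit (F.derivative.eval (-1)) := by
    rw [← not_not (a := IsUnit _), ← mem_nonunits_iff, ← IsLocalRing.mem_maximalIdeal,
      ← IsLocalRing.residue_eq_zero_iff]
    have : IsLocalRing.residue C (F.derivative.eval (-1)) =
        ((F.map (IsLocalRing.residue C)).derivative).eval (-1) := by
      have := (Polynomial.eval_map_apply (IsLocalRing.residue C) (p := F.derivative) (-1 : C))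
      rw [derivative_map]
      simpa using this.symm
    rw [this, hmapF, derivative_add, derivative_X_pow, derivative_X_pow, eval_add, eval_mul,
      eval_mul, eval_pow, eval_pow, eval_X]
    simp only [map_natCast, eval_natCast]
    have hcast : (N : IsLocalRing.ResidueField C) = ((N - 1 : ℕ) : IsLocalRing.ResidueField C) + 1 := by
      rw [← Nat.cast_succ]
      congr 1
    have hpow : (-1 : IsLocalRing.ResidueField C) ^ (N - 1) = - (-1) ^ (N - 1 - 1) := by
      rw [hN2, pow_succ]
      simp
    rw [hcast, hpow]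
    intro h
    have h' : (-1 : IsLocalRing.ResidueField C) ^ (N - 1 - 1) = 0 := by
      linear_combination -h
    exact pow_ne_zero _ (neg_ne_zero.2 one_ne_zero) h'
  obtain ⟨a, ha, ha1⟩ := HenselianLocalRing.is_henselian F hmon (-1) he hd
  have hau : IsUnit a := by
    rw [← not_not (a := IsUnit _), ← mem_nonunits_iff, ← IsLocalRing.mem_maximalIdeal]
    intro h
    have h3 : (-1 : C) ∈ IsLocalRing.maximalIdeal C := by
      have := Ideal.sub_mem _ h ha1
      rwa [sub_sub_cancel] at this
    exact (Ideal.ne_top_iff_one _).1 (IsLocalRing.maximalIdeal.isMaximal C).ne_top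
      (by simpa using (Ideal.neg_mem_iff _).2 h3)
  obtain ⟨a, rfl⟩ := hau
  refine ⟨((a⁻¹ : Cˣ) : C), ?_⟩
  have inst : Invertible ((a⁻¹ : Cˣ) : C) := ⟨(a : C), by simp, by simp⟩
  have key := eval₂_reflect_eq_zero_iff (RingHom.id C) ((a⁻¹ : Cˣ) : C) N Q (by omega)
  have hinv : ⅟((a⁻¹ : Cˣ) : C) = (a : C) := invOf_eq_right_inv (by simp)
  rw [hinv] at key
  exact key.1 ha

/-- One-variable Tougeron-Hensel lemma: an approximate root `s` with `P(s) ∈ (P'(s)² t)`,
`t ∈ m`, can be moved to an exact root `z` with `z - s ∈ (P'(s) t)`. -/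
theorem hensel_tougeron {S : Type*} [CommRing S] [HenselianLocalRing S] (P : S[X]) (s t : S)
    (ht : t ∈ IsLocalRing.maximalIdeal S) (h : (P.derivative.eval s) ^ 2 * t ∣ P.eval s) :
    ∃ z, P.eval z = 0 ∧ P.derivative.eval s * t ∣ z - s := by
  obtain ⟨e, he⟩ := h
  set p1 : S := P.derivative.eval s with hp1
  set τ : S := t * e with hτ
  set U : S[X] := divX (divX (taylor s P)) with hU
  have hT : taylor s P = X ^ 2 * U + C p1 * X + C (P.eval s) := by
    have e1 := divX_mul_X_add (taylor s P)
    have e2 := divX_mul_X_add (divX (taylor s P))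
    rw [taylor_coeff_zero] at e1
    rw [coeff_divX, taylor_coeff_one] at e2
    rw [← e1, ← e2, ← hU, ← hp1]
    ring
  have hTev : ∀ v : S, P.eval (s + v) = v ^ 2 * U.eval v + p1 * v + P.eval s := by
    intro v
    have := congrArg (Polynomial.eval v) hT
    rw [taylor_eval] at this
    rw [add_comm s v, this]
    simp
  set Q : S[X] := 1 + X + C τ * (X ^ 2 * U.comp (C (p1 * τ) * X)) with hQ
  have hτm : τ ∈ IsLocalRing.maximalIdeal S := Ideal.mul_mem_right _ _ ht
  obtain ⟨v, hv⟩ := exists_root_one_add_X Q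
    (by simp [hQ])
    (by simp [hQ, coeff_X_pow_mul', coeff_one])
    (by
      intro i hi
      rw [hQ, coeff_add, coeff_add, coeff_C_mul]
      have h1 : (1 : S[X]).coeff i = 0 := by rw [coeff_one]; simp; omega
      have h2 : (X : S[X]).coeff i = 0 := by rw [coeff_X]; simp; omega
      rw [h1, h2, zero_add, zero_add]
      exact Ideal.mul_mem_right _ _ hτm)
  refine ⟨s + p1 * τ * v, ?_, ?_⟩
  · rw [hTev, he]
    have hQv : 1 + v + τ * ((v ^ 2) * U.eval (p1 * τ * v)) = 0 := by
      simpa [hQ, eval_comp] using hv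
    have : p1 ^ 2 * t * e = p1 ^ 2 * τ := by rw [hτ]; ring
    rw [this]
    linear_combination (p1 ^ 2 * τ) * hQv
  · rw [add_sub_cancel_left, hτ]
    exact ⟨e * v, by ring⟩

section Step

variable {R : Type*} {M : Type*} [CommRing R] [CommRing M] [IsDomain M] [CharZero M]

omit [CharZero M] in
/-- If every coefficient of `f` has a multiplier outside the kernel moving it into the ideal `I`,
then so does `f`. -/
theorem exists_mul_mem_map_C (ev : R →+* M) (I : Ideal R)
    (hI : ∀ f, ev f = 0 → ∃ a, ev a ≠ 0 ∧ a * f ∈ I) (f : R[X])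
    (hf : ∀ k, ev (f.coeff k) = 0) : ∃ a, ev a ≠ 0 ∧ C a * f ∈ I.map (C : R →+* R[X]) := by
  classical
  choose a ha hmem using fun k => hI (f.coeff k) (hf k)
  refine ⟨∏ k ∈ f.support, a k, ?_, ?_⟩
  · rw [map_prod]
    exact Finset.prod_ne_zero_iff.2 fun k _ => ha k
  · rw [Ideal.mem_map_C_iff]
    intro n
    rw [coeff_C_mul]
    by_cases hn : n ∈ f.support
    · obtain ⟨b, hb⟩ := Finset.dvd_prod_of_mem a hn
      rw [hb, show a n * b * f.coeff n = b * (a n * f.coeff n) by ring]
      exact Ideal.mul_mem_left _ _ (hmem n)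
    · rw [notMem_support_iff.1 hn, mul_zero]
      exact Ideal.zero_mem _

/-- The dichotomy for one new element `y0`: transcendental or algebraic. -/
theorem dichotomy (ev : R →+* M) (y0 : M) :
    (∀ G : R[X], G.eval₂ ev y0 = 0 → ∀ k, ev (G.coeff k) = 0) ∨
    ∃ (G : R[X]) (n : ℕ), G.natDegree ≤ n ∧ G.eval₂ ev y0 = 0 ∧ ev (G.coeff n) ≠ 0 ∧
      G.derivative.eval₂ ev y0 ≠ 0 ∧
      ∀ f : R[X], f.degree < n → f.eval₂ ev y0 = 0 → ∀ k, ev (f.coeff k) = 0 := by
  classical
  by_cases hA : ∀ G : R[X], G.eval₂ ev y0 = 0 → ∀ k, ev (G.coeff k) = 0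
  · exact Or.inl hA
  right
  push Not at hA
  have hex : ∃ n, ∃ G : R[X], G.natDegree ≤ n ∧ G.eval₂ ev y0 = 0 ∧ ∃ k, ev (G.coeff k) ≠ 0 := by
    obtain ⟨G, hG, k, hk⟩ := hA
    exact ⟨G.natDegree, G, le_rfl, hG, k, hk⟩
  set n := Nat.find hex with hn
  obtain ⟨G, hGn, hG0, k, hk⟩ := Nat.find_spec hex
  rw [← hn] at hGn
  have hmin : ∀ f : R[X], f.degree < n → f.eval₂ ev y0 = 0 → ∀ k, ev (f.coeff k) = 0 := by
    intro f hf hf0
    by_contra hcon
    push Not at hcon
    obtain ⟨j, hj⟩ := hcon
    have hf1 : f ≠ 0 := by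
      rintro rfl
      exact hj (by simp)
    have hlt : f.natDegree < n := (natDegree_lt_iff_degree_lt hf1).2 hf
    exact Nat.find_min hex hlt ⟨f, le_rfl, hf0, j, hj⟩
  have hcoef : ev (G.coeff n) ≠ 0 := by
    intro hcon
    have hkn : k ≠ n := by
      rintro rfl
      exact hk hcon
    set G2 : R[X] := G - C (G.coeff n) * X ^ n with hG2
    have hd2 : G2.degree < n := by
      rw [degree_lt_iff_coeff_zero]
      intro m hm
      rw [hG2, coeff_sub, coeff_C_mul, coeff_X_pow]
      rcases eq_or_lt_of_le hm with rfl | hm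
      · simp
      · rw [coeff_eq_zero_of_natDegree_lt (lt_of_le_of_lt hGn hm), if_neg hm.ne']
        simp
    have h0 : G2.eval₂ ev y0 = 0 := by
      rw [hG2, eval₂_sub, hG0, eval₂_mul, eval₂_C, hcon, zero_mul, sub_zero]
    have := hmin G2 hd2 h0 k
    rw [hG2, coeff_sub, coeff_C_mul, coeff_X_pow, if_neg hkn, mul_zero, sub_zero] at this
    exact hk this
  refine ⟨G, n, hGn, hG0, hcoef, ?_, hmin⟩
  have hn0 : n ≠ 0 := by
    intro h0
    rw [h0] at hGn hcoef
    have : G = C (G.coeff 0) := eq_C_of_natDegree_le_zero hGn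
    rw [this, eval₂_C] at hG0
    exact hcoef hG0
  intro hcon
  have hd : G.derivative.degree < n := by
    rw [degree_lt_iff_coeff_zero]
    intro m hm
    rw [coeff_derivative, coeff_eq_zero_of_natDegree_lt (by omega), zero_mul]
  have := hmin _ hd hcon (n - 1)
  rw [coeff_derivative, Nat.sub_add_cancel (Nat.one_le_iff_ne_zero.2 hn0), map_mul, map_add,
    map_natCast, map_one] at this
  rcases mul_eq_zero.1 this with h | h
  · exact hcoef h
  · have h' : ((n : ℕ) : M) = 0 := by
      have : ((n - 1 + 1 : ℕ) : M) = 0 := by exact_mod_cast h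
      rwa [Nat.sub_add_cancel (Nat.one_le_iff_ne_zero.2 hn0)] at this
    exact hn0 (Nat.cast_eq_zero.1 h')

omit [CharZero M] in
/-- Pseudo-division by a polynomial of minimal degree. -/
theorem exists_mul_mem_sup (ev : R →+* M) (y0 : M) (I : Ideal R)
    (hI : ∀ f, ev f = 0 → ∃ a, ev a ≠ 0 ∧ a * f ∈ I) (G : R[X]) (n : ℕ) (hGn : G.natDegree ≤ n)
    (hG0 : G.eval₂ ev y0 = 0) (hcoef : ev (G.coeff n) ≠ 0)
    (hmin : ∀ f : R[X], f.degree < n → f.eval₂ ev y0 = 0 → ∀ k, ev (f.coeff k) = 0)
    (f : R[X]) (hf : f.eval₂ ev y0 = 0) :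
    ∃ a, ev a ≠ 0 ∧ C a * f ∈ I.map (C : R →+* R[X]) ⊔ Ideal.span {G} := by
  suffices H : ∀ (N : ℕ) (f : R[X]), f.degree < ((n + N : ℕ) : WithBot ℕ) →
      f.eval₂ ev y0 = 0 →
      ∃ a, ev a ≠ 0 ∧ C a * f ∈ I.map (C : R →+* R[X]) ⊔ Ideal.span {G} by
    refine H (f.natDegree + 1) f (lt_of_le_of_lt degree_le_natDegree ?_) hf
    exact_mod_cast (by omega : f.natDegree < n + (f.natDegree + 1))
  intro N
  induction N with
  | zero =>
    intro f hf hf0
    obtain ⟨a, ha, hmem⟩ := exists_mul_mem_map_C ev I hI f (hmin f (by simpa using hf) hf0)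
    exact ⟨a, ha, Ideal.mem_sup_left hmem⟩
  | succ N ih =>
    intro f hf hf0
    set c := f.coeff (n + N) with hc
    set l := G.coeff n with hl
    set f1 : R[X] := C l * f - C c * X ^ N * G with hf1
    have hd1 : f1.degree < ((n + N : ℕ) : WithBot ℕ) := by
      rw [degree_lt_iff_coeff_zero]
      intro m hm
      rw [hf1, coeff_sub, coeff_C_mul, mul_assoc, coeff_C_mul, coeff_X_pow_mul', if_pos (by omega)]
      rcases eq_or_lt_of_le hm with rfl | hm
      · rw [← hc, Nat.add_sub_cancel, ← hl]
        ring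
      · have h1 : f.coeff m = 0 := by
          rw [degree_lt_iff_coeff_zero] at hf
          exact hf m (by omega)
        have h2 : G.coeff (m - N) = 0 := coeff_eq_zero_of_natDegree_lt (by omega)
        rw [h1, h2]
        simp
    have h0 : f1.eval₂ ev y0 = 0 := by
      rw [hf1, eval₂_sub, eval₂_mul, eval₂_mul, hf0, hG0]
      simp
    obtain ⟨a, ha, hmem⟩ := ih f1 hd1 h0
    refine ⟨a * l, by rw [map_mul]; exact mul_ne_zero ha hcoef, ?_⟩
    have : C (a * l) * f = C a * f1 + C a * (C c * X ^ N) * G := by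
      rw [hf1, C_mul]
      ring
    rw [this]
    exact Ideal.add_mem _ hmem (Ideal.mem_sup_right
      (Ideal.mul_mem_left _ _ (Ideal.mem_span_singleton_self _)))

end Step

/-- Evaluation of a polynomial with coefficients in `MvPolynomial (Fin n) B` obtained from
`finSuccEquiv`. -/
theorem eval₂_finSuccEquiv {B : Type*} {S : Type*} [CommRing B] [CommRing S] (ψ : B →+* S)
    (n : ℕ) (y : Fin (n + 1) → S) (f : MvPolynomial (Fin (n + 1)) B) :
    (MvPolynomial.finSuccEquiv B n f).eval₂ (MvPolynomial.eval₂Hom ψ (Fin.tail y)) (y 0) =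
      MvPolynomial.eval₂ ψ y f := by
  have h : ((Polynomial.eval₂RingHom (MvPolynomial.eval₂Hom ψ (Fin.tail y)) (y 0)).comp
      (MvPolynomial.finSuccEquiv B n : MvPolynomial (Fin (n + 1)) B →+* _)) =
      MvPolynomial.eval₂Hom ψ y := by
    apply MvPolynomial.ringHom_ext
    · intro r
      simp [MvPolynomial.finSuccEquiv_apply]
    · intro i
      refine Fin.cases ?_ (fun j => ?_) i
      · simp [MvPolynomial.finSuccEquiv_apply]
      · simp [MvPolynomial.finSuccEquiv_apply, Fin.tail]
  exact congrArg (fun g => g f) h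

/-- **Triangular system lemma.** Here `ι` need not be injective. -/
theorem triangular' {B : Type u} {M : Type v} [CommRing B] [CommRing M] [IsDomain M] [CharZero M]
    (ι : B →+* M) : ∀ (n : ℕ) (y : Fin n → M),
    ∃ (H : Finset (MvPolynomial (Fin n) B)) (δ : MvPolynomial (Fin n) B) (e : ℕ),
      (∀ h ∈ H, MvPolynomial.eval₂ ι y h = 0) ∧ MvPolynomial.eval₂ ι y δ ≠ 0 ∧
      (∀ f, MvPolynomial.eval₂ ι y f = 0 → ∃ a, MvPolynomial.eval₂ ι y a ≠ 0 ∧
        a * f ∈ Ideal.span (H : Set (MvPolynomial (Fin n) B)) ⊔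
          (RingHom.ker ι).map MvPolynomial.C) ∧
      ∀ (S : Type w) [CommRing S] [HenselianLocalRing S] (ψ : B →+* S) (ys : Fin n → S) (t : S),
        t ∈ IsLocalRing.maximalIdeal S →
        (∀ h ∈ H, (MvPolynomial.eval₂ ψ ys δ) ^ e * t ∣ MvPolynomial.eval₂ ψ ys h) →
        ∃ yb : Fin n → S, (∀ i, t ∣ yb i - ys i) ∧ ∀ h ∈ H, MvPolynomial.eval₂ ψ yb h = 0 := by
  classical
  intro n
  induction n with
  | zero =>
    intro y
    refine ⟨∅, 1, 0, by simp, by simp, ?_, ?_⟩
    · intro f hf
      refine ⟨1, by simp, ?_⟩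
      rw [MvPolynomial.eq_C_of_isEmpty f, MvPolynomial.eval₂_C] at hf
      rw [MvPolynomial.eq_C_of_isEmpty f, one_mul]
      exact Ideal.mem_sup_right (Ideal.mem_map_of_mem _ hf)
    · intro S _ _ ψ ys t _ _
      exact ⟨ys, fun i => by simp, by simp⟩
  | succ n ih =>
    intro y
    obtain ⟨H', δ', e', hH', hδ', hmul', hlift'⟩ := ih (Fin.tail y)
    set E := MvPolynomial.finSuccEquiv B n with hE
    set ev' : MvPolynomial (Fin n) B →+* M := MvPolynomial.eval₂Hom ι (Fin.tail y) with hev'
    -- evaluation of pulled back polynomials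
    have hpull : ∀ {S : Type w} [CommRing S] (ψ : B →+* S) (ys : Fin (n + 1) → S)
        (G : Polynomial (MvPolynomial (Fin n) B)), MvPolynomial.eval₂ ψ ys (E.symm G) =
          G.eval₂ (MvPolynomial.eval₂Hom ψ (Fin.tail ys)) (ys 0) := by
      intro S _ ψ ys G
      rw [← eval₂_finSuccEquiv, ← hE, E.apply_symm_apply]
    have hpullM : ∀ (G : Polynomial (MvPolynomial (Fin n) B)), MvPolynomial.eval₂ ι y (E.symm G) =
          G.eval₂ ev' (y 0) := by
      intro G
      rw [← eval₂_finSuccEquiv, ← hE, E.apply_symm_apply]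
    set I : Ideal (MvPolynomial (Fin n) B) := Ideal.span (H' : Set (MvPolynomial (Fin n) B)) ⊔
          (RingHom.ker ι).map MvPolynomial.C with hIdef
    have hI : ∀ f, ev' f = 0 → ∃ a, ev' a ≠ 0 ∧ a * f ∈ I := hmul'
    set j : MvPolynomial (Fin n) B → MvPolynomial (Fin (n + 1)) B := fun h => E.symm (C h) with hj
    have hspan : ∀ g ∈ I.map (C : MvPolynomial (Fin n) B →+* _), E.symm g ∈
          Ideal.span ((H'.image j : Finset _) : Set (MvPolynomial (Fin (n + 1)) B)) ⊔
            (RingHom.ker ι).map MvPolynomial.C := by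
      intro g hg
      have := Ideal.mem_map_of_mem (E.symm : _ →+* MvPolynomial (Fin (n + 1)) B) hg
      rw [hIdef, Ideal.map_sup, Ideal.map_sup, Ideal.map_span, Ideal.map_span, ← Set.image_comp,
        Ideal.map_map, Ideal.map_map] at this
      rw [Finset.coe_image]
      have hcomp : ((E.symm : Polynomial (MvPolynomial (Fin n) B) →+*
          MvPolynomial (Fin (n + 1)) B).comp C).comp MvPolynomial.C = MvPolynomial.C := by
        ext1 r
        change E.symm (C (MvPolynomial.C r)) = MvPolynomial.C r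
        rw [AlgEquiv.symm_apply_eq, hE, MvPolynomial.finSuccEquiv_apply]
        simp
      rw [← hcomp]
      exact this
    have hfE : ∀ f, (E f).eval₂ ev' (y 0) = MvPolynomial.eval₂ ι y f := fun f =>
      eval₂_finSuccEquiv ι n y f
    rcases dichotomy ev' (y 0) with hA | ⟨G, m, hGm, hG0, hcoef, hder, hmin⟩
    · refine ⟨H'.image j, j δ', e', ?_, ?_, ?_, ?_⟩
      · intro h hh
        obtain ⟨h', hh', rfl⟩ := Finset.mem_image.1 hh
        rw [hj, hpullM, eval₂_C]
        exact hH' h' hh'
      · rw [hj, hpullM, eval₂_C]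
        exact hδ'
      · intro f hf
        obtain ⟨a, ha, hmem⟩ := exists_mul_mem_map_C ev' _ hI (E f)
          (hA (E f) (by rw [hfE]; exact hf))
        refine ⟨j a, by rw [hj, hpullM, eval₂_C]; exact ha, ?_⟩
        have := hspan _ hmem
        rwa [map_mul, E.symm_apply_apply] at this
      · intro S _ _ ψ ys t ht hdvd
        obtain ⟨yb, hyb1, hyb2⟩ := hlift' S ψ (Fin.tail ys) t ht (by
          intro h hh
          have := hdvd (j h) (Finset.mem_image_of_mem _ hh)
          rw [hj, hpull, hpull, eval₂_C, eval₂_C] at this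
          exact this)
        refine ⟨Fin.cons (ys 0) yb, ?_, ?_⟩
        · intro i
          refine Fin.cases ?_ (fun k => ?_) i
          · simp
          · exact hyb1 k
        · intro h hh
          obtain ⟨h', hh', rfl⟩ := Finset.mem_image.1 hh
          rw [hj, hpull, eval₂_C, Fin.tail_cons]
          exact hyb2 h' hh'
    · refine ⟨insert (E.symm G) (H'.image j), E.symm (C δ' * G.derivative), e' + 2, ?_, ?_, ?_, ?_⟩
      · intro h hh
        rcases Finset.mem_insert.1 hh with rfl | hh
        · rw [hpullM]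
          exact hG0
        · obtain ⟨h', hh', rfl⟩ := Finset.mem_image.1 hh
          rw [hj, hpullM, eval₂_C]
          exact hH' h' hh'
      · rw [hpullM, eval₂_mul, eval₂_C]
        exact mul_ne_zero hδ' hder
      · intro f hf
        obtain ⟨a, ha, hmem⟩ := exists_mul_mem_sup ev' (y 0) _ hI G m hGm hG0 hcoef hmin (E f)
          (by rw [hfE]; exact hf)
        refine ⟨j a, by rw [hj, hpullM, eval₂_C]; exact ha, ?_⟩
        rw [Finset.coe_insert, Ideal.span_insert, sup_assoc]
        obtain ⟨g1, hg1, g2, hg2, hsum⟩ := Submodule.mem_sup.1 hmem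
        have h3 : j a * f = E.symm g2 + E.symm g1 := by
          have : C a * E f = g1 + g2 := hsum.symm
          have := congrArg E.symm this
          rw [map_mul, E.symm_apply_apply, map_add] at this
          calc j a * f = E.symm g1 + E.symm g2 := this
            _ = E.symm g2 + E.symm g1 := by ring
        rw [h3]
        refine Submodule.add_mem_sup ?_ (hspan _ hg1)
        obtain ⟨c, hc⟩ := Ideal.mem_span_singleton.1 hg2
        rw [hc, map_mul]
        exact Ideal.mul_mem_right _ _ (Ideal.mem_span_singleton_self _)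
      · intro S _ _ ψ ys t ht hdvd
        set ys' := Fin.tail ys with hys'
        set d' : S := MvPolynomial.eval₂ ψ ys' δ' with hd'
        set g' : S := G.derivative.eval₂ (MvPolynomial.eval₂Hom ψ ys') (ys 0) with hg'
        have hδ : MvPolynomial.eval₂ ψ ys (E.symm (C δ' * G.derivative)) = d' * g' := by
          rw [hpull, eval₂_mul, eval₂_C]
          rfl
        rw [hδ] at hdvd
        set t' : S := t * g' ^ 2 with ht'
        have ht'm : t' ∈ IsLocalRing.maximalIdeal S := Ideal.mul_mem_right _ _ ht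
        obtain ⟨yb, hyb1, hyb2⟩ := hlift' S ψ ys' t' ht'm (by
          intro h hh
          have := hdvd (j h) (Finset.mem_insert_of_mem (Finset.mem_image_of_mem _ hh))
          rw [hj, hpull, eval₂_C] at this
          refine dvd_trans ?_ this
          exact ⟨d' ^ 2 * g' ^ e', by rw [← hd', ht']; ring⟩)
        -- the one variable polynomials
        set P0 : S[X] := G.map (MvPolynomial.eval₂Hom ψ ys') with hP0
        set P : S[X] := G.map (MvPolynomial.eval₂Hom ψ yb) with hP
        have hcong : ∀ f : MvPolynomial (Fin n) B, t' ∣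
            MvPolynomial.eval₂Hom ψ yb f - MvPolynomial.eval₂Hom ψ ys' f := by
          intro f
          rw [← Ideal.mem_span_singleton, ← Ideal.Quotient.mk_eq_mk_iff_sub_mem]
          have : (Ideal.Quotient.mk (Ideal.span {t'})).comp (MvPolynomial.eval₂Hom ψ yb) =
              (Ideal.Quotient.mk (Ideal.span {t'})).comp (MvPolynomial.eval₂Hom ψ ys') := by
            apply MvPolynomial.ringHom_ext
            · intro r
              simp
            · intro i
              simp only [RingHom.comp_apply, MvPolynomial.coe_eval₂Hom, MvPolynomial.eval₂_X]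
              rw [Ideal.Quotient.mk_eq_mk_iff_sub_mem, Ideal.mem_span_singleton]
              exact hyb1 i
          exact congrArg (fun g => g f) this
        have hcong2 : ∀ f : Polynomial (MvPolynomial (Fin n) B), t' ∣
            f.eval₂ (MvPolynomial.eval₂Hom ψ yb) (ys 0) -
              f.eval₂ (MvPolynomial.eval₂Hom ψ ys') (ys 0) := by
          intro f
          rw [eval₂_eq_sum_range, eval₂_eq_sum_range, ← Finset.sum_sub_distrib]
          refine Finset.dvd_sum fun i _ => ?_
          rw [← sub_mul]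
          exact Dvd.dvd.mul_right (hcong _) _
        have hPs : P.eval (ys 0) = G.eval₂ (MvPolynomial.eval₂Hom ψ yb) (ys 0) := by
          rw [hP, eval_map]
        have hPds : P.derivative.eval (ys 0) =
            G.derivative.eval₂ (MvPolynomial.eval₂Hom ψ yb) (ys 0) := by
          rw [hP, derivative_map, eval_map]
        -- derivative is `g'` times a unit
        obtain ⟨q, hq⟩ := hcong2 G.derivative
        rw [← hPds, ← hg'] at hq
        have hunit : IsUnit (1 + t * g' * q) := by
          have hm : t * g' * q ∈ IsLocalRing.maximalIdeal S :=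
            Ideal.mul_mem_right _ _ (Ideal.mul_mem_right _ _ ht)
          by_contra hcon
          have h1 : (1 + t * g' * q) ∈ IsLocalRing.maximalIdeal S := by
            rw [IsLocalRing.mem_maximalIdeal]; exact hcon
          have := Ideal.sub_mem _ h1 hm
          rw [add_sub_cancel_right] at this
          exact (Ideal.ne_top_iff_one _).1 (IsLocalRing.maximalIdeal.isMaximal S).ne_top this
        have hder' : P.derivative.eval (ys 0) = g' * (1 + t * g' * q) := by
          rw [ht'] at hq
          linear_combination hq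
        obtain ⟨u, hu⟩ := hunit
        have hdvdP : (P.derivative.eval (ys 0)) ^ 2 * t ∣ P.eval (ys 0) := by
          have h1 : g' ^ 2 * t ∣ P.eval (ys 0) := by
            obtain ⟨q2, hq2⟩ := hcong2 G
            rw [← hPs] at hq2
            have h3 := hdvd (E.symm G) (Finset.mem_insert_self _ _)
            rw [hpull] at h3
            have h4 : g' ^ 2 * t ∣ (d' * g') ^ (e' + 2) * t :=
              ⟨d' ^ (e' + 2) * g' ^ e', by ring⟩
            obtain ⟨q3, hq3⟩ := dvd_trans h4 h3
            refine ⟨q2 + q3, ?_⟩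
            rw [ht'] at hq2
            linear_combination hq2 + hq3
          obtain ⟨c, hc⟩ := h1
          refine ⟨c * ((u⁻¹ : Sˣ) : S) ^ 2, ?_⟩
          rw [hder', ← hu, hc]
          have hui : (u : S) * ((u⁻¹ : Sˣ) : S) = 1 := by simp
          have : (g' * (u : S)) ^ 2 * t * (c * ((u⁻¹ : Sˣ) : S) ^ 2) =
            g' ^ 2 * t * c * ((u : S) * ((u⁻¹ : Sˣ) : S)) ^ 2 := by ring
          rw [this, hui]
          ring
        obtain ⟨z, hz1, hz2⟩ := hensel_tougeron P (ys 0) t ht hdvdP
        refine ⟨Fin.cons z yb, ?_, ?_⟩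
        · intro i
          refine Fin.cases ?_ (fun k => ?_) i
          · exact dvd_trans (dvd_mul_left _ _) hz2
          · exact dvd_trans (dvd_mul_right _ _) (hyb1 k)
        · intro h hh
          rcases Finset.mem_insert.1 hh with rfl | hh
          · rw [hpull, Fin.tail_cons, Fin.cons_zero, ← eval_map]
            exact hz1
          · obtain ⟨h', hh', rfl⟩ := Finset.mem_image.1 hh
            rw [hj, hpull, eval₂_C, Fin.tail_cons]
            exact hyb2 h' hh'

/-- **Triangular system lemma**, injective version. -/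
theorem triangular {B : Type u} {M : Type v} [CommRing B] [CommRing M] [IsDomain M] [CharZero M]
    (ι : B →+* M) (hι : Function.Injective ι) (n : ℕ) (y : Fin n → M) :
    ∃ (H : Finset (MvPolynomial (Fin n) B)) (δ : MvPolynomial (Fin n) B) (e : ℕ),
      (∀ h ∈ H, MvPolynomial.eval₂ ι y h = 0) ∧ MvPolynomial.eval₂ ι y δ ≠ 0 ∧
      (∀ f, MvPolynomial.eval₂ ι y f = 0 → ∃ a, MvPolynomial.eval₂ ι y a ≠ 0 ∧
        a * f ∈ Ideal.span (H : Set (MvPolynomial (Fin n) B))) ∧
      ∀ (S : Type w) [CommRing S] [HenselianLocalRing S] (ψ : B →+* S) (ys : Fin n → S) (t : S),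
        t ∈ IsLocalRing.maximalIdeal S →
        (∀ h ∈ H, (MvPolynomial.eval₂ ψ ys δ) ^ e * t ∣ MvPolynomial.eval₂ ψ ys h) →
        ∃ yb : Fin n → S, (∀ i, t ∣ yb i - ys i) ∧ ∀ h ∈ H, MvPolynomial.eval₂ ψ yb h = 0 := by
  obtain ⟨H, δ, e, h1, h2, h3, h4⟩ := triangular'.{u, v, w} ι n y
  refine ⟨H, δ, e, h1, h2, ?_, h4⟩
  rw [(RingHom.injective_iff_ker_eq_bot ι).1 hι, Ideal.map_bot, sup_bot_eq] at h3
  exact h3

/-- **Triangular system lemma**, indexed by an arbitrary finite type, with the relations
indexed by `Fin r`. -/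
theorem triangular_finite {B : Type u} {M : Type v} [CommRing B] [CommRing M] [IsDomain M]
    [CharZero M] (ι : B →+* M) (τ : Type*) [Finite τ] (y : τ → M) :
    ∃ (r : ℕ) (H : Fin r → MvPolynomial τ B) (δ : MvPolynomial τ B) (e : ℕ),
      (∀ k, MvPolynomial.eval₂ ι y (H k) = 0) ∧ MvPolynomial.eval₂ ι y δ ≠ 0 ∧
      (∀ f, MvPolynomial.eval₂ ι y f = 0 → ∃ a, MvPolynomial.eval₂ ι y a ≠ 0 ∧
        a * f ∈ Ideal.span (Set.range H) ⊔ (RingHom.ker ι).map MvPolynomial.C) ∧
      ∀ (S : Type w) [CommRing S] [HenselianLocalRing S] (ψ : B →+* S) (ys : τ → S) (t : S),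
        t ∈ IsLocalRing.maximalIdeal S →
        (∀ k, (MvPolynomial.eval₂ ψ ys δ) ^ e * t ∣ MvPolynomial.eval₂ ψ ys (H k)) →
        ∃ yb : τ → S, (∀ i, t ∣ yb i - ys i) ∧ ∀ k, MvPolynomial.eval₂ ψ yb (H k) = 0 := by
  classical
  obtain ⟨n, ⟨g⟩⟩ := Finite.exists_equiv_fin τ
  obtain ⟨H, δ, e, h1, h2, h3, h4⟩ := triangular'.{u, v, w} ι n (y ∘ g.symm)
  obtain ⟨r, ⟨q⟩⟩ := Finite.exists_equiv_fin (H : Type _)
  refine ⟨r, fun k => MvPolynomial.rename g.symm ((q.symm k : H) : MvPolynomial (Fin n) B),
    MvPolynomial.rename g.symm δ, e, ?_, ?_, ?_, ?_⟩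
  · intro k
    rw [MvPolynomial.eval₂_rename]
    exact h1 _ (q.symm k).2
  · rw [MvPolynomial.eval₂_rename]
    exact h2
  · intro f hf
    obtain ⟨a, ha, hmem⟩ := h3 (MvPolynomial.rename g f) (by
      rw [MvPolynomial.eval₂_rename]
      convert hf using 2
      ext i
      simp)
    refine ⟨MvPolynomial.rename g.symm a, by rw [MvPolynomial.eval₂_rename]; exact ha, ?_⟩
    have := Ideal.mem_map_of_mem
      (MvPolynomial.rename g.symm : MvPolynomial (Fin n) B →ₐ[B] MvPolynomial τ B).toRingHom hmem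
    rw [Ideal.map_sup, Ideal.map_span, Ideal.map_map] at this
    have e1 : (MvPolynomial.rename g.symm : MvPolynomial (Fin n) B →ₐ[B] MvPolynomial τ B).toRingHom
        (a * MvPolynomial.rename g f) = MvPolynomial.rename g.symm a * f := by
      rw [map_mul]
      congr 1
      change MvPolynomial.rename g.symm (MvPolynomial.rename g f) = f
      rw [MvPolynomial.rename_rename]
      simp
    have e2 : (MvPolynomial.rename g.symm :
        MvPolynomial (Fin n) B →ₐ[B] MvPolynomial τ B).toRingHom.comp MvPolynomial.C =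
          MvPolynomial.C := by
      ext1 r
      change MvPolynomial.rename g.symm (MvPolynomial.C r) = _
      rw [MvPolynomial.rename_C]
    rw [e1, e2] at this
    have hle : Ideal.span ((MvPolynomial.rename g.symm :
        MvPolynomial (Fin n) B →ₐ[B] MvPolynomial τ B).toRingHom '' (H : Set _)) ≤
        Ideal.span (Set.range fun k => MvPolynomial.rename g.symm
          ((q.symm k : H) : MvPolynomial (Fin n) B)) := by
      apply Ideal.span_mono
      rintro _ ⟨h, hh, rfl⟩
      exact ⟨q ⟨h, hh⟩, by simp⟩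
    exact sup_le_sup_right hle _ this
  · intro S _ _ ψ ys t ht hdvd
    obtain ⟨yb, hy1, hy2⟩ := h4 S ψ (ys ∘ g.symm) t ht (by
      intro h hh
      have := hdvd (q ⟨h, hh⟩)
      simpa only [MvPolynomial.eval₂_rename, Equiv.symm_apply_apply] using this)
    refine ⟨yb ∘ g, ?_, ?_⟩
    · intro i
      have := hy1 (g i)
      simpa using this
    · intro k
      rw [MvPolynomial.eval₂_rename]
      have := hy2 _ (q.symm k).2
      convert this using 2
      ext i
      simp

end Crest.Agent.R183.EZ
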