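import Mathlib

/-!
# Power series over a field: maximal ideal, completeness, Henselianity
-/

namespace Crest.Agent.R183.EZ

open MvPowerSeries

/-- A power series in `Fin n` variables with zero constant coefficient lies in the ideal generated
by the variables (any commutative ring of coefficients). -/
theorem mem_span_range_X {A : Type*} [CommRing A] : ∀ (n : ℕ) (f : MvPowerSeries (Fin n) A),
    constantCoeff f = 0 → f ∈ Ideal.span (Set.range (X : Fin n → MvPowerSeries (Fin n) A)) := by
  intro n
  induction n with
  | zero =>
    intro f hf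
    have : f = 0 := by
      ext m
      rw [Subsingleton.elim m 0]
      exact hf
    rw [this]
    exact Ideal.zero_mem _
  | succ n ih =>
    intro f hf
    set E := MvPowerSeries.finSuccEquiv A n with hE
    set F := E f with hF
    have hf' : f = E.symm F := by rw [hF, E.symm_apply_apply]
    have h0 : constantCoeff (PowerSeries.constantCoeff F) = 0 := by
      have := coeff_coeff_finSuccEquiv f (k := 0) (x := 0)
      rw [Finsupp.cons_zero_zero] at this
      have h2 : coeff 0 (PowerSeries.coeff 0 F) = coeff 0 f := this
      rw [PowerSeries.coeff_zero_eq_constantCoeff] at h2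
      exact h2.trans hf
    have hX : F = PowerSeries.X * (PowerSeries.mk fun i => PowerSeries.coeff (i + 1) F) +
        PowerSeries.C (PowerSeries.constantCoeff F) := PowerSeries.eq_X_mul_shift_add_const F
    rw [hf', hX, map_add, map_mul]
    refine Ideal.add_mem _ (Ideal.mul_mem_right _ _ (Ideal.subset_span ⟨0, ?_⟩)) ?_
    · rw [eq_comm, AlgEquiv.symm_apply_eq, hE, finSuccEquiv_X_zero]
    · have h1 := ih _ h0
      have h3 := Ideal.mem_map_of_mem
        ((E.symm : PowerSeries (MvPowerSeries (Fin n) A) →+* MvPowerSeries (Fin (n + 1)) A).comp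
          PowerSeries.C) h1
      rw [Ideal.map_span] at h3
      refine Ideal.span_mono ?_ h3
      rintro _ ⟨_, ⟨j, rfl⟩, rfl⟩
      refine ⟨j.succ, ?_⟩
      change _ = E.symm (PowerSeries.C (X j))
      rw [eq_comm, AlgEquiv.symm_apply_eq, hE, finSuccEquiv_X_succ]

theorem ker_constantCoeff_eq {A : Type*} [CommRing A] (n : ℕ) :
    RingHom.ker (constantCoeff (σ := Fin n) (R := A)) = Ideal.span (Set.range X) := by
  apply le_antisymm
  · intro f hf
    exact mem_span_range_X n f hf
  · rw [Ideal.span_le]
    rintro _ ⟨j, rfl⟩
    change constantCoeff (X j) = 0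
    simp

section Field

variable (n : ℕ) (κ : Type*) [Field κ]

theorem maximalIdeal_eq_ker :
    IsLocalRing.maximalIdeal (MvPowerSeries (Fin n) κ) = RingHom.ker constantCoeff := by
  ext f
  rw [IsLocalRing.mem_maximalIdeal, mem_nonunits_iff, MvPowerSeries.isUnit_iff_constantCoeff,
    isUnit_iff_ne_zero, not_not, RingHom.mem_ker]

theorem maximalIdeal_eq_span :
    IsLocalRing.maximalIdeal (MvPowerSeries (Fin n) κ) = Ideal.span (Set.range X) := by
  rw [maximalIdeal_eq_ker, ker_constantCoeff_eq]

instance isAdicComplete_maximalIdeal :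
    IsAdicComplete (IsLocalRing.maximalIdeal (MvPowerSeries (Fin n) κ))
      (MvPowerSeries (Fin n) κ) := by
  rw [maximalIdeal_eq_span]
  infer_instance

end Field

/-- A local ring which is complete for its maximal ideal is Henselian. -/
theorem henselianLocalRing_of_isAdicComplete (R : Type*) [CommRing R] [IsLocalRing R]
    [IsAdicComplete (IsLocalRing.maximalIdeal R) R] : HenselianLocalRing R where
  is_henselian := by
    intro f hf a₀ h1 h2
    exact HenselianRing.is_henselian f hf a₀ h1 (h2.map (Ideal.Quotient.mk _))

instance henselianLocalRing_mvPowerSeries (n : ℕ) (κ : Type*) [Field κ] :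
    HenselianLocalRing (MvPowerSeries (Fin n) κ) :=
  henselianLocalRing_of_isAdicComplete _

end Crest.Agent.R183.EZ
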