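import Mathlib
import Crest.Agent.R183.EZ2

/-!
# Weierstrass package over `MvPowerSeries (Fin d) κ`
-/

namespace Crest.Agent.R183.EZ

open Polynomial

section General

variable {A : Type*} [CommRing A] [IsLocalRing A]
  [IsAdicComplete (IsLocalRing.maximalIdeal A) A]

/-- Divisibility by a distinguished polynomial can be tested in the power series ring. -/
theorem dvd_of_coe_dvd {W P : A[X]} (hW : W.IsDistinguishedAt (IsLocalRing.maximalIdeal A))
    (h : (W : PowerSeries A) ∣ (P : PowerSeries A)) : W ∣ P := by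
  have hne : IsLocalRing.maximalIdeal A ≠ ⊤ := (IsLocalRing.maximalIdeal.isMaximal A).ne_top
  have hdiv := hW.isWeierstrassDivisorAt'
  obtain ⟨Q, hQ⟩ := h
  have h2 : P %ₘ W + W * (P /ₘ W) = P := modByMonic_add_div P W
  have hdeg : (P %ₘ W).degree < W.degree := degree_modByMonic_lt P hW.monic
  have hord : ((W : PowerSeries A).map (Ideal.Quotient.mk (IsLocalRing.maximalIdeal A))).order.toNat
      = W.natDegree := by
    have := hW.coe_natDegree_eq_order_map (W : PowerSeries A) 1
      (by rwa [map_one, ← Ideal.ne_top_iff_one]) (by simp)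
    rw [← this]
    rfl
  have key := hdiv.eq_of_mul_add_eq_mul_add (q := Q) (r := 0)
    (q' := ((P /ₘ W : A[X]) : PowerSeries A)) (r' := P %ₘ W)
    (by rw [degree_zero]; exact WithBot.bot_lt_coe _)
    (by rw [hord]; exact lt_of_lt_of_le hdeg degree_le_natDegree)
    (by
      rw [← hQ, Polynomial.coe_zero, add_zero]
      conv_lhs => rw [← h2]
      push_cast
      ring)
  rw [(modByMonic_eq_zero_iff_dvd hW.monic).symm]
  exact key.2.symm

/-- Weierstrass division by a distinguished polynomial. -/
theorem exists_division {W : A[X]} (hW : W.IsDistinguishedAt (IsLocalRing.maximalIdeal A))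
    (f : PowerSeries A) : ∃ (z : PowerSeries A) (r : A[X]), r.degree < W.degree ∧
      f = (W : PowerSeries A) * z + (r : PowerSeries A) := by
  have hne : IsLocalRing.maximalIdeal A ≠ ⊤ := (IsLocalRing.maximalIdeal.isMaximal A).ne_top
  have hdiv := hW.isWeierstrassDivisorAt'
  have hord : ((W : PowerSeries A).map (Ideal.Quotient.mk (IsLocalRing.maximalIdeal A))).order.toNat
      = W.natDegree := by
    have := hW.coe_natDegree_eq_order_map (W : PowerSeries A) 1
      (by rwa [map_one, ← Ideal.ne_top_iff_one]) (by simp)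
    rw [← this]
    rfl
  have h := hdiv.isWeierstrassDivisionAt_div_mod f
  refine ⟨_, _, ?_, h.eq_mul_add⟩
  have := h.degree_lt
  rw [hord] at this
  rwa [degree_eq_natDegree hW.monic.ne_zero]

end General

section Field

variable {κ : Type*} [Field κ] {d : ℕ}

/-- A power series containing a pure power of `X 0` is regular in `X 0`. -/
theorem map_residue_ne_zero (D : MvPowerSeries (Fin (d + 1)) κ) (r : ℕ)
    (hD : MvPowerSeries.coeff (Finsupp.single 0 r) D ≠ 0) :
    (MvPowerSeries.finSuccEquiv κ d D).map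
      (IsLocalRing.residue (MvPowerSeries (Fin d) κ)) ≠ 0 := by
  intro h
  have h1 := congrArg (PowerSeries.coeff r) h
  rw [PowerSeries.coeff_map, map_zero, IsLocalRing.residue_eq_zero_iff, maximalIdeal_eq_ker,
    RingHom.mem_ker] at h1
  apply hD
  have h2 := MvPowerSeries.coeff_coeff_finSuccEquiv D (k := r) (x := 0)
  have h3 : Finsupp.cons r (0 : Fin d →₀ ℕ) = Finsupp.single 0 r := by
    ext i
    refine Fin.cases ?_ (fun j => ?_) i
    · simp
    · simp
  rw [h3] at h2
  rw [← h2]
  exact h1

/-- **Weierstrass preparation** in `MvPowerSeries (Fin (d + 1)) κ`. -/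
theorem exists_weierstrass (D : MvPowerSeries (Fin (d + 1)) κ) (r : ℕ)
    (hD : MvPowerSeries.coeff (Finsupp.single 0 r) D ≠ 0) :
    ∃ W : (MvPowerSeries (Fin d) κ)[X],
      W.IsDistinguishedAt (IsLocalRing.maximalIdeal (MvPowerSeries (Fin d) κ)) ∧
      ∃ U : PowerSeries (MvPowerSeries (Fin d) κ), IsUnit U ∧
        MvPowerSeries.finSuccEquiv κ d D = (W : PowerSeries (MvPowerSeries (Fin d) κ)) * U := by
  obtain ⟨W, U, h⟩ := PowerSeries.exists_isWeierstrassFactorization (map_residue_ne_zero D r hD)
  exact ⟨W, h.isDistinguishedAt, U, h.isUnit, h.eq_mul⟩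

end Field

end Crest.Agent.R183.EZ
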