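import Mathlib

/-!
# Specialisation of finitely generated subrings of a field of characteristic zero to
# characteristic `p`
-/

namespace Crest.Agent.R183.EZ

universe u

theorem isJacobsonRing_int : IsJacobsonRing ℤ := by
  rw [isJacobsonRing_iff_prime_eq]
  intro P hP
  by_cases h : P = ⊥
  · subst h
    rw [eq_bot_iff]
    intro x hx
    rw [Ideal.mem_bot]
    have h1 := Ideal.mem_jacobson_bot.1 hx (3 * x)
    rcases Int.isUnit_iff.1 h1 with h2 | h2
    · nlinarith [sq_nonneg x, mul_self_eq_zero.1 (show x * x = 0 by nlinarith)]
    · nlinarith [sq_nonneg x]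
  · exact Ideal.jacobson_eq_self_of_isMaximal (H := hP.isMaximal h)

/-- A field which is a finitely generated ring has positive characteristic. -/
theorem exists_charP_of_finiteType (F : Type u) [Field F] [h : Algebra.FiniteType ℤ F] :
    ∃ p : ℕ, p.Prime ∧ CharP F p := by
  have := isJacobsonRing_int
  have hfin : Module.Finite ℤ F := finite_of_finite_type_of_isJacobsonRing ℤ F
  obtain ⟨p, hp⟩ := CharP.exists F
  rcases CharP.char_is_prime_or_zero F p with h1 | h1
  · exact ⟨p, h1, hp⟩
  · exfalso
    subst h1
    have : CharZero F := CharP.charP_to_charZero F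
    have hinj : Function.Injective (algebraMap ℤ F) := by
      rw [algebraMap_int_eq]
      exact Int.cast_injective
    have hint : Algebra.IsIntegral ℤ F := Algebra.IsIntegral.of_finite ℤ F
    have := isField_of_isIntegral_of_isField hinj (Field.toIsField F)
    exact Int.not_isField this

theorem exists_charP_of_ringHom_finiteType (F : Type u) [Field F] (f : ℤ →+* F)
    (hf : f.FiniteType) : ∃ p : ℕ, p.Prime ∧ CharP F p := by
  have : Algebra.FiniteType ℤ F := by
    have h1 : @Algebra.FiniteType ℤ F _ _ f.toAlgebra := hf
    have h2 : f.toAlgebra = Ring.toIntAlgebra F := Subsingleton.elim _ _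
    rwa [h2] at h1
  exact exists_charP_of_finiteType F

/-- **Specialisation.** Let `K` be a commutative ring which is a domain, `Λ` a finitely generated subring and
`g ≠ 0` in `Λ`. Then there is a homomorphism from `Λ` to a field of prime characteristic which
does not kill `g`. -/
theorem exists_specialisation {K : Type u} [CommRing K] [IsDomain K] (T : Finset K) (g : K)
    (hg : g ≠ 0) (hgT : g ∈ Subring.closure (T : Set K)) :
    ∃ (p : ℕ) (_ : p.Prime) (F : Type u) (_ : Field F) (_ : CharP F p)
      (φ : Subring.closure (T : Set K) →+* F), φ ⟨g, hgT⟩ ≠ 0 := by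
  classical
  let L := Subring.closure (T : Set K)
  let g' : L := ⟨g, hgT⟩
  have hg' : g' ≠ 0 := fun h => hg (congrArg Subtype.val h)
  have : Algebra.FiniteType ℤ L := by
    have h1 : Algebra.FiniteType ℤ (Algebra.adjoin ℤ (T : Set K)) :=
      Subalgebra.fg_iff_finiteType _ |>.1 ⟨T, rfl⟩
    have h2 : ∀ x, x ∈ Algebra.adjoin ℤ (T : Set K) ↔ x ∈ L := by
      intro x
      constructor
      · intro hx
        induction hx using Algebra.adjoin_induction with
        | mem x hx => exact Subring.subset_closure hx
        | algebraMap r => exact (by simp : (algebraMap ℤ K r) ∈ L)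
        | add x y _ _ hx hy => exact L.add_mem hx hy
        | mul x y _ _ hx hy => exact L.mul_mem hx hy
      · intro hx
        have : L ≤ (Algebra.adjoin ℤ (T : Set K)).toSubring :=
          Subring.closure_le.2 Algebra.subset_adjoin
        exact this hx
    have e : (Algebra.adjoin ℤ (T : Set K)) ≃ₐ[ℤ] L :=
      { toFun := fun x => ⟨x.1, (h2 _).1 x.2⟩
        invFun := fun x => ⟨x.1, (h2 _).2 x.2⟩
        left_inv := fun x => rfl
        right_inv := fun x => rfl
        map_mul' := fun x y => rfl
        map_add' := fun x y => rfl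
        commutes' := fun r => by ext; simp }
    exact Algebra.FiniteType.equiv h1 e
  let Lg := Localization.Away g'
  have hLg : (algebraMap L Lg).FiniteType :=
    RingHom.finiteType_algebraMap.2 (inferInstance : Algebra.FiniteType L Lg)
  have hL : (Int.castRingHom L).FiniteType := by
    rw [← algebraMap_int_eq]
    exact RingHom.finiteType_algebraMap.2 this
  have hnt : Nontrivial Lg := by
    have : IsDomain Lg := IsLocalization.isDomain_localization
      (powers_le_nonZeroDivisors_of_noZeroDivisors hg')
    infer_instance
  obtain ⟨m, hm⟩ := Ideal.exists_maximal Lg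
  let F := Lg ⧸ m
  let fF : Field F := Ideal.Quotient.field m
  have hF : ((Ideal.Quotient.mk m).comp ((algebraMap L Lg).comp (Int.castRingHom L))).FiniteType :=
    (RingHom.FiniteType.of_surjective _ Ideal.Quotient.mk_surjective).comp (hLg.comp hL)
  obtain ⟨p, hp, hchar⟩ := exists_charP_of_ringHom_finiteType F _ hF
  refine ⟨p, hp, F, fF, hchar, (Ideal.Quotient.mk m).comp (algebraMap L Lg), ?_⟩
  have hu : IsUnit ((Ideal.Quotient.mk m) (algebraMap L Lg g')) :=
    (IsLocalization.Away.algebraMap_isUnit g').map _
  exact hu.ne_zero

end Crest.Agent.R183.EZ
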