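import Mathlib
import Crest.Agent.R183.EZ4

/-!
# Embedding a field of characteristic zero into an ultraproduct of fields of prime characteristic
-/

namespace Crest.Agent.R183.EZ

open Filter

universe u

/-- The ideal of almost everywhere vanishing families. -/
def aeZero {ι : Type*} (U : Ultrafilter ι) (κ : ι → Type*) [∀ i, Field (κ i)] :
    Ideal (∀ i, κ i) where
  carrier := {a | ∀ᶠ i in (U : Filter ι), a i = 0}
  zero_mem' := by simp
  add_mem' := by
    intro a b ha hb
    filter_upwards [ha, hb] with i h1 h2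
    rw [Pi.add_apply, h1, h2, add_zero]
  smul_mem' := by
    intro c a ha
    filter_upwards [ha] with i h1
    rw [smul_eq_mul, Pi.mul_apply, h1, mul_zero]

theorem mem_aeZero {ι : Type*} (U : Ultrafilter ι) (κ : ι → Type*) [∀ i, Field (κ i)]
    (a : ∀ i, κ i) : a ∈ aeZero U κ ↔ ∀ᶠ i in (U : Filter ι), a i = 0 := Iff.rfl

instance aeZero_isMaximal {ι : Type*} (U : Ultrafilter ι) (κ : ι → Type*) [∀ i, Field (κ i)] :
    (aeZero U κ).IsMaximal := by
  rw [Ideal.isMaximal_iff]
  constructor
  · intro h
    rw [mem_aeZero] at h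
    obtain ⟨i, hi⟩ := h.exists
    exact one_ne_zero hi
  · intro J x hJ hx hxJ
    rw [mem_aeZero, ← Ultrafilter.eventually_not] at hx
    have h1 : (1 : ∀ i, κ i) = (1 - x * (fun i => (x i)⁻¹)) + x * (fun i => (x i)⁻¹) := by ring
    rw [h1]
    refine J.add_mem (hJ ?_) (J.mul_mem_right _ hxJ)
    rw [mem_aeZero]
    filter_upwards [hx] with i hi
    rw [Pi.sub_apply, Pi.one_apply, Pi.mul_apply, mul_inv_cancel₀ hi, sub_self]

/-- **Ultraproduct embedding.** -/
theorem exists_ultra (K : Type u) [Field K] [CharZero K] :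
    ∃ (ι : Type u) (U : Ultrafilter ι) (κ : ι → Type u) (_ : ∀ i, Field (κ i)) (K' : Type u)
      (_ : Field K') (_ : CharZero K') (π : (∀ i, κ i) →+* K') (_ : K →+* K'),
      (∀ i, ∃ p : ℕ, p.Prime ∧ CharP (κ i) p) ∧ Function.Surjective π ∧
      ∀ a : (∀ i, κ i), π a = 0 ↔ ∀ᶠ i in (U : Filter ι), a i = 0 := by
  classical
  have hspec : ∀ T : Finset K, ∃ (p : ℕ) (_ : p.Prime) (F : Type u) (_ : Field F) (_ : CharP F p)
      (φ : Subring.closure (T : Set K) →+* F), φ 1 ≠ 0 := by
    intro T
    obtain ⟨p, hp, F, h1, h2, φ, hφ⟩ := exists_specialisation T 1 one_ne_zero (Subring.one_mem _)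
    exact ⟨p, hp, F, h1, h2, φ, hφ⟩
  choose p hp κ hF hchar φ _ using hspec
  let U : Ultrafilter (Finset K) := Ultrafilter.of atTop
  have hU : (U : Filter (Finset K)) ≤ atTop := Ultrafilter.of_le atTop
  let J := aeZero U κ
  let fK : Field ((∀ i, κ i) ⧸ J) := Ideal.Quotient.field J
  let s : K → ∀ i, κ i := fun b i =>
    if h : b ∈ Subring.closure ((i : Finset K) : Set K) then φ i ⟨b, h⟩ else 0
  have hmem : ∀ b : K, ∀ᶠ i : Finset K in (U : Filter (Finset K)),
      b ∈ Subring.closure (i : Set K) := by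
    intro b
    refine hU ?_
    filter_upwards [eventually_ge_atTop ({b} : Finset K)] with i hi
    exact Subring.subset_closure (hi (Finset.mem_singleton_self b))
  have hs : ∀ (b : K) (i : Finset K) (h : b ∈ Subring.closure (i : Set K)),
      s b i = φ i ⟨b, h⟩ := fun b i h => dif_pos h
  let emb : K →+* ((∀ i, κ i) ⧸ J) :=
    { toFun := fun b => Ideal.Quotient.mk J (s b)
      map_one' := by
        have : s 1 = 1 := by
          funext i
          rw [hs 1 i (Subring.one_mem _)]
          exact map_one (φ i)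
        rw [this, map_one]
      map_zero' := by
        have : s 0 = 0 := by
          funext i
          rw [hs 0 i (Subring.zero_mem _)]
          exact map_zero (φ i)
        rw [this, map_zero]
      map_mul' := by
        intro a b
        rw [← map_mul, Ideal.Quotient.mk_eq_mk_iff_sub_mem, mem_aeZero]
        filter_upwards [hmem a, hmem b] with i ha hb
        rw [Pi.sub_apply, Pi.mul_apply, hs a i ha, hs b i hb, hs _ i (Subring.mul_mem _ ha hb),
          ← map_mul, sub_eq_zero]
        rfl
      map_add' := by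
        intro a b
        rw [← map_add, Ideal.Quotient.mk_eq_mk_iff_sub_mem, mem_aeZero]
        filter_upwards [hmem a, hmem b] with i ha hb
        rw [Pi.sub_apply, Pi.add_apply, hs a i ha, hs b i hb, hs _ i (Subring.add_mem _ ha hb),
          ← map_add, sub_eq_zero]
        rfl }
  refine ⟨Finset K, U, κ, hF, (∀ i, κ i) ⧸ J, fK, charZero_of_injective_ringHom emb.injective,
    Ideal.Quotient.mk J, emb, fun i => ⟨p i, hp i, hchar i⟩, Ideal.Quotient.mk_surjective, ?_⟩
  intro a
  rw [Ideal.Quotient.eq_zero_iff_mem, mem_aeZero]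

end Crest.Agent.R183.EZ
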