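/-
R183 (Lech), block HEB (helper817): the Riemann extension theorem ("Hebbarkeitssatz") for
integral perfectoid rings, in a purely algebraic form.

Setting.  `Ω` is a commutative ring, `K` a commutative `Ω`-algebra with `Ω → K` injective, in which
`p` and `D` are units.  `ϖ e = p^{1/p^e}`, `δ e = D^{1/p^e}` compatible systems of `p`-power roots.
Theorem H: if `Ω` is `p`-torsion free, `p`-adically complete, Frobenius `Ω/p^{1/p} → Ω/p` is
bijective and `D` is a nonzerodivisor on `Ω/p`, then every almost integral `x ∈ Ω[1/pD]`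
satisfies `(p^{1/p^e} D^{1/p^f}) x ∈ Ω` for all `e f`.
-/
import Mathlib

set_option autoImplicit false
set_option linter.unusedSectionVars false

open Polynomial

namespace Crest.Agent.R183.Heb

variable {A K : Type*} [CommRing A] [CommRing K] [Algebra A K]

/-- Kernel of the evaluation `Polynomial A → K` at `τ = b/a`, when `b` is regular modulo `a`. -/
theorem dvd_of_aeval_eq_zero (hinj : Function.Injective (algebraMap A K))
    (a b : A) (τ : K) (haτ : algebraMap A K a * τ = algebraMap A K b)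
    (hreg : ∀ x : A, a ∣ b * x → a ∣ x) :
    ∀ (n : ℕ) (g : Polynomial A), g.natDegree ≤ n → aeval τ g = 0 → (C a * X - C b) ∣ g := by
  have hreg' : ∀ (k : ℕ) (x : A), a ∣ b ^ k * x → a ∣ x := by
    intro k
    induction k with
    | zero => intro x hx; simpa using hx
    | succ k ih =>
      intro x hx
      apply ih
      apply hreg
      rw [pow_succ] at hx
      convert hx using 1
      ring
  intro n
  induction n with
  | zero =>
    intro g hg h0
    have hgc : g = C (g.coeff 0) := Polynomial.eq_C_of_natDegree_le_zero hg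
    rw [hgc] at h0
    rw [aeval_C] at h0
    have : g.coeff 0 = 0 := hinj (by rw [h0, map_zero])
    rw [hgc, this, C_0]
    exact dvd_zero _
  | succ n ih =>
    intro g hg h0
    -- the leading coefficient is divisible by `a`
    have hlead : a ∣ g.coeff (n + 1) := by
      apply hreg' (n + 1)
      have hs : aeval τ g = ∑ i ∈ Finset.range (n + 2), algebraMap A K (g.coeff i) * τ ^ i := by
        rw [aeval_eq_sum_range' (by omega : g.natDegree < n + 2)]
        simp [Algebra.smul_def]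
      rw [h0] at hs
      have hterm : ∀ i ∈ Finset.range (n + 2),
          algebraMap A K a ^ (n + 1) * (algebraMap A K (g.coeff i) * τ ^ i)
            = algebraMap A K (g.coeff i * a ^ (n + 1 - i) * b ^ i) := by
        intro i hi
        have hi' : i ≤ n + 1 := by
          have := Finset.mem_range.mp hi; omega
        have h1 : algebraMap A K a ^ (n + 1) = algebraMap A K a ^ (n + 1 - i) * algebraMap A K a ^ i := by
          rw [← pow_add]; congr 1; omega
        rw [h1, map_mul, map_mul, map_pow, map_pow, ← haτ, mul_pow]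
        ring
      have hsum : (∑ i ∈ Finset.range (n + 2), g.coeff i * a ^ (n + 1 - i) * b ^ i) = 0 := by
        apply hinj
        rw [map_sum, map_zero, ← Finset.sum_congr rfl hterm, ← Finset.mul_sum, ← hs, mul_zero]
      rw [Finset.sum_range_succ] at hsum
      have hd : a ∣ ∑ i ∈ Finset.range (n + 1), g.coeff i * a ^ (n + 1 - i) * b ^ i := by
        apply Finset.dvd_sum
        intro i hi
        have hi' : i < n + 1 := Finset.mem_range.mp hi
        have : a ^ (n + 1 - i) = a * a ^ (n - i) := by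
          rw [← pow_succ']; congr 1; omega
        rw [this]
        exact ⟨g.coeff i * a ^ (n - i) * b ^ i, by ring⟩
      have h2 : g.coeff (n + 1) * a ^ (n + 1 - (n + 1)) * b ^ (n + 1)
          = - ∑ i ∈ Finset.range (n + 1), g.coeff i * a ^ (n + 1 - i) * b ^ i := by
        linear_combination hsum
      have h3 : b ^ (n + 1) * g.coeff (n + 1)
          = - ∑ i ∈ Finset.range (n + 1), g.coeff i * a ^ (n + 1 - i) * b ^ i := by
        rw [← h2]; simp; ring
      rw [h3]
      exact (dvd_neg).mpr hd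
    obtain ⟨g', hg'⟩ := hlead
    -- subtract
    have hdeg : (g - C g' * X ^ n * (C a * X - C b)).natDegree ≤ n := by
      rw [Polynomial.natDegree_le_iff_coeff_eq_zero]
      intro N hN
      have e1 : C g' * X ^ n * (C a * X - C b) = C (g' * a) * X ^ (n + 1) - C (g' * b) * X ^ n := by
        rw [C_mul, C_mul]; ring
      rw [coeff_sub, e1, coeff_sub, coeff_C_mul, coeff_C_mul, coeff_X_pow, coeff_X_pow]
      rcases Nat.lt_or_ge (n + 1) N with h | h
      · have : g.coeff N = 0 := Polynomial.coeff_eq_zero_of_natDegree_lt (by omega)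
        have n1 : ¬ (N = n + 1) := by omega
        have n2 : ¬ (N = n) := by omega
        simp [this, n1, n2]
      · have hN1 : N = n + 1 := by omega
        subst hN1
        simp [hg', mul_comm]
    have hev : aeval τ (g - C g' * X ^ n * (C a * X - C b)) = 0 := by
      simp [h0, haτ]
    have := ih _ hdeg hev
    have h4 : (C a * X - C b) ∣ C g' * X ^ n * (C a * X - C b) := Dvd.intro_left _ rfl
    have := dvd_add this h4
    simpa using this

/-- Frobenius-coefficients: if `F^p ≡ 0 mod p` then the coefficients of `F` satisfy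
`p ∣ F_i^p`. -/
theorem coeff_pow_of_pow_dvd (p : ℕ) [hp : Fact p.Prime] (hpu : (p : A) ∈ nonunits A)
    (F : Polynomial A)
    (hF : (Polynomial.map (Ideal.Quotient.mk (Ideal.span {(p : A)})) F) ^ p = 0) (i : ℕ) :
    (p : A) ∣ F.coeff i ^ p := by
  have := CharP.quotient A p hpu
  have h1 := Polynomial.map_frobenius_expand (R := A ⧸ Ideal.span {(p : A)}) (p := p)
    (Polynomial.map (Ideal.Quotient.mk (Ideal.span {(p : A)})) F)
  rw [hF] at h1
  have h2 := congrArg (fun q => Polynomial.coeff q (i * p)) h1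
  simp only [Polynomial.coeff_map, Polynomial.coeff_zero] at h2
  rw [Polynomial.coeff_expand_mul hp.out.pos] at h2
  rw [Polynomial.coeff_map, frobenius_def, ← map_pow, Ideal.Quotient.eq_zero_iff_mem,
    Ideal.mem_span_singleton] at h2
  exact h2

/-- A polynomial all of whose coefficients are divisible by `c` is divisible by `C c`. -/
theorem C_dvd_of_coeff (c : A) (F : Polynomial A) (h : ∀ i, c ∣ F.coeff i) :
    ∃ l : Polynomial A, F = C c * l := by
  have := (Polynomial.C_dvd_iff_dvd_coeff c F).mpr h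
  exact this

/-- One Frobenius step at finite level. -/
theorem frob_step (p : ℕ) [hp : Fact p.Prime] (hpu : (p : A) ∈ nonunits A)
    (ϖ₁ : A) (hsurj : ∀ x : A, ∃ y : A, (p : A) ∣ x - y ^ p)
    (hfinj : ∀ x : A, (p : A) ∣ x ^ p → ϖ₁ ∣ x)
    (a b a' b' : A) (ha : a' ^ p = a) (hb : b' ^ p = b) (g h k : Polynomial A)
    (hk : g ^ p - C (p : A) * h = (C a * X - C b) * k) :
    ∃ κ l : Polynomial A, Polynomial.expand A p g = (C a' * X - C b') * κ + C ϖ₁ * l := by
  have hch := CharP.quotient A p hpu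
  set q := Ideal.Quotient.mk (Ideal.span {(p : A)}) with hq
  choose r hr using hsurj
  -- the polynomial `κ`
  let κ : Polynomial A := ∑ i ∈ k.support, C (r (k.coeff i)) * X ^ i
  have hκ : ∀ i, q (κ.coeff i) ^ p = q (k.coeff i) := by
    intro i
    have e1 : κ.coeff i = if i ∈ k.support then r (k.coeff i) else 0 := by
      simp only [κ, Polynomial.finsetSum_coeff, Polynomial.coeff_C_mul, Polynomial.coeff_X_pow,
        mul_ite, mul_one, mul_zero]
      simp
    rw [e1]
    split_ifs with hi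
    · rw [← map_pow]
      have := hr (k.coeff i)
      rw [← Ideal.mem_span_singleton, ← Ideal.Quotient.eq] at this
      exact this.symm
    · rw [Polynomial.notMem_support_iff.mp hi]
      simp [hp.out.ne_zero]
  have hkmap : Polynomial.map (frobenius _ p) (Polynomial.map q κ) = Polynomial.map q k := by
    ext i
    rw [coeff_map, coeff_map, coeff_map, frobenius_def, hκ]
  have hmod : (Polynomial.map q g) ^ p = (C (q a) * X - C (q b)) * Polynomial.map q k := by
    have := congrArg (Polynomial.map q) hk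
    have hp0 : q (p : A) = 0 := by
      rw [hq, Ideal.Quotient.eq_zero_iff_mem]; exact Ideal.mem_span_singleton_self _
    simpa [Polynomial.map_sub, Polynomial.map_mul, Polynomial.map_pow, hp0] using this
  have hlin : Polynomial.map (frobenius _ p) (C (q a') * X - C (q b')) = C (q a) * X - C (q b) := by
    simp [frobenius_def, ← map_pow, ha, hb]
  have hexp : (Polynomial.expand _ p (Polynomial.map q g)) ^ p
      = ((C (q a') * X - C (q b')) * Polynomial.map q κ) ^ p := by
    rw [← map_pow, hmod, map_mul, ← hlin, ← hkmap, ← Polynomial.map_expand, ← Polynomial.map_expand,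
      Polynomial.map_frobenius_expand, Polynomial.map_frobenius_expand, mul_pow]
  have hF : (Polynomial.map q (Polynomial.expand A p g - (C a' * X - C b') * κ)) ^ p = 0 := by
    rw [Polynomial.map_sub, sub_pow_char, Polynomial.map_expand, hexp]
    simp [Polynomial.map_mul, Polynomial.map_sub]
  obtain ⟨l, hl⟩ := C_dvd_of_coeff ϖ₁ (Polynomial.expand A p g - (C a' * X - C b') * κ)
    (fun i => hfinj _ (coeff_pow_of_pow_dvd p hpu _ hF i))
  exact ⟨κ, l, by rw [← hl]; ring⟩

/-! ### Root systems -/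

/-- `r e = x^{1/p^e}`: a compatible system of `p`-power roots. -/
def IsRoots (p : ℕ) (r : ℕ → A) : Prop := ∀ e, r (e + 1) ^ p = r e

theorem IsRoots.pow {p : ℕ} {r : ℕ → A} (h : IsRoots p r) (e i : ℕ) :
    r (e + i) ^ (p ^ i) = r e := by
  induction i with
  | zero => simp
  | succ i ih =>
    rw [pow_succ', pow_mul, ← add_assoc, h, ih]

/-- The data of Theorem H. -/
structure Data (p : ℕ) (A K : Type*) [CommRing A] [CommRing K] [Algebra A K] where
  ϖ : ℕ → A
  δ : ℕ → A
  ϖ0 : ϖ 0 = p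
  hϖ : IsRoots p ϖ
  hδ : IsRoots p δ
  inj : Function.Injective (algebraMap A K)
  unit_p : IsUnit (algebraMap A K (p : A))
  unit_D : IsUnit (algebraMap A K (δ 0))
  reg_p : ∀ x : A, (p : A) * x = 0 → x = 0
  reg_D : ∀ x : A, (p : A) ∣ δ 0 * x → (p : A) ∣ x
  fsurj : ∀ x : A, ∃ y : A, (p : A) ∣ x - y ^ p
  finj : ∀ x : A, (p : A) ∣ x ^ p → ϖ 1 ∣ x

namespace Data

variable {p : ℕ} [hp : Fact p.Prime] (d : Data p A K)

theorem ϖ_pow (e : ℕ) : d.ϖ e ^ (p ^ e) = p := by
  have := d.hϖ.pow 0 e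
  rwa [zero_add, d.ϖ0] at this

theorem δ_pow (e : ℕ) : d.δ e ^ (p ^ e) = d.δ 0 := by
  have := d.hδ.pow 0 e
  rwa [zero_add] at this

theorem unit_ϖ (e : ℕ) : IsUnit (algebraMap A K (d.ϖ e)) := by
  have h := d.unit_p
  rw [← d.ϖ_pow e, map_pow] at h
  exact (isUnit_pow_iff (pow_ne_zero _ hp.out.ne_zero)).mp h

theorem unit_δ (e : ℕ) : IsUnit (algebraMap A K (d.δ e)) := by
  have h := d.unit_D
  rw [← d.δ_pow e, map_pow] at h
  exact (isUnit_pow_iff (pow_ne_zero _ hp.out.ne_zero)).mp h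

theorem reg_δ (e : ℕ) (x : A) (h : (p : A) ∣ d.δ e * x) : (p : A) ∣ x := by
  apply d.reg_D
  rw [← d.δ_pow e]
  obtain ⟨k, hk⟩ : ∃ k, p ^ e = k + 1 := ⟨p ^ e - 1, by
    have := pow_pos hp.out.pos e; omega⟩
  rw [hk, pow_succ, mul_assoc]
  exact h.mul_left _

theorem reg_δ_pow (e m : ℕ) : ∀ x : A, (p : A) ^ m ∣ d.δ e * x → (p : A) ^ m ∣ x := by
  induction m with
  | zero => intro x _; simp
  | succ m ih =>
    intro x h
    obtain ⟨y, hy⟩ := h
    have h1 : (p : A) ∣ d.δ e * x := ⟨(p : A) ^ m * y, by rw [hy, pow_succ']; ring⟩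
    obtain ⟨x', hx'⟩ := d.reg_δ e x h1
    have h2 : (p : A) * (d.δ e * x' - (p : A) ^ m * y) = 0 := by
      have : d.δ e * (p * x') = (p : A) ^ (m + 1) * y := by rw [← hx', hy]
      rw [pow_succ] at this
      linear_combination this
    have h3 := d.reg_p _ h2
    have h4 : (p : A) ^ m ∣ d.δ e * x' := ⟨y, by linear_combination h3⟩
    obtain ⟨z, hz⟩ := ih x' h4
    exact ⟨z, by rw [hx', hz, pow_succ]; ring⟩

include d in
theorem p_pow_reg (m : ℕ) : ∀ x : A, (p : A) ^ m * x = 0 → x = 0 := by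
  induction m with
  | zero => intro x h; simpa using h
  | succ m ih =>
    intro x h
    rw [pow_succ', mul_assoc] at h
    exact ih x (d.reg_p _ h)

theorem p_reg_δ (e m : ℕ) (x : A) (h : d.δ e ∣ (p : A) ^ m * x) : d.δ e ∣ x := by
  obtain ⟨y, hy⟩ := h
  have h1 : (p : A) ^ m ∣ d.δ e * y := ⟨x, hy.symm⟩
  obtain ⟨y', hy'⟩ := d.reg_δ_pow e m y h1
  have h2 : (p : A) ^ m * (x - d.δ e * y') = 0 := by
    rw [hy'] at hy
    linear_combination hy
  exact ⟨y', by linear_combination d.p_pow_reg m _ h2⟩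

theorem b_reg (e n : ℕ) (x : A) (h : d.δ e ∣ d.ϖ e ^ n * x) : d.δ e ∣ x := by
  apply d.p_reg_δ e n
  rw [← d.ϖ_pow e, ← pow_mul]
  obtain ⟨k, hk⟩ : ∃ k, p ^ e = k + 1 := ⟨p ^ e - 1, by
    have := pow_pos hp.out.pos e; omega⟩
  rw [hk, add_mul, one_mul, pow_add, mul_assoc]
  exact h.mul_left _

/-- `τ n e = (p^n/D)^{1/p^e}`. -/
noncomputable def τ (n e : ℕ) : K :=
  algebraMap A K (d.ϖ e ^ n) * Ring.inverse (algebraMap A K (d.δ e))

theorem δ_τ (n e : ℕ) : algebraMap A K (d.δ e) * d.τ n e = algebraMap A K (d.ϖ e ^ n) := by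
  rw [τ, mul_left_comm, Ring.mul_inverse_cancel _ (d.unit_δ e), mul_one]

theorem τ_succ (n e : ℕ) : d.τ n (e + 1) ^ p = d.τ n e := by
  apply (d.unit_δ e).mul_left_cancel
  rw [d.δ_τ, ← d.hδ e, map_pow, ← mul_pow, d.δ_τ, ← map_pow, ← pow_mul, mul_comm n p, pow_mul,
    d.hϖ e]

theorem τ_pow (n e i : ℕ) : d.τ n (e + i) ^ (p ^ i) = d.τ n e := by
  induction i with
  | zero => simp
  | succ i ih =>
    rw [pow_succ', pow_mul, ← add_assoc, τ_succ, ih]

/-- The ring `C_n = Ω[(p^n/D)^{1/p^e} : e]` inside `K`. -/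
def InC (n : ℕ) (y : K) : Prop := ∃ (e : ℕ) (g : Polynomial A), aeval (d.τ n e) g = y

theorem raise (n e e' : ℕ) (he : e ≤ e') (g : Polynomial A) :
    ∃ g' : Polynomial A, aeval (d.τ n e') g' = aeval (d.τ n e) g := by
  obtain ⟨i, rfl⟩ := Nat.exists_eq_add_of_le he
  refine ⟨Polynomial.expand A (p ^ i) g, ?_⟩
  rw [Polynomial.expand_aeval, d.τ_pow]

theorem InC.common {n : ℕ} {y z : K} (hy : d.InC n y) (hz : d.InC n z) :
    ∃ (e : ℕ) (g h : Polynomial A), aeval (d.τ n e) g = y ∧ aeval (d.τ n e) h = z := by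
  obtain ⟨e1, g1, h1⟩ := hy
  obtain ⟨e2, g2, h2⟩ := hz
  obtain ⟨g, hg⟩ := d.raise n e1 (max e1 e2) (le_max_left _ _) g1
  obtain ⟨h, hh⟩ := d.raise n e2 (max e1 e2) (le_max_right _ _) g2
  exact ⟨max e1 e2, g, h, by rw [hg, h1], by rw [hh, h2]⟩

theorem InC.add {n : ℕ} {y z : K} (hy : d.InC n y) (hz : d.InC n z) : d.InC n (y + z) := by
  obtain ⟨e, g, h, hg, hh⟩ := InC.common d hy hz
  exact ⟨e, g + h, by rw [map_add, hg, hh]⟩

theorem InC.sub {n : ℕ} {y z : K} (hy : d.InC n y) (hz : d.InC n z) : d.InC n (y - z) := by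
  obtain ⟨e, g, h, hg, hh⟩ := InC.common d hy hz
  exact ⟨e, g - h, by rw [map_sub, hg, hh]⟩

theorem InC.smul {n : ℕ} {y : K} (hy : d.InC n y) (a : A) : d.InC n (algebraMap A K a * y) := by
  obtain ⟨e, g, hg⟩ := hy
  exact ⟨e, C a * g, by rw [map_mul, aeval_C, hg]⟩

theorem InC.ofA (n : ℕ) (a : A) : d.InC n (algebraMap A K a) :=
  ⟨0, C a, by rw [aeval_C]⟩

theorem ker (n e : ℕ) (g : Polynomial A) (hg : aeval (d.τ n e) g = 0) :
    (C (d.δ e) * X - C (d.ϖ e ^ n)) ∣ g :=
  dvd_of_aeval_eq_zero d.inj (d.δ e) (d.ϖ e ^ n) (d.τ n e) (d.δ_τ n e) (d.b_reg e n) _ g le_rfl hg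

/-- (3') if `c ∈ C_n` and `c^p ∈ p C_n` then `c ∈ p^{1/p} C_n`. -/
theorem frob_inj (hpu : (p : A) ∈ nonunits A) {n : ℕ} {c h' : K} (hc : d.InC n c)
    (hh' : d.InC n h') (hcp : c ^ p = algebraMap A K p * h') :
    ∃ c', d.InC n c' ∧ c = algebraMap A K (d.ϖ 1) * c' := by
  obtain ⟨e, g, h, hg, hh⟩ := InC.common d hc hh'
  have h0 : aeval (d.τ n e) (g ^ p - C (p : A) * h) = 0 := by
    rw [map_sub, map_pow, map_mul, aeval_C, hg, hh, hcp, sub_self]
  obtain ⟨k, hk⟩ := d.ker n e _ h0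
  obtain ⟨κ, l, hl⟩ := frob_step p hpu (d.ϖ 1) d.fsurj d.finj (d.δ e) (d.ϖ e ^ n) (d.δ (e + 1))
    (d.ϖ (e + 1) ^ n) (d.hδ e) (by rw [← pow_mul, mul_comm n p, pow_mul, d.hϖ e]) g h k hk
  refine ⟨aeval (d.τ n (e + 1)) l, ⟨e + 1, l, rfl⟩, ?_⟩
  have h1 := congrArg (aeval (d.τ n (e + 1))) hl
  rw [Polynomial.expand_aeval, d.τ_succ, hg] at h1
  rw [h1, map_add, map_mul, map_mul, map_sub, map_mul, aeval_C, aeval_C, aeval_X, aeval_C, d.δ_τ,
    sub_self, zero_mul, zero_add]

/-- (4) `C_n` is `p`-root closed. -/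
theorem root_closed (hpu : (p : A) ∈ nonunits A) {n : ℕ} {y : K} (hy : d.InC n (y ^ p)) :
    ∀ k : ℕ, d.InC n (algebraMap A K (d.ϖ 1) ^ k * y) → d.InC n y := by
  intro k
  induction k with
  | zero => intro h; simpa using h
  | succ k ih =>
    intro h
    apply ih
    have h1 : (algebraMap A K (d.ϖ 1) ^ (k + 1) * y) ^ p
        = algebraMap A K p * (algebraMap A K ((p : A) ^ k) * y ^ p) := by
      rw [mul_pow, ← pow_mul, mul_comm (k + 1) p, pow_mul, ← map_pow, d.hϖ 0, d.ϖ0, map_pow]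
      ring
    obtain ⟨c', hc', hcc⟩ := d.frob_inj hpu h (hy.smul d ((p : A) ^ k)) h1
    have : algebraMap A K (d.ϖ 1) ^ k * y = c' := by
      apply (d.unit_ϖ 1).mul_left_cancel
      rw [← hcc]; ring
    rw [this]; exact hc'

/-- iterated root closedness -/
theorem root_closed_iter (hpu : (p : A) ∈ nonunits A) {n : ℕ} {y : K}
    (hk : ∀ i : ℕ, ∃ k : ℕ, d.InC n (algebraMap A K (d.ϖ 1) ^ k * y ^ (p ^ i))) :
    ∀ e : ℕ, d.InC n (y ^ (p ^ e)) → d.InC n y := by
  intro e
  induction e with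
  | zero => intro h; simpa using h
  | succ e ih =>
    intro h
    apply ih
    obtain ⟨k, hk⟩ := hk e
    refine d.root_closed hpu ?_ k hk
    rwa [← pow_mul, ← pow_succ]

/-- `AlmInt x N M`: the denominators of all powers of `x` are bounded by `p^N D^M`. -/
def AlmInt (x : K) (N M : ℕ) : Prop :=
  ∀ j : ℕ, ∃ w : A, algebraMap A K ((p : A) ^ N * d.δ 0 ^ M) * x ^ j = algebraMap A K w

/-- (5) -/
theorem inC_of_almInt {x : K} {N M : ℕ} (hx : d.AlmInt x N M) (n j : ℕ) :
    d.InC n (algebraMap A K ((p : A) ^ (N + n * M)) * x ^ j) := by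
  obtain ⟨w, hw⟩ := hx j
  refine ⟨0, C w * X ^ M, ?_⟩
  rw [map_mul, aeval_C, map_pow, aeval_X, ← hw]
  have h1 : algebraMap A K (d.δ 0) ^ M * d.τ n 0 ^ M = algebraMap A K ((p : A) ^ (n * M)) := by
    rw [← mul_pow, d.δ_τ, d.ϖ0, ← map_pow, ← pow_mul]
  have h2 : algebraMap A K ((p : A) ^ (N + n * M))
      = algebraMap A K ((p : A) ^ N) * algebraMap A K ((p : A) ^ (n * M)) := by
    rw [← map_mul, ← pow_add]
  rw [h2, ← h1, map_mul, map_pow (algebraMap A K) (d.δ 0) M]
  ring

/-- (5') `p^u x ∈ C_n` for all `n` and all `u > 0`. -/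
theorem inC_ϖ_mul (hpu : (p : A) ∈ nonunits A) {x : K} {N M : ℕ} (hx : d.AlmInt x N M)
    (n e : ℕ) : d.InC n (algebraMap A K (d.ϖ e) * x) := by
  -- choose `i` with `p^i ≥ N + n M`
  obtain ⟨i, hi⟩ : ∃ i : ℕ, N + n * M ≤ p ^ i := by
    refine ⟨N + n * M, ?_⟩
    exact (Nat.lt_pow_self hp.out.one_lt).le
  -- `y = ϖ_{e+i}^{N+nM} x ∈ C_n`
  have key : d.InC n (algebraMap A K (d.ϖ (e + i) ^ (N + n * M)) * x) := by
    refine d.root_closed_iter hpu ?_ (e + i) ?_
    · intro j
      refine ⟨p * (N + n * M), ?_⟩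
      have h1 : algebraMap A K (d.ϖ 1) ^ (p * (N + n * M))
          = algebraMap A K ((p : A) ^ (N + n * M)) := by
        rw [pow_mul, ← map_pow, d.hϖ 0, d.ϖ0, ← map_pow]
      have h2 := (d.inC_of_almInt hx n (p ^ j)).smul d ((d.ϖ (e + i) ^ (N + n * M)) ^ (p ^ j))
      rw [h1, mul_pow, ← map_pow]
      rw [← mul_assoc] at h2 ⊢
      rw [mul_comm (algebraMap A K ((p : A) ^ (N + n * M)))]
      exact h2
    · have h2 := d.inC_of_almInt hx n (p ^ (e + i))
      rw [mul_pow, ← map_pow, ← pow_mul, mul_comm (N + n * M), pow_mul, d.ϖ_pow]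
      exact h2
  obtain ⟨k, hk⟩ := Nat.exists_eq_add_of_le hi
  have h3 : d.ϖ e = d.ϖ (e + i) ^ k * d.ϖ (e + i) ^ (N + n * M) := by
    rw [← pow_add, add_comm k, ← hk, d.hϖ.pow]
  rw [h3, map_mul, mul_assoc]
  exact key.smul d _

/-- (6) descent. -/
theorem descent (f m : ℕ) {c : K} (hc : d.InC (1 + m * p ^ f) c) :
    ∃ (w : A) (c₁ : K), d.InC 1 c₁ ∧
      algebraMap A K (d.δ f) * c = algebraMap A K w + algebraMap A K ((p : A) ^ m) * c₁ := by
  obtain ⟨e0, g0, hg0⟩ := hc
  obtain ⟨g, hg⟩ := d.raise (1 + m * p ^ f) e0 (max e0 f) (le_max_left _ _) g0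
  set e := max e0 f with he
  have hfe : f ≤ e := le_max_right _ _
  rw [← hg0, ← hg]
  clear hg0 hg g0
  -- the claim at level `e`
  suffices H : ∃ (w : A) (g₁ : Polynomial A), algebraMap A K (d.δ f) * aeval (d.τ (1 + m * p ^ f) e) g
      = algebraMap A K w + algebraMap A K ((p : A) ^ m) * aeval (d.τ 1 e) g₁ by
    obtain ⟨w, g₁, h⟩ := H
    exact ⟨w, aeval (d.τ 1 e) g₁, ⟨e, g₁, rfl⟩, h⟩
  induction g using Polynomial.induction_on' with
  | add P Q hP hQ =>
    obtain ⟨w1, g1, h1⟩ := hP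
    obtain ⟨w2, g2, h2⟩ := hQ
    refine ⟨w1 + w2, g1 + g2, ?_⟩
    rw [map_add, map_add, map_add, mul_add, h1, h2]
    ring
  | monomial i a =>
    rw [aeval_monomial]
    rcases Nat.lt_or_ge i (p ^ (e - f)) with hi | hi
    · -- small exponent: in `A`
      refine ⟨a * (d.δ e ^ (p ^ (e - f) - i) * (d.ϖ e ^ (1 + m * p ^ f)) ^ i), 0, ?_⟩
      have h1 : d.δ f = d.δ e ^ (p ^ (e - f) - i) * d.δ e ^ i := by
        rw [← pow_add, Nat.sub_add_cancel hi.le]
        have := d.hδ.pow f (e - f)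
        rw [Nat.add_sub_of_le hfe] at this
        exact this.symm
      rw [map_zero, mul_zero, add_zero, h1, map_mul, map_mul, map_mul, map_pow _ (d.δ e) i,
        map_pow _ (d.ϖ e ^ (1 + m * p ^ f)) i, ← d.δ_τ, mul_pow]
      ring
    · -- large exponent: divisible by `p^m`
      have h2 : d.τ (1 + m * p ^ f) e = algebraMap A K (d.ϖ e ^ (m * p ^ f)) * d.τ 1 e := by
        rw [τ, τ, add_comm 1, pow_add, map_mul]
        ring
      have h3 : m * p ^ e ≤ m * p ^ f * i := by
        have : p ^ e = p ^ f * p ^ (e - f) := by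
          rw [← pow_add, Nat.add_sub_of_le hfe]
        rw [this, mul_assoc]
        exact Nat.mul_le_mul_left _ (Nat.mul_le_mul_left _ hi)
      obtain ⟨k, hk⟩ := Nat.exists_eq_add_of_le h3
      have h4 : (d.ϖ e ^ (m * p ^ f)) ^ i = (p : A) ^ m * d.ϖ e ^ k := by
        rw [← pow_mul, hk, pow_add, mul_comm m, pow_mul, d.ϖ_pow]
      refine ⟨0, C (d.δ f * a * d.ϖ e ^ k) * X ^ i, ?_⟩
      rw [h2, mul_pow, ← map_pow, h4]
      simp only [map_mul, map_pow, map_zero, zero_add, aeval_C, aeval_X]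
      ring

/-- (2) `A ∩ p^m C_n = p^m A`. -/
theorem dvd_of_inC (n m : ℕ) (w : A) {c : K} (hc : d.InC n c)
    (h : algebraMap A K w = algebraMap A K ((p : A) ^ m) * c) : (p : A) ^ m ∣ w := by
  obtain ⟨e, g, hg⟩ := hc
  have h0 : aeval (d.τ n e) (C w - C ((p : A) ^ m) * g) = 0 := by
    rw [map_sub, map_mul, aeval_C, aeval_C, hg, h, sub_self]
  obtain ⟨k, hk⟩ := d.ker n e _ h0
  -- all coefficients of `k` are divisible by `p^m`, by descending induction
  have hkc : ∀ j i : ℕ, k.natDegree < i + j → (p : A) ^ m ∣ k.coeff i := by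
    intro j
    induction j with
    | zero =>
      intro i hi
      rw [Polynomial.coeff_eq_zero_of_natDegree_lt (by omega)]
      exact dvd_zero _
    | succ j ih =>
      intro i hi
      have h1 := congrArg (fun q => Polynomial.coeff q (i + 1)) hk
      simp only [coeff_sub, coeff_C_mul, coeff_C_succ, sub_mul, mul_assoc, coeff_X_mul] at h1
      have h2 : (p : A) ^ m ∣ k.coeff (i + 1) := ih (i + 1) (by omega)
      apply d.reg_δ_pow e m
      have h3 : d.δ e * k.coeff i = - ((p : A) ^ m * g.coeff (i + 1)) + d.ϖ e ^ n * k.coeff (i + 1) := by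
        linear_combination -h1
      rw [h3]
      exact dvd_add ((Dvd.intro _ rfl).neg_right) (h2.mul_left _)
  have h1 := congrArg (fun q => Polynomial.coeff q 0) hk
  simp only [coeff_sub, coeff_C_zero, sub_mul, mul_assoc, mul_coeff_zero, coeff_X_zero,
    zero_mul, mul_zero, zero_sub] at h1
  have h2 : (p : A) ^ m ∣ k.coeff 0 := hkc (k.natDegree + 1) 0 (by omega)
  have h3 : w = (p : A) ^ m * g.coeff 0 - d.ϖ e ^ n * k.coeff 0 := by linear_combination h1
  rw [h3]
  exact dvd_sub (Dvd.intro _ rfl) (h2.mul_left _)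

theorem smodEq_iff (x y : A) (n : ℕ) :
    x ≡ y [SMOD (Ideal.span {(p : A)} ^ n • ⊤ : Submodule A A)] ↔ (p : A) ^ n ∣ x - y := by
  rw [SModEq.sub_mem, Ideal.span_singleton_pow, smul_eq_mul, Ideal.mul_top, Ideal.mem_span_singleton]

/-- **Theorem H** (Riemann extension theorem). -/
theorem mem_of_almInt [hA : IsAdicComplete (Ideal.span {(p : A)}) A] (hpu : (p : A) ∈ nonunits A)
    {x : K} {N M : ℕ} (hx : d.AlmInt x N M) (e f : ℕ) :
    ∃ w : A, algebraMap A K (d.ϖ e * d.δ f) * x = algebraMap A K w := by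
  have H : ∀ m : ℕ, ∃ (w : A) (c₁ : K), d.InC 1 c₁ ∧
      algebraMap A K (d.ϖ e * d.δ f) * x = algebraMap A K w + algebraMap A K ((p : A) ^ m) * c₁ := by
    intro m
    obtain ⟨w, c₁, h1, h2⟩ := d.descent f m (d.inC_ϖ_mul hpu hx (1 + m * p ^ f) e)
    refine ⟨w, c₁, h1, ?_⟩
    rw [← h2, map_mul]; ring
  choose w c₁ hc₁ hw using H
  -- the sequence `w` is Cauchy
  have hcauchy : ∀ m : ℕ, (p : A) ^ m ∣ w (m + 1) - w m := by
    intro m
    refine d.dvd_of_inC 1 m _ (c := c₁ m - algebraMap A K p * c₁ (m + 1))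
      ((hc₁ m).sub d ((hc₁ (m + 1)).smul d _)) ?_
    have h1 := hw m
    have h2 := hw (m + 1)
    rw [h1, pow_succ, map_mul] at h2
    rw [map_sub]
    linear_combination -h2
  have hcauchy' : ∀ {m n : ℕ}, m ≤ n →
      w m ≡ w n [SMOD (Ideal.span {(p : A)} ^ m • ⊤ : Submodule A A)] := by
    intro m n hmn
    rw [smodEq_iff]
    induction n, hmn using Nat.le_induction with
    | base => simp
    | succ n hmn ih =>
      have h1 : (p : A) ^ m ∣ w (n + 1) - w n := (pow_dvd_pow _ hmn).trans (hcauchy n)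
      have := dvd_sub ih h1
      convert this using 1
      ring
  obtain ⟨L, hL⟩ := IsPrecomplete.prec (I := Ideal.span {(p : A)}) (M := A) hA.toIsPrecomplete
    hcauchy'
  have hL' : ∀ m, (p : A) ^ m ∣ w m - L := fun m => (smodEq_iff _ _ _).mp (hL m)
  refine ⟨L, ?_⟩
  -- multiply by the denominator
  obtain ⟨w1, hw1⟩ := hx 1
  rw [pow_one] at hw1
  set c : A := (p : A) ^ N * d.δ 0 ^ M with hc
  have hcu : IsUnit (algebraMap A K c) := by
    rw [hc, map_mul, map_pow, map_pow]
    exact (d.unit_p.pow N).mul (d.unit_D.pow M)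
  have hz : d.ϖ e * d.δ f * w1 - c * L = 0 := by
    apply IsHausdorff.haus hA.toIsHausdorff
    intro m
    rw [smodEq_iff, sub_zero]
    obtain ⟨v, hv⟩ := hL' m
    refine d.dvd_of_inC 1 m _ (c := algebraMap A K c * c₁ m + algebraMap A K (c * v))
      (((hc₁ m).smul d c).add d (InC.ofA d 1 _)) ?_
    have h1 := hw m
    have h2 : w m = L + (p : A) ^ m * v := by rw [← hv]; ring
    rw [h2, map_add, map_mul (algebraMap A K) ((p : A) ^ m) v] at h1
    rw [map_sub, map_mul (algebraMap A K) _ w1, ← hw1, map_mul (algebraMap A K) c L,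
      map_mul (algebraMap A K) c v]
    linear_combination algebraMap A K c * h1
  have hz' := congrArg (algebraMap A K) hz
  rw [map_sub, map_mul (algebraMap A K) _ w1, ← hw1, map_mul (algebraMap A K) c L, map_zero] at hz'
  apply hcu.mul_left_cancel
  linear_combination hz'

/-- An element integral over `A` with a denominator `p^N D^M` is almost integral. -/
theorem almInt_of_isIntegral {x : K} (hx : IsIntegral A x) {N M : ℕ} {w : A}
    (hw : algebraMap A K ((p : A) ^ N * d.δ 0 ^ M) * x = algebraMap A K w) :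
    ∃ N' M' : ℕ, d.AlmInt x N' M' := by
  obtain ⟨P, hP, hPx⟩ := hx
  set n := P.natDegree with hn
  refine ⟨N * n, M * n, ?_⟩
  set c : A := (p : A) ^ N * d.δ 0 ^ M with hc
  have hcn : (p : A) ^ (N * n) * d.δ 0 ^ (M * n) = c ^ n := by
    rw [hc, mul_pow, ← pow_mul, ← pow_mul]
  intro j
  rw [hcn]
  -- reduce `X^j` modulo the monic polynomial `P`
  set r := (X ^ j : Polynomial A) %ₘ P with hr
  have h1 : x ^ j = aeval x r := by
    have := Polynomial.modByMonic_add_div (X ^ j : Polynomial A) P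
    have h2 := congrArg (aeval x) this
    rw [map_add, map_mul, show aeval x P = 0 from hPx, zero_mul, add_zero, map_pow, aeval_X] at h2
    exact h2.symm
  have hkey : ∀ i : ℕ, i ≤ n → ∃ v : A, algebraMap A K (c ^ n) * x ^ i = algebraMap A K v := by
    intro i hi
    refine ⟨c ^ (n - i) * w ^ i, ?_⟩
    have : c ^ n = c ^ (n - i) * c ^ i := by rw [← pow_add, Nat.sub_add_cancel hi]
    rw [this, map_mul, map_mul, map_pow _ w, ← hw, mul_pow, map_pow _ c i]
    ring
  rw [h1, aeval_eq_sum_range, Finset.mul_sum]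
  have hdeg : r.natDegree ≤ n := by
    exact Polynomial.natDegree_modByMonic_le _ hP
  choose! v hv using hkey
  refine ⟨∑ i ∈ Finset.range (r.natDegree + 1), r.coeff i * v i, ?_⟩
  rw [map_sum]
  apply Finset.sum_congr rfl
  intro i hi
  have hi' : i ≤ n := by
    have := Finset.mem_range.mp hi; omega
  rw [Algebra.smul_def, map_mul, ← hv i hi']
  ring

end Data

end Crest.Agent.R183.Heb
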