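import Crest.Agent.R183.Om2
import Crest.Agent.R183.Heb

/-!
R183 / Fam1 (helper778): the ring `P_* = {y ∈ P[1/c] : c^{1/p^e} y ∈ P for all e}` of a perfect
ring `P` (`c = π δ`), and the Witt vectors of `P_*`.
-/

set_option autoImplicit false
set_option linter.unusedSectionVars false

namespace Crest.Agent.R183.Fam

open WittVector Crest.Agent.R183.Amp Crest.Agent.R183.Om

universe u

/-! ### Teichmueller multiplication in coordinates (after helper60, R227/WittQ) -/

section TM

variable {p : ℕ} [hp : Fact p.Prime] {O : Type*} [CommRing O] [CharP O p]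

omit [CharP O p] in
theorem wv_eq_teich_add (x : WittVector p O) :
    x = teichmuller p (x.coeff 0) + verschiebung (x.shift 1) := by
  ext n
  rw [coeff_add_of_disjoint]
  · cases n with
    | zero => simp
    | succ n =>
      rw [teichmuller_coeff_pos p _ _ (Nat.succ_pos n), verschiebung_coeff_succ, shift_coeff,
        zero_add, add_comm]
  · intro n
    cases n with
    | zero => right; simp
    | succ n => left; exact teichmuller_coeff_pos p _ _ (Nat.succ_pos n)

theorem frobenius_teichmuller_charP (w : O) :
    WittVector.frobenius (teichmuller p w) = teichmuller p (w ^ p) := by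
  ext n
  rw [coeff_frobenius_charP]
  cases n with
  | zero => rw [teichmuller_coeff_zero, teichmuller_coeff_zero]
  | succ n =>
    rw [teichmuller_coeff_pos p _ _ (Nat.succ_pos n), teichmuller_coeff_pos p _ _ (Nat.succ_pos n),
      zero_pow hp.out.ne_zero]

/-- `([w] * x)_n = w ^ (p ^ n) * x_n`. -/
theorem teich_mul_coeff (w : O) (x : WittVector p O) (n : ℕ) :
    (teichmuller p w * x).coeff n = w ^ (p ^ n) * x.coeff n := by
  induction n generalizing w x with
  | zero => simp [WittVector.mul_coeff_zero]
  | succ n ih =>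
    have h1 : teichmuller p w * x
        = teichmuller p (w * x.coeff 0) + verschiebung (teichmuller p (w ^ p) * x.shift 1) := by
      conv_lhs => rw [wv_eq_teich_add x]
      rw [mul_add, map_mul, ← frobenius_teichmuller_charP w]
      congr 1
      rw [mul_comm (WittVector.frobenius _), verschiebung_mul_frobenius, mul_comm]
    rw [h1, coeff_add_of_disjoint]
    · rw [teichmuller_coeff_pos p _ _ (Nat.succ_pos n), verschiebung_coeff_succ, ih, zero_add,
        shift_coeff, ← pow_mul, pow_succ', add_comm 1 n]
    · intro m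
      cases m with
      | zero => right; simp
      | succ m => left; exact teichmuller_coeff_pos p _ _ (Nat.succ_pos m)

end TM

/-! ### Localisation of a perfect ring -/

section Loc

variable {p : ℕ} [hp : Fact p.Prime] {P : Type u} [CommRing P] [CharP P p] [PerfectRing P p]

lemma charP_away (c : P) [Nontrivial (Localization.Away c)] : CharP (Localization.Away c) p := by
  rw [CharP.charP_iff_prime_eq_zero hp.out]
  rw [← map_natCast (algebraMap P (Localization.Away c)), CharP.cast_eq_zero, map_zero]

lemma perfect_away (c : P) [CharP (Localization.Away c) p] :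
    PerfectRing (Localization.Away c) p := by
  have hu : IsUnit (algebraMap P (Localization.Away c) c) :=
    IsLocalization.Away.algebraMap_isUnit c
  have hred : ∀ y : Localization.Away c, y ^ p = 0 → y = 0 := by
    intro y hy
    obtain ⟨⟨a, _, n, rfl⟩, h⟩ := IsLocalization.surj (Submonoid.powers c) y
    simp only at h
    have h1 : algebraMap P (Localization.Away c) (a ^ p) = 0 := by
      rw [map_pow, ← h, mul_pow, hy, zero_mul]
    rw [← map_zero (algebraMap P (Localization.Away c))] at h1
    obtain ⟨⟨_, k, rfl⟩, hk⟩ := (IsLocalization.eq_iff_exists (Submonoid.powers c) _).1 h1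
    simp only [mul_zero] at hk
    have h2 : (c ^ k * a) ^ p = 0 := by
      have h3 : (c ^ k) ^ p = (c ^ k) ^ (p - 1) * c ^ k := by
        rw [← pow_succ, Nat.sub_add_cancel hp.out.pos]
      rw [mul_pow, h3, mul_assoc, hk, mul_zero]
    have h3 : c ^ k * a = 0 := by
      apply pow_inj p
      rw [h2, zero_pow hp.out.ne_zero]
    have h4 : algebraMap P (Localization.Away c) (c ^ k) * (y * algebraMap P _ (c ^ n)) = 0 := by
      rw [h, ← map_mul, h3, map_zero]
    have h5 : (algebraMap P (Localization.Away c) c) ^ (k + n) * y = 0 := by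
      rw [map_pow, map_pow] at h4
      rw [pow_add, ← h4]; ring
    exact ((hu.pow _).mul_right_eq_zero).1 h5
  refine ⟨⟨?_, ?_⟩⟩
  · intro x y hxy
    have h1 : (x - y) ^ p = 0 := by
      rw [sub_pow_char, sub_eq_zero]; exact hxy
    exact sub_eq_zero.1 (hred _ h1)
  · intro y
    obtain ⟨⟨a, _, n, rfl⟩, h⟩ := IsLocalization.surj (Submonoid.powers c) y
    simp only at h
    obtain ⟨b, hb⟩ := Om.exists_root p (a * (c ^ n) ^ (p - 1))
    obtain ⟨v, hv⟩ := hu.exists_right_inv
    refine ⟨algebraMap P _ b * v ^ n, ?_⟩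
    show (algebraMap P _ b * v ^ n) ^ p = y
    rw [mul_pow, ← map_pow, hb, map_mul, ← h]
    simp only [map_pow]
    have h2 : ∀ j : ℕ, y * (algebraMap P (Localization.Away c) c) ^ n *
        ((algebraMap P (Localization.Away c) c) ^ n) ^ j * (v ^ n) ^ (j + 1) = y := by
      intro j
      have : y * (algebraMap P (Localization.Away c) c) ^ n *
        ((algebraMap P (Localization.Away c) c) ^ n) ^ j * (v ^ n) ^ (j + 1) =
          y * ((algebraMap P (Localization.Away c) c) * v) ^ (n * (j + 1)) := by
        rw [mul_pow]; ring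
      rw [this, hv, one_pow, mul_one]
    have h3 := h2 (p - 1)
    rwa [Nat.sub_add_cancel hp.out.pos] at h3

end Loc

/-! ### `P_*` -/

section Star

variable (p : ℕ) [hp : Fact p.Prime] {P : Type u} [CommRing P] [CharP P p] [PerfectRing P p]
variable (L : Type u) [CommRing L] [Algebra P L]

/-- `P_* = {y ∈ L : c^{1/p^e} y ∈ P for all e}`. -/
def Ps (c : P) : Subring L where
  carrier := {y | ∀ e : ℕ, ∃ a : P, algebraMap P L (rt (p := p) e c) * y = algebraMap P L a}
  zero_mem' := fun e => ⟨0, by simp⟩
  one_mem' := fun e => ⟨rt (p := p) e c, by simp⟩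
  add_mem' := by
    intro y z hy hz e
    obtain ⟨a, ha⟩ := hy e
    obtain ⟨b, hb⟩ := hz e
    exact ⟨a + b, by rw [mul_add, ha, hb, map_add]⟩
  neg_mem' := by
    intro y hy e
    obtain ⟨a, ha⟩ := hy e
    exact ⟨-a, by rw [mul_neg, ha, map_neg]⟩
  mul_mem' := by
    intro y z hy hz e
    obtain ⟨a, ha⟩ := hy (e + 1)
    obtain ⟨b, hb⟩ := hz (e + 1)
    refine ⟨rt (p := p) (e + 1) c ^ (p - 2) * (a * b), ?_⟩
    have h2 : ∀ x : L, x ^ p = x ^ (p - 2) * (x * x) := by
      intro x
      rw [← sq, ← pow_add, Nat.sub_add_cancel hp.out.two_le]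
    rw [← rt_succ_pow, map_pow, map_mul, map_mul, map_pow, ← ha, ← hb, h2]
    ring

variable {L}

lemma mem_Ps {c : P} {y : L} :
    y ∈ Ps p L c ↔ ∀ e : ℕ, ∃ a : P, algebraMap P L (rt (p := p) e c) * y = algebraMap P L a :=
  Iff.rfl

lemma algebraMap_mem_Ps (c a : P) : algebraMap P L a ∈ Ps p L c :=
  fun e => ⟨rt (p := p) e c * a, by rw [map_mul]⟩

/-- the map `P → P_*`. -/
def toPs (c : P) : P →+* Ps p L c :=
  (algebraMap P L).codRestrict (Ps p L c) (algebraMap_mem_Ps p c)

@[simp] lemma coe_toPs (c a : P) : ((toPs p c a : Ps p L c) : L) = algebraMap P L a := rfl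

variable {p}

lemma charP_Ps (c : P) [CharP L p] : CharP (Ps p L c) p :=
  (Ps p L c).subtype.charP Subtype.val_injective p

/-- `y ∈ L`, `y^p ∈ P_*` implies `y ∈ P_*`. -/
lemma mem_Ps_of_pow (c : P) [CharP L p] [PerfectRing L p] {y : L}
    (h : y ^ p ∈ Ps p L c) : y ∈ Ps p L c := by
  have key : ∀ e, ∃ a : P, algebraMap P L (rt (p := p) (e + 1) c) * y = algebraMap P L a := by
    intro e
    obtain ⟨a, ha⟩ := h e
    obtain ⟨b, hb⟩ := Om.exists_root p a
    refine ⟨b, pow_inj p ?_⟩
    rw [mul_pow, ← map_pow, rt_succ_pow, ha, ← map_pow, hb]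
  intro e
  cases e with
  | zero =>
    obtain ⟨a, ha⟩ := key 0
    refine ⟨rt (p := p) 1 c ^ (p - 1) * a, ?_⟩
    have h2 : ∀ x : L, x ^ p = x ^ (p - 1) * x := by
      intro x
      rw [← pow_succ, Nat.sub_add_cancel hp.out.pos]
    rw [← rt_succ_pow, map_pow, map_mul, map_pow, ← ha, h2]
    ring
  | succ e => exact key e

lemma perfect_Ps (c : P) [CharP L p] [PerfectRing L p] :
    PerfectRing (Ps p L c) p := by
  refine ⟨⟨?_, ?_⟩⟩
  · intro x y hxy
    apply Subtype.ext
    apply pow_inj p
    have := congrArg Subtype.val hxy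
    simpa using this
  · intro y
    obtain ⟨z, hz⟩ := Om.exists_root p (y : L)
    refine ⟨⟨z, mem_Ps_of_pow c ?_⟩, ?_⟩
    · rw [hz]; exact y.2
    · apply Subtype.ext
      exact hz

/-- `π` is in the Jacobson radical of `P_*` when `P` is `π`-complete. -/
lemma pi_mem_jacobson (π δ : P) [hcomp : IsAdicComplete (Ideal.span {π}) P]
    (hinj : Function.Injective (algebraMap P L)) (hreg : IsUnit (algebraMap P L (π * δ))) :
    toPs p (π * δ) π ∈ Ideal.jacobson (⊥ : Ideal (Ps p L (π * δ))) := by
  rw [Ideal.mem_jacobson_bot]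
  set c := π * δ with hc
  intro y
  have hpow : ∀ n : ℕ, (y : L) ^ n ∈ Ps p L c := fun n => (y ^ n).2
  choose a ha using fun n e => hpow n e
  -- geometric series, level by level
  have hb : ∀ e, ∃ b : P, (1 + algebraMap P L π * (y : L)) * algebraMap P L b =
      algebraMap P L (rt (p := p) e c) := by
    intro e
    obtain ⟨b, hb⟩ := exists_series π (fun n => (-1) ^ n * a n e)
    refine ⟨b, ?_⟩
    have h0 : (c + π * a 1 0) * b - c * rt (p := p) e c = 0 := by
      apply IsHausdorff.haus hcomp.toIsHausdorff
      intro N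
      rw [SModEq.zero, smul_eq_mul, Ideal.mul_top, Ideal.span_singleton_pow,
        Ideal.mem_span_singleton]
      obtain ⟨t, ht⟩ := hb N
      refine ⟨(c + π * a 1 0) * t - (-1) ^ N * c * a N e, ?_⟩
      apply hinj
      have h1 : algebraMap P L (a 1 0) = algebraMap P L c * y := by
        have := ha 1 0
        rw [rt_zero, pow_one] at this
        exact this.symm
      have h2 : b = (∑ i ∈ Finset.range N, π ^ i * ((-1) ^ i * a i e)) + π ^ N * t := by
        rw [← ht]; ring
      have h3 : algebraMap P L (∑ i ∈ Finset.range N, π ^ i * ((-1) ^ i * a i e)) =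
          algebraMap P L (rt (p := p) e c) * ∑ i ∈ Finset.range N, (-(algebraMap P L π * y)) ^ i := by
        rw [map_sum, Finset.mul_sum]
        refine Finset.sum_congr rfl fun i _ => ?_
        rw [map_mul, map_mul, ← ha i e, neg_eq_neg_one_mul (algebraMap P L π * (y : L)), mul_pow,
          mul_pow, map_pow, map_pow, map_neg, map_one]
        ring
      have h4 := mul_neg_geom_sum (-(algebraMap P L π * (y : L))) N
      have h5 : algebraMap P L (a N e) = algebraMap P L (rt (p := p) e c) * (y : L) ^ N :=
        (ha N e).symm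
      have h6 : (-(algebraMap P L π * (y : L))) ^ N =
          (-1) ^ N * algebraMap P L π ^ N * (y : L) ^ N := by
        rw [neg_eq_neg_one_mul, mul_pow, mul_pow]; ring
      rw [h6] at h4
      conv_lhs => rw [h2]
      simp only [map_sub, map_add, map_mul, map_pow, map_neg, map_one] at h3 ⊢
      rw [h3, h1, h5]
      linear_combination (algebraMap P L c) * (algebraMap P L (rt (p := p) e c)) * h4
    have h1 := congrArg (algebraMap P L) h0
    simp only [map_sub, map_add, map_mul, map_zero] at h1
    have h2 : algebraMap P L (a 1 0) = algebraMap P L c * y := by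
      have := ha 1 0
      rw [rt_zero, pow_one] at this
      exact this.symm
    rw [h2] at h1
    apply hreg.mul_left_cancel
    linear_combination h1
  choose b hb using hb
  obtain ⟨v, hv⟩ := hreg.exists_right_inv
  have hz : (1 + algebraMap P L π * (y : L)) * (v * algebraMap P L (b 0)) = 1 := by
    have h1 := hb 0
    rw [rt_zero] at h1
    linear_combination v * h1 + hv
  have hzmem : v * algebraMap P L (b 0) ∈ Ps p L c := by
    intro e
    refine ⟨b e, ?_⟩
    have h1 := hb e
    linear_combination (v * algebraMap P L (b 0)) * (-h1) + (algebraMap P L (b e)) * hz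
  refine ⟨⟨1 + toPs p c π * y, ⟨v * algebraMap P L (b 0), hzmem⟩, ?_, ?_⟩, ?_⟩
  · apply Subtype.ext
    push_cast
    rw [coe_toPs]
    exact hz
  · apply Subtype.ext
    push_cast
    rw [coe_toPs, mul_comm]
    exact hz
  · show 1 + toPs p c π * y = _
    ring

end Star

end Crest.Agent.R183.Fam
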