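import Crest.Agent.R183.Fam1

/-!
R183 / Fam2 (helper778): the ring homomorphism `ψ : W(P_*) → Ω[1/pD]`, `ψ w = θ([c] w)/θ[c]`,
its kernel `(p - [π])` and its image in `Ω_*`.
-/

set_option autoImplicit false
set_option linter.unusedSectionVars false

namespace Crest.Agent.R183.Fam

open WittVector Crest.Agent.R183.Amp Crest.Agent.R183.Om

universe u

section Psi

variable {p : ℕ} [hp : Fact p.Prime] {P : Type u} [CommRing P] [CharP P p] [PerfectRing P p]
variable {L : Type u} [CommRing L] [Algebra P L] [CharP L p] [PerfectRing L p]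

lemma exists_low (c : P) (e : ℕ) (w : WittVector p (Ps p L c)) :
    ∃ v : WittVector p P, WittVector.map (algebraMap P L) v =
      teichmuller p (algebraMap P L (rt (p := p) e c)) * WittVector.map (Ps p L c).subtype w := by
  have h : ∀ n, ∃ b : P, algebraMap P L b =
      (algebraMap P L (rt (p := p) e c)) ^ (p ^ n) * ((w.coeff n : Ps p L c) : L) := by
    intro n
    obtain ⟨a, ha⟩ := (w.coeff n).2 e
    refine ⟨rt (p := p) e c ^ (p ^ n - 1) * a, ?_⟩
    have h2 : ∀ x : L, x ^ (p ^ n) = x ^ (p ^ n - 1) * x := by
      intro x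
      rw [← pow_succ, Nat.sub_add_cancel (pow_pos hp.out.pos n)]
    rw [map_mul, map_pow, ← ha, h2, mul_assoc]
  choose b hb using h
  refine ⟨WittVector.mk p b, ?_⟩
  ext n
  rw [WittVector.map_coeff, coeff_mk, hb, teich_mul_coeff, WittVector.map_coeff]
  rfl

/-- `[c^{1/p^e}] w` as an element of `W(P)`. -/
noncomputable def low (c : P) (e : ℕ) (w : WittVector p (Ps p L c)) : WittVector p P :=
  (exists_low c e w).choose

lemma low_spec (c : P) (e : ℕ) (w : WittVector p (Ps p L c)) :
    WittVector.map (algebraMap P L) (low c e w) =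
      teichmuller p (algebraMap P L (rt (p := p) e c)) * WittVector.map (Ps p L c).subtype w :=
  (exists_low c e w).choose_spec

section LowLemmas

variable (hinj : Function.Injective (algebraMap P L))
include hinj

lemma low_unique {c : P} {e : ℕ} {w : WittVector p (Ps p L c)} {v : WittVector p P}
    (h : WittVector.map (algebraMap P L) v =
      teichmuller p (algebraMap P L (rt (p := p) e c)) * WittVector.map (Ps p L c).subtype w) :
    low c e w = v :=
  WittVector.map_injective _ hinj ((low_spec c e w).trans h.symm)

lemma low_add (c : P) (e : ℕ) (w w' : WittVector p (Ps p L c)) :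
    low c e (w + w') = low c e w + low c e w' := by
  apply low_unique hinj
  rw [map_add, low_spec, low_spec, map_add, mul_add]

lemma low_mul (c : P) (e : ℕ) (w w' : WittVector p (Ps p L c)) :
    teichmuller p (rt (p := p) e c) * low c e (w * w') = low c e w * low c e w' := by
  apply WittVector.map_injective _ hinj
  rw [map_mul, map_mul, low_spec, low_spec, low_spec, map_mul, WittVector.map_teichmuller]
  ring

lemma low_one (c : P) (e : ℕ) :
    low c e (1 : WittVector p (Ps p L c)) = teichmuller p (rt (p := p) e c) := by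
  apply low_unique hinj
  rw [map_one, mul_one, WittVector.map_teichmuller]

lemma low_zero (c : P) (e : ℕ) : low c e (0 : WittVector p (Ps p L c)) = 0 := by
  apply low_unique hinj
  rw [map_zero, map_zero, mul_zero]

lemma low_pow (c : P) (e : ℕ) (w : WittVector p (Ps p L c)) :
    teichmuller p (rt (p := p) e c) ^ (p ^ e - 1) * low c e w = low c 0 w := by
  apply WittVector.map_injective _ hinj
  rw [map_mul, map_pow, low_spec, low_spec, WittVector.map_teichmuller, ← mul_assoc, ← pow_succ,
    Nat.sub_add_cancel (pow_pos hp.out.pos e), ← map_pow, ← map_pow, Amp.rt_pow, rt_zero]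

lemma low_teich (c : P) (e : ℕ) (y : Ps p L c) {a : P}
    (ha : algebraMap P L a = algebraMap P L (rt (p := p) e c) * (y : L)) :
    low c e (teichmuller p y) = teichmuller p a := by
  apply low_unique hinj
  rw [WittVector.map_teichmuller, WittVector.map_teichmuller, ha, map_mul]
  rfl

end LowLemmas

variable (hinj : Function.Injective (algebraMap P L))
variable {Ω : Type u} [CommRing Ω] (θ : WittVector p P →+* Ω)
variable {K : Type u} [CommRing K] [Algebra Ω K]

/-- `ψ w = θ([c] w) / θ [c]`. -/
noncomputable def psi (c : P)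
    (hc : IsUnit (algebraMap Ω K (sh θ c))) : WittVector p (Ps p L c) →+* K where
  toFun w := algebraMap Ω K (θ (low c 0 w)) * Ring.inverse (algebraMap Ω K (sh θ c))
  map_one' := by
    rw [low_one hinj, rt_zero]
    exact Ring.mul_inverse_cancel _ hc
  map_zero' := by rw [low_zero hinj, map_zero, map_zero, zero_mul]
  map_add' w w' := by rw [low_add hinj, map_add, map_add, add_mul]
  map_mul' w w' := by
    apply hc.mul_left_cancel
    have h1 := congrArg (fun x => algebraMap Ω K (θ x)) (low_mul hinj c 0 w w')
    simp only [map_mul, rt_zero] at h1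
    have h2 := Ring.mul_inverse_cancel _ hc
    have h3 : algebraMap Ω K (sh θ c) = algebraMap Ω K (θ (teichmuller p c)) := rfl
    rw [← h3] at h1
    linear_combination Ring.inverse (algebraMap Ω K (sh θ c)) * h1 -
      (algebraMap Ω K (θ (low c 0 w))) * (algebraMap Ω K (θ (low c 0 w'))) *
        Ring.inverse (algebraMap Ω K (sh θ c)) * h2

section

variable (c : P) (hc : IsUnit (algebraMap Ω K (sh θ c)))

lemma psi_spec (w : WittVector p (Ps p L c)) :
    algebraMap Ω K (sh θ c) * psi hinj θ c hc w = algebraMap Ω K (θ (low c 0 w)) := by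
  show algebraMap Ω K (sh θ c) * (algebraMap Ω K (θ (low c 0 w)) * Ring.inverse _) = _
  rw [mul_left_comm, Ring.mul_inverse_cancel _ hc, mul_one]

include hc in
lemma isUnit_rt (e : ℕ) : IsUnit (algebraMap Ω K (sh θ (rt (p := p) e c))) := by
  rw [← Amp.rt_pow (p := p) e c, sh_pow, map_pow] at hc
  exact (isUnit_pow_iff (pow_ne_zero _ hp.out.ne_zero)).mp hc

lemma psi_low (e : ℕ) (w : WittVector p (Ps p L c)) :
    algebraMap Ω K (sh θ (rt (p := p) e c)) * psi hinj θ c hc w =
      algebraMap Ω K (θ (low c e w)) := by
  have hu := isUnit_rt θ c hc e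
  apply (hu.pow (p ^ e - 1)).mul_left_cancel
  rw [← mul_assoc, ← pow_succ, Nat.sub_add_cancel (pow_pos hp.out.pos e), ← map_pow, ← sh_pow,
    Amp.rt_pow, psi_spec, ← low_pow hinj c e w, map_mul, map_mul, map_pow, map_pow]
  rfl

/-- `ψ [y] = a♯/c♯` if `a = c y`. -/
lemma psi_teich (y : Ps p L c) {a : P} (ha : algebraMap P L a = algebraMap P L c * (y : L)) :
    algebraMap Ω K (sh θ c) * psi hinj θ c hc (teichmuller p y) = algebraMap Ω K (sh θ a) := by
  rw [psi_spec, low_teich hinj c 0 y (by rw [rt_zero]; exact ha)]
  rfl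

lemma psi_map (v : WittVector p P) :
    psi hinj θ c hc (WittVector.map (toPs p c) v) = algebraMap Ω K (θ v) := by
  apply hc.mul_left_cancel
  rw [psi_spec, ← map_mul, sh, ← map_mul]
  congr 2
  apply low_unique hinj
  rw [map_mul, WittVector.map_teichmuller, rt_zero]
  congr 1

end

/-- The kernel of `ψ`. -/
theorem ker_psi {π δ : P}
    (hker : RingHom.ker θ = Ideal.span {xi 1 π})
    (hΩK : Function.Injective (algebraMap Ω K))
    (hcL : IsUnit (algebraMap P L (π * δ)))
    (hc : IsUnit (algebraMap Ω K (sh θ (π * δ)))) :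
    RingHom.ker (psi hinj θ (π * δ) hc) = Ideal.span {xi 1 (toPs p (π * δ) π)} := by
  set c := π * δ with hcdef
  have hπL : IsUnit (algebraMap P L π) := by
    rw [hcdef, map_mul] at hcL
    exact isUnit_of_mul_isUnit_left hcL
  have hregL : Reg (algebraMap P L π) := fun x hx => (hπL.mul_right_eq_zero).1 hx
  have hxireg : Reg (xi (1 : WittVector p L) (algebraMap P L π)) := xi_regular hregL
  apply le_antisymm
  · intro w hw
    rw [RingHom.mem_ker] at hw
    have h1 : ∀ e, ∃ v, low c e w = xi 1 π * v := by
      intro e
      have h2 := psi_low hinj θ c hc e w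
      rw [hw, mul_zero] at h2
      have h3 : θ (low c e w) = 0 := hΩK (by rw [← h2, map_zero])
      have h4 : low c e w ∈ RingHom.ker θ := h3
      rw [hker, Ideal.mem_span_singleton] at h4
      exact h4
    choose v hv using h1
    obtain ⟨ci, hci⟩ := hcL.exists_right_inv
    set al := WittVector.map (p := p) (algebraMap P L) with hal
    set V : WittVector p L := teichmuller p ci * al (v 0) with hV
    have hxi : al (xi 1 π) = xi 1 (algebraMap P L π) := by rw [hal, map_xi, map_one]
    have hcc : teichmuller p ci * teichmuller p (algebraMap P L c) = 1 := by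
      rw [← map_mul, mul_comm, hci, map_one]
    have h0 : xi 1 (algebraMap P L π) * V = WittVector.map (Ps p L c).subtype w := by
      have h5 := low_spec c 0 w
      rw [rt_zero, hv 0, map_mul, ← hal, hxi] at h5
      rw [hV]
      linear_combination (teichmuller p ci) * h5 + (WittVector.map (Ps p L c).subtype w) * hcc
    have hVe : ∀ e, teichmuller p (algebraMap P L (rt (p := p) e c)) * V = al (v e) := by
      intro e
      rw [← sub_eq_zero]
      apply hxireg
      have h5 := low_spec c e w
      rw [hv e, map_mul, ← hal, hxi] at h5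
      rw [mul_sub, sub_eq_zero, h5, ← h0]
      ring
    have hmem : ∀ n, V.coeff n ∈ Ps p L c := by
      intro n e
      have h6 := congrArg (fun x => WittVector.coeff x n) (hVe (e + n))
      rw [teich_mul_coeff, ← map_pow, Om.rt_add, hal, WittVector.map_coeff] at h6
      exact ⟨_, h6⟩
    rw [Ideal.mem_span_singleton]
    refine ⟨WittVector.mk p fun n => ⟨V.coeff n, hmem n⟩, ?_⟩
    apply WittVector.map_injective (Ps p L c).subtype Subtype.val_injective
    rw [map_mul, map_xi, map_one]
    have h7 : WittVector.map (Ps p L c).subtype (WittVector.mk p fun n => ⟨V.coeff n, hmem n⟩) = V := by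
      ext n
      rw [WittVector.map_coeff, coeff_mk]
      rfl
    rw [h7]
    exact h0.symm
  · rw [Ideal.span_singleton_le_iff_mem, RingHom.mem_ker]
    have h1 : xi (1 : WittVector p (Ps p L c)) (toPs p c π) = WittVector.map (toPs p c) (xi 1 π) := by
      rw [map_xi, map_one]
    rw [h1, psi_map]
    have h2 : xi 1 π ∈ RingHom.ker θ := by rw [hker]; exact Ideal.mem_span_singleton_self _
    rw [RingHom.mem_ker.1 h2, map_zero]

end Psi

end Crest.Agent.R183.Fam
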