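import Crest.Agent.R183.Fam2
import Crest.Agent.R183.Digit2
import Crest.Agent.R183.Om4

/-!
R183 / Fam3 (helper778): sharps in `P_*` (Riemann extension for sharps, from helper266's digit
trick) for a `π`-complete perfect ring.
-/

set_option autoImplicit false
set_option linter.unusedSectionVars false

namespace Crest.Agent.R183.Fam

open WittVector Crest.Agent.R183.Amp Crest.Agent.R183.Om

universe u

section

variable {p : ℕ} [hp : Fact p.Prime] {P : Type u} [CommRing P] [CharP P p] [PerfectRing P p]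

lemma digit_rt (e : ℕ) (x : P) : Digit.rt p e x = rt (p := p) e x :=
  (Digit.rt_unique (Amp.rt_pow (p := p) e x)).symm

omit hp [CharP P p] [PerfectRing P p] in
lemma regMod_pow {π δ : P} (hπ : Reg π) (hδ : RegMod δ π) (M : ℕ) : RegMod δ (π ^ M) := by
  induction M with
  | zero => intro x _; simp
  | succ M ih =>
    rintro x ⟨y, hy⟩
    have h1 : π ∣ δ * x := ⟨π ^ M * y, by rw [hy, pow_succ']; ring⟩
    obtain ⟨x', rfl⟩ := hδ _ h1
    have h2 : δ * x' = π ^ M * y := by
      rw [← sub_eq_zero]
      apply hπ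
      rw [pow_succ'] at hy
      linear_combination hy
    rw [pow_succ']
    exact mul_dvd_mul_left π (ih _ ⟨y, h2⟩)

omit hp [CharP P p] [PerfectRing P p] in
lemma reg_of_regMod {π δ : P} [hc : IsAdicComplete (Ideal.span {π}) P] (hπ : Reg π)
    (hδ : RegMod δ π) : Reg δ := by
  intro x hx
  apply IsHausdorff.haus hc.toIsHausdorff
  intro M
  rw [SModEq.zero, smul_eq_mul, Ideal.mul_top, Ideal.span_singleton_pow, Ideal.mem_span_singleton]
  exact regMod_pow hπ hδ M x (by rw [hx]; exact dvd_zero _)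

omit hp [CharP P p] [PerfectRing P p] in
/-- principal ideals generated by divisors of `π δ` are `π`-adically closed. -/
lemma dvd_of_forall_mem {π δ : P} [hc : IsAdicComplete (Ideal.span {π}) P] (hπ : Reg π)
    (hδ : RegMod δ π) {s s' a : P} (hs : s * s' = π * δ)
    (h : ∀ M : ℕ, a ∈ Ideal.span {s, π ^ M}) : s ∣ a := by
  have h1 : ∀ M, ∃ b d, a = s * b + π ^ M * d := by
    intro M
    obtain ⟨b, d, hbd⟩ := Ideal.mem_span_pair.1 (h M)
    exact ⟨b, d, by rw [← hbd]; ring⟩
  choose b d hbd using h1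
  have h2 : ∀ M, π ^ M ∣ b (M + 2) - b (M + 1) := by
    intro M
    have h3 : π ^ (M + 1) ∣ s * (b (M + 2) - b (M + 1)) :=
      ⟨d (M + 1) - π * d (M + 2), by
        have e1 := hbd (M + 1)
        have e2 := hbd (M + 2)
        rw [pow_succ π (M + 1)] at e2
        linear_combination e1 - e2⟩
    have h4 : π ^ (M + 1) ∣ π * (δ * (b (M + 2) - b (M + 1))) := by
      have : π * (δ * (b (M + 2) - b (M + 1))) = s' * (s * (b (M + 2) - b (M + 1))) := by
        linear_combination -(b (M + 2) - b (M + 1)) * hs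
      rw [this]
      exact h3.mul_left _
    obtain ⟨t, ht⟩ := h4
    apply regMod_pow hπ hδ M
    refine ⟨t, ?_⟩
    rw [← sub_eq_zero]
    apply hπ
    rw [pow_succ'] at ht
    linear_combination ht
  choose u hu using h2
  obtain ⟨σ, hσ⟩ := exists_series π u
  have h5 : ∀ M, b (M + 1) = b 1 + ∑ i ∈ Finset.range M, π ^ i * u i := by
    intro M
    induction M with
    | zero => simp
    | succ M ih =>
      rw [Finset.sum_range_succ, ← add_assoc, ← ih, ← hu M]
      ring
  refine ⟨b 1 + σ, ?_⟩
  rw [← sub_eq_zero]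
  apply IsHausdorff.haus hc.toIsHausdorff
  intro M
  rw [SModEq.zero, smul_eq_mul, Ideal.mul_top, Ideal.span_singleton_pow, Ideal.mem_span_singleton]
  obtain ⟨t, ht⟩ := hσ M
  refine ⟨π * d (M + 1) - s * t, ?_⟩
  have e1 := hbd (M + 1)
  rw [h5 M, pow_succ] at e1
  linear_combination e1 - s * ht

variable {Ω : Type*} [CommRing Ω] (θ : WittVector p P →+* Ω)

/-- **Riemann extension for sharps.** -/
theorem dvd_of_sharp {π δ : P} [hc : IsAdicComplete (Ideal.span {π}) P] (hπ : Reg π)
    (hδ : RegMod δ π) (hθ : Function.Surjective θ)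
    (hker : RingHom.ker θ = Ideal.span {xi 1 π}) {t : P}
    (h : ∀ e, sh θ (π * δ) ∣ sh θ (rt (p := p) e (π * δ)) * sh θ t) (e : ℕ) :
    π * δ ∣ rt (p := p) e (π * δ) * t := by
  set c := π * δ with hcdef
  have key : ∀ g : ℕ, rt (p := p) g c ^ (p ^ g - 1) ∣ rt (p := p) g c * t := by
    intro g
    refine dvd_of_forall_mem (s' := rt (p := p) g c) hπ hδ ?_ ?_
    · rw [← pow_succ, Nat.sub_add_cancel (pow_pos hp.out.pos g), Amp.rt_pow]
    · intro M
      obtain ⟨ω, hω⟩ := h g
      obtain ⟨w, rfl⟩ := hθ ω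
      have h1 : teichmuller p (rt (p := p) g c * t) - teichmuller p c * w ∈ RingHom.ker θ := by
        have h3 : teichmuller p (rt (p := p) g c * t) =
          teichmuller p (rt (p := p) g c) * teichmuller p t := map_mul _ _ _
        rw [RingHom.mem_ker, map_sub, h3, map_mul θ, map_mul θ, sub_eq_zero]
        exact hω
      rw [hker] at h1
      have h2 := Digit.riemann_pair (p := p) (P := P) (ϖ := π) (D := c) (x := t)
        (h₀ := rt (p := p) g c) (u := 1) isUnit_one 0 (by
          have e1 : teichmuller p (rt (p := p) g c * t ^ p ^ 0) =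
              teichmuller p (c ^ p ^ 0) * w +
                (teichmuller p (rt (p := p) g c * t) - teichmuller p c * w) := by
            simp
          rw [e1]
          refine Submodule.add_mem_sup ?_ ?_
          · exact Ideal.mul_mem_right _ _ (Ideal.mem_span_singleton_self _)
          · exact h1) g M
      rw [digit_rt, digit_rt, rt_zero] at h2
      exact h2
  have hk := key (e + 1)
  obtain ⟨b, hb⟩ := hk
  refine ⟨rt (p := p) (e + 1) c ^ (p - 2) * b, ?_⟩
  have h1 : rt (p := p) e c = rt (p := p) (e + 1) c ^ (p - 2) *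
      (rt (p := p) (e + 1) c * rt (p := p) (e + 1) c) := by
    rw [← sq, ← pow_add, Nat.sub_add_cancel hp.out.two_le, rt_succ_pow]
  have h2 : c = rt (p := p) (e + 1) c ^ (p ^ (e + 1) - 1) * rt (p := p) (e + 1) c := by
    rw [← pow_succ, Nat.sub_add_cancel (pow_pos hp.out.pos _), Amp.rt_pow]
  rw [h1]
  linear_combination rt (p := p) (e + 1) c ^ (p - 2) * rt (p := p) (e + 1) c * hb -
    rt (p := p) (e + 1) c ^ (p - 2) * b * h2

variable {L : Type u} [CommRing L] [Algebra P L]

theorem exists_star {π δ : P} [hc : IsAdicComplete (Ideal.span {π}) P] (hπ : Reg π)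
    (hδ : RegMod δ π) (hθ : Function.Surjective θ)
    (hker : RingHom.ker θ = Ideal.span {xi 1 π})
    (hcL : IsUnit (algebraMap P L (π * δ))) {t : P}
    (h : ∀ e, sh θ (π * δ) ∣ sh θ (rt (p := p) e (π * δ)) * sh θ t) :
    ∃ y : Ps p L (π * δ), algebraMap P L t = algebraMap P L (π * δ) * (y : L) := by
  obtain ⟨v, hv⟩ := hcL.exists_right_inv
  refine ⟨⟨v * algebraMap P L t, ?_⟩, ?_⟩
  · intro e
    obtain ⟨b, hb⟩ := dvd_of_sharp θ hπ hδ hθ hker h e
    refine ⟨b, ?_⟩
    have h1 := congrArg (algebraMap P L) hb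
    rw [map_mul, map_mul (algebraMap P L) (π * δ) b] at h1
    linear_combination v * h1 + algebraMap P L b * hv
  · show _ = algebraMap P L (π * δ) * (v * algebraMap P L t)
    linear_combination -(algebraMap P L t) * hv

end

end Crest.Agent.R183.Fam
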