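import Crest.Agent.R183.Amp5
import Crest.Agent.R183.Om2

/-!
R183 / Fam4 (helper778): the amplifier with a UNIFORM constant, by applying helper902's amplifier
to a product.
-/

set_option autoImplicit false
set_option linter.unusedSectionVars false

namespace Crest.Agent.R183.Fam

open WittVector Crest.Agent.R183.Amp Crest.Agent.R183.Om

universe u

/-! ### products -/

section Prod

variable {ι : Type} {A : ι → Type u} [∀ i, CommRing (A i)]

lemma mem_of_span {k : ℕ} (y : Fin k → ∀ i, A i) (a : ∀ i, A i)
    (h : ∀ i, a i ∈ (Ideal.span (Set.range y)).map (Pi.evalRingHom A i)) :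
    a ∈ Ideal.span (Set.range y) := by
  have h1 : ∀ i, ∃ c : Fin k → A i, ∑ j, c j * y j i = a i := by
    intro i
    have := h i
    rw [Ideal.map_span, ← Set.range_comp] at this
    exact (Ideal.mem_span_range_iff_exists_fun).1 this
  choose c hc using h1
  rw [Ideal.mem_span_range_iff_exists_fun]
  refine ⟨fun j i => c i j, ?_⟩
  funext i
  rw [Finset.sum_apply, ← hc i]
  rfl

lemma mem_of_fg {J : Ideal (∀ i, A i)} (hJ : J.FG) (a : ∀ i, A i)
    (h : ∀ i, a i ∈ J.map (Pi.evalRingHom A i)) : a ∈ J := by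
  obtain ⟨k, y, hy⟩ := Submodule.fg_iff_exists_fin_generating_family.1 hJ
  have hy' : J = Ideal.span (Set.range y) := hy.symm
  rw [hy'] at h ⊢
  exact mem_of_span y a h

lemma le_of_fg {I J : Ideal (∀ i, A i)} (hJ : J.FG)
    (h : ∀ i, I.map (Pi.evalRingHom A i) ≤ J.map (Pi.evalRingHom A i)) : I ≤ J :=
  fun a ha => mem_of_fg hJ a fun i => h i (Ideal.mem_map_of_mem _ ha)

end Prod

section ProdW

variable {p : ℕ} [hp : Fact p.Prime] {ι : Type} {P : ι → Type u} [∀ i, CommRing (P i)]

lemma pi_ext {w v : WittVector p (∀ i, P i)}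
    (h : ∀ i, WittVector.map (Pi.evalRingHom P i) w = WittVector.map (Pi.evalRingHom P i) v) :
    w = v := by
  ext n i
  have := congrArg (fun x => WittVector.coeff x n) (h i)
  simpa [WittVector.map_coeff] using this

lemma pi_exists (w : ∀ i, WittVector p (P i)) :
    ∃ v : WittVector p (∀ i, P i), ∀ i, WittVector.map (Pi.evalRingHom P i) v = w i := by
  refine ⟨WittVector.mk p fun n i => (w i).coeff n, fun i => ?_⟩
  ext n
  rw [WittVector.map_coeff, coeff_mk]
  rfl

lemma pi_charP [Nonempty ι] [∀ i, CharP (P i) p] : CharP (∀ i, P i) p := by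
  have : Nontrivial (∀ i, P i) := by
    obtain ⟨i⟩ := ‹Nonempty ι›
    have : ∀ j, Nontrivial (P j) := fun j => CharP.nontrivial_of_char_ne_one (R := P j) hp.out.ne_one
    exact Pi.nontrivial_at i
  rw [CharP.charP_iff_prime_eq_zero hp.out]
  funext i
  rw [Pi.natCast_apply, CharP.cast_eq_zero]
  rfl

lemma pi_perfect [∀ i, PerfectRing (P i) p] : PerfectRing (∀ i, P i) p := by
  refine ⟨⟨?_, ?_⟩⟩
  · intro x y hxy
    funext i
    have h1 : (x i) ^ p = (y i) ^ p := congrFun hxy i
    exact (PerfectRing.bijective_frobenius (R := P i) (p := p)).1 h1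
  · intro y
    have h1 : ∀ i, ∃ x : P i, x ^ p = y i := fun i =>
      (PerfectRing.bijective_frobenius (R := P i) (p := p)).2 (y i)
    choose x hx using h1
    exact ⟨x, funext hx⟩

end ProdW

/-- One instance of the amplifier problem. -/
structure Cand (p : ℕ) [Fact p.Prime] (a b M c : ℕ) : Type (u + 1) where
  P : Type u
  [ring : CommRing P]
  [charP : CharP P p]
  [perf : PerfectRing P p]
  Ω : Type u
  [ringΩ : CommRing Ω]
  θ : WittVector p P →+* Ω
  surj : Function.Surjective θ
  π : P
  ker : RingHom.ker θ = Ideal.span {xi 1 π}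
  jac : π ∈ Ideal.jacobson (⊥ : Ideal P)
  x : Fin a → P
  z : Fin b → P
  H1 : (p : Ω) ^ M ∈ Ideal.span (Set.range fun i => θ (teichmuller p (z i)))
  H2 : Ideal.span (Set.range fun i => θ (teichmuller p (x i))) ^ (c + 1) ≤
      Ideal.span (Set.range fun i => θ (teichmuller p (z i))) *
        Ideal.span (Set.range fun i => θ (teichmuller p (x i))) ^ c
  H3 : (p : Ω) ∈ Ideal.span (Set.range fun i => θ (teichmuller p (x i)))

attribute [instance] Cand.ring Cand.charP Cand.perf Cand.ringΩ

/-- The conclusion of the amplifier. -/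
def Cand.Good {p : ℕ} [Fact p.Prime] {a b M c : ℕ} (D : Cand.{u} p a b M c) (n : ℕ) : Prop :=
  ∀ e N : ℕ, n + N ≤ p ^ e →
      Ideal.span (Set.range fun i => D.θ (teichmuller p (D.x i))) ≤
        Ideal.span (Set.range fun i => D.θ (teichmuller p (rt (p := p) e (D.z i)))) ^ N

/-- **Uniform amplifier.** -/
theorem exists_uniform (p : ℕ) [hp : Fact p.Prime] (a b M c : ℕ) :
    ∃ n : ℕ, ∀ D : Cand.{u} p a b M c, D.Good n := by
  by_contra hcon
  push Not at hcon
  choose D hD using hcon
  have i1 : CharP (∀ n, (D n).P) p := pi_charP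
  have i2 : PerfectRing (∀ n, (D n).P) p := pi_perfect
  let ev : ∀ n, (∀ n, (D n).P) →+* (D n).P := fun n => Pi.evalRingHom (fun n => (D n).P) n
  let Θ : WittVector p (∀ n, (D n).P) →+* (∀ n, (D n).Ω) :=
    RingHom.pi fun n => (D n).θ.comp (WittVector.map (ev n))
  have hΘ : ∀ w n, Θ w n = (D n).θ (WittVector.map (ev n) w) := fun _ _ => rfl
  have hΘt : ∀ (y : ∀ n, (D n).P) n, Θ (teichmuller p y) n = (D n).θ (teichmuller p (y n)) := by
    intro y n
    rw [hΘ, WittVector.map_teichmuller]
    rfl
  have hsurj : Function.Surjective Θ := by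
    intro ω
    choose w hw using fun n => (D n).surj (ω n)
    obtain ⟨v, hv⟩ := pi_exists w
    refine ⟨v, ?_⟩
    funext n
    rw [hΘ, ← hw n]
    congr 1
    exact hv n
  let π : ∀ n, (D n).P := fun n => (D n).π
  have hxi : ∀ n, WittVector.map (ev n) (xi (1 : WittVector p (∀ n, (D n).P)) π) =
      xi 1 (D n).π := by
    intro n; rw [map_xi, map_one]; rfl
  have hker : RingHom.ker Θ = Ideal.span {xi (1 : WittVector p (∀ n, (D n).P)) π} := by
    apply le_antisymm
    · intro w hw
      rw [RingHom.mem_ker] at hw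
      have h1 : ∀ n, ∃ v, WittVector.map (ev n) w = xi 1 (D n).π * v := by
        intro n
        have h2 : WittVector.map (ev n) w ∈ RingHom.ker (D n).θ := congrFun hw n
        rw [(D n).ker, Ideal.mem_span_singleton] at h2
        exact h2
      choose v hv using h1
      obtain ⟨V, hV⟩ := pi_exists v
      rw [Ideal.mem_span_singleton]
      refine ⟨V, pi_ext fun n => ?_⟩
      have h3 : WittVector.map (ev n) V = v n := hV n
      show WittVector.map (ev n) w = WittVector.map (ev n) (xi 1 π * V)
      rw [map_mul, hxi, h3, hv]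
    · rw [Ideal.span_singleton_le_iff_mem, RingHom.mem_ker]
      funext n
      rw [hΘ, hxi]
      have : xi 1 (D n).π ∈ RingHom.ker (D n).θ := by
        rw [(D n).ker]; exact Ideal.mem_span_singleton_self _
      exact this
  have hjac : π ∈ Ideal.jacobson (⊥ : Ideal (∀ n, (D n).P)) := by
    rw [Ideal.mem_jacobson_bot]
    intro y
    rw [Pi.isUnit_iff]
    intro n
    exact Ideal.mem_jacobson_bot.1 (D n).jac (y n)
  let x : Fin a → ∀ n, (D n).P := fun i n => (D n).x i
  let z : Fin b → ∀ n, (D n).P := fun i n => (D n).z i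
  have hmapx : ∀ n, (Ideal.span (Set.range fun i => Θ (teichmuller p (x i)))).map
      (Pi.evalRingHom (fun n => (D n).Ω) n) =
        Ideal.span (Set.range fun i => (D n).θ (teichmuller p ((D n).x i))) := by
    intro n
    rw [Ideal.map_span, ← Set.range_comp]
    congr 2
    funext i
    exact hΘt (x i) n
  have hmapz : ∀ n, (Ideal.span (Set.range fun i => Θ (teichmuller p (z i)))).map
      (Pi.evalRingHom (fun n => (D n).Ω) n) =
        Ideal.span (Set.range fun i => (D n).θ (teichmuller p ((D n).z i))) := by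
    intro n
    rw [Ideal.map_span, ← Set.range_comp]
    congr 2
    funext i
    exact hΘt (z i) n
  have hmapr : ∀ e n, (Ideal.span (Set.range fun i => Θ (teichmuller p (rt (p := p) e (z i))))).map
      (Pi.evalRingHom (fun n => (D n).Ω) n) =
        Ideal.span (Set.range fun i => (D n).θ (teichmuller p (rt (p := p) e ((D n).z i)))) := by
    intro e n
    rw [Ideal.map_span, ← Set.range_comp]
    congr 2
    funext i
    have h1 := hΘt (rt (p := p) e (z i)) n
    have h2 : (rt (p := p) e (z i)) n = rt (p := p) e ((D n).z i) := rt_map (ev n) e (z i)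
    rw [h2] at h1
    exact h1
  have hfgx : (Ideal.span (Set.range fun i => Θ (teichmuller p (x i)))).FG :=
    Submodule.fg_span (Set.finite_range _)
  have hfgz : (Ideal.span (Set.range fun i => Θ (teichmuller p (z i)))).FG :=
    Submodule.fg_span (Set.finite_range _)
  obtain ⟨n, hn⟩ := amplifier_omega Θ hsurj 1 isUnit_one π hker hjac x z M c
    (by
      refine mem_of_fg hfgz _ fun n => ?_
      rw [hmapz]
      exact (D n).H1)
    (by
      refine le_of_fg (hfgz.mul (hfgx.pow)) fun n => ?_
      rw [Ideal.map_pow, Ideal.map_mul, Ideal.map_pow, hmapx, hmapz]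
      exact (D n).H2)
    (by
      refine mem_of_fg hfgx _ fun n => ?_
      rw [hmapx]
      exact (D n).H3)
  apply hD n
  intro e N hN
  have h1 := Ideal.map_mono (f := Pi.evalRingHom (fun n => (D n).Ω) n) (hn e N hN)
  rw [Ideal.map_pow, hmapx, hmapr] at h1
  exact h1

end Crest.Agent.R183.Fam
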