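import Mathlib

/-!
R183 / Fam5 (helper778): finitely many coefficients witness the relation
`𝔞^(c+1) ⊆ (w) 𝔞^c`.
-/

set_option autoImplicit false
set_option linter.unusedSectionVars false

namespace Crest.Agent.R183.Fam

open Ideal

lemma span_pow_eq {R : Type*} [CommRing R] {α : Type*} (x : α → R) (n : ℕ) :
    Ideal.span (Set.range x) ^ n =
      Ideal.span (Set.range fun ν : Fin n → α => ∏ j, x (ν j)) := by
  induction n with
  | zero => simp
  | succ n ih =>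
    rw [pow_succ', ih, Ideal.span_mul_span']
    congr 1
    ext y
    rw [Set.mem_mul]
    constructor
    · rintro ⟨_, ⟨i, rfl⟩, _, ⟨ν, rfl⟩, rfl⟩
      refine ⟨Fin.cons i ν, ?_⟩
      simp [Fin.prod_univ_succ]
    · rintro ⟨ν, rfl⟩
      refine ⟨x (ν 0), ⟨_, rfl⟩, _, ⟨fun j => ν j.succ, rfl⟩, ?_⟩
      simp [Fin.prod_univ_succ]

lemma span_mul_pow_eq {R : Type*} [CommRing R] {α β : Type*} (x : α → R) (z : β → R) (n : ℕ) :
    Ideal.span (Set.range z) * Ideal.span (Set.range x) ^ n =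
      Ideal.span (Set.range fun t : β × (Fin n → α) => z t.1 * ∏ j, x (t.2 j)) := by
  rw [span_pow_eq, Ideal.span_mul_span']
  congr 1
  ext y
  rw [Set.mem_mul]
  constructor
  · rintro ⟨_, ⟨i, rfl⟩, _, ⟨ν, rfl⟩, rfl⟩
    exact ⟨(i, ν), rfl⟩
  · rintro ⟨⟨i, ν⟩, rfl⟩
    exact ⟨_, ⟨i, rfl⟩, _, ⟨ν, rfl⟩, rfl⟩

theorem spread {T : Type*} [CommRing T] (p : ℕ) {a b : ℕ} (x : Fin a → T) (z : Fin b → T) (c M : ℕ)
    (H1 : (p : T) ^ M ∈ Ideal.span (Set.range z))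
    (H2 : Ideal.span (Set.range x) ^ (c + 1) ≤
      Ideal.span (Set.range z) * Ideal.span (Set.range x) ^ c)
    (H3 : (p : T) ∈ Ideal.span (Set.range x)) :
    ∃ F : Finset T, (∀ i, x i ∈ F) ∧ (∀ i, z i ∈ F) ∧
      ∀ (S : Subring T) (_ : ∀ r ∈ F, r ∈ S) (x' : Fin a → S) (_ : ∀ i, (x' i : T) = x i)
        (z' : Fin b → S) (_ : ∀ i, (z' i : T) = z i),
        (p : S) ^ M ∈ Ideal.span (Set.range z') ∧
        Ideal.span (Set.range x') ^ (c + 1) ≤
          Ideal.span (Set.range z') * Ideal.span (Set.range x') ^ c ∧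
        (p : S) ∈ Ideal.span (Set.range x') := by
  classical
  obtain ⟨c1, hc1⟩ := (Ideal.mem_span_range_iff_exists_fun).1 H1
  obtain ⟨c3, hc3⟩ := (Ideal.mem_span_range_iff_exists_fun).1 H3
  have h2 : ∀ ν : Fin (c + 1) → Fin a, ∃ c2 : Fin b × (Fin c → Fin a) → T,
      ∑ t, c2 t * (z t.1 * ∏ j, x (t.2 j)) = ∏ j, x (ν j) := by
    intro ν
    rw [← Ideal.mem_span_range_iff_exists_fun, ← span_mul_pow_eq]
    apply H2
    rw [span_pow_eq]
    exact Ideal.subset_span ⟨ν, rfl⟩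
  choose c2 hc2 using h2
  refine ⟨Finset.univ.image x ∪ Finset.univ.image z ∪ Finset.univ.image c1 ∪ Finset.univ.image c3 ∪
    Finset.univ.image (fun s : (Fin (c + 1) → Fin a) × (Fin b × (Fin c → Fin a)) => c2 s.1 s.2),
    fun i => by simp, fun i => by simp, ?_⟩
  intro S hS x' hx' z' hz'
  have m1 : ∀ i, c1 i ∈ S := fun i => hS _ (by simp)
  have m3 : ∀ i, c3 i ∈ S := fun i => hS _ (by simp)
  have m2 : ∀ ν t, c2 ν t ∈ S := fun ν t => hS _ (by
    rw [Finset.mem_union]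
    right
    rw [Finset.mem_image]
    exact ⟨(ν, t), Finset.mem_univ _, rfl⟩)
  refine ⟨?_, ?_, ?_⟩
  · rw [Ideal.mem_span_range_iff_exists_fun]
    refine ⟨fun i => ⟨c1 i, m1 i⟩, ?_⟩
    apply Subtype.ext
    push_cast
    simp only [hz']
    exact hc1
  · rw [span_pow_eq, Ideal.span_le]
    rintro _ ⟨ν, rfl⟩
    rw [SetLike.mem_coe, span_mul_pow_eq, Ideal.mem_span_range_iff_exists_fun]
    refine ⟨fun t => ⟨c2 ν t, m2 ν t⟩, ?_⟩
    apply Subtype.ext
    push_cast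
    simp only [hz', hx']
    exact hc2 ν
  · rw [Ideal.mem_span_range_iff_exists_fun]
    refine ⟨fun i => ⟨c3 i, m3 i⟩, ?_⟩
    apply Subtype.ext
    push_cast
    simp only [hx']
    exact hc3

end Crest.Agent.R183.Fam
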