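/-
R183 (Lech), block (E) LATTICE (helper817), part 1: the almost ideal `MM = ⋃ (pD)^{1/p^e} Ω`
and the ring `Ω_* = {x ∈ Ω[1/pD] : (pD)^{1/p^e} x ∈ Ω for all e}` attached to a `Heb.Data`.
-/
import Crest.Agent.R183.Heb

set_option autoImplicit false
set_option linter.unusedSectionVars false

open Polynomial

namespace Crest.Agent.R183.Lat

open Crest.Agent.R183.Heb

section One

variable {p : ℕ} [hp : Fact p.Prime] {A K : Type*} [CommRing A] [CommRing K] [Algebra A K]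
variable (d : Data p A K)

/-- `μ e = (pD)^{1/p^e}`. -/
def mu (e : ℕ) : A := d.ϖ e * d.δ e

theorem mu_succ (e : ℕ) : mu d (e + 1) ^ p = mu d e := by
  rw [mu, mu, mul_pow, d.hϖ e, d.hδ e]

theorem mu_dvd_succ (e : ℕ) : mu d (e + 1) ∣ mu d e := by
  rw [← mu_succ d e]
  exact dvd_pow_self _ hp.out.ne_zero

theorem mu_dvd {e f : ℕ} (h : e ≤ f) : mu d f ∣ mu d e := by
  induction f, h using Nat.le_induction with
  | base => exact dvd_rfl
  | succ f _ ih => exact (mu_dvd_succ d f).trans ih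

theorem isUnit_mu (e : ℕ) : IsUnit (algebraMap A K (mu d e)) := by
  rw [mu, map_mul]
  exact (d.unit_ϖ e).mul (d.unit_δ e)

theorem mu_sq_dvd (e : ℕ) : mu d (e + 1) ^ 2 ∣ mu d e := by
  rw [← mu_succ d e]
  exact pow_dvd_pow _ hp.out.two_le

/-- `Ω_*`. -/
def star : Subalgebra A K where
  carrier := {x | ∀ e, ∃ w : A, algebraMap A K (mu d e) * x = algebraMap A K w}
  mul_mem' := by
    intro x y hx hy e
    obtain ⟨w, hw⟩ := hx (e + 1)
    obtain ⟨v, hv⟩ := hy (e + 1)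
    obtain ⟨k, hk⟩ := mu_sq_dvd d e
    refine ⟨k * (w * v), ?_⟩
    rw [hk, map_mul, map_mul, map_mul, ← hw, ← hv, map_pow]
    ring
  add_mem' := by
    intro x y hx hy e
    obtain ⟨w, hw⟩ := hx e
    obtain ⟨v, hv⟩ := hy e
    exact ⟨w + v, by rw [mul_add, hw, hv, map_add]⟩
  algebraMap_mem' := by
    intro a e
    exact ⟨mu d e * a, by rw [map_mul]⟩

theorem mem_star {x : K} : x ∈ star d ↔ ∀ e, ∃ w : A, algebraMap A K (mu d e) * x = algebraMap A K w :=
  Iff.rfl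

/-- `MM = ⋃_e (pD)^{1/p^e} Ω` (as a submodule of `K`). -/
def MM : Submodule A K where
  carrier := {x | ∃ e, ∃ w : A, x = algebraMap A K (mu d e * w)}
  add_mem' := by
    rintro x y ⟨e, w, rfl⟩ ⟨f, v, rfl⟩
    obtain ⟨k, hk⟩ := mu_dvd d (le_max_left e f)
    obtain ⟨l, hl⟩ := mu_dvd d (le_max_right e f)
    exact ⟨max e f, k * w + l * v, by rw [hk, hl, ← map_add]; ring_nf⟩
  zero_mem' := ⟨0, 0, by rw [mul_zero, map_zero]⟩
  smul_mem' := by
    rintro a x ⟨e, w, rfl⟩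
    exact ⟨e, a * w, by rw [Algebra.smul_def, ← map_mul]; ring_nf⟩

theorem mem_MM {x : K} : x ∈ MM d ↔ ∃ e, ∃ w : A, x = algebraMap A K (mu d e * w) := Iff.rfl

theorem mem_MM' {x : K} (hx : x ∈ MM d) (f : ℕ) :
    ∃ e, f ≤ e ∧ ∃ w : A, x = algebraMap A K (mu d e * w) := by
  obtain ⟨e, w, rfl⟩ := hx
  obtain ⟨k, hk⟩ := mu_dvd d (le_max_left e f)
  exact ⟨max e f, le_max_right _ _, k * w, by rw [hk]; ring_nf⟩

theorem mu_mem_MM (e : ℕ) : algebraMap A K (mu d e) ∈ MM d := ⟨e, 1, by rw [mul_one]⟩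

/-- a common exponent for finitely many elements of `MM` -/
theorem exists_common {ι : Type*} (s : Finset ι) (x : ι → K) (hx : ∀ i ∈ s, x i ∈ MM d) (f : ℕ) :
    ∃ e, f ≤ e ∧ ∀ i ∈ s, ∃ w : A, x i = algebraMap A K (mu d e * w) := by
  classical
  induction s using Finset.induction_on with
  | empty => exact ⟨f, le_rfl, by simp⟩
  | insert a s ha ih =>
    obtain ⟨e, hfe, he⟩ := ih (fun i hi => hx i (Finset.mem_insert_of_mem hi))
    obtain ⟨e', hee', w, hw⟩ := mem_MM' d (hx a (Finset.mem_insert_self _ _)) e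
    refine ⟨e', hfe.trans hee', ?_⟩
    intro i hi
    rcases Finset.mem_insert.mp hi with rfl | hi
    · exact ⟨w, hw⟩
    · obtain ⟨v, hv⟩ := he i hi
      obtain ⟨k, hk⟩ := mu_dvd d hee'
      exact ⟨k * v, by rw [hv, hk]; ring_nf⟩

theorem star_mul_MM {x m : K} (hx : x ∈ star d) (hm : m ∈ MM d) : x * m ∈ MM d := by
  obtain ⟨e, w, rfl⟩ := hm
  obtain ⟨v, hv⟩ := hx (e + 1)
  obtain ⟨k, hk⟩ := mu_sq_dvd d e
  refine ⟨e + 1, v * k * w, ?_⟩
  rw [hk, map_mul, map_mul, map_mul, map_mul, map_mul, ← hv, map_pow]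
  ring

theorem pD_mul_star {x : K} (hx : x ∈ star d) : algebraMap A K (mu d 0) * x ∈ MM d := by
  rw [mul_comm]
  exact star_mul_MM d hx (mu_mem_MM d 0)

theorem mu_reg (e : ℕ) (x : A) (h : mu d e * x = 0) : x = 0 := by
  apply d.inj
  apply (isUnit_mu d e).mul_left_cancel
  rw [map_zero, mul_zero, ← map_mul, h, map_zero]

theorem ϖ_reg (e : ℕ) (x : A) (h : d.ϖ e * x = 0) : x = 0 := by
  apply d.inj
  apply (d.unit_ϖ e).mul_left_cancel
  rw [map_zero, mul_zero, ← map_mul, h, map_zero]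

/-- integral elements lie in `Ω_*`. -/
theorem mem_star_of_isIntegral [IsAdicComplete (Ideal.span {(p : A)}) A]
    (hpu : (p : A) ∈ nonunits A) {x : K} (hx : IsIntegral A x) {N M : ℕ} {w : A}
    (hw : algebraMap A K ((p : A) ^ N * d.δ 0 ^ M) * x = algebraMap A K w) : x ∈ star d := by
  obtain ⟨N', M', h⟩ := d.almInt_of_isIntegral hx hw
  intro e
  exact d.mem_of_almInt hpu h e e

/-- divisibility in `MM`: if `m ∈ MM` and `D^M m ∈ p^{k+1} Ω_*` then `m ∈ p^k MM`. -/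
theorem exists_MM_of_star {m y : K} (hm : m ∈ MM d) (hy : y ∈ star d) (M k : ℕ)
    (h : algebraMap A K (d.δ 0 ^ M) * m = algebraMap A K ((p : A) ^ (k + 1)) * y) :
    ∃ m' ∈ MM d, m = algebraMap A K ((p : A) ^ k) * m' := by
  obtain ⟨e, he, w, rfl⟩ := mem_MM' d hm 1
  obtain ⟨a, ha⟩ := hy e
  have h1 : d.δ 0 ^ M * (mu d e * (mu d e * w)) = (p : A) ^ (k + 1) * a := by
    apply d.inj
    rw [map_mul, map_mul, map_mul (algebraMap A K) ((p : A) ^ (k + 1)), ← ha]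
    linear_combination (algebraMap A K (mu d e)) * h
  -- remove the `D`-part
  have h2 : (p : A) ^ (k + 1) ∣ d.ϖ e ^ 2 * w := by
    have h3 : (p : A) ^ (k + 1) ∣ d.δ e * (d.δ e * (d.δ 0 ^ M * (d.ϖ e ^ 2 * w))) :=
      ⟨a, by rw [← h1, mu]; ring⟩
    have h4 := d.reg_δ_pow e _ _ (d.reg_δ_pow e _ _ h3)
    have key : ∀ j : ℕ, (p : A) ^ (k + 1) ∣ d.δ 0 ^ j * (d.ϖ e ^ 2 * w) →
        (p : A) ^ (k + 1) ∣ d.ϖ e ^ 2 * w := by
      intro j
      induction j with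
      | zero => intro h; simpa using h
      | succ j ihj =>
        intro h
        have h' : d.δ 0 ^ (j + 1) * (d.ϖ e ^ 2 * w)
            = d.δ 0 * (d.δ 0 ^ j * (d.ϖ e ^ 2 * w)) := by ring
        rw [h'] at h
        exact ihj (d.reg_δ_pow 0 _ _ h)
    exact key M h4
  obtain ⟨w', hw'⟩ := h2
  obtain ⟨l, hl⟩ : ∃ l, p ^ e = l + 2 := ⟨p ^ e - 2, by
    have h6 : p ≤ p ^ e := Nat.le_self_pow (by omega) p
    have := hp.out.two_le
    omega⟩
  have h7 : d.ϖ e ^ 2 * (w - (p : A) ^ k * (d.ϖ e ^ l * w')) = 0 := by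
    have h8 : (p : A) ^ (k + 1) = (p : A) ^ k * (d.ϖ e ^ l * d.ϖ e ^ 2) := by
      rw [← pow_add, ← hl, d.ϖ_pow, pow_succ]
    rw [h8] at hw'
    linear_combination hw'
  have h9 : w - (p : A) ^ k * (d.ϖ e ^ l * w') = 0 := by
    rw [pow_two, mul_assoc] at h7
    exact ϖ_reg d e _ (ϖ_reg d e _ h7)
  refine ⟨algebraMap A K (mu d e * (d.ϖ e ^ l * w')), ⟨e, _, rfl⟩, ?_⟩
  rw [← map_mul]
  congr 1
  linear_combination (mu d e) * h9

/-- `MM` is flat. -/
instance MM_flat : Module.Flat A (MM d) := by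
  rw [Module.Flat.iff_forall_isTrivialRelation]
  intro l f x hfx
  have hfx' : ∑ i, f i • (x i : K) = 0 := by
    have := congrArg (fun y : MM d => (y : K)) hfx
    simpa using this
  obtain ⟨e, -, he⟩ := exists_common d Finset.univ (fun i => (x i : K)) (fun i _ => (x i).2) 0
  choose w hw using fun i => he i (Finset.mem_univ i)
  refine ⟨1, fun i _ => w i, fun _ => ⟨algebraMap A K (mu d e), mu_mem_MM d e⟩,
    ?_, ?_⟩
  · intro i
    apply Subtype.ext
    simp [hw i, Algebra.smul_def, mul_comm]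
  · intro _
    apply mu_reg d e
    apply d.inj
    rw [map_zero, map_mul, map_sum, Finset.mul_sum, ← hfx']
    apply Finset.sum_congr rfl
    intro i _
    rw [hw i, Algebra.smul_def, map_mul, map_mul]
    ring

end One

end Crest.Agent.R183.Lat
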