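/-
R183 (Lech), block (E) LATTICE (helper817), part 2: independence of `MM` from the root system of
`D`, the lattice `L`, its flatness, its Artin-Rees property and the descent condition (E1).
-/
import Crest.Agent.R183.Lat1

set_option autoImplicit false
set_option linter.unusedSectionVars false

open Polynomial

namespace Crest.Agent.R183.Lat

open Crest.Agent.R183.Heb

section Two

variable {p : ℕ} [hp : Fact p.Prime] {A K : Type*} [CommRing A] [CommRing K] [Algebra A K]

/-- The quotient of two `p^e`-th roots of `D` lies in `Ω_*`. -/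
theorem ratio_mem_star [IsAdicComplete (Ideal.span {(p : A)}) A] (hpu : (p : A) ∈ nonunits A)
    (d1 d2 : Data p A K) (h0 : d1.δ 0 = d2.δ 0) (e : ℕ) :
    algebraMap A K (d1.δ e) * Ring.inverse (algebraMap A K (d2.δ e)) ∈ star d1 := by
  set u := algebraMap A K (d1.δ e) * Ring.inverse (algebraMap A K (d2.δ e)) with hu
  have hinv : algebraMap A K (d2.δ e) * Ring.inverse (algebraMap A K (d2.δ e)) = 1 :=
    Ring.mul_inverse_cancel _ (d2.unit_δ e)
  have hpe : 0 < p ^ e := pow_pos hp.out.pos e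
  have hpow : u ^ (p ^ e) = 1 := by
    apply (d2.unit_D).mul_left_cancel
    rw [mul_one, ← d2.δ_pow e, map_pow, ← mul_pow]
    have h1 : algebraMap A K (d2.δ e) * u = algebraMap A K (d1.δ e) := by
      rw [hu]; linear_combination (algebraMap A K (d1.δ e)) * hinv
    rw [h1, ← map_pow, ← map_pow, d1.δ_pow, d2.δ_pow, h0]
  have hint : IsIntegral A u := by
    refine IsIntegral.of_pow hpe ?_
    rw [hpow]
    exact isIntegral_one
  obtain ⟨k, hk⟩ : ∃ k, p ^ e = k + 1 := ⟨p ^ e - 1, by omega⟩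
  refine mem_star_of_isIntegral d1 hpu hint (N := 0) (M := 1) (w := d1.δ e * d2.δ e ^ k) ?_
  rw [pow_zero, one_mul, pow_one, h0, ← d2.δ_pow e, hk, pow_succ, map_mul, map_mul, hu]
  linear_combination (algebraMap A K (d2.δ e ^ k) * algebraMap A K (d1.δ e)) * hinv

theorem MM_le [IsAdicComplete (Ideal.span {(p : A)}) A] (hpu : (p : A) ∈ nonunits A)
    (d1 d2 : Data p A K) (hϖ : d1.ϖ = d2.ϖ) (h0 : d1.δ 0 = d2.δ 0) : MM d1 ≤ MM d2 := by
  rintro x ⟨e, w, rfl⟩
  have hu := ratio_mem_star hpu d1 d2 h0 (e + 1)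
  set u := algebraMap A K (d1.δ (e + 1)) * Ring.inverse (algebraMap A K (d2.δ (e + 1))) with hu'
  have hinv : algebraMap A K (d2.δ (e + 1)) * Ring.inverse (algebraMap A K (d2.δ (e + 1))) = 1 :=
    Ring.mul_inverse_cancel _ (d2.unit_δ (e + 1))
  have h1 : algebraMap A K (mu d1 (e + 1)) = u * algebraMap A K (mu d2 (e + 1)) := by
    rw [mu, mu, hϖ, map_mul, map_mul, hu']
    linear_combination -(algebraMap A K (d2.ϖ (e + 1)) * algebraMap A K (d1.δ (e + 1))) * hinv
  obtain ⟨l, hl⟩ : ∃ l, p = l + 2 := ⟨p - 2, by have := hp.out.two_le; omega⟩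
  obtain ⟨v, hv⟩ := pow_mem hu (l + 1) (e + 1)
  refine ⟨e + 1, v * mu d2 (e + 1) ^ l * w, ?_⟩
  have h2 : algebraMap A K (mu d1 e) = algebraMap A K v * algebraMap A K (mu d2 (e + 1)) ^ (l + 1) := by
    rw [← hv, ← mu_succ d1 e, map_pow]
    have h3 : algebraMap A K (mu d1 (e + 1)) ^ p
        = algebraMap A K (mu d1 (e + 1)) * (u * algebraMap A K (mu d2 (e + 1))) ^ (l + 1) := by
      rw [← h1, ← pow_succ']
      congr 1
    rw [h3, mul_pow]
    ring
  rw [map_mul, h2, map_mul, map_mul, map_mul, map_pow]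
  ring

theorem MM_eq [IsAdicComplete (Ideal.span {(p : A)}) A] (hpu : (p : A) ∈ nonunits A)
    (d1 d2 : Data p A K) (hϖ : d1.ϖ = d2.ϖ) (h0 : d1.δ 0 = d2.δ 0) : MM d1 = MM d2 :=
  le_antisymm (MM_le hpu d1 d2 hϖ h0) (MM_le hpu d2 d1 hϖ.symm h0.symm)

theorem star_le_of_MM_le (d1 d2 : Data p A K) (h : MM d2 ≤ MM d1) : star d1 ≤ star d2 := by
  intro x hx e
  obtain ⟨f, w, hw⟩ := h (mu_mem_MM d2 e)
  obtain ⟨v, hv⟩ := hx f
  refine ⟨w * v, ?_⟩
  rw [hw, map_mul, map_mul, ← hv]
  ring

/-- an idempotent of `K` lies in `Ω_*`. -/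
theorem idem_mem_star [IsAdicComplete (Ideal.span {(p : A)}) A] (hpu : (p : A) ∈ nonunits A)
    (d : Data p A K) {x : K} (hx : x * x = x) {N M : ℕ} {w : A}
    (hw : algebraMap A K ((p : A) ^ N * d.δ 0 ^ M) * x = algebraMap A K w) : x ∈ star d := by
  have : Nontrivial A := by
    refine ⟨0, 1, fun h => hpu ?_⟩
    exact IsUnit.of_mul_eq_one 0 (by rw [mul_zero, h])
  refine mem_star_of_isIntegral d hpu ⟨X ^ 2 - X, ?_, ?_⟩ hw
  · refine (monic_X_pow 2).sub_of_left ?_
    rw [degree_X_pow]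
    exact lt_of_le_of_lt degree_X_le (by norm_num)
  · rw [eval₂_sub, eval₂_X_pow, eval₂_X, pow_two, hx, sub_self]

end Two

section Lattice

variable {p : ℕ} [hp : Fact p.Prime] {A K : Type*} [CommRing A] [CommRing K] [Algebra A K]

/-- The coordinate data of a lattice: `V j i = g_j(b_i)`, `U = V⁻¹`, `s` a power of `pD`. -/
structure LData (d : Data p A K) (ι : Type*) [Fintype ι] [DecidableEq ι] where
  V : Matrix ι ι K
  U : Matrix ι ι K
  M : ℕ
  VU : V * U = 1
  UV : U * V = 1
  V_star : ∀ j i, V j i ∈ star d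
  U_star : ∀ i j, algebraMap A K (mu d 0 ^ M) * U i j ∈ star d

namespace LData

variable {d : Data p A K} {ι : Type*} [Fintype ι] [DecidableEq ι] (l : LData d ι)

/-- `s = (pD)^M`. -/
def s : A := mu d 0 ^ l.M

theorem unit_s : IsUnit (algebraMap A K l.s) := by
  rw [s, map_pow]
  exact (isUnit_mu d 0).pow _

/-- the values `(Σ_i g_j(b_i) v_i)_j` -/
noncomputable def val (v : ι → A) : ι → K := l.V.mulVec (fun i => algebraMap A K (v i))

theorem val_apply (v : ι → A) (j : ι) : l.val v j = ∑ i, l.V j i * algebraMap A K (v i) := rfl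

theorem val_add (v w : ι → A) : l.val (v + w) = l.val v + l.val w := by
  ext j
  simp only [val_apply, Pi.add_apply, map_add, mul_add, Finset.sum_add_distrib]

theorem val_smul (a : A) (v : ι → A) : l.val (a • v) = fun j => algebraMap A K a * l.val v j := by
  ext j
  simp only [val_apply, Pi.smul_apply, smul_eq_mul, map_mul, Finset.mul_sum]
  exact Finset.sum_congr rfl (fun i _ => by ring)

theorem U_val (v : ι → A) (i : ι) : ∑ j, l.U i j * l.val v j = algebraMap A K (v i) := by
  have h : l.U.mulVec (l.V.mulVec (fun i => algebraMap A K (v i))) = fun i => algebraMap A K (v i) := by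
    rw [Matrix.mulVec_mulVec, l.UV, Matrix.one_mulVec]
  exact congrFun h i

theorem V_U (x : ι → K) (j : ι) : ∑ i, l.V j i * (∑ j', l.U i j' * x j') = x j := by
  have h : l.V.mulVec (l.U.mulVec x) = x := by
    rw [Matrix.mulVec_mulVec, l.VU, Matrix.one_mulVec]
  exact congrFun h j

/-- The lattice. -/
def L : Submodule A (ι → A) where
  carrier := {v | ∀ j, ∃ m ∈ MM d, l.val v j = algebraMap A K l.s * m}
  add_mem' := by
    intro v w hv hw j
    obtain ⟨m, hm, h1⟩ := hv j
    obtain ⟨n, hn, h2⟩ := hw j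
    exact ⟨m + n, add_mem hm hn, by rw [l.val_add, Pi.add_apply, h1, h2, mul_add]⟩
  zero_mem' := by
    intro j
    exact ⟨0, zero_mem _, by simp [val_apply]⟩
  smul_mem' := by
    intro a v hv j
    obtain ⟨m, hm, h1⟩ := hv j
    refine ⟨a • m, Submodule.smul_mem _ a hm, ?_⟩
    rw [l.val_smul, Algebra.smul_def]
    change algebraMap A K a * l.val v j = _
    rw [h1]; ring

theorem mem_L {v : ι → A} : v ∈ l.L ↔ ∀ j, ∃ m ∈ MM d, l.val v j = algebraMap A K l.s * m :=
  Iff.rfl

/-- Every family in `MM` comes from an element of `L`. -/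
theorem exists_of_MM (m : ι → K) (hm : ∀ j, m j ∈ MM d) :
    ∃ v : ι → A, v ∈ l.L ∧ (∀ j, l.val v j = algebraMap A K l.s * m j) ∧
      ∀ i, algebraMap A K (v i) = ∑ j, (algebraMap A K l.s * l.U i j) * m j := by
  have h1 : ∀ i, ∑ j, (algebraMap A K l.s * l.U i j) * m j ∈ MM d :=
    fun i => Submodule.sum_mem _ (fun j _ => star_mul_MM d (l.U_star i j) (hm j))
  choose e w hw using h1
  have h2 : ∀ j, l.val (fun i => mu d (e i) * w i) j = algebraMap A K l.s * m j := by
    intro j
    rw [← l.V_U (fun j => algebraMap A K l.s * m j) j, val_apply]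
    apply Finset.sum_congr rfl
    intro i _
    rw [← hw i]
    congr 1
    exact Finset.sum_congr rfl (fun j _ => by ring)
  exact ⟨fun i => mu d (e i) * w i, fun j => ⟨m j, hm j, h2 j⟩, h2, fun i => (hw i).symm⟩

theorem exists_mm (v : l.L) (j : ι) :
    ∃ m : MM d, algebraMap A K l.s * (m : K) = l.val (v : ι → A) j := by
  obtain ⟨m, hm, h⟩ := l.mem_L.mp v.2 j
  exact ⟨⟨m, hm⟩, h.symm⟩

/-- the coordinates in `MM` -/
noncomputable def mm (v : l.L) (j : ι) : MM d := Classical.choose (l.exists_mm v j)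

theorem mm_spec (v : l.L) (j : ι) :
    algebraMap A K l.s * (l.mm v j : K) = l.val (v : ι → A) j :=
  Classical.choose_spec (l.exists_mm v j)

/-- `L ≃ MM^ι`. -/
noncomputable def toMM : l.L →ₗ[A] (ι → MM d) where
  toFun v := l.mm v
  map_add' v w := by
    ext j
    apply (l.unit_s).mul_left_cancel
    rw [l.mm_spec, Pi.add_apply, Submodule.coe_add (l.mm v j), mul_add, l.mm_spec, l.mm_spec,
      Submodule.coe_add, l.val_add, Pi.add_apply]
  map_smul' a v := by
    ext j
    apply (l.unit_s).mul_left_cancel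
    rw [l.mm_spec, RingHom.id_apply, Pi.smul_apply, Submodule.coe_smul _ (l.mm v j),
      Algebra.smul_def a (l.mm v j : K), mul_left_comm, l.mm_spec, Submodule.coe_smul, l.val_smul]

theorem toMM_spec (v : l.L) (j : ι) :
    algebraMap A K l.s * (l.toMM v j : K) = l.val (v : ι → A) j := l.mm_spec v j

theorem val_injective {v w : ι → A} (h : l.val v = l.val w) : v = w := by
  ext i
  apply d.inj
  rw [← l.U_val v i, ← l.U_val w i, h]

/-- `L ≃ MM^ι`. -/
noncomputable def equivMM : l.L ≃ₗ[A] (ι → MM d) :=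
  LinearEquiv.ofBijective l.toMM (by
    constructor
    · intro v w h
      apply Subtype.ext
      apply l.val_injective
      ext j
      rw [← l.toMM_spec v j, ← l.toMM_spec w j, h]
    · intro m
      obtain ⟨v, hv, h1, -⟩ := l.exists_of_MM (fun j => (m j : K)) (fun j => (m j).2)
      refine ⟨⟨v, hv⟩, ?_⟩
      ext j
      apply (l.unit_s).mul_left_cancel
      rw [l.toMM_spec]
      exact h1 j)

instance L_flat : Module.Flat A l.L := by
  have : Module.Flat A (ι → MM d) :=
    Module.Flat.of_linearEquiv (DirectSum.linearEquivFunOnFintype A ι (fun _ => MM d)).symm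
  exact Module.Flat.of_linearEquiv l.equivMM

end LData

end Lattice

end Crest.Agent.R183.Lat
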