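/-
R183 (Lech), block (E) LATTICE (helper817), part 3: Artin-Rees property (E2), bounds, the action of
`∏ Ω_*` on `L` (E4), (E5) and the descent condition (E1).
-/
import Crest.Agent.R183.Lat2

set_option autoImplicit false
set_option linter.unusedSectionVars false

open Polynomial

namespace Crest.Agent.R183.Lat

open Crest.Agent.R183.Heb

section

variable {p : ℕ} [hp : Fact p.Prime] {A K : Type*} [CommRing A] [CommRing K] [Algebra A K]

namespace LData

variable {d : Data p A K} {ι : Type*} [Fintype ι] [DecidableEq ι] (l : LData d ι)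

theorem val_smul' (a : A) (v : ι → A) (j : ι) :
    l.val (a • v) j = algebraMap A K a * l.val v j := congrFun (l.val_smul a v) j

theorem val_add' (v w : ι → A) (j : ι) : l.val (v + w) j = l.val v j + l.val w j :=
  congrFun (l.val_add v w) j

theorem val_mem_star (v : ι → A) (j : ι) : l.val v j ∈ star d := by
  rw [val_apply]
  exact Subalgebra.sum_mem _ (fun i _ => Subalgebra.mul_mem _ (l.V_star j i)
    (Subalgebra.algebraMap_mem _ _))

/-- (E2) Artin-Rees: `L ∩ p^{N+M+1} Ω^n ⊆ p^N L`. -/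
theorem artinRees (N : ℕ) {v : ι → A} (hv : v ∈ l.L) (h : ∀ i, (p : A) ^ (N + (l.M + 1)) ∣ v i) :
    ∃ v' ∈ l.L, v = (p : A) ^ N • v' := by
  choose w hw using h
  choose m hm hvm using l.mem_L.mp hv
  have hvw : v = (p : A) ^ (N + (l.M + 1)) • w := by
    ext i; rw [hw i, Pi.smul_apply, smul_eq_mul]
  have h1 : ∀ j, ∃ m' ∈ MM d, m j = algebraMap A K ((p : A) ^ N) * m' := by
    intro j
    refine exists_MM_of_star d (hm j) (l.val_mem_star w j) l.M N ?_
    have h2 := hvm j
    rw [hvw, l.val_smul'] at h2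
    have h3 : algebraMap A K l.s = algebraMap A K ((p : A) ^ l.M) * algebraMap A K (d.δ 0 ^ l.M) := by
      rw [s, mu, d.ϖ0, mul_pow, map_mul]
    have h4 : (p : A) ^ (N + (l.M + 1)) = (p : A) ^ l.M * (p : A) ^ (N + 1) := by
      rw [← pow_add]; congr 1; omega
    have hu : IsUnit (algebraMap A K ((p : A) ^ l.M)) := by
      rw [map_pow]; exact d.unit_p.pow _
    apply hu.mul_left_cancel
    rw [← mul_assoc, ← h3, ← h2, h4, map_mul, mul_assoc]
  choose m' hm' hmm' using h1
  obtain ⟨v', hv', h5, -⟩ := l.exists_of_MM m' hm'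
  refine ⟨v', hv', ?_⟩
  apply l.val_injective
  ext j
  rw [l.val_smul', hvm j, hmm' j, h5 j]
  ring

/-- `(pD)^{M+1} Ω^n ⊆ L`. -/
theorem smul_mem_L (v : ι → A) : mu d 0 ^ (l.M + 1) • v ∈ l.L := by
  intro j
  refine ⟨algebraMap A K (mu d 0) * l.val v j, pD_mul_star d (l.val_mem_star v j), ?_⟩
  rw [l.val_smul']
  rw [s, pow_succ, map_mul]
  ring

theorem exists_act (x : ι → star d) (v : l.L) :
    ∃ v' : l.L, ∀ j, l.val (v' : ι → A) j = (x j : K) * l.val (v : ι → A) j := by
  obtain ⟨v', hv', h1, -⟩ := l.exists_of_MM (fun j => (x j : K) * (l.mm v j : K))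
    (fun j => star_mul_MM d (x j).2 (l.mm v j).2)
  refine ⟨⟨v', hv'⟩, fun j => ?_⟩
  rw [h1 j, ← l.mm_spec v j]
  ring

/-- The action of `x ∈ ∏_j Ω_*` on `L`. -/
noncomputable def actFun (x : ι → star d) (v : l.L) : l.L := Classical.choose (l.exists_act x v)

theorem actFun_val (x : ι → star d) (v : l.L) (j : ι) :
    l.val (l.actFun x v : ι → A) j = (x j : K) * l.val (v : ι → A) j :=
  Classical.choose_spec (l.exists_act x v) j

theorem ext_val {v w : l.L} (h : ∀ j, l.val (v : ι → A) j = l.val (w : ι → A) j) : v = w :=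
  Subtype.ext (l.val_injective (funext h))

/-- `L` is a module over `∏_j Ω_*`. -/
noncomputable def act : (ι → star d) →+* Module.End A l.L where
  toFun x :=
    { toFun := l.actFun x
      map_add' := by
        intro v w
        apply l.ext_val
        intro j
        rw [l.actFun_val, Submodule.coe_add, Submodule.coe_add, l.val_add', l.val_add',
          l.actFun_val, l.actFun_val, mul_add]
      map_smul' := by
        intro a v
        apply l.ext_val
        intro j
        rw [l.actFun_val, RingHom.id_apply, Submodule.coe_smul, Submodule.coe_smul, l.val_smul',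
          l.val_smul', l.actFun_val]
        ring }
  map_one' := by
    ext1 v
    apply l.ext_val
    intro j
    change l.val (l.actFun 1 v : ι → A) j = l.val (v : ι → A) j
    rw [l.actFun_val]
    simp
  map_mul' x y := by
    ext1 v
    apply l.ext_val
    intro j
    change l.val (l.actFun (x * y) v : ι → A) j = l.val (l.actFun x (l.actFun y v) : ι → A) j
    rw [l.actFun_val, l.actFun_val, l.actFun_val]
    simp [mul_assoc]
  map_zero' := by
    ext1 v
    apply l.ext_val
    intro j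
    change l.val (l.actFun 0 v : ι → A) j = l.val ((0 : l.L) : ι → A) j
    rw [l.actFun_val]
    simp [val_apply]
  map_add' x y := by
    ext1 v
    apply l.ext_val
    intro j
    change l.val (l.actFun (x + y) v : ι → A) j
      = l.val ((l.actFun x v + l.actFun y v : l.L) : ι → A) j
    rw [l.actFun_val, Submodule.coe_add, l.val_add', l.actFun_val, l.actFun_val, ← add_mul]
    rfl

theorem act_val (x : ι → star d) (v : l.L) (j : ι) :
    l.val (l.act x v : ι → A) j = (x j : K) * l.val (v : ι → A) j := l.actFun_val x v j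

end LData

end

section Descent

variable {p : ℕ} [hp : Fact p.Prime] {A K A2 K2 : Type*} [CommRing A] [CommRing K] [Algebra A K]
  [CommRing A2] [CommRing K2] [Algebra A2 K2]

theorem map_mem_MM {d : Data p A K} {d2 : Data p A2 K2} {p2 : A →+* A2} {P2 : K →+* K2}
    (h2 : ∀ a, P2 (algebraMap A K a) = algebraMap A2 K2 (p2 a)) (hϖ : ∀ e, d2.ϖ e = p2 (d.ϖ e))
    (hδ : ∀ e, d2.δ e = p2 (d.δ e)) {m : K} (hm : m ∈ MM d) : P2 m ∈ MM d2 := by
  obtain ⟨e, w, rfl⟩ := hm
  refine ⟨e, p2 w, ?_⟩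
  rw [h2, mu, mu, hϖ, hδ, map_mul p2, map_mul p2]

/-- (E1) -/
theorem descent [IsAdicComplete (Ideal.span {(p : A2)}) A2] (hpu : (p : A2) ∈ nonunits A2)
    {ι : Type*} [Fintype ι] [DecidableEq ι] {d : Data p A K} (l : LData d ι)
    (p1 p2 : A →+* A2) (P1 P2 : K →+* K2)
    (h1 : ∀ a, P1 (algebraMap A K a) = algebraMap A2 K2 (p1 a))
    (h2 : ∀ a, P2 (algebraMap A K a) = algebraMap A2 K2 (p2 a))
    (d1 d2 : Data p A2 K2) (hϖ1 : ∀ e, d1.ϖ e = p1 (d.ϖ e)) (hδ1 : ∀ e, d1.δ e = p1 (d.δ e))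
    (hϖ2 : ∀ e, d2.ϖ e = p2 (d.ϖ e)) (hδ2 : ∀ e, d2.δ e = p2 (d.δ e))
    (hϖ : d1.ϖ = d2.ϖ) (h0 : d1.δ 0 = d2.δ 0)
    (hH : ∀ j j', ∑ i, P1 (l.V j i) * P2 (l.U i j') ∈ star d1)
    {v : ι → A} (hv : v ∈ l.L) :
    (fun i => p2 (v i)) ∈ Submodule.span A2 ((fun (w : ι → A) (i : ι) => p1 (w i)) '' (l.L : Set (ι → A))) := by
  have hMM : MM d2 = MM d1 := MM_eq hpu d2 d1 hϖ.symm h0.symm
  choose m hm hvm using l.mem_L.mp hv
  -- `s` is the same on both sides
  have hs : P1 (algebraMap A K l.s) = P2 (algebraMap A K l.s) := by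
    have e1 : p1 (mu d 0) = p2 (mu d 0) := by
      rw [mu, map_mul, map_mul, ← hϖ1, ← hδ1, ← hϖ2, ← hδ2, hϖ, h0]
    rw [h1, h2, LData.s, map_pow p1, map_pow p2, e1]
  -- `w j = Σ_i P1 (V j i) * P2 (v i)`
  have hw : ∀ j, ∑ i, P1 (l.V j i) * algebraMap A2 K2 (p2 (v i))
      = P1 (algebraMap A K l.s) * ∑ j', (∑ i, P1 (l.V j i) * P2 (l.U i j')) * P2 (m j') := by
    intro j
    have e1 : ∀ i, algebraMap A2 K2 (p2 (v i)) = ∑ j', P2 (l.U i j') * P2 (algebraMap A K l.s * m j') := by
      intro i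
      rw [← h2, ← l.U_val v i, map_sum]
      exact Finset.sum_congr rfl (fun j' _ => by rw [map_mul, hvm j'])
    simp_rw [e1, Finset.mul_sum, Finset.sum_mul, Finset.mul_sum]
    rw [Finset.sum_comm]
    refine Finset.sum_congr rfl (fun j' _ => Finset.sum_congr rfl (fun i _ => ?_))
    rw [map_mul, hs]
    ring
  have hn : ∀ j, ∑ j', (∑ i, P1 (l.V j i) * P2 (l.U i j')) * P2 (m j') ∈ MM d1 := by
    intro j
    refine Submodule.sum_mem _ (fun j' _ => star_mul_MM d1 (hH j j') ?_)
    rw [← hMM]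
    exact map_mem_MM h2 hϖ2 hδ2 (hm j')
  obtain ⟨e, -, he⟩ := exists_common d1 Finset.univ _ (fun j _ => hn j) 0
  choose ω hω using fun j => he j (Finset.mem_univ j)
  -- the elements `u j ∈ L`
  have hu : ∀ j, ∃ u : ι → A, u ∈ l.L ∧ ∀ i, algebraMap A K (u i)
      = algebraMap A K l.s * l.U i j * algebraMap A K (mu d e) := by
    intro j
    obtain ⟨u, hu, -, h4⟩ := l.exists_of_MM (fun j' => if j' = j then algebraMap A K (mu d e) else 0)
      (fun j' => by
        split_ifs
        · exact mu_mem_MM d e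
        · exact zero_mem _)
    refine ⟨u, hu, fun i => ?_⟩
    rw [h4 i]
    simp
  choose u huL hu using hu
  have key : (fun i => p2 (v i)) = ∑ j, ω j • (fun i => p1 (u j i)) := by
    ext i
    apply d2.inj
    rw [Finset.sum_apply, map_sum]
    simp only [Pi.smul_apply, smul_eq_mul, map_mul]
    simp_rw [← h1, hu, map_mul]
    have e2 : algebraMap A2 K2 (p2 (v i))
        = ∑ j, P1 (l.U i j) * ∑ i', P1 (l.V j i') * algebraMap A2 K2 (p2 (v i')) := by
      have e3 : (l.U.map P1) * (l.V.map P1) = 1 := by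
        rw [← Matrix.map_mul, l.UV, Matrix.map_one _ (map_zero P1) (map_one P1)]
      have e4 : (l.U.map P1).mulVec ((l.V.map P1).mulVec (fun i => algebraMap A2 K2 (p2 (v i))))
          = fun i => algebraMap A2 K2 (p2 (v i)) := by
        rw [Matrix.mulVec_mulVec, e3, Matrix.one_mulVec]
      exact (congrFun e4 i).symm
    rw [e2]
    refine Finset.sum_congr rfl (fun j _ => ?_)
    rw [hw j, hω j, mu, map_mul, map_mul, hϖ1, hδ1, ← h1, ← h1, mu, map_mul, map_mul]
    ring
  rw [key]
  refine Submodule.sum_mem _ (fun j _ => Submodule.smul_mem _ _ (Submodule.subset_span ?_))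
  exact ⟨u j, huL j, rfl⟩

end Descent

end Crest.Agent.R183.Lat
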