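/-
R183 (Lech), block (E) LATTICE (helper817), part 4: the lattice data attached to a finite
`B`-algebra `C` with `n` homomorphisms `g_j : C → Ω[1/pD]`, and the construction of the `g_j` from
a generator `θ`.
-/
import Crest.Agent.R183.Lat3

set_option autoImplicit false
set_option linter.unusedSectionVars false

open Polynomial

namespace Crest.Agent.R183.Lat

open Crest.Agent.R183.Heb

section Bounded

variable {p : ℕ} [hp : Fact p.Prime] {A K : Type*} [CommRing A] [CommRing K] [Algebra A K]

/-- Every element of `K` has a denominator `(pD)^N`, i.e. `K = A[1/pD]`. -/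
def Bounded (d : Data p A K) : Prop :=
  ∀ x : K, ∃ (N : ℕ) (w : A), algebraMap A K (mu d 0 ^ N) * x = algebraMap A K w

theorem Bounded.of_isLocalization {d : Data p A K} [IsLocalization.Away (mu d 0) K] :
    Bounded d := by
  intro x
  obtain ⟨N, w, h⟩ := IsLocalization.Away.surj (mu d 0) x
  exact ⟨N, w, by rw [map_pow, mul_comm, h]⟩

theorem Bounded.mem_star [IsAdicComplete (Ideal.span {(p : A)}) A] (hpu : (p : A) ∈ nonunits A)
    {d : Data p A K} (hK : Bounded d) {x : K} (hx : IsIntegral A x) : x ∈ star d := by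
  obtain ⟨N, w, h⟩ := hK x
  refine mem_star_of_isIntegral d hpu hx (N := N) (M := N) (w := w) ?_
  rw [← h, mu, d.ϖ0, mul_pow]

theorem Bounded.idem_mem_star [IsAdicComplete (Ideal.span {(p : A)}) A] (hpu : (p : A) ∈ nonunits A)
    {d : Data p A K} (hK : Bounded d) {x : K} (hx : x * x = x) : x ∈ star d := by
  obtain ⟨N, w, h⟩ := hK x
  refine Lat.idem_mem_star hpu d hx (N := N) (M := N) (w := w) ?_
  rw [← h, mu, d.ϖ0, mul_pow]

theorem Bounded.exists_uniform {d : Data p A K} (hK : Bounded d) {τ : Type*} (s : Finset τ)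
    (x : τ → K) : ∃ N : ℕ, ∀ t ∈ s, ∃ w : A, algebraMap A K (mu d 0 ^ N) * x t = algebraMap A K w := by
  classical
  induction s using Finset.induction_on with
  | empty => exact ⟨0, by simp⟩
  | insert a s ha ih =>
    obtain ⟨N, hN⟩ := ih
    obtain ⟨N', w', hw'⟩ := hK (x a)
    refine ⟨N + N', ?_⟩
    intro t ht
    rcases Finset.mem_insert.mp ht with rfl | ht
    · refine ⟨mu d 0 ^ N * w', ?_⟩
      rw [map_mul, ← hw', pow_add, map_mul, mul_assoc]
    · obtain ⟨w, hw⟩ := hN t ht
      refine ⟨mu d 0 ^ N' * w, ?_⟩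
      rw [map_mul, ← hw, add_comm, pow_add, map_mul, mul_assoc]

/-- The lattice data attached to an invertible matrix with integral entries. -/
theorem exists_LData [IsAdicComplete (Ideal.span {(p : A)}) A] (hpu : (p : A) ∈ nonunits A)
    {d : Data p A K} (hK : Bounded d) {ι : Type*} [Fintype ι] [DecidableEq ι]
    (V U : Matrix ι ι K) (hVU : V * U = 1) (hUV : U * V = 1) (hV : ∀ j i, IsIntegral A (V j i)) :
    ∃ l : LData d ι, l.V = V ∧ l.U = U := by
  obtain ⟨N, hN⟩ := hK.exists_uniform Finset.univ (fun t : ι × ι => U t.1 t.2)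
  refine ⟨⟨V, U, N, hVU, hUV, fun j i => hK.mem_star hpu (hV j i), fun i j => ?_⟩, rfl, rfl⟩
  obtain ⟨w, hw⟩ := hN (i, j) (Finset.mem_univ _)
  rw [hw]
  exact Subalgebra.algebraMap_mem _ _

end Bounded

section Idem

variable {B C K K2 : Type*} [CommRing B] [CommRing C] [CommRing K] [CommRing K2]
  [Algebra B C] [Algebra B K]

/-- The matrix `(g_j^{(1)}(e_{j'}^{(2)}))` consists of idempotents. -/
theorem idem_of_homs {ι : Type*} [Fintype ι] [DecidableEq ι] (b : ι → C) (g : ι → C →ₐ[B] K)
    (V U : Matrix ι ι K) (hVg : ∀ j i, V j i = g j (b i)) (hVU : V * U = 1) (hUV : U * V = 1)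
    (s : B) (hspan : ∀ c : C, ∃ a : ι → B, s • c = ∑ i, a i • b i)
    (P1 P2 : K →+* K2) (hP : ∀ x : B, P1 (algebraMap B K x) = P2 (algebraMap B K x))
    (hs : IsUnit (P1 (algebraMap B K s))) (j j' : ι) :
    (∑ i, P1 (V j i) * P2 (U i j')) * (∑ i, P1 (V j i) * P2 (U i j'))
      = ∑ i, P1 (V j i) * P2 (U i j') := by
  choose a ha using fun t : ι × ι => hspan (b t.1 * b t.2)
  -- products of the `V j i`
  have hmul : ∀ (j i i' : ι), algebraMap B K s * (V j i * V j i')
      = ∑ k, algebraMap B K (a (i, i') k) * V j k := by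
    intro j i i'
    have h := congrArg (g j) (ha (i, i'))
    simp only [map_mul, map_sum, Algebra.smul_def, AlgHom.commutes] at h
    rw [hVg, hVg, h]
    exact Finset.sum_congr rfl (fun k _ => by rw [hVg])
  -- the idempotent `e_{j'}` in coordinates
  have hU : ∀ k, ∑ i, ∑ i', algebraMap B K (a (i, i') k) * (U i j' * U i' j')
      = algebraMap B K s * U k j' := by
    have h1 : V.mulVec (fun k => ∑ i, ∑ i', algebraMap B K (a (i, i') k) * (U i j' * U i' j'))
        = V.mulVec (fun k => algebraMap B K s * U k j') := by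
      ext j
      have e1 : V.mulVec (fun k => ∑ i, ∑ i', algebraMap B K (a (i, i') k) * (U i j' * U i' j')) j
          = ∑ i, ∑ i', (algebraMap B K s * (V j i * V j i')) * (U i j' * U i' j') := by
        simp only [Matrix.mulVec, dotProduct, Finset.mul_sum]
        rw [Finset.sum_comm]
        refine Finset.sum_congr rfl (fun i _ => ?_)
        rw [Finset.sum_comm]
        refine Finset.sum_congr rfl (fun i' _ => ?_)
        rw [hmul j i i', Finset.sum_mul]
        exact Finset.sum_congr rfl (fun k _ => by ring)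
      have e2 : ∑ i, ∑ i', (algebraMap B K s * (V j i * V j i')) * (U i j' * U i' j')
          = algebraMap B K s * ((∑ i, V j i * U i j') * (∑ i', V j i' * U i' j')) := by
        rw [Finset.sum_mul_sum, Finset.mul_sum]
        refine Finset.sum_congr rfl (fun i _ => ?_)
        rw [Finset.mul_sum]
        exact Finset.sum_congr rfl (fun i' _ => by ring)
      have e3 : ∑ i, V j i * U i j' = (1 : Matrix ι ι K) j j' := by
        rw [← hVU, Matrix.mul_apply]
      have e4 : V.mulVec (fun k => algebraMap B K s * U k j') j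
          = algebraMap B K s * (1 : Matrix ι ι K) j j' := by
        rw [← e3, Finset.mul_sum]
        simp only [Matrix.mulVec, dotProduct]
        exact Finset.sum_congr rfl (fun i _ => by ring)
      rw [e1, e2, e3, e4]
      congr 1
      rw [Matrix.one_apply]
      split_ifs <;> simp
    have h2 := congrArg U.mulVec h1
    rw [Matrix.mulVec_mulVec, Matrix.mulVec_mulVec, hUV, Matrix.one_mulVec, Matrix.one_mulVec] at h2
    exact fun k => congrFun h2 k
  apply hs.mul_left_cancel
  have e5 : P1 (algebraMap B K s) * ((∑ i, P1 (V j i) * P2 (U i j')) * (∑ i, P1 (V j i) * P2 (U i j')))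
      = ∑ i, ∑ i', P1 (algebraMap B K s * (V j i * V j i')) * P2 (U i j' * U i' j') := by
    rw [Finset.sum_mul_sum, Finset.mul_sum]
    refine Finset.sum_congr rfl (fun i _ => ?_)
    rw [Finset.mul_sum]
    exact Finset.sum_congr rfl (fun i' _ => by rw [map_mul, map_mul, map_mul]; ring)
  rw [e5]
  have e6 : ∑ i, ∑ i', P1 (algebraMap B K s * (V j i * V j i')) * P2 (U i j' * U i' j')
      = ∑ k, P1 (V j k) * P2 (∑ i, ∑ i', algebraMap B K (a (i, i') k) * (U i j' * U i' j')) := by
    simp only [map_sum, Finset.mul_sum]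
    rw [Finset.sum_comm' (t' := Finset.univ) (s' := fun _ => Finset.univ) (by simp)]
    conv_rhs => rw [Finset.sum_comm]
    rw [Finset.sum_comm]
    refine Finset.sum_congr rfl (fun i _ => ?_)
    conv_rhs => rw [Finset.sum_comm]
    refine Finset.sum_congr rfl (fun i' _ => ?_)
    rw [hmul j i i', map_sum, Finset.sum_mul]
    refine Finset.sum_congr rfl (fun k _ => ?_)
    simp only [map_mul, hP]
    ring
  rw [e6, Finset.mul_sum]
  refine Finset.sum_congr rfl (fun k _ => ?_)
  rw [hU k, map_mul, hP]
  ring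

end Idem

end Crest.Agent.R183.Lat
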