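import Crest.Agent.R183.Fam3
import Crest.Agent.R183.Fam4
import Crest.Agent.R183.Fam5
import Crest.Agent.R183.Lat4

/-!
R183 / Fam6 (helper778): block (F), AMPLITUDE on `Ω_*`, with a uniform constant.
-/

set_option autoImplicit false
set_option linter.unusedSectionVars false

namespace Crest.Agent.R183.Fam

open WittVector Crest.Agent.R183.Amp Crest.Agent.R183.Om

universe u v

section Core

variable {p : ℕ} [hp : Fact p.Prime] {P : Type u} [CommRing P] [CharP P p] [PerfectRing P p]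
variable {Q : Type u} [CommRing Q] [CharP Q p] [PerfectRing Q p]
variable {T : Type v} [CommRing T] {K : Type u} [CommRing K]

/-- the amplifier for a ring homomorphism `ψ : W(Q) → K` with kernel `(p - [π])` -/
theorem core {a b c : ℕ} (x : Fin a → T) (w : Fin b → T) {F : Finset T}
    (hFx : ∀ i, x i ∈ F) (hFz : ∀ i, w i ∈ F)
    (hFr : ∀ (S : Subring T) (_ : ∀ r ∈ F, r ∈ S) (x' : Fin a → S) (_ : ∀ i, (x' i : T) = x i)
        (z' : Fin b → S) (_ : ∀ i, (z' i : T) = w i),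
        (p : S) ^ (c + 1) ∈ Ideal.span (Set.range z') ∧
        Ideal.span (Set.range x') ^ (c + 1) ≤
          Ideal.span (Set.range z') * Ideal.span (Set.range x') ^ c ∧
        (p : S) ∈ Ideal.span (Set.range x'))
    {n : ℕ} (hn : ∀ D : Cand.{u} p a b (c + 1) c, D.Good n)
    (ψ : WittVector p Q →+* K) (π : Q) (hkψ : RingHom.ker ψ = Ideal.span {xi 1 π})
    (hjac : π ∈ Ideal.jacobson (⊥ : Ideal Q)) (g : T →+* K)
    (hsh : ∀ r ∈ F, ∃ Y : Q, ψ (teichmuller p Y) = g r) {e N : ℕ} (hN : n + N ≤ p ^ e) :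
    ∃ (ξ : Fin a → ψ.range) (η : Fin b → ψ.range), (∀ i, (ξ i : K) = g (x i)) ∧
      (∀ i, (η i : K) ^ p ^ e = g (w i)) ∧
      ∀ i, ξ i ∈ Ideal.span (Set.range η) ^ N := by
  -- the subring of `T`
  let S : Subring T := ψ.range.comap g
  have hFS : ∀ r ∈ F, r ∈ S := by
    intro r hr
    obtain ⟨Y, hY⟩ := hsh r hr
    exact ⟨_, hY⟩
  obtain ⟨R1, R2, R3⟩ := hFr S hFS (fun i => ⟨x i, hFS _ (hFx i)⟩) (fun _ => rfl)
    (fun i => ⟨w i, hFS _ (hFz i)⟩) (fun _ => rfl)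
  let gS : S →+* ψ.range := (g.comp S.subtype).codRestrict ψ.range (fun r => r.2)
  choose Yx hYx using fun i => hsh (x i) (hFx i)
  choose Yz hYz using fun i => hsh (w i) (hFz i)
  have hxs : ∀ i, ψ.rangeRestrict (teichmuller p (Yx i)) = gS ⟨x i, hFS _ (hFx i)⟩ :=
    fun i => Subtype.ext (hYx i)
  have hzs : ∀ i, ψ.rangeRestrict (teichmuller p (Yz i)) = gS ⟨w i, hFS _ (hFz i)⟩ :=
    fun i => Subtype.ext (hYz i)
  have hmx : Ideal.span (Set.range fun i => ψ.rangeRestrict (teichmuller p (Yx i))) =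
      (Ideal.span (Set.range fun i : Fin a => (⟨x i, hFS _ (hFx i)⟩ : S))).map gS := by
    rw [Ideal.map_span, ← Set.range_comp]
    congr 2
    funext i
    exact hxs i
  have hmz : Ideal.span (Set.range fun i => ψ.rangeRestrict (teichmuller p (Yz i))) =
      (Ideal.span (Set.range fun i : Fin b => (⟨w i, hFS _ (hFz i)⟩ : S))).map gS := by
    rw [Ideal.map_span, ← Set.range_comp]
    congr 2
    funext i
    exact hzs i
  let D : Cand.{u} p a b (c + 1) c :=
    { P := Q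
      Ω := ψ.range
      θ := ψ.rangeRestrict
      surj := ψ.rangeRestrict_surjective
      π := π
      ker := by rw [RingHom.ker_rangeRestrict, hkψ]
      jac := hjac
      x := Yx
      z := Yz
      H1 := by
        rw [hmz]
        have := Ideal.mem_map_of_mem gS R1
        rwa [map_pow, map_natCast] at this
      H2 := by
        rw [hmx, hmz]
        have := Ideal.map_mono (f := gS) R2
        rwa [Ideal.map_pow, Ideal.map_mul, Ideal.map_pow] at this
      H3 := by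
        rw [hmx]
        have := Ideal.mem_map_of_mem gS R3
        rwa [map_natCast] at this }
  have hmain := hn D e N hN
  refine ⟨fun i => ψ.rangeRestrict (teichmuller p (Yx i)),
    fun i => ψ.rangeRestrict (teichmuller p (rt (p := p) e (Yz i))), hYx, ?_, ?_⟩
  · intro i
    show ψ (teichmuller p (rt (p := p) e (Yz i))) ^ p ^ e = _
    rw [← map_pow, ← map_pow, Amp.rt_pow, hYz]
  · intro i
    exact hmain (Ideal.subset_span ⟨i, rfl⟩)

end Core

section Compare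

variable {p : ℕ} [hp : Fact p.Prime] {T : Type v} [CommRing T]
variable {Ω : Type u} [CommRing Ω] {K : Type u} [CommRing K] [Algebra Ω K]

/-- comparison of two systems of `p^e`-th roots -/
theorem compare {a b : ℕ} (x : Fin a → T) (w : Fin b → T)
    (d : Heb.Data p Ω K) [IsAdicComplete (Ideal.span {(p : Ω)}) Ω]
    (hpu : (p : Ω) ∈ nonunits Ω) (hK : Lat.Bounded d)
    (g : T →+* K) (hg : ∀ r, g r ∈ Lat.star d)
    (hu : ∀ i, IsUnit (g (w i))) {e N : ℕ} (y : Fin b → K) (hy : ∀ i, y i ^ p ^ e = g (w i))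
    (Λ : Subring K) (hΛ : ∀ z ∈ Λ, z ∈ Lat.star d)
    (ξ : Fin a → Λ) (η : Fin b → Λ) (hξ : ∀ i, (ξ i : K) = g (x i))
    (hη : ∀ i, (η i : K) ^ p ^ e = g (w i))
    (hmain : ∀ i, ξ i ∈ Ideal.span (Set.range η) ^ N) :
    ∃ y' : Fin b → Lat.star d, (∀ i, (y' i : K) = y i) ∧
      ∀ r ∈ Ideal.span (Set.range x), (⟨g r, hg r⟩ : Lat.star d) ∈ Ideal.span (Set.range y') ^ N := by
  let ι : Λ →+* Lat.star d := Λ.subtype.codRestrict (Lat.star d) (fun z => hΛ z z.2)
  have hq : p ^ e ≠ 0 := pow_ne_zero _ hp.out.ne_zero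
  have hyu : ∀ i, IsUnit (y i) := by
    intro i
    have := hu i
    rw [← hy i] at this
    exact (isUnit_pow_iff hq).1 this
  have hU : ∀ i, ∃ v : K, v ∈ Lat.star d ∧ (η i : K) = v * y i ∧ v ^ p ^ e = 1 := by
    intro i
    obtain ⟨yi, hyi⟩ := (hyu i).exists_right_inv
    have h1 : ((η i : K) * yi) ^ p ^ e = 1 := by
      rw [mul_pow, hη i, ← hy i, ← mul_pow, hyi, one_pow]
    refine ⟨(η i : K) * yi, hK.mem_star hpu ?_, ?_, h1⟩
    · refine IsIntegral.of_pow (pow_pos hp.out.pos e) ?_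
      rw [h1]
      exact isIntegral_one
    · linear_combination -(η i : K) * hyi
  choose v hv hvy hv1 using hU
  have hystar : ∀ i, y i ∈ Lat.star d := by
    intro i
    have h1 : y i = v i ^ (p ^ e - 1) * (η i : K) := by
      rw [hvy i, ← mul_assoc, ← pow_succ, Nat.sub_add_cancel (pow_pos hp.out.pos e), hv1, one_mul]
    rw [h1]
    exact (Lat.star d).mul_mem ((Lat.star d).pow_mem (hv i) _) (hΛ _ (η i).2)
  refine ⟨fun i => ⟨y i, hystar i⟩, fun _ => rfl, ?_⟩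
  let gs : T →+* Lat.star d := g.codRestrict (Lat.star d) hg
  have hle : Ideal.span (Set.range fun i => ι (η i)) ≤
      Ideal.span (Set.range fun i => (⟨y i, hystar i⟩ : Lat.star d)) := by
    rw [Ideal.span_le]
    rintro _ ⟨i, rfl⟩
    have h1 : ι (η i) = (⟨v i, hv i⟩ : Lat.star d) * ⟨y i, hystar i⟩ := Subtype.ext (hvy i)
    show ι (η i) ∈ _
    rw [h1]
    exact Ideal.mul_mem_left _ _ (Ideal.subset_span ⟨i, rfl⟩)
  intro r hr
  have h1 : gs r ∈ (Ideal.span (Set.range x)).map gs := Ideal.mem_map_of_mem _ hr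
  refine (?_ : (Ideal.span (Set.range x)).map gs ≤ _) h1
  rw [Ideal.map_span, Ideal.span_le]
  rintro _ ⟨_, ⟨i, rfl⟩, rfl⟩
  have h3 := Ideal.mem_map_of_mem ι (hmain i)
  rw [Ideal.map_pow, Ideal.map_span, ← Set.range_comp] at h3
  have h4 := Ideal.pow_right_mono hle N h3
  have h5 : gs (x i) = ι (ξ i) := Subtype.ext (hξ i).symm
  rw [SetLike.mem_coe, h5]
  exact h4

end Compare

section Env

variable {p : ℕ} [hp : Fact p.Prime]
variable {Ω : Type u} [CommRing Ω] {K : Type u} [CommRing K] [Algebra Ω K]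

/-- existence of `ψ : W(P_*) → Ω_*` -/
theorem exists_psi (d : Heb.Data p Ω K) [IsAdicComplete (Ideal.span {(p : Ω)}) Ω]
    (hpu : (p : Ω) ∈ nonunits Ω) :
    ∃ (Q : Type u) (_ : CommRing Q) (_ : CharP Q p) (_ : PerfectRing Q p)
      (ψ : WittVector p Q →+* K) (π : Q), RingHom.ker ψ = Ideal.span {xi 1 π} ∧
      π ∈ Ideal.jacobson (⊥ : Ideal Q) ∧ (∀ z ∈ ψ.range, z ∈ Lat.star d) ∧
      ∀ (r : K) (_ : r ∈ Lat.star d) (s : ℕ → Ω) (_ : ∀ e, s (e + 1) ^ p = s e)
        (_ : algebraMap Ω K (s 0) = algebraMap Ω K (Lat.mu d 0) * r),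
        ∃ Y : Q, ψ (teichmuller p Y) = r := by
  -- tilt
  have hPD : PData p Ω d.ϖ := ⟨d.ϖ0, d.hϖ, Reg.wreg d.reg_p, d.fsurj, d.finj⟩
  obtain ⟨P, _, _, _, θ, π, hθ, hker, hπ, hπu, hPc, hrt, hroot⟩ := exists_tilt hPD d.reg_p hpu
  obtain ⟨δ, hδ⟩ := hroot d.δ d.hδ
  have hce : ∀ e, sh θ (rt (p := p) e (π * δ)) = Lat.mu d e := by
    intro e
    rw [map_mul, sh_mul, hrt, hδ]
    rfl
  have hc0 : sh θ (π * δ) = Lat.mu d 0 := by
    have := hce 0
    rwa [rt_zero] at this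
  have hδπ : RegMod δ π := by
    intro x hx
    have h1 : (p : Ω) ∣ sh θ (δ * x) := (sharp_dvd_p_iff θ hθ hker).2 hx
    have h2 : sh θ δ = d.δ 0 := by
      have := hδ 0
      rwa [rt_zero] at this
    rw [sh_mul, h2] at h1
    exact (sharp_dvd_p_iff θ hθ hker).1 (d.reg_D _ h1)
  have hδr : Reg δ := reg_of_regMod hπ hδπ
  -- the localisation
  have hcreg : π * δ ∈ nonZeroDivisors P := by
    rw [mem_nonZeroDivisors_iff_right]
    intro x hx
    apply hδr
    apply hπ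
    rw [← hx]; ring
  obtain ⟨L, _, _, hL⟩ : ∃ (L : Type u) (_ : CommRing L) (_ : Algebra P L),
      L = Localization.Away (π * δ) ∧ CharP L p ∧ PerfectRing L p ∧
      Function.Injective (algebraMap P L) ∧ IsUnit (algebraMap P L (π * δ)) := by
    have hinj : Function.Injective (algebraMap P (Localization.Away (π * δ))) :=
      IsLocalization.injective _ ((Submonoid.powers_le.2 hcreg))
    have hPn : Nontrivial P := CharP.nontrivial_of_char_ne_one (R := P) hp.out.ne_one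
    have hLn : Nontrivial (Localization.Away (π * δ)) := hinj.nontrivial
    have i1 : CharP (Localization.Away (π * δ)) p := charP_away (p := p) (π * δ)
    have i2 : PerfectRing (Localization.Away (π * δ)) p := perfect_away (p := p) (π * δ)
    exact ⟨_, inferInstance, inferInstance, rfl, i1, i2, hinj, IsLocalization.Away.algebraMap_isUnit _⟩
  obtain ⟨-, i1, i2, hinj, hcL⟩ := hL
  have i3 : CharP (Ps p L (π * δ)) p := charP_Ps (p := p) (π * δ)
  have i4 : PerfectRing (Ps p L (π * δ)) p := perfect_Ps (p := p) (π * δ)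
  have hcK : IsUnit (algebraMap Ω K (sh θ (π * δ))) := by
    rw [hc0]; exact Lat.isUnit_mu d 0
  refine ⟨Ps p L (π * δ), inferInstance, i3, i4, psi hinj θ (π * δ) hcK, toPs p (π * δ) π,
    ker_psi hinj θ hker d.inj hcL hcK, pi_mem_jacobson π δ hinj hcL, ?_, ?_⟩
  · rintro _ ⟨v, rfl⟩ e
    refine ⟨θ (low (π * δ) e v), ?_⟩
    rw [← hce]
    exact psi_low hinj θ (π * δ) hcK e v
  · intro r hr s hs hs0
    obtain ⟨t, ht⟩ := hroot s hs
    have ht0 : sh θ t = s 0 := by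
      have := ht 0
      rwa [rt_zero] at this
    obtain ⟨Y, hY⟩ := exists_star (L := L) θ hπ hδπ hθ hker hcL (t := t) (by
      intro e
      obtain ⟨ω, hω⟩ := hr e
      refine ⟨ω, d.inj ?_⟩
      rw [map_mul (algebraMap Ω K), map_mul (algebraMap Ω K), hce, ht0, hs0, hc0, ← hω]
      ring)
    refine ⟨Y, ?_⟩
    apply hcK.mul_left_cancel
    rw [psi_teich hinj θ (π * δ) hcK Y hY, ht0, hs0, hc0]

end Env

/-- **Amplitude.**  `𝔞^(c+1) ⊆ (w) 𝔞^c` and `p ∈ 𝔞` in `T`.  Then there are `n` and a finite set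
`F ⊆ T` such that for every perfectoid `Ω` (`Heb.Data`), every `g : T → Ω_*` such that the elements
`pD g(r)`, `r ∈ F`, have compatible `p`-power roots in `Ω`, and all `y_i` with
`y_i^(p^e) = g(w_i)` (units of `K`): `g(𝔞) ⊆ (y)^N Ω_*` as soon as `n + N ≤ p^e`. -/
theorem amplitude (p : ℕ) [hp : Fact p.Prime] {T : Type v} [CommRing T] (𝔞 : Ideal T)
    (h𝔞 : 𝔞.FG) (hp𝔞 : (p : T) ∈ 𝔞) {b : ℕ} (w : Fin b → T) (c : ℕ)
    (hw : 𝔞 ^ (c + 1) ≤ Ideal.span (Set.range w) * 𝔞 ^ c) :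
    ∃ (n : ℕ) (F : Finset T), ∀ (Ω K : Type u) [CommRing Ω] [CommRing K] [Algebra Ω K]
      (d : Heb.Data p Ω K) [IsAdicComplete (Ideal.span {(p : Ω)}) Ω]
      (_ : (p : Ω) ∈ nonunits Ω) (_ : Lat.Bounded d)
      (g : T →+* K) (hg : ∀ r, g r ∈ Lat.star d)
      (_ : ∀ r ∈ F, ∃ s : ℕ → Ω, (∀ e, s (e + 1) ^ p = s e) ∧
        algebraMap Ω K (s 0) = algebraMap Ω K (Lat.mu d 0) * g r)
      (_ : ∀ i, IsUnit (g (w i))) (e N : ℕ) (_ : n + N ≤ p ^ e)
      (y : Fin b → K) (_ : ∀ i, y i ^ p ^ e = g (w i)),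
      ∃ y' : Fin b → Lat.star d, (∀ i, (y' i : K) = y i) ∧
        ∀ r ∈ 𝔞, (⟨g r, hg r⟩ : Lat.star d) ∈ Ideal.span (Set.range y') ^ N := by
  classical
  obtain ⟨a, x, hx⟩ := Submodule.fg_iff_exists_fin_generating_family.1 h𝔞
  have hx' : 𝔞 = Ideal.span (Set.range x) := hx.symm
  subst hx'
  have H1 : (p : T) ^ (c + 1) ∈ Ideal.span (Set.range w) :=
    Ideal.mul_le_left (hw (Ideal.pow_mem_pow hp𝔞 (c + 1)))
  obtain ⟨F, hFx, hFz, hFr⟩ := spread p x w c (c + 1) H1 hw hp𝔞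
  obtain ⟨n, hn⟩ := exists_uniform.{u} p a b (c + 1) c
  refine ⟨n, F, ?_⟩
  intro Ω K _ _ _ d _ hpu hK g hg hF hu e N hN y hy
  obtain ⟨Q, _, _, _, ψ, π, hkψ, hjac, hstar, hY⟩ := exists_psi d hpu
  obtain ⟨ξ, η, h1, h2, h3⟩ := core x w hFx hFz hFr hn ψ π hkψ hjac g
    (fun r hr => by
      obtain ⟨s, hs, hs0⟩ := hF r hr
      exact hY (g r) (hg r) s hs hs0) hN
  exact compare x w d hpu hK g hg hu y hy ψ.range hstar ξ η h1 h2 h3

end Crest.Agent.R183.Fam
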