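import Mathlib

/-!
# R183, block RB (helper234), part 1

* `isNoetherianRing_of_isAdicComplete`: a ring that is adically complete with respect to a finitely
  generated ideal `I` with `A ⧸ I` Noetherian is Noetherian.
-/

set_option autoImplicit false

namespace Crest.Agent.R183.G

open Ideal

section Noeth

variable {A : Type*} [CommRing A]

/-- Main approximation lemma: if `P = span s + a P` with `a ∈ I` and `A` is `I`-adically complete
then `P = span s`. -/
theorem fg_of_le_sup_smul (I : Ideal A) [IsAdicComplete I A] (a : A) (ha : a ∈ I) (P : Ideal A)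
    (s : Finset A) (hs : ∀ x ∈ s, x ∈ P)
    (h : ∀ g ∈ P, ∃ g' ∈ P, g - a * g' ∈ Ideal.span (s : Set A)) : P = Ideal.span (s : Set A) := by
  classical
  refine le_antisymm (fun g hg => ?_) (Ideal.span_le.2 hs)
  choose! nxt hnxt using h
  -- the sequence of remainders
  let r : ℕ → A := fun n => Nat.rec g (fun _ x => nxt x) n
  have hr0 : r 0 = g := rfl
  have hrs : ∀ n, r (n + 1) = nxt (r n) := fun n => rfl
  have hrP : ∀ n, r n ∈ P := by
    intro n
    induction n with
    | zero => exact hg
    | succ n ih => rw [hrs]; exact (hnxt _ ih).1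
  have hc : ∀ n, ∃ c : A → A, r n - a * r (n + 1) = ∑ x ∈ s, c x * x := by
    intro n
    have := (hnxt _ (hrP n)).2
    rw [← hrs] at this
    obtain ⟨c, _, hc⟩ := (Submodule.mem_span_finset).1 this
    exact ⟨c, by rw [← hc]; simp [smul_eq_mul]⟩
  choose c hc using hc
  -- partial sums
  let S : A → ℕ → A := fun x n => ∑ k ∈ Finset.range n, a ^ k * c k x
  have hsum : ∀ n, g = ∑ x ∈ s, S x n * x + a ^ n * r n := by
    intro n
    induction n with
    | zero => simp [S, hr0]
    | succ n ih =>
      rw [ih]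
      have h1 : r n = a * r (n + 1) + ∑ x ∈ s, c n x * x := by rw [← hc]; ring
      have h2 : ∑ x ∈ s, S x (n + 1) * x = ∑ x ∈ s, S x n * x + a ^ n * ∑ x ∈ s, c n x * x := by
        rw [Finset.mul_sum, ← Finset.sum_add_distrib]
        refine Finset.sum_congr rfl fun x _ => ?_
        simp only [S, Finset.sum_range_succ]
        ring
      rw [h2]
      conv_lhs => rw [h1]
      ring
  -- limits
  have hlim : ∀ x, ∃ L : A, ∀ n, S x n ≡ L [SMOD (I ^ n • ⊤ : Submodule A A)] := by
    intro x
    refine IsPrecomplete.prec inferInstance ?_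
    intro m n hmn
    rw [SModEq.sub_mem]
    have : S x m - S x n = - ∑ k ∈ Finset.Ico m n, a ^ k * c k x := by
      simp only [S]
      rw [← Finset.sum_range_add_sum_Ico _ hmn]
      ring
    rw [this]
    refine neg_mem (sum_mem fun k hk => ?_)
    rw [smul_eq_mul, Ideal.mul_top]
    refine Ideal.mul_mem_right _ _ ?_
    exact Ideal.pow_le_pow_right (Finset.mem_Ico.1 hk).1 (Ideal.pow_mem_pow ha k)
  choose L hL using hlim
  have hg' : g = ∑ x ∈ s, L x * x := by
    rw [← sub_eq_zero]
    refine IsHausdorff.haus (I := I) inferInstance _ fun n => ?_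
    rw [SModEq.zero]
    have : g - ∑ x ∈ s, L x * x = ∑ x ∈ s, (S x n - L x) * x + a ^ n * r n := by
      conv_lhs => rw [hsum n]
      rw [show (∑ x ∈ s, (S x n - L x) * x) = ∑ x ∈ s, S x n * x - ∑ x ∈ s, L x * x by
        rw [← Finset.sum_sub_distrib]; exact Finset.sum_congr rfl fun x _ => by ring]
      ring
    rw [this]
    refine add_mem (sum_mem fun x _ => ?_) ?_
    · have := (SModEq.sub_mem.1 (hL x n))
      rw [smul_eq_mul, Ideal.mul_top] at this ⊢
      exact Ideal.mul_mem_right _ _ this
    · rw [smul_eq_mul, Ideal.mul_top]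
      exact Ideal.mul_mem_right _ _ (Ideal.pow_mem_pow ha n)
  rw [hg']
  exact sum_mem fun x hx => Ideal.mul_mem_left _ _ (Ideal.subset_span hx)

/-- A ring that is adically complete with respect to a finitely generated ideal `I` such that
`A ⧸ I` is Noetherian is Noetherian. -/
theorem isNoetherianRing_of_isAdicComplete (I : Ideal A) (hI : I.FG) [IsAdicComplete I A]
    [IsNoetherianRing (A ⧸ I)] : IsNoetherianRing A := by
  classical
  by_contra hcon
  have hex : ∃ J : Ideal A, ¬ J.FG := by
    by_contra h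
    push Not at h
    exact hcon ⟨h⟩
  obtain ⟨J₀, hJ₀⟩ := hex
  -- a maximal non-f.g. ideal
  obtain ⟨P, _, hP⟩ : ∃ M, J₀ ≤ M ∧ Maximal (fun J : Ideal A => ¬ J.FG) M := by
    refine zorn_le_nonempty₀ {J : Ideal A | ¬ J.FG} (fun C hC₁ hC₂ J hJ => ⟨sSup C, ?_, fun _ => le_sSup⟩)
      J₀ hJ₀
    rintro ⟨G, hG⟩
    obtain ⟨J', J_mem_C, G_subset_J⟩ : ∃ J' ∈ C, (G : Set A) ⊆ J' := by
      refine hC₂.directedOn.exists_mem_subset_of_finset_subset_biUnion ⟨J, hJ⟩ (fun _ hx => ?_)
      simp only [Set.mem_iUnion, SetLike.mem_coe, exists_prop]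
      exact (Submodule.mem_sSup_of_directed ⟨J, hJ⟩ hC₂.directedOn).1 <| hG ▸ subset_span hx
    have J_eq_sSup : J' = sSup C :=
      le_antisymm (le_sSup J_mem_C) (hG ▸ Ideal.span_le.2 G_subset_J)
    exact hC₁ J_mem_C ⟨G, by rw [hG, J_eq_sSup]⟩
  have hprime : P.IsPrime := Ideal.isOka_fg.isPrime_of_maximal_not hP
  -- `I ≤ P`
  have hIP : I ≤ P := by
    intro a ha
    by_contra haP
    have hfg : (P ⊔ Ideal.span {a}).FG := by
      by_contra h
      exact (hP.not_prop_of_gt (Submodule.lt_sup_iff_notMem.2 haP)) h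
    -- generators
    obtain ⟨t, ht⟩ := hfg
    have H : ∀ y ∈ t, ∃ p ∈ P, ∃ r : A, p + r * a = y := by
      intro y hy
      have : y ∈ P ⊔ Ideal.span {a} := by rw [← ht]; exact Ideal.subset_span hy
      obtain ⟨p, hp, z, hz, hpz⟩ := Submodule.mem_sup.1 this
      obtain ⟨r, rfl⟩ := Ideal.mem_span_singleton'.1 hz
      exact ⟨p, hp, r, hpz⟩
    choose! p hp r hr using H
    have : P = Ideal.span ((t.image p : Finset A) : Set A) := by
      refine fg_of_le_sup_smul I a ha P (t.image p) ?_ ?_
      · intro x hx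
        obtain ⟨y, hy, rfl⟩ := Finset.mem_image.1 hx
        exact hp y hy
      · intro g hg
        have hg1 : g ∈ Ideal.span (t : Set A) := by
          have : g ∈ P ⊔ Ideal.span {a} := Ideal.mem_sup_left hg
          rwa [← ht] at this
        obtain ⟨c, _, hc⟩ := (Submodule.mem_span_finset).1 hg1
        refine ⟨∑ y ∈ t, c y * r y, ?_, ?_⟩
        · have h1 : a * ∑ y ∈ t, c y * r y ∈ P := by
            have h2 : a * ∑ y ∈ t, c y * r y = g - ∑ y ∈ t, c y * p y := by
              rw [← hc, Finset.mul_sum, ← Finset.sum_sub_distrib]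
              refine Finset.sum_congr rfl fun y hy => ?_
              rw [smul_eq_mul]
              linear_combination (c y) * (hr y hy)
            rw [h2]
            exact sub_mem hg (sum_mem fun y hy => Ideal.mul_mem_left _ _ (hp y hy))
          exact (hprime.mem_or_mem h1).resolve_left haP
        · have h2 : g - a * ∑ y ∈ t, c y * r y = ∑ y ∈ t, c y * p y := by
            rw [← hc, Finset.mul_sum, ← Finset.sum_sub_distrib]
            refine Finset.sum_congr rfl fun y hy => ?_
            rw [smul_eq_mul]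
            linear_combination -(c y) * (hr y hy)
          rw [h2]
          refine sum_mem fun y hy => Ideal.mul_mem_left _ _ (Ideal.subset_span ?_)
          simp only [Finset.coe_image]
          exact ⟨y, hy, rfl⟩
    exact hP.prop ⟨_, this.symm⟩
  -- `P / I` is f.g.
  have h1 : (P.map (Ideal.Quotient.mk I)).FG := (isNoetherianRing_iff_ideal_fg _).1 inferInstance _
  have h2 : P.FG := by
    refine Ideal.fg_of_fg_map_of_fg_inf_ker_of_surjective h1 ?_ Ideal.Quotient.mk_surjective
    rw [Ideal.mk_ker, inf_eq_right.2 hIP]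
    exact hI
  exact hP.prop h2

end Noeth

end Crest.Agent.R183.G
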