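import Crest.Agent.R183.G9

/-!
# R183, block RB (helper234), part 10: gonflement
-/

set_option autoImplicit false

namespace Crest.Agent.R183.G

open Ideal IsLocalRing TensorProduct

universe u v

section

variable {A B₀ B : Type*} [CommRing A] [CommRing B₀] [CommRing B] [Algebra A B₀] [Algebra B₀ B]
  [Algebra A B] [IsScalarTower A B₀ B]

theorem exists_eq_one_tmul {M : Type*} [AddCommGroup M] [Module A M] (J : Ideal A)
    (z : (A ⧸ J) ⊗[A] M) : ∃ b : M, z = 1 ⊗ₜ[A] b := by
  induction z using TensorProduct.induction_on with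
  | zero => exact ⟨0, (TensorProduct.tmul_zero _ _).symm⟩
  | add x y hx hy =>
    obtain ⟨b, rfl⟩ := hx
    obtain ⟨c, rfl⟩ := hy
    exact ⟨b + c, (TensorProduct.tmul_add _ _ _).symm⟩
  | tmul q b =>
    obtain ⟨a, rfl⟩ := Ideal.Quotient.mk_surjective q
    refine ⟨a • b, ?_⟩
    rw [← TensorProduct.smul_tmul]
    congr 1
    rw [Algebra.smul_def, mul_one]; rfl

theorem one_tmul_eq_zero_iff {M : Type*} [AddCommGroup M] [Module A M] (J : Ideal A) (b : M) :
    (1 : A ⧸ J) ⊗ₜ[A] b = 0 ↔ b ∈ (J • ⊤ : Submodule A M) := by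
  rw [← (TensorProduct.quotTensorEquivQuotSMul M J).map_eq_zero_iff]
  have : TensorProduct.quotTensorEquivQuotSMul M J ((1 : A ⧸ J) ⊗ₜ[A] b) =
      Submodule.Quotient.mk b := by
    have h := TensorProduct.quotTensorEquivQuotSMul_mk_tmul (R := A) J (1 : A) b
    rw [one_smul] at h
    exact h
  rw [this, Submodule.Quotient.mk_eq_zero]

/-- If `B₀` is flat over the Noetherian ring `A`, `B` is Noetherian, `I B ⊆ rad B` and
`B₀ ⧸ I ^ n B₀ → B ⧸ I ^ n B` is bijective for all `n`, then `B` is flat over `A`. -/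
theorem flat_of_quotient_bijective [IsNoetherianRing A] [IsNoetherianRing B] [Module.Flat A B₀]
    (I : Ideal A) (hI : I.map (algebraMap A B) ≤ Ideal.jacobson ⊥)
    (hinj : ∀ n, ∀ b : B₀, algebraMap B₀ B b ∈ (I ^ n).map (algebraMap A B) →
      b ∈ (I ^ n).map (algebraMap A B₀))
    (hsurj : ∀ n, ∀ c : B, ∃ b : B₀, c - algebraMap B₀ B b ∈ (I ^ n).map (algebraMap A B)) :
    Module.Flat A B := by
  refine flat_of_forall_flat_quotient I hI fun n => ?_
  let F : (A ⧸ I ^ n) ⊗[A] B₀ →ₗ[A ⧸ I ^ n] (A ⧸ I ^ n) ⊗[A] B :=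
    ((IsScalarTower.toAlgHom A B₀ B).toLinearMap).baseChange (A ⧸ I ^ n)
  have hF : ∀ b : B₀, F (1 ⊗ₜ b) = 1 ⊗ₜ (algebraMap B₀ B b) := fun b => rfl
  have hbij : Function.Bijective F := by
    constructor
    · rw [injective_iff_map_eq_zero]
      intro z hz
      obtain ⟨b, rfl⟩ := exists_eq_one_tmul _ z
      rw [hF, one_tmul_eq_zero_iff, Ideal.smul_top_eq_map] at hz
      rw [one_tmul_eq_zero_iff, Ideal.smul_top_eq_map]
      exact hinj n b hz
    · intro z
      obtain ⟨c, rfl⟩ := exists_eq_one_tmul _ z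
      obtain ⟨b, hb⟩ := hsurj n c
      refine ⟨1 ⊗ₜ b, ?_⟩
      rw [hF, ← sub_eq_zero, ← TensorProduct.tmul_sub, one_tmul_eq_zero_iff,
        Ideal.smul_top_eq_map]
      rw [← neg_mem_iff, neg_sub]
      exact hb
  exact Module.Flat.of_linearEquiv (LinearEquiv.ofBijective F hbij).symm

end

section

/-- GONFLEMENT. Let `R` be a Noetherian local ring with residue field `k` and let `K / k` be any
field extension. There is a complete Noetherian local flat `R`-algebra `S` with maximal ideal
`m S` and residue field `K` (over `k`). -/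
theorem exists_gonflement (R : Type u) [CommRing R] [IsLocalRing R] [IsNoetherianRing R]
    (K : Type v) [Field K] [Algebra (ResidueField R) K] :
    ∃ (S : Type (max u v)) (_ : CommRing S) (_ : IsLocalRing S) (_ : IsNoetherianRing S)
      (_ : Algebra R S) (_ : IsAdicComplete (maximalIdeal S) S) (e : ResidueField S ≃+* K),
      Module.Flat R S ∧ (maximalIdeal R).map (algebraMap R S) = maximalIdeal S ∧
      ∀ r : R, e (residue S (algebraMap R S r)) = algebraMap (ResidueField R) K (residue R r) := by
  obtain ⟨T, _, _, _, φ, hflat, hsurj, hφ, hm⟩ := exists_flat_local R K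
  have hfg : (maximalIdeal T).FG := by
    rw [← hm]
    have h0 : (maximalIdeal R).FG := IsNoetherian.noetherian _
    exact Ideal.FG.map h0 _
  let S := AdicCompletion (maximalIdeal T) T
  have hloc : IsLocalRing S := AdicCompletion.isLocalRing_of_fg hfg
  have hmS : maximalIdeal S = (maximalIdeal T).map (algebraMap T S) :=
    AdicCompletion.maximalIdeal_eq_map_of_fg hfg
  have hcomp : IsAdicComplete (maximalIdeal S) S := AdicCompletion.isAdicComplete_of_fg hfg
  have : IsNoetherianRing (T ⧸ maximalIdeal T) :=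
    inferInstanceAs (IsNoetherianRing (ResidueField T))
  have hNoeth : IsNoetherianRing S := isNoetherianRing_adicCompletion _ hfg
  have hmRS : (maximalIdeal R).map (algebraMap R S) = maximalIdeal S := by
    refine Eq.trans ?_ ((congrArg (Ideal.map (algebraMap T S)) hm).trans hmS.symm)
    rw [Ideal.map_map]
    congr 1
  -- the residue field
  have hbij := AdicCompletion.residueField_map_bijective_of_fg hfg
  have hlh : IsLocalHom (algebraMap T S) := AdicCompletion.algebraMap_isLocalHom_of_fg hfg
  have hkerφ : RingHom.ker φ = maximalIdeal T := by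
    have : (RingHom.ker φ).IsMaximal := RingHom.ker_isMaximal_of_surjective φ hsurj
    exact IsLocalRing.eq_maximalIdeal this
  let e1 : ResidueField T ≃+* K :=
    (Ideal.quotEquivOfEq hkerφ.symm).trans (RingHom.quotientKerEquivOfSurjective hsurj)
  have he1 : ∀ t, e1 (residue T t) = φ t := fun t => rfl
  let e2 : ResidueField T ≃+* ResidueField S :=
    RingEquiv.ofBijective (ResidueField.map (algebraMap T S)) hbij
  have he2 : ∀ t, e2 (residue T t) = residue S (algebraMap T S t) := fun t => rfl
  refine ⟨S, inferInstance, hloc, hNoeth, inferInstance, hcomp, e2.symm.trans e1, ?_, hmRS, ?_⟩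
  · refine flat_of_quotient_bijective (A := R) (B₀ := T) (B := S) (maximalIdeal R) ?_ ?_ ?_
    · rw [hmRS]; exact IsLocalRing.maximalIdeal_le_jacobson _
    · intro n b hb
      have h1 := (quotientMap_adicCompletion_bijective (maximalIdeal T) hfg n).1
      have h2 : (maximalIdeal R ^ n).map (algebraMap R S) =
        (maximalIdeal T ^ n).map (algebraMap T S) := by
        rw [Ideal.map_pow, Ideal.map_pow, hmRS, hmS]
      rw [h2] at hb
      rw [Ideal.map_pow, hm]
      rw [← Ideal.Quotient.eq_zero_iff_mem]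
      apply h1
      rw [map_zero]
      exact (Ideal.Quotient.eq_zero_iff_mem).2 hb
    · intro n c
      have h1 := (quotientMap_adicCompletion_bijective (maximalIdeal T) hfg n).2
      have h2 : (maximalIdeal R ^ n).map (algebraMap R S) =
        (maximalIdeal T ^ n).map (algebraMap T S) := by
        rw [Ideal.map_pow, Ideal.map_pow, hmRS, hmS]
      rw [h2]
      obtain ⟨y, hy⟩ := h1 (Ideal.Quotient.mk _ c)
      obtain ⟨b, rfl⟩ := Ideal.Quotient.mk_surjective y
      refine ⟨b, ?_⟩
      rw [← Ideal.Quotient.mk_eq_mk_iff_sub_mem, ← hy]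
      rfl
  · intro r
    have h3 : algebraMap R S r = algebraMap T S (algebraMap R T r) := rfl
    rw [h3, ← he2, RingEquiv.trans_apply, RingEquiv.symm_apply_apply, he1, hφ]

end

end Crest.Agent.R183.G
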