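import Crest.Agent.R183.CohenFinite
import Crest.Agent.R183.G10

/-!
# R183, block RB (helper234), part 11: finite algebras over complete local rings are complete
-/

set_option autoImplicit false

namespace Crest.Agent.R183.G

open Ideal IsLocalRing TensorProduct

universe u v

section

variable {A : Type u} [CommRing A] (I : Ideal A) {M : Type*} [AddCommGroup M] [Module A M]
  {N : Type*} [AddCommGroup N] [Module A N]

/-- The surjective image of a precomplete module is precomplete. -/
theorem isPrecomplete_of_surjective (f : M →ₗ[A] N) (hf : Function.Surjective f)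
    [hM : IsPrecomplete I M] : IsPrecomplete I N := by
  refine ⟨fun y hy => ?_⟩
  have h1 : ∀ n, ∃ z : M, z ∈ (I ^ n • ⊤ : Submodule A M) ∧ f z = y (n + 1) - y n := by
    intro n
    have h2 : y (n + 1) - y n ∈ (I ^ n • ⊤ : Submodule A N) := by
      have h3 := (hy (Nat.le_succ n)).symm
      rwa [SModEq.sub_mem] at h3
    have h4 : (I ^ n • ⊤ : Submodule A N) = (I ^ n • ⊤ : Submodule A M).map f := by
      rw [Submodule.map_smul'', Submodule.map_top, LinearMap.range_eq_top.2 hf]
    rw [h4] at h2
    exact h2
  choose z hz hfz using h1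
  obtain ⟨x0, hx0⟩ := hf (y 0)
  let x : ℕ → M := fun n => x0 + ∑ i ∈ Finset.range n, z i
  have hfx : ∀ n, f (x n) = y n := by
    intro n
    induction n with
    | zero => simp [x, hx0]
    | succ n ih =>
      have : x (n + 1) = x n + z n := by
        simp only [x, Finset.sum_range_succ, add_assoc]
      rw [this, map_add, ih, hfz, add_sub_cancel]
  have hx : ∀ {m n : ℕ}, m ≤ n → x m ≡ x n [SMOD (I ^ m • ⊤ : Submodule A M)] := by
    intro m n hmn
    induction n, hmn using Nat.le_induction with
    | base => exact SModEq.rfl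
    | succ n hmn ih =>
      refine ih.trans ?_
      rw [SModEq.comm, SModEq.sub_mem]
      have : x (n + 1) - x n = z n := by
        simp only [x, Finset.sum_range_succ]; abel
      rw [this]
      exact Submodule.smul_mono_left (Ideal.pow_le_pow_right hmn) (hz n)
  obtain ⟨L, hL⟩ := hM.prec' x hx
  refine ⟨f L, fun n => ?_⟩
  have h5 := hL n
  rw [SModEq.sub_mem] at h5 ⊢
  rw [← hfx, ← map_sub]
  have h4 : (I ^ n • ⊤ : Submodule A M).map f ≤ (I ^ n • ⊤ : Submodule A N) := by
    rw [Submodule.map_smul'']
    exact Submodule.smul_mono le_rfl le_top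
  exact h4 (Submodule.mem_map_of_mem h5)

theorem isPrecomplete_of_finite [IsPrecomplete I A] [Module.Finite A M] : IsPrecomplete I M := by
  obtain ⟨n, g, hg⟩ := Module.Finite.exists_fin' A M
  have := Cohen.isPrecomplete_pi (I := I) (A := A) n
  exact isPrecomplete_of_surjective I g hg

end

section

variable {B : Type v} [CommRing B]

/-- Change of the ideal: `J ^ c ≤ K ≤ J`. -/
theorem isPrecomplete_of_pow_le {J K : Ideal B} (hKJ : K ≤ J) {c : ℕ} (hc : J ^ c ≤ K)
    [hK : IsPrecomplete K B] : IsPrecomplete J B := by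
  refine ⟨fun y hy => ?_⟩
  obtain ⟨L, hL⟩ := hK.prec' (fun n => y (c * n)) (fun {m n} hmn => by
    have h1 := hy (Nat.mul_le_mul_left c hmn)
    rw [SModEq.sub_mem] at h1 ⊢
    rw [smul_eq_mul, Ideal.mul_top] at h1 ⊢
    have h2 : J ^ (c * m) ≤ K ^ m := by
      rw [pow_mul]; exact Ideal.pow_right_mono hc m
    exact h2 h1)
  refine ⟨L, fun n => ?_⟩
  have h1 := hL n
  rcases Nat.eq_zero_or_pos c with rfl | hcpos
  · have h2 : J ^ n = ⊤ := by
      have : J = ⊤ := by
        rw [pow_zero, Ideal.one_eq_top, top_le_iff] at hc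
        exact top_le_iff.1 (hc ▸ hKJ)
      rw [this, Ideal.top_pow]
    rw [SModEq.sub_mem, h2, smul_eq_mul, Ideal.mul_top]
    exact trivial
  · have h3 := hy (Nat.le_mul_of_pos_left n hcpos)
    refine h3.trans ?_
    rw [SModEq.sub_mem] at h1 ⊢
    rw [smul_eq_mul, Ideal.mul_top] at h1 ⊢
    exact Ideal.pow_right_mono hKJ n h1

/-- A local ring which is finite over a complete Noetherian local ring is complete. -/
theorem isAdicComplete_of_finite (A : Type u) [CommRing A] [IsLocalRing A] [IsNoetherianRing A]
    [IsPrecomplete (maximalIdeal A) A] (B : Type v) [CommRing B] [IsLocalRing B] [Algebra A B]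
    [Module.Finite A B] : IsAdicComplete (maximalIdeal B) B := by
  have hNB : IsNoetherianRing B := IsNoetherianRing.of_finite A B
  have hloc : IsLocalHom (algebraMap A B) := by
    have h1 : ((maximalIdeal B).comap (algebraMap A B)).IsMaximal :=
      Ideal.isMaximal_comap_of_isIntegral_of_isMaximal (maximalIdeal B)
    exact ((IsLocalRing.local_hom_TFAE (algebraMap A B)).out 0 4).2 (eq_maximalIdeal h1)
  have hle : (maximalIdeal A).map (algebraMap A B) ≤ maximalIdeal B :=
    IsLocalRing.map_maximalIdeal_le (algebraMap A B)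
  -- the fibre is Artinian
  have hart : ∃ c, maximalIdeal B ^ c ≤ (maximalIdeal A).map (algebraMap A B) := by
    have hrad : maximalIdeal B ≤ ((maximalIdeal A).map (algebraMap A B)).radical := by
      rw [Ideal.radical_eq_sInf]
      refine le_sInf fun P hP => ?_
      obtain ⟨hP1, hP2⟩ := hP
      have h1 : maximalIdeal A ≤ P.comap (algebraMap A B) := Ideal.map_le_iff_le_comap.1 hP1
      have h2 : P.comap (algebraMap A B) = maximalIdeal A :=
        ((maximalIdeal.isMaximal A).eq_of_le (Ideal.IsPrime.comap (algebraMap A B)).ne_top h1).symm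
      have h3 : (P.comap (algebraMap A B)).IsMaximal := h2 ▸ maximalIdeal.isMaximal A
      have h4 : P.IsMaximal := Ideal.isMaximal_of_isIntegral_of_isMaximal_comap P h3
      exact (eq_maximalIdeal h4).ge
    exact Ideal.exists_pow_le_of_le_radical_of_fg hrad (IsNoetherian.noetherian _)
  obtain ⟨c, hc⟩ := hart
  have h1 : IsPrecomplete (maximalIdeal A) B := isPrecomplete_of_finite _
  have h2 : IsPrecomplete ((maximalIdeal A).map (algebraMap A B)) B :=
    (IsPrecomplete.map_algebraMap_iff (R := A) (S := B) (M := B)).2 h1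
  have h3 : IsPrecomplete (maximalIdeal B) B := isPrecomplete_of_pow_le hle hc
  exact { }

/-- Quotients of complete Noetherian local rings are complete. -/
theorem isAdicComplete_quotient (A : Type u) [CommRing A] [IsLocalRing A] [IsNoetherianRing A]
    [IsPrecomplete (maximalIdeal A) A] (P : Ideal A) [IsLocalRing (A ⧸ P)] :
    IsAdicComplete (maximalIdeal (A ⧸ P)) (A ⧸ P) :=
  isAdicComplete_of_finite A (A ⧸ P)

end

end Crest.Agent.R183.G
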