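import Crest.Agent.R183.G11
import Crest.Agent.R183.M3

/-!
# R183, block RB (helper234), part 12: normalisation of the pair `R → S`

It suffices to treat flat local homomorphisms `R₁ → S₁` with `R₁` a complete Noetherian local
domain and `S₁` a complete Noetherian local ring with algebraically closed residue field.
-/

set_option autoImplicit false

namespace Crest.Agent.R183.G

open Ideal IsLocalRing TensorProduct Crest.Agent.R183.M

universe u v

/-- Step 1: `S` complete with algebraically closed residue field. -/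
theorem lechC_of_gonflement (R : Type u) (S : Type v) [CommRing R] [IsLocalRing R]
    [CommRing S] [IsLocalRing S] [IsNoetherianRing S]
    [Algebra R S] [Module.Flat R S] [IsLocalHom (algebraMap R S)] (d d' : ℕ)
    (hd' : ringKrullDim S = d')
    (H : ∀ (S₁ : Type v) [CommRing S₁] [IsLocalRing S₁] [IsNoetherianRing S₁]
      [IsAdicComplete (maximalIdeal S₁) S₁] [Algebra R S₁] [Module.Flat R S₁]
      [IsLocalHom (algebraMap R S₁)] [IsAlgClosed (ResidueField S₁)],
      ringKrullDim S₁ = d' → LechC R S₁ d d') :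
    LechC R S d d' := by
  obtain ⟨S₁, _, _, _, _, _, e, hflat, hm, he⟩ :=
    exists_gonflement S (AlgebraicClosure (ResidueField S))
  let alg : Algebra R S₁ := ((algebraMap S S₁).comp (algebraMap R S)).toAlgebra
  have tower : IsScalarTower R S S₁ := IsScalarTower.of_algebraMap_eq fun x => rfl
  have i1 : Module.Flat R S₁ := Module.Flat.trans R S S₁
  have i2 : IsLocalHom (algebraMap S S₁) := isLocalHom_of_map_maximalIdeal hm
  have i3 : IsLocalHom (algebraMap R S₁) :=
    RingHom.isLocalHom_comp (algebraMap S S₁) (algebraMap R S)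
  have i4 : IsAlgClosed (ResidueField S₁) :=
    IsAlgClosed.of_ringEquiv (AlgebraicClosure (ResidueField S)) (ResidueField S₁) e.symm
  exact LechC.of_flat_right (hs_eq_of_flat S S₁ hm)
    (H S₁ ((ringKrullDim_eq_of_map_maximalIdeal hm).trans hd'))

/-- Step 2: `R` complete. -/
theorem lechC_of_completion' (R : Type u) (S : Type v) [CommRing R] [IsLocalRing R]
    [IsNoetherianRing R] [CommRing S] [IsLocalRing S] [IsNoetherianRing S]
    [IsAdicComplete (maximalIdeal S) S]
    [Algebra R S] [Module.Flat R S] [IsLocalHom (algebraMap R S)] (d d' : ℕ)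
    (hd : ringKrullDim R = d)
    (H : ∀ (R₁ : Type u) [CommRing R₁] [IsLocalRing R₁] [IsNoetherianRing R₁]
      [IsAdicComplete (maximalIdeal R₁) R₁] [Algebra R₁ S] [Module.Flat R₁ S]
      [IsLocalHom (algebraMap R₁ S)] (φ : R →+* R₁), IsLocalHom φ → ringKrullDim R₁ = d →
        LechC R₁ S d d') :
    LechC R S d d' := by
  let R₁ := AdicCompletion (maximalIdeal R) R
  have hm : (maximalIdeal R).map (algebraMap R R₁) = maximalIdeal R₁ :=
    AdicCompletion.maximalIdeal_eq_map.symm
  have i0 : IsLocalHom (algebraMap R R₁) := isLocalHom_of_map_maximalIdeal hm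
  let alg : Algebra R₁ S := (fromCompletion R S).toAlgebra
  have i1 : Module.Flat R₁ S := flat_fromCompletion
  have i2 : IsLocalHom (algebraMap R₁ S) := isLocalHom_fromCompletion
  exact LechC.of_flat_left (hs_eq_of_flat R R₁ hm)
    (H R₁ (algebraMap R R₁) i0 ((ringKrullDim_eq_of_map_maximalIdeal hm).trans hd))

/-- Step 2: `R` complete. -/
theorem lechC_of_completion (R : Type u) (S : Type v) [CommRing R] [IsLocalRing R]
    [IsNoetherianRing R] [CommRing S] [IsLocalRing S] [IsNoetherianRing S]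
    [IsAdicComplete (maximalIdeal S) S]
    [Algebra R S] [Module.Flat R S] [IsLocalHom (algebraMap R S)] (d d' : ℕ)
    (hd : ringKrullDim R = d)
    (H : ∀ (R₁ : Type u) [CommRing R₁] [IsLocalRing R₁] [IsNoetherianRing R₁]
      [IsAdicComplete (maximalIdeal R₁) R₁] [Algebra R₁ S] [Module.Flat R₁ S]
      [IsLocalHom (algebraMap R₁ S)], ringKrullDim R₁ = d → LechC R₁ S d d') :
    LechC R S d d' :=
  lechC_of_completion' R S d d' hd fun R₁ _ _ _ _ _ _ _ _ _ h => H R₁ h

/-- NORMALISATION: `R` a complete Noetherian local domain, `S` complete with algebraically closed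
residue field. The new `R₁` receives a local homomorphism from `R` (so `p = 0` in `R` gives `p = 0`
in `R₁` and the residue field of `R₁` is infinite if that of `R` is). -/
theorem lechC_of_normalized' (R : Type u) (S : Type v) [CommRing R] [IsLocalRing R]
    [IsNoetherianRing R] [CommRing S] [IsLocalRing S] [IsNoetherianRing S]
    [Algebra R S] [Module.Flat R S] [IsLocalHom (algebraMap R S)] (d d' : ℕ)
    (hd : ringKrullDim R = d) (hd' : ringKrullDim S = d')
    (H : ∀ (R₁ : Type u) (S₁ : Type v) [CommRing R₁] [IsLocalRing R₁] [IsNoetherianRing R₁]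
      [IsDomain R₁] [IsAdicComplete (maximalIdeal R₁) R₁]
      [CommRing S₁] [IsLocalRing S₁] [IsNoetherianRing S₁]
      [IsAdicComplete (maximalIdeal S₁) S₁] [Algebra R₁ S₁] [Module.Flat R₁ S₁]
      [IsLocalHom (algebraMap R₁ S₁)] [IsAlgClosed (ResidueField S₁)],
      ∀ φ : R →+* R₁, IsLocalHom φ → ringKrullDim R₁ = d → ringKrullDim S₁ = d' →
        LechC R₁ S₁ d d') :
    LechC R S d d' := by
  refine lechC_of_gonflement R S d d' hd' fun S₁ _ _ _ _ _ _ _ _ hd1 => ?_
  refine lechC_of_completion' R S₁ d d' hd fun R₁ _ _ _ _ _ _ _ φ hφ hdR => ?_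
  refine domain_reduction R₁ S₁ d d' hdR hd1 fun P hP _ _ _ _ hP1 hP2 => ?_
  have j1 : IsAdicComplete (maximalIdeal (R₁ ⧸ P)) (R₁ ⧸ P) := isAdicComplete_quotient R₁ P
  have j2 : IsAdicComplete (maximalIdeal (S₁ ⧸ P.map (algebraMap R₁ S₁)))
      (S₁ ⧸ P.map (algebraMap R₁ S₁)) := isAdicComplete_quotient S₁ _
  have j3 : IsLocalHom (Ideal.Quotient.mk (P.map (algebraMap R₁ S₁))) :=
    IsLocalHom.of_surjective _ Ideal.Quotient.mk_surjective
  have j4 : Function.Bijective (ResidueField.map (Ideal.Quotient.mk (P.map (algebraMap R₁ S₁)))) := by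
    refine ⟨RingHom.injective _, ?_⟩
    intro y
    obtain ⟨y, rfl⟩ := residue_surjective y
    obtain ⟨x, rfl⟩ := Ideal.Quotient.mk_surjective y
    exact ⟨residue _ x, rfl⟩
  have j5 : IsAlgClosed (ResidueField (S₁ ⧸ P.map (algebraMap R₁ S₁))) :=
    IsAlgClosed.of_ringEquiv (ResidueField S₁) _ (RingEquiv.ofBijective _ j4)
  have j6 : IsLocalHom (Ideal.Quotient.mk P) :=
    IsLocalHom.of_surjective _ Ideal.Quotient.mk_surjective
  exact H (R₁ ⧸ P) (S₁ ⧸ P.map (algebraMap R₁ S₁)) ((Ideal.Quotient.mk P).comp φ)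
    (RingHom.isLocalHom_comp _ _) hP1 hP2

/-- NORMALISATION: `R` a complete Noetherian local domain, `S` complete with algebraically closed
residue field. -/
theorem lechC_of_normalized (R : Type u) (S : Type v) [CommRing R] [IsLocalRing R]
    [IsNoetherianRing R] [CommRing S] [IsLocalRing S] [IsNoetherianRing S]
    [Algebra R S] [Module.Flat R S] [IsLocalHom (algebraMap R S)] (d d' : ℕ)
    (hd : ringKrullDim R = d) (hd' : ringKrullDim S = d')
    (H : ∀ (R₁ : Type u) (S₁ : Type v) [CommRing R₁] [IsLocalRing R₁] [IsNoetherianRing R₁]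
      [IsDomain R₁] [IsAdicComplete (maximalIdeal R₁) R₁]
      [CommRing S₁] [IsLocalRing S₁] [IsNoetherianRing S₁]
      [IsAdicComplete (maximalIdeal S₁) S₁] [Algebra R₁ S₁] [Module.Flat R₁ S₁]
      [IsLocalHom (algebraMap R₁ S₁)] [IsAlgClosed (ResidueField S₁)],
      ringKrullDim R₁ = d → ringKrullDim S₁ = d' → LechC R₁ S₁ d d') :
    LechC R S d d' :=
  lechC_of_normalized' R S d d' hd hd'
    fun R₁ S₁ _ _ _ _ _ _ _ _ _ _ _ _ _ _ _ h1 h2 => H R₁ S₁ h1 h2

end Crest.Agent.R183.G
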