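import Crest.Agent.R183.G1

/-!
# R183, block RB (helper234), part 2: adic completions
-/

set_option autoImplicit false

namespace Crest.Agent.R183.G

open Ideal AdicCompletion

variable {R : Type*} [CommRing R]

theorem isNoetherianRing_adicCompletion (I : Ideal R) (hI : I.FG) [IsNoetherianRing (R ⧸ I)] :
    IsNoetherianRing (AdicCompletion I R) := by
  have := AdicCompletion.isAdicComplete_self I hI
  have hfg : (I.map (algebraMap R (AdicCompletion I R))).FG := hI.map _
  have hker := AdicCompletion.ker_evalOneₐ_eq_map I hI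
  have : IsNoetherianRing (AdicCompletion I R ⧸ I.map (algebraMap R (AdicCompletion I R))) := by
    have e : (AdicCompletion I R ⧸ RingHom.ker (evalOneₐ I).toRingHom) ≃+* (R ⧸ I) :=
      RingHom.quotientKerEquivOfSurjective (f := (evalOneₐ I).toRingHom) (evalOneₐ_surjective I)
    rw [hker] at e
    exact isNoetherianRing_of_ringEquiv _ e.symm
  exact isNoetherianRing_of_isAdicComplete _ hfg

instance isNoetherianRing_adicCompletion' [IsNoetherianRing R] (I : Ideal R) :
    IsNoetherianRing (AdicCompletion I R) :=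
  isNoetherianRing_adicCompletion I (IsNoetherian.noetherian I)

theorem ker_evalₐ_eq_map (I : Ideal R) (hI : I.FG) (n : ℕ) :
    RingHom.ker (evalₐ I n).toRingHom = (I ^ n).map (algebraMap R (AdicCompletion I R)) := by
  ext x
  trans x ∈ (AdicCompletion.eval I R n).ker
  · have eq : I ^ n * ⊤ = I ^ n := by simp
    have : Function.Injective (Ideal.Quotient.factor ((le_of_eq eq))) := by
      simpa [RingHom.injective_iff_ker_eq_bot, Ideal.Quotient.factor_ker]
        using Ideal.map_mk_eq_bot_of_le (le_of_eq eq.symm)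
    simpa [← factor_eval_eq_evalₐ] using map_eq_zero_iff _ this
  · simp [← pow_smul_top_eq_ker_eval hI]

/-- `R ⧸ I ^ n ≃ R^ ⧸ I ^ n R^`. -/
theorem quotientMap_adicCompletion_bijective (I : Ideal R) (hI : I.FG) (n : ℕ) :
    Function.Bijective (algebraMap (R ⧸ I ^ n)
      (AdicCompletion I R ⧸ (I ^ n).map (algebraMap R (AdicCompletion I R)))) := by
  have hker := ker_evalₐ_eq_map I hI n
  constructor
  · rw [injective_iff_map_eq_zero]
    intro x hx
    obtain ⟨x, rfl⟩ := Ideal.Quotient.mk_surjective x
    have h1 : algebraMap R (AdicCompletion I R) x ∈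
        (I ^ n).map (algebraMap R (AdicCompletion I R)) := by
      rw [← Ideal.Quotient.eq_zero_iff_mem]
      exact hx
    rw [← hker, RingHom.mem_ker] at h1
    have h2 : evalₐ I n (algebraMap R (AdicCompletion I R) x) = Ideal.Quotient.mk _ x := by
      rw [AlgHom.commutes]; rfl
    rw [← h2]; exact h1
  · intro y
    obtain ⟨y, rfl⟩ := Ideal.Quotient.mk_surjective y
    obtain ⟨x, hx⟩ := Ideal.Quotient.mk_surjective (evalₐ I n y)
    refine ⟨Ideal.Quotient.mk _ x, ?_⟩
    change Ideal.Quotient.mk _ (algebraMap R (AdicCompletion I R) x) = _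
    rw [Ideal.Quotient.mk_eq_mk_iff_sub_mem, ← hker, RingHom.mem_ker]
    change evalₐ I n _ = 0
    rw [map_sub, sub_eq_zero, ← hx, AlgHom.commutes]; rfl

end Crest.Agent.R183.G
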