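import Crest.Agent.R183.G2

/-!
# R183, block RB (helper234), part 3: local criterion of flatness (Noetherian case)
-/

set_option autoImplicit false

namespace Crest.Agent.R183.G

open Ideal TensorProduct

section

variable {A B : Type*} [CommRing A] [CommRing B] [Algebra A B]

theorem rTensor_injective_of_flat_baseChange (Q : Type*) [CommRing Q] [Algebra A Q]
    [Module.Flat Q (Q ⊗[A] B)] {M N : Type*} [AddCommGroup M] [AddCommGroup N] [Module A M]
    [Module A N] [Module Q M] [Module Q N] [IsScalarTower A Q M] [IsScalarTower A Q N]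
    (f : M →ₗ[Q] N) (hf : Function.Injective f) :
    Function.Injective ((f.restrictScalars A).rTensor B) := by
  have h1 : Function.Injective (f.rTensor (Q ⊗[A] B)) :=
    Module.Flat.rTensor_preserves_injective_linearMap f hf
  have h2 : ∀ x, (f.restrictScalars A).rTensor B
      (TensorProduct.AlgebraTensorModule.cancelBaseChange A Q Q M B x) =
      TensorProduct.AlgebraTensorModule.cancelBaseChange A Q Q N B (f.rTensor (Q ⊗[A] B) x) := by
    intro x
    induction x using TensorProduct.induction_on with
    | zero => simp
    | add x y hx hy => simp only [map_add, hx, hy]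
    | tmul m y =>
      induction y using TensorProduct.induction_on with
      | zero => simp
      | add x y hx hy => simp only [map_add, tmul_add, hx, hy]
      | tmul q b => simp
  rw [injective_iff_map_eq_zero]
  intro y hy
  obtain ⟨x, rfl⟩ := (TensorProduct.AlgebraTensorModule.cancelBaseChange A Q Q M B).surjective y
  rw [h2, LinearEquiv.map_eq_zero_iff, map_eq_zero_iff _ h1] at hy
  rw [hy, map_zero]

/-- Local criterion of flatness, Noetherian form: if `I B` is in the Jacobson radical of `B` and
`B ⧸ I ^ n B` is flat over `A ⧸ I ^ n` for all `n`, then `B` is flat over `A`. -/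
theorem flat_of_forall_flat_quotient [IsNoetherianRing A] [IsNoetherianRing B] (I : Ideal A)
    (hI : I.map (algebraMap A B) ≤ Ideal.jacobson ⊥)
    (h : ∀ n, Module.Flat (A ⧸ I ^ n) ((A ⧸ I ^ n) ⊗[A] B)) : Module.Flat A B := by
  rw [Module.Flat.iff_rTensor_injective]
  intro J hJ
  rw [injective_iff_map_eq_zero]
  intro x hx
  -- it is enough that `x ∈ I ^ n (J ⊗ B)` for all `n`
  have key : ∀ n : ℕ, x ∈ (I ^ n • ⊤ : Submodule A (J ⊗[A] B)) := by
    intro n
    obtain ⟨k, hk⟩ := I.exists_pow_inf_eq_pow_smul (M := A) J
    set m := n + k with hm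
    have hAR : (I ^ m ⊓ J : Ideal A) ≤ I ^ n * J := by
      have := hk m (by omega)
      rw [show m - k = n by omega] at this
      have h2 : (I ^ m • ⊤ : Submodule A A) = I ^ m := by simp
      rw [h2] at this
      rw [this]
      exact Submodule.smul_mono le_rfl inf_le_right
    let Q := A ⧸ I ^ m
    have := h m
    -- the image of `J` in `Q`
    let J' : Ideal Q := J.map (Ideal.Quotient.mk (I ^ m))
    let q : J →ₗ[A] J' :=
      ((Ideal.Quotient.mkₐ A (I ^ m)).toLinearMap.restrict (p := J) (q := J'.restrictScalars A)
        (fun x hx => Ideal.mem_map_of_mem _ hx))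
    have hq : Function.Surjective q := by
      rintro ⟨y, hy⟩
      obtain ⟨z, hz, rfl⟩ := (Ideal.mem_map_iff_of_surjective _ Ideal.Quotient.mk_surjective).1 hy
      exact ⟨⟨z, hz⟩, rfl⟩
    have hinj := rTensor_injective_of_flat_baseChange (A := A) (B := B) Q (J'.subtype)
      (Submodule.subtype_injective _)
    have hcomm : ((J'.subtype.restrictScalars A).rTensor B) (q.rTensor B x) = 0 := by
      have h3 : (J'.subtype.restrictScalars A) ∘ₗ q =
          (Ideal.Quotient.mkₐ A (I ^ m)).toLinearMap ∘ₗ J.subtype := by
        ext z; rfl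
      rw [← LinearMap.comp_apply, ← LinearMap.rTensor_comp, h3, LinearMap.rTensor_comp,
        LinearMap.comp_apply, hx, map_zero]
    have hx' : q.rTensor B x = 0 := by
      rwa [map_eq_zero_iff _ hinj] at hcomm
    -- `ker q`
    have hex : Function.Exact ((LinearMap.ker q).subtype.rTensor B) (q.rTensor B) :=
      rTensor_exact B (by exact LinearMap.exact_subtype_ker_map q) hq
    obtain ⟨y, rfl⟩ := (hex x).1 hx'
    have hker : LinearMap.ker q ≤ (I ^ n • ⊤ : Submodule A J) := by
      rintro ⟨z, hz⟩ hz'
      have h4 : z ∈ I ^ m := by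
        have : (Ideal.Quotient.mk (I ^ m)) z = 0 := by
          have := congrArg (Subtype.val) (LinearMap.mem_ker.1 hz')
          exact this
        rwa [Ideal.Quotient.eq_zero_iff_mem] at this
      have h5 : z ∈ I ^ n * J := hAR ⟨h4, hz⟩
      have h6 : (I ^ n • ⊤ : Submodule A J).map J.subtype = I ^ n • J := by
        rw [Submodule.map_smul'', Submodule.map_top, Submodule.range_subtype]
      have h7 : z ∈ (I ^ n • ⊤ : Submodule A J).map J.subtype := by
        rw [h6]; exact h5
      obtain ⟨w, hw, hwz⟩ := h7
      have : w = ⟨z, hz⟩ := Subtype.ext hwz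
      rwa [← this]
    clear hx hx' hcomm hex
    induction y using TensorProduct.induction_on with
    | zero => simp
    | add a b ha hb => rw [map_add]; exact add_mem ha hb
    | tmul a b =>
      rw [LinearMap.rTensor_tmul]
      have h8 : ∀ w ∈ (I ^ n • ⊤ : Submodule A J), w ⊗ₜ[A] b ∈
          (I ^ n • ⊤ : Submodule A (J ⊗[A] B)) := by
        intro w hw
        refine Submodule.smul_induction_on hw ?_ ?_
        · intro r hr t _
          rw [← TensorProduct.smul_tmul']
          exact Submodule.smul_mem_smul hr trivial
        · intro u v hu hv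
          rw [TensorProduct.add_tmul]
          exact add_mem hu hv
      exact h8 _ (hker a.2)
  -- Krull intersection for the finite `B`-module `B ⊗ J`
  have hKrull : (⨅ i : ℕ, (I.map (algebraMap A B)) ^ i • ⊤ : Submodule B (B ⊗[A] J)) = ⊥ := by
    have : Module.Finite A J := Module.Finite.iff_fg.2 hJ
    exact Ideal.iInf_pow_smul_eq_bot_of_le_jacobson _ hI
  have hx2 : TensorProduct.comm A J B x = 0 := by
    rw [← Submodule.mem_bot B, ← hKrull, Submodule.mem_iInf]
    intro n
    have h9 : ∀ w ∈ (I ^ n • ⊤ : Submodule A (J ⊗[A] B)), TensorProduct.comm A J B w ∈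
        ((I.map (algebraMap A B)) ^ n • ⊤ : Submodule B (B ⊗[A] J)) := by
      intro w hw
      refine Submodule.smul_induction_on hw ?_ ?_
      · intro r hr t _
        rw [map_smul, ← algebraMap_smul B r]
        refine Submodule.smul_mem_smul ?_ trivial
        rw [← Ideal.map_pow]
        exact Ideal.mem_map_of_mem _ hr
      · intro u v hu hv
        rw [map_add]
        exact add_mem hu hv
    exact h9 _ (key n)
  rwa [LinearEquiv.map_eq_zero_iff] at hx2

end

end Crest.Agent.R183.G
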