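import Crest.Agent.R183.G3

/-!
# R183, block RB (helper234), part 4: lengths and dimension under flat local base change
-/

set_option autoImplicit false

namespace Crest.Agent.R183.G

open Ideal TensorProduct IsLocalRing

section length

variable {R S : Type*} [CommRing R] [CommRing S] [Algebra R S]

theorem isLocalHom_of_map_maximalIdeal [IsLocalRing R] [IsLocalRing S]
    (hm : (maximalIdeal R).map (algebraMap R S) = maximalIdeal S) :
    IsLocalHom (algebraMap R S) := by
  apply ((IsLocalRing.local_hom_TFAE (algebraMap R S)).out 0 2).mpr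
  exact hm.le

theorem length_quotient_maximalIdeal [IsLocalRing S] :
    Module.length S (S ⧸ maximalIdeal S) = 1 := by
  have : IsSimpleModule S (S ⧸ maximalIdeal S) := by
    rw [isSimpleModule_iff_isCoatom]
    exact (maximalIdeal.isMaximal S).out
  exact Module.length_eq_one _ _

/-- If `R → S` is flat local with `m S = n` then `length (S ⧸ I S) = length (R ⧸ I)`. -/
theorem length_quotient_map [IsLocalRing R] [IsLocalRing S] [Module.Flat R S]
    (hm : (maximalIdeal R).map (algebraMap R S) = maximalIdeal S) (I : Ideal R) :
    Module.length S (S ⧸ I.map (algebraMap R S)) = Module.length R (R ⧸ I) := by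
  have := isLocalHom_of_map_maximalIdeal hm
  have h1 := IsLocalRing.length_baseChange R S (R ⧸ I)
  rw [hm, length_quotient_maximalIdeal, mul_one] at h1
  rw [← h1]
  exact (Ideal.qoutMapEquivTensorQout S).length_eq

/-- If `R → S` is flat local with `m S = n` then `length (S ⧸ n ^ N) = length (R ⧸ m ^ N)`. -/
theorem length_quotient_maximalIdeal_pow [IsLocalRing R] [IsLocalRing S]
    [Module.Flat R S]
    (hm : (maximalIdeal R).map (algebraMap R S) = maximalIdeal S) (N : ℕ) :
    Module.length S (S ⧸ maximalIdeal S ^ N) = Module.length R (R ⧸ maximalIdeal R ^ N) := by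
  rw [← hm, ← Ideal.map_pow]
  exact length_quotient_map hm _

/-- If `R → S` is flat local with `m S = n` then `dim S = dim R`. -/
theorem ringKrullDim_eq_of_map_maximalIdeal [IsLocalRing R] [IsNoetherianRing R] [IsLocalRing S]
    [IsNoetherianRing S] [Module.Flat R S]
    (hm : (maximalIdeal R).map (algebraMap R S) = maximalIdeal S) :
    ringKrullDim S = ringKrullDim R := by
  have := isLocalHom_of_map_maximalIdeal hm
  have : (maximalIdeal S).LiesOver (maximalIdeal R) := by
    refine ⟨?_⟩
    exact (IsLocalRing.maximalIdeal_comap (algebraMap R S)).symm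
  rw [← IsLocalRing.maximalIdeal_height_eq_ringKrullDim,
    ← IsLocalRing.maximalIdeal_height_eq_ringKrullDim,
    Ideal.height_eq_height_add_of_liesOver_of_hasGoingDown (maximalIdeal R) (maximalIdeal S)]
  rw [hm, Ideal.map_quotient_self]
  have : IsDomain (S ⧸ maximalIdeal S) := Ideal.Quotient.isDomain _
  rw [Ideal.height_bot, add_zero]

end length

end Crest.Agent.R183.G
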