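import Crest.Agent.R183.G5

/-!
# R183, block RB (helper234), part 6: gonflement, algebraic case, one step
-/

set_option autoImplicit false

namespace Crest.Agent.R183.G

open Ideal IsLocalRing Polynomial

universe u v

section step

variable {R : Type u} [CommRing R] [IsLocalRing R] {K : Type v} [Field K] [Algebra R K]
  [Algebra (ResidueField R) K] [IsScalarTower R (ResidueField R) K]
  [Algebra.IsAlgebraic (ResidueField R) K]

/-- The image of an `R`-algebra in the algebraic extension `K` of the residue field, as an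
intermediate field. -/
noncomputable def imageField {T : Type*} [CommRing T] [Algebra R T] (φ : T →ₐ[R] K) :
    IntermediateField (ResidueField R) K :=
  let S : Subalgebra (ResidueField R) K :=
    { carrier := Set.range φ
      mul_mem' := by rintro _ _ ⟨a, rfl⟩ ⟨b, rfl⟩; exact ⟨a * b, map_mul _ _ _⟩
      one_mem' := ⟨1, map_one _⟩
      add_mem' := by rintro _ _ ⟨a, rfl⟩ ⟨b, rfl⟩; exact ⟨a + b, map_add _ _ _⟩
      zero_mem' := ⟨0, map_zero _⟩
      algebraMap_mem' := by
        intro r
        obtain ⟨r, rfl⟩ := residue_surjective r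
        refine ⟨algebraMap R T r, ?_⟩
        rw [φ.commutes, IsScalarTower.algebraMap_apply R (ResidueField R) K]
        rfl }
  S.toIntermediateField' (Subalgebra.isField_of_algebraic S)

theorem mem_imageField {T : Type*} [CommRing T] [Algebra R T] (φ : T →ₐ[R] K) (x : K) :
    x ∈ imageField φ ↔ ∃ t, φ t = x := Iff.rfl

/-- Adjoining one algebraic element. -/
theorem exists_step {T : Type*} [CommRing T] [Algebra R T] [Module.Flat R T] (φ : T →ₐ[R] K)
    (hφ : RingHom.ker φ = (maximalIdeal R).map (algebraMap R T)) (a : K) :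
    ∃ f : T[X], f.Monic ∧ ∃ φ' : AdjoinRoot f →ₐ[R] K,
      (∀ t, φ' (AdjoinRoot.of f t) = φ t) ∧ φ' (AdjoinRoot.root f) = a ∧
      RingHom.ker φ' = (maximalIdeal R).map (algebraMap R (AdjoinRoot f)) := by
  classical
  let E := imageField φ
  let π : T →+* E := φ.toRingHom.codRestrict E (fun t => ⟨t, rfl⟩)
  have hπ : Function.Surjective π := by
    rintro ⟨x, t, rfl⟩
    exact ⟨t, rfl⟩
  have hπφ : ∀ t, (algebraMap E K) (π t) = φ t := fun t => rfl
  have hkerπ : RingHom.ker π = (maximalIdeal R).map (algebraMap R T) := by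
    rw [← hφ]
    ext t
    rw [RingHom.mem_ker, RingHom.mem_ker]
    constructor
    · intro h
      have := hπφ t
      rw [h, map_zero] at this
      exact this.symm
    · intro h
      have h1 := hπφ t
      have h2 : φ t = 0 := h
      rw [h2] at h1
      exact (map_eq_zero_iff _ (algebraMap E K).injective).1 h1
  have hint : IsIntegral E a :=
    (Algebra.IsAlgebraic.isAlgebraic (R := ResidueField R) a).isIntegral.tower_top
  let f0 : E[X] := minpoly E a
  have hlift : f0 ∈ Polynomial.lifts π := by
    rw [Polynomial.lifts_iff_coeff_lifts]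
    intro n
    exact hπ _
  obtain ⟨f, hf, -, hfm⟩ := Polynomial.lifts_and_natDegree_eq_and_monic hlift (minpoly.monic hint)
  have heval : ∀ g : T[X], Polynomial.eval₂ (φ : T →+* K) a g = Polynomial.aeval a (g.map π) := by
    intro g
    rw [Polynomial.aeval_def, Polynomial.eval₂_map]
    rfl
  have hroot : Polynomial.eval₂ (φ : T →+* K) a f = 0 := by
    rw [heval, hf, minpoly.aeval]
  let φ' : AdjoinRoot f →ₐ[R] K :=
    { toRingHom := AdjoinRoot.lift (φ : T →+* K) a hroot
      commutes' := by
        intro r
        change AdjoinRoot.lift (φ : T →+* K) a hroot (algebraMap R (AdjoinRoot f) r) = _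
        rw [IsScalarTower.algebraMap_apply R T (AdjoinRoot f), AdjoinRoot.algebraMap_eq,
          AdjoinRoot.lift_of]
        exact φ.commutes r }
  have hφ'mk : ∀ g : T[X], φ' (AdjoinRoot.mk f g) = Polynomial.aeval a (g.map π) := by
    intro g
    rw [← heval]
    exact AdjoinRoot.lift_mk hroot g
  refine ⟨f, hfm, φ', fun t => AdjoinRoot.lift_of hroot, AdjoinRoot.lift_root hroot,
    le_antisymm ?_ ?_⟩
  · intro y hy
    obtain ⟨g, rfl⟩ := AdjoinRoot.mk_surjective y
    rw [RingHom.mem_ker, hφ'mk] at hy
    obtain ⟨h, hh⟩ := minpoly.dvd E a hy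
    obtain ⟨h', rfl⟩ := Polynomial.map_surjective π hπ h
    have h1 : (g - f * h').map π = 0 := by
      rw [Polynomial.map_sub, Polynomial.map_mul, hf, hh, sub_self]
    have h2 : g - f * h' ∈ ((maximalIdeal R).map (algebraMap R T)).map (Polynomial.C) := by
      rw [Ideal.mem_map_C_iff]
      intro n
      rw [← hkerπ, RingHom.mem_ker, ← Polynomial.coeff_map, h1, Polynomial.coeff_zero]
    have h3 : AdjoinRoot.mk f g = AdjoinRoot.mk f (g - f * h') := by
      rw [map_sub, map_mul, AdjoinRoot.mk_self, zero_mul, sub_zero]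
    rw [h3]
    have h4 := Ideal.mem_map_of_mem (AdjoinRoot.mk f) h2
    rw [Ideal.map_map, Ideal.map_map] at h4
    exact h4
  · rw [Ideal.map_le_iff_le_comap]
    intro r hr
    rw [Ideal.mem_comap, RingHom.mem_ker]
    change φ' (algebraMap R (AdjoinRoot f) r) = 0
    rw [φ'.commutes, IsScalarTower.algebraMap_apply R (ResidueField R) K]
    have : algebraMap R (ResidueField R) r = 0 := (residue_eq_zero_iff r).2 hr
    rw [this, map_zero]

omit [IsLocalRing R] in
theorem flat_adjoinRoot {T : Type*} [CommRing T] [Algebra R T] [Module.Flat R T] (f : T[X])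
    (hf : f.Monic) : Module.Flat R (AdjoinRoot f) := by
  have : Module.Free T (AdjoinRoot f) := hf.free_adjoinRoot
  exact Module.Flat.trans R T (AdjoinRoot f)

end step

end Crest.Agent.R183.G
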