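import Crest.Agent.R183.G6

/-!
# R183, block RB (helper234), part 7: gonflement, algebraic case, Zorn
-/

set_option autoImplicit false

namespace Crest.Agent.R183.G

open Ideal IsLocalRing

universe u v

section zorn

variable (R : Type u) [CommRing R] [IsLocalRing R] (K : Type v) [Field K] [Algebra R K]

/-- The evaluation `R[X_a : a ∈ A] → K`. -/
noncomputable def evA (A : Set K) : MvPolynomial A R →ₐ[R] K :=
  MvPolynomial.aeval (fun a : A => (a : K))

/-- Stages of the construction of a flat `R`-algebra with residue field `K`. -/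
structure Stage where
  A : Set K
  J : Ideal (MvPolynomial A R)
  ker_eq : RingHom.ker (evA R K A) = J ⊔ (maximalIdeal R).map (algebraMap R (MvPolynomial A R))
  flat : Module.Flat R (MvPolynomial A R ⧸ J)

variable {R K}

/-- The order on stages. -/
def Stage.r (s t : Stage R K) : Prop :=
  ∃ h : s.A ⊆ t.A, ∀ q ∈ s.J, MvPolynomial.rename (Set.inclusion h) q ∈ t.J

theorem Stage.r_refl (s : Stage R K) : s.r s := by
  refine ⟨subset_rfl, fun q hq => ?_⟩
  have : Set.inclusion (subset_rfl : s.A ⊆ s.A) = id := funext fun _ => rfl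
  rw [this, MvPolynomial.rename_id_apply]
  exact hq

theorem Stage.r_trans {s t w : Stage R K} (h1 : s.r t) (h2 : t.r w) : s.r w := by
  obtain ⟨h1, h1'⟩ := h1
  obtain ⟨h2, h2'⟩ := h2
  refine ⟨h1.trans h2, fun q hq => ?_⟩
  have := h2' _ (h1' q hq)
  rwa [MvPolynomial.rename_rename, Set.inclusion_comp_inclusion] at this

omit [IsLocalRing R] in
theorem evA_rename {A B : Set K} (h : A ⊆ B) (q : MvPolynomial A R) :
    evA R K B (MvPolynomial.rename (Set.inclusion h) q) = evA R K A q := by
  rw [evA, MvPolynomial.aeval_rename]; rfl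

/-- The step: any element can be added. -/
theorem Stage.exists_insert [Algebra (ResidueField R) K] [IsScalarTower R (ResidueField R) K]
    [Algebra.IsAlgebraic (ResidueField R) K] (s : Stage R K) (a : K) :
    ∃ t : Stage R K, s.r t ∧ a ∈ t.A := by
  classical
  by_cases haA : a ∈ s.A
  · exact ⟨s, s.r_refl, haA⟩
  let T := MvPolynomial s.A R ⧸ s.J
  have := s.flat
  have hle : s.J ≤ RingHom.ker (evA R K s.A) := by rw [s.ker_eq]; exact le_sup_left
  let φ : T →ₐ[R] K := Ideal.Quotient.liftₐ s.J (evA R K s.A) (fun x hx => hle hx)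
  have hφmk : ∀ q, φ (Ideal.Quotient.mk s.J q) = evA R K s.A q := fun q => rfl
  have hφ : RingHom.ker φ = (maximalIdeal R).map (algebraMap R T) := by
    apply le_antisymm
    · intro y hy
      obtain ⟨q, rfl⟩ := Ideal.Quotient.mk_surjective y
      have h1 : q ∈ RingHom.ker (evA R K s.A) := by
        rw [RingHom.mem_ker, ← hφmk]; exact hy
      rw [s.ker_eq] at h1
      obtain ⟨x, hx, z, hz, rfl⟩ := Submodule.mem_sup.1 h1
      rw [map_add, Ideal.Quotient.eq_zero_iff_mem.2 hx, zero_add]
      have := Ideal.mem_map_of_mem (Ideal.Quotient.mk s.J) hz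
      rw [Ideal.map_map] at this
      exact this
    · rw [Ideal.map_le_iff_le_comap]
      intro r hr
      rw [Ideal.mem_comap, RingHom.mem_ker, φ.commutes,
        IsScalarTower.algebraMap_apply R (ResidueField R) K]
      have : algebraMap R (ResidueField R) r = 0 := (residue_eq_zero_iff r).2 hr
      rw [this, map_zero]
  obtain ⟨f, hf, φ', h1, h2, h3⟩ := exists_step φ hφ a
  have := flat_adjoinRoot (R := R) f hf
  -- the new stage
  let B : Set K := insert a s.A
  have hAB : s.A ⊆ B := Set.subset_insert _ _
  let ψ : MvPolynomial B R →ₐ[R] AdjoinRoot f :=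
    MvPolynomial.aeval (fun b : B =>
      if h : (b : K) ∈ s.A then AdjoinRoot.of f (Ideal.Quotient.mk s.J (MvPolynomial.X ⟨b, h⟩))
      else AdjoinRoot.root f)
  have hψ1 : ∀ q : MvPolynomial s.A R, ψ (MvPolynomial.rename (Set.inclusion hAB) q) =
      AdjoinRoot.of f (Ideal.Quotient.mk s.J q) := by
    intro q
    have : (ψ.comp (MvPolynomial.rename (Set.inclusion hAB))) =
      ((IsScalarTower.toAlgHom R T (AdjoinRoot f)).comp (Ideal.Quotient.mkₐ R s.J)) := by
      apply MvPolynomial.algHom_ext
      rintro ⟨b, hb⟩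
      simp only [ψ, AlgHom.comp_apply, MvPolynomial.rename_X, MvPolynomial.aeval_X]
      rw [dif_pos (by exact hb)]
      rfl
    exact DFunLike.congr_fun this q
  have hψa : ψ (MvPolynomial.X ⟨a, Set.mem_insert _ _⟩) = AdjoinRoot.root f := by
    simp only [ψ, MvPolynomial.aeval_X]
    rw [dif_neg haA]
  have hψsurj : Function.Surjective ψ := by
    intro y
    obtain ⟨g, rfl⟩ := AdjoinRoot.mk_surjective y
    induction g using Polynomial.induction_on' with
    | add p q hp hq =>
      obtain ⟨x, hx⟩ := hp
      obtain ⟨z, hz⟩ := hq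
      exact ⟨x + z, by rw [map_add, map_add, hx, hz]⟩
    | monomial n c =>
      obtain ⟨q, rfl⟩ := Ideal.Quotient.mk_surjective c
      refine ⟨MvPolynomial.rename (Set.inclusion hAB) q *
        (MvPolynomial.X ⟨a, Set.mem_insert _ _⟩) ^ n, ?_⟩
      rw [map_mul, map_pow, hψ1, hψa, ← Polynomial.C_mul_X_pow_eq_monomial, map_mul, map_pow,
        AdjoinRoot.mk_X, AdjoinRoot.mk_C]
  have hφψ : φ'.comp ψ = evA R K B := by
    apply MvPolynomial.algHom_ext
    rintro ⟨b, hb⟩
    have hev : evA R K B (MvPolynomial.X ⟨b, hb⟩) = b := MvPolynomial.aeval_X _ _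
    rw [AlgHom.comp_apply, hev]
    by_cases hbA : b ∈ s.A
    · have : ψ (MvPolynomial.X ⟨b, hb⟩) =
        AdjoinRoot.of f (Ideal.Quotient.mk s.J (MvPolynomial.X ⟨b, hbA⟩)) := by
        simp only [ψ, MvPolynomial.aeval_X]
        rw [dif_pos hbA]
      rw [this, h1, hφmk]
      exact MvPolynomial.aeval_X _ _
    · have : b = a := (Set.mem_insert_iff.1 hb).resolve_right hbA
      subst this
      rw [hψa, h2]
  let t : Stage R K :=
    { A := B
      J := RingHom.ker ψ
      ker_eq := by
        rw [← hφψ]
        apply le_antisymm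
        · intro x hx
          have h4 : ψ x ∈ RingHom.ker φ' := hx
          rw [h3] at h4
          have h5 : (maximalIdeal R).map (algebraMap R (AdjoinRoot f)) =
            ((maximalIdeal R).map (algebraMap R (MvPolynomial B R))).map
              (ψ : MvPolynomial B R →+* AdjoinRoot f) := by
            rw [Ideal.map_map]
            congr 1
            ext r
            exact (ψ.commutes r).symm
          rw [h5, Ideal.mem_map_iff_of_surjective (ψ : MvPolynomial B R →+* AdjoinRoot f)
            hψsurj] at h4
          obtain ⟨z, hz, hzx⟩ := h4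
          have h6 : x - z ∈ RingHom.ker ψ := by
            have hzx' : ψ z = ψ x := hzx
            rw [RingHom.mem_ker, map_sub, hzx', sub_self]
          have : x = (x - z) + z := by ring
          rw [this]
          exact Submodule.add_mem_sup h6 hz
        · refine sup_le ?_ ?_
          · intro x hx
            rw [RingHom.mem_ker] at hx ⊢
            rw [AlgHom.comp_apply, hx, map_zero]
          · rw [Ideal.map_le_iff_le_comap]
            intro r hr
            rw [Ideal.mem_comap, RingHom.mem_ker, AlgHom.commutes,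
              IsScalarTower.algebraMap_apply R (ResidueField R) K]
            have : algebraMap R (ResidueField R) r = 0 := (residue_eq_zero_iff r).2 hr
            rw [this, map_zero]
      flat := Module.Flat.of_linearEquiv
        (Ideal.quotientKerAlgEquivOfSurjective hψsurj).toLinearEquiv }
  refine ⟨t, ⟨hAB, fun q hq => ?_⟩, Set.mem_insert _ _⟩
  change MvPolynomial.rename (Set.inclusion hAB) q ∈ RingHom.ker ψ
  rw [RingHom.mem_ker, hψ1, Ideal.Quotient.eq_zero_iff_mem.2 hq, map_zero]

end zorn

end Crest.Agent.R183.G
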