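import Crest.Agent.R183.G7

/-!
# R183, block RB (helper234), part 8: gonflement, algebraic case, chains and conclusion
-/

set_option autoImplicit false

namespace Crest.Agent.R183.G

open Ideal IsLocalRing

universe u v

section chain

variable {R : Type u} [CommRing R] [IsLocalRing R] {K : Type v} [Field K] [Algebra R K]

theorem map_maximalIdeal_le_ker_evA [Algebra (ResidueField R) K]
    [IsScalarTower R (ResidueField R) K] (A : Set K) :
    (maximalIdeal R).map (algebraMap R (MvPolynomial A R)) ≤ RingHom.ker (evA R K A) := by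
  rw [Ideal.map_le_iff_le_comap]
  intro r hr
  rw [Ideal.mem_comap, RingHom.mem_ker, AlgHom.commutes,
    IsScalarTower.algebraMap_apply R (ResidueField R) K]
  have : algebraMap R (ResidueField R) r = 0 := (residue_eq_zero_iff r).2 hr
  rw [this, map_zero]

/-- The initial stage. -/
theorem Stage.nonempty [Algebra (ResidueField R) K] [IsScalarTower R (ResidueField R) K] :
    Nonempty (Stage R K) := by
  refine ⟨⟨∅, ⊥, ?_, ?_⟩⟩
  · rw [bot_sup_eq]
    refine le_antisymm ?_ (map_maximalIdeal_le_ker_evA _)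
    intro q hq
    rw [MvPolynomial.eq_C_of_isEmpty q] at hq ⊢
    refine Ideal.mem_map_of_mem (algebraMap R (MvPolynomial (∅ : Set K) R)) ?_
    have h1 : evA R K ∅ (algebraMap R _ (MvPolynomial.coeff 0 q)) = 0 := hq
    rw [AlgHom.commutes, IsScalarTower.algebraMap_apply R (ResidueField R) K] at h1
    have h2 := (map_eq_zero_iff _ (algebraMap (ResidueField R) K).injective).1 h1
    exact (residue_eq_zero_iff _).1 h2
  · exact Module.Flat.of_linearEquiv
      (AlgEquiv.quotientBot R (MvPolynomial (∅ : Set K) R)).toLinearEquiv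

variable {c : Set (Stage R K)} (hc : IsChain Stage.r c)

/-- The union of the index sets of a chain. -/
def unionA (c : Set (Stage R K)) : Set K := ⋃ s ∈ c, s.A

theorem subset_unionA {s : Stage R K} (hs : s ∈ c) : s.A ⊆ unionA c :=
  Set.subset_biUnion_of_mem (u := fun s : Stage R K => s.A) hs

include hc in
theorem comparable {s t : Stage R K} (hs : s ∈ c) (ht : t ∈ c) : s.r t ∨ t.r s := by
  by_cases h : s = t
  · subst h; exact Or.inl s.r_refl
  · exact hc hs ht h

include hc in
theorem exists_lift (q : MvPolynomial (unionA c) R) : ∀ s₀ ∈ c, ∃ s, ∃ hs : s ∈ c, s₀.r s ∧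
    ∃ q', MvPolynomial.rename (Set.inclusion (subset_unionA hs)) q' = q := by
  induction q using MvPolynomial.induction_on with
  | C r =>
    intro s₀ hs₀
    exact ⟨s₀, hs₀, s₀.r_refl, MvPolynomial.C r, MvPolynomial.rename_C _ _⟩
  | add p q hp hq =>
    intro s₀ hs₀
    obtain ⟨s1, hs1, h01, p', hp'⟩ := hp s₀ hs₀
    obtain ⟨s2, hs2, h12, q', hq'⟩ := hq s1 hs1
    refine ⟨s2, hs2, Stage.r_trans h01 h12, MvPolynomial.rename (Set.inclusion h12.1) p' + q', ?_⟩
    rw [map_add, hq', MvPolynomial.rename_rename, Set.inclusion_comp_inclusion, hp']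
  | mul_X p b hp =>
    intro s₀ hs₀
    obtain ⟨s1, hs1, h01, p', hp'⟩ := hp s₀ hs₀
    obtain ⟨t, ht, hbt⟩ := Set.mem_iUnion₂.1 b.2
    rcases comparable hc hs1 ht with h | h
    · refine ⟨t, ht, Stage.r_trans h01 h, MvPolynomial.rename (Set.inclusion h.1) p' *
        MvPolynomial.X ⟨b, hbt⟩, ?_⟩
      rw [map_mul, MvPolynomial.rename_rename, Set.inclusion_comp_inclusion, hp',
        MvPolynomial.rename_X, Set.inclusion_mk]
    · refine ⟨s1, hs1, h01, p' * MvPolynomial.X ⟨b, h.1 hbt⟩, ?_⟩
      rw [map_mul, hp', MvPolynomial.rename_X, Set.inclusion_mk]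

include hc in
theorem exists_lift_finset {ι : Type*} (q : ι → MvPolynomial (unionA c) R) (t : Finset ι) :
    ∀ s₀ ∈ c, ∃ s, ∃ hs : s ∈ c, s₀.r s ∧
    ∀ i ∈ t, ∃ q', MvPolynomial.rename (Set.inclusion (subset_unionA hs)) q' = q i := by
  classical
  induction t using Finset.induction_on with
  | empty => exact fun s₀ hs₀ => ⟨s₀, hs₀, s₀.r_refl, by simp⟩
  | insert i t hi ih =>
    intro s₀ hs₀
    obtain ⟨s1, hs1, h01, h1⟩ := ih s₀ hs₀
    obtain ⟨s2, hs2, h12, q', hq'⟩ := exists_lift hc (q i) s1 hs1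
    refine ⟨s2, hs2, Stage.r_trans h01 h12, ?_⟩
    intro j hj
    rcases Finset.mem_insert.1 hj with rfl | hj
    · exact ⟨q', hq'⟩
    · obtain ⟨q'', hq''⟩ := h1 j hj
      refine ⟨MvPolynomial.rename (Set.inclusion h12.1) q'', ?_⟩
      rw [MvPolynomial.rename_rename, Set.inclusion_comp_inclusion, hq'']

/-- The union of the ideals of a chain. -/
def unionJ (hne : c.Nonempty) : Ideal (MvPolynomial (unionA c) R) where
  carrier := {q | ∃ s, ∃ hs : s ∈ c, ∃ q' ∈ s.J,
    MvPolynomial.rename (Set.inclusion (subset_unionA hs)) q' = q}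
  zero_mem' := by
    obtain ⟨s, hs⟩ := hne
    exact ⟨s, hs, 0, zero_mem _, map_zero _⟩
  add_mem' := by
    rintro _ _ ⟨s, hs, p, hp, rfl⟩ ⟨t, ht, q, hq, rfl⟩
    rcases comparable hc hs ht with h | h
    · refine ⟨t, ht, MvPolynomial.rename (Set.inclusion h.1) p + q, add_mem (h.2 p hp) hq, ?_⟩
      rw [map_add, MvPolynomial.rename_rename, Set.inclusion_comp_inclusion]
    · refine ⟨s, hs, p + MvPolynomial.rename (Set.inclusion h.1) q, add_mem hp (h.2 q hq), ?_⟩
      rw [map_add, MvPolynomial.rename_rename, Set.inclusion_comp_inclusion]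
  smul_mem' := by
    rintro g _ ⟨s, hs, p, hp, rfl⟩
    obtain ⟨t, ht, h, g', rfl⟩ := exists_lift hc g s hs
    refine ⟨t, ht, g' * MvPolynomial.rename (Set.inclusion h.1) p,
      Ideal.mul_mem_left _ _ (h.2 p hp), ?_⟩
    rw [map_mul, MvPolynomial.rename_rename, Set.inclusion_comp_inclusion, smul_eq_mul]

theorem mem_unionJ (hne : c.Nonempty) (q : MvPolynomial (unionA c) R) :
    q ∈ unionJ hc hne ↔ ∃ s, ∃ hs : s ∈ c, ∃ q' ∈ s.J,
      MvPolynomial.rename (Set.inclusion (subset_unionA hs)) q' = q := Iff.rfl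

theorem flat_unionJ (hne : c.Nonempty) :
    Module.Flat R (MvPolynomial (unionA c) R ⧸ unionJ hc hne) := by
  rw [Module.Flat.iff_forall_isTrivialRelation]
  intro l f x hx
  choose q hq using fun i => Ideal.Quotient.mk_surjective (x i)
  have h1 : ∑ i, f i • q i ∈ unionJ hc hne := by
    rw [← Ideal.Quotient.eq_zero_iff_mem, ← hx, map_sum]
    refine Finset.sum_congr rfl fun i _ => ?_
    rw [← hq i]; rfl
  obtain ⟨s, hs, q1, hq1, hq1'⟩ := h1
  obtain ⟨t, ht, hst, h2⟩ := exists_lift_finset hc q Finset.univ s hs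
  choose! q' hq' using fun i => h2 i (Finset.mem_univ i)
  have h3 : ∑ i, f i • q' i ∈ t.J := by
    have h4 : MvPolynomial.rename (Set.inclusion (subset_unionA ht)) (∑ i, f i • q' i) =
        MvPolynomial.rename (Set.inclusion (subset_unionA ht))
          (MvPolynomial.rename (Set.inclusion hst.1) q1) := by
      rw [MvPolynomial.rename_rename, Set.inclusion_comp_inclusion, hq1', map_sum]
      refine Finset.sum_congr rfl fun i _ => ?_
      rw [map_smul, hq' i]
    rw [MvPolynomial.rename_injective _ (Set.inclusion_injective _) h4]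
    exact hst.2 _ hq1
  have := t.flat
  let x' : Fin l → MvPolynomial t.A R ⧸ t.J := fun i => Ideal.Quotient.mk t.J (q' i)
  have h5 : ∑ i, f i • x' i = 0 := by
    have := (Ideal.Quotient.eq_zero_iff_mem).2 h3
    rw [map_sum] at this
    exact this
  obtain ⟨k, a, y, h6, h7⟩ := Module.Flat.isTrivialRelation_of_sum_smul_eq_zero h5
  let F : (MvPolynomial t.A R ⧸ t.J) →ₐ[R] (MvPolynomial (unionA c) R ⧸ unionJ hc hne) :=
    Ideal.quotientMapₐ _ (MvPolynomial.rename (Set.inclusion (subset_unionA ht)))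
      (fun p hp => ⟨t, ht, p, hp, rfl⟩)
  refine ⟨k, a, fun j => F (y j), fun i => ?_, h7⟩
  have h8 : F (x' i) = x i := by
    rw [← hq i, ← hq' i]; rfl
  rw [← h8, h6 i, map_sum]
  refine Finset.sum_congr rfl fun j _ => ?_
  rw [map_smul]

include hc in
theorem Stage.exists_ub [Algebra (ResidueField R) K] [IsScalarTower R (ResidueField R) K] :
    ∃ ub : Stage R K, ∀ a ∈ c, a.r ub := by
  by_cases hne : c.Nonempty
  · refine ⟨⟨unionA c, unionJ hc hne, ?_, flat_unionJ hc hne⟩, fun s hs =>
      ⟨subset_unionA hs, fun q hq => ⟨s, hs, q, hq, rfl⟩⟩⟩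
    apply le_antisymm
    · intro q hq
      obtain ⟨s₀, hs₀⟩ := hne
      obtain ⟨s, hs, -, q', rfl⟩ := exists_lift hc q s₀ hs₀
      rw [RingHom.mem_ker, evA_rename] at hq
      have h1 : q' ∈ RingHom.ker (evA R K s.A) := hq
      rw [s.ker_eq] at h1
      obtain ⟨x, hx, z, hz, rfl⟩ := Submodule.mem_sup.1 h1
      rw [map_add]
      refine Submodule.add_mem_sup ⟨s, hs, x, hx, rfl⟩ ?_
      have h2 := Ideal.mem_map_of_mem
        (MvPolynomial.rename (R := R) (Set.inclusion (subset_unionA hs))).toRingHom hz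
      rw [Ideal.map_map] at h2
      have h3 : (MvPolynomial.rename (R := R) (Set.inclusion (subset_unionA hs))).toRingHom.comp
        (algebraMap R (MvPolynomial s.A R)) = algebraMap R (MvPolynomial (unionA c) R) :=
        RingHom.ext fun r =>
          AlgHom.commutes (MvPolynomial.rename (R := R) (Set.inclusion (subset_unionA hs))) r
      rw [h3] at h2
      exact h2
    · refine sup_le ?_ (map_maximalIdeal_le_ker_evA _)
      rintro _ ⟨s, hs, q, hq, rfl⟩
      rw [RingHom.mem_ker, evA_rename]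
      have : q ∈ RingHom.ker (evA R K s.A) := by
        rw [s.ker_eq]; exact Submodule.mem_sup_left hq
      exact this
  · obtain ⟨s⟩ := Stage.nonempty (R := R) (K := K)
    exact ⟨s, fun a ha => (hne ⟨a, ha⟩).elim⟩

end chain

section conclusion

variable (R : Type u) [CommRing R] [IsLocalRing R] (K : Type v) [Field K] [Algebra R K]
  [Algebra (ResidueField R) K] [IsScalarTower R (ResidueField R) K]
  [Algebra.IsAlgebraic (ResidueField R) K]

/-- Algebraic gonflement: a flat `R`-algebra `T` with a surjection `T → K` with kernel `m T`. -/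
theorem exists_flat_algebraic :
    ∃ (T : Type (max u v)) (_ : CommRing T) (_ : Algebra R T) (φ : T →ₐ[R] K),
      Module.Flat R T ∧ Function.Surjective φ ∧
        RingHom.ker φ = (maximalIdeal R).map (algebraMap R T) := by
  obtain ⟨s, hs⟩ := exists_maximal_of_chains_bounded (r := Stage.r (R := R) (K := K))
    (fun c hc => Stage.exists_ub hc) (fun h1 h2 => Stage.r_trans h1 h2)
  have hA : ∀ a : K, a ∈ s.A := by
    intro a
    obtain ⟨t, hst, hat⟩ := s.exists_insert a
    exact (hs t hst).1 hat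
  have hle : s.J ≤ RingHom.ker (evA R K s.A) := by rw [s.ker_eq]; exact le_sup_left
  refine ⟨MvPolynomial s.A R ⧸ s.J, inferInstance, inferInstance,
    Ideal.Quotient.liftₐ s.J (evA R K s.A) (fun x hx => hle hx), s.flat, ?_, ?_⟩
  · intro a
    refine ⟨Ideal.Quotient.mk s.J (MvPolynomial.X ⟨a, hA a⟩), ?_⟩
    exact MvPolynomial.aeval_X _ _
  · apply le_antisymm
    · intro y hy
      obtain ⟨q, rfl⟩ := Ideal.Quotient.mk_surjective y
      have h1 : q ∈ RingHom.ker (evA R K s.A) := hy
      rw [s.ker_eq] at h1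
      obtain ⟨x, hx, z, hz, rfl⟩ := Submodule.mem_sup.1 h1
      rw [map_add, Ideal.Quotient.eq_zero_iff_mem.2 hx, zero_add]
      have := Ideal.mem_map_of_mem (Ideal.Quotient.mk s.J) hz
      rw [Ideal.map_map] at this
      exact this
    · rw [Ideal.map_le_iff_le_comap]
      intro r hr
      rw [Ideal.mem_comap, RingHom.mem_ker, AlgHom.commutes,
        IsScalarTower.algebraMap_apply R (ResidueField R) K]
      have : algebraMap R (ResidueField R) r = 0 := (residue_eq_zero_iff r).2 hr
      rw [this, map_zero]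

end conclusion

end Crest.Agent.R183.G
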