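import Crest.Agent.R183.G8

/-!
# R183, block RB (helper234), part 9: gonflement, general case (before completion)
-/

set_option autoImplicit false

namespace Crest.Agent.R183.G

open Ideal IsLocalRing

universe u v

theorem isAlgebraic_of_range {k k₁ K : Type*} [Field k] [Field k₁] [Field K] [Algebra k K]
    [Algebra k₁ K] {ι : Type*} (x : ι → K) (hx : IsTranscendenceBasis k x)
    (h1 : ∀ a : k, algebraMap k K a ∈ (algebraMap k₁ K).range)
    (h2 : ∀ i, x i ∈ (algebraMap k₁ K).range) : Algebra.IsAlgebraic k₁ K := by
  have hle : ∀ a ∈ Algebra.adjoin k (Set.range x), a ∈ (algebraMap k₁ K).range := by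
    intro a ha
    induction ha using Algebra.adjoin_induction with
    | mem y hy => obtain ⟨i, rfl⟩ := hy; exact h2 i
    | algebraMap r => exact h1 r
    | add y z _ _ hy hz => exact add_mem hy hz
    | mul y z _ _ hy hz => exact mul_mem hy hz
  have := hx.isAlgebraic
  let e : k₁ ≃+* (algebraMap k₁ K).range :=
    RingEquiv.ofBijective (algebraMap k₁ K).rangeRestrict
      ⟨fun a b hab => (algebraMap k₁ K).injective (congrArg Subtype.val hab),
        RingHom.rangeRestrict_surjective _⟩
  let i : Algebra.adjoin k (Set.range x) →+* (algebraMap k₁ K).range :=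
    (Algebra.adjoin k (Set.range x)).val.toRingHom.codRestrict _ (fun a => hle a.1 a.2)
  let f : Algebra.adjoin k (Set.range x) →+* k₁ := (e.symm : _ →+* k₁).comp i
  have hf : Function.Injective f := by
    refine e.symm.injective.comp ?_
    intro a b hab
    have hab' : i a = i b := hab
    have h5 : ((i a : (algebraMap k₁ K).range) : K) = (i b : (algebraMap k₁ K).range) := by
      rw [hab']
    exact Subtype.ext h5
  refine Algebra.IsAlgebraic.ringHom_of_comp_eq (R := Algebra.adjoin k (Set.range x)) (A := K)
    f (RingHom.id K) hf Function.surjective_id ?_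
  ext a
  have h3 : e (f a) = i a := e.apply_symm_apply _
  have h4 := congrArg Subtype.val h3
  exact h4

section

variable (R : Type u) [CommRing R] [IsLocalRing R] (K : Type v) [Field K]
  [Algebra (ResidueField R) K]

/-- General gonflement, before completion: a flat local `R`-algebra `T` with `m T` maximal and
residue field `K`. -/
theorem exists_flat_local :
    ∃ (T : Type (max u v)) (_ : CommRing T) (_ : IsLocalRing T) (_ : Algebra R T) (φ : T →+* K),
      Module.Flat R T ∧ Function.Surjective φ ∧
        (∀ r : R, φ (algebraMap R T r) = algebraMap (ResidueField R) K (residue R r)) ∧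
        (maximalIdeal R).map (algebraMap R T) = maximalIdeal T := by
  classical
  -- transcendence basis
  obtain ⟨ι, x, hx⟩ := exists_isTranscendenceBasis' (ResidueField R) K
  let P := MvPolynomial ι R
  let ev0 : P →+* MvPolynomial ι (ResidueField R) := MvPolynomial.map (residue R)
  have hker0 : RingHom.ker ev0 = (maximalIdeal R).map (algebraMap R P) := by
    rw [MvPolynomial.ker_map, ker_residue]
    rfl
  let ev : P →+* K := (MvPolynomial.aeval x : MvPolynomial ι (ResidueField R) →ₐ[_] K).toRingHom.comp
    ev0
  have hinj : Function.Injective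
      (MvPolynomial.aeval x : MvPolynomial ι (ResidueField R) →ₐ[ResidueField R] K) := hx.1
  have hker : RingHom.ker ev = (maximalIdeal R).map (algebraMap R P) := by
    rw [← hker0]
    ext q
    rw [RingHom.mem_ker, RingHom.mem_ker]
    exact map_eq_zero_iff _ hinj
  have hprime : (RingHom.ker ev).IsPrime := RingHom.ker_isPrime ev
  let R₁ := Localization.AtPrime (RingHom.ker ev)
  have hflat1 : Module.Flat R R₁ := Module.Flat.trans R P R₁
  let g : R₁ →+* K := IsLocalization.lift (M := (RingHom.ker ev).primeCompl) (g := ev) (by
    rintro ⟨y, hy⟩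
    refine IsUnit.mk0 _ ?_
    intro h
    exact hy h)
  have hg : ∀ q, g (algebraMap P R₁ q) = ev q := fun q => IsLocalization.lift_eq _ q
  have hmax1 : maximalIdeal R₁ = (maximalIdeal R).map (algebraMap R R₁) := by
    rw [← Localization.AtPrime.map_eq_maximalIdeal]
    refine (congrArg (Ideal.map (algebraMap P R₁)) hker).trans ?_
    rw [Ideal.map_map, ← IsScalarTower.algebraMap_eq]
  have hgker : RingHom.ker g = maximalIdeal R₁ := by
    have : maximalIdeal R₁ ≤ RingHom.ker g := by
      rw [← Localization.AtPrime.map_eq_maximalIdeal, Ideal.map_le_iff_le_comap]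
      intro q hq
      rw [Ideal.mem_comap, RingHom.mem_ker, hg]
      exact hq
    exact ((maximalIdeal.isMaximal R₁).eq_of_le (RingHom.ker_ne_top g) this).symm
  have hgloc : IsLocalHom g := by
    constructor
    intro a ha
    by_contra h
    have : a ∈ maximalIdeal R₁ := h
    rw [← hgker, RingHom.mem_ker] at this
    rw [this] at ha
    exact not_isUnit_zero ha
  let _ : Algebra R₁ K := g.toAlgebra
  let _ : Algebra (ResidueField R₁) K := (ResidueField.lift g).toAlgebra
  have : IsScalarTower R₁ (ResidueField R₁) K := IsScalarTower.of_algebraMap_eq fun y => by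
    change g y = ResidueField.lift g (residue R₁ y)
    rw [ResidueField.lift_residue_apply]
  have : Algebra.IsAlgebraic (ResidueField R₁) K := by
    refine isAlgebraic_of_range x hx ?_ ?_
    · intro a
      obtain ⟨r, rfl⟩ := residue_surjective a
      refine ⟨residue R₁ (algebraMap P R₁ (MvPolynomial.C r)), ?_⟩
      change ResidueField.lift g (residue R₁ _) = _
      rw [ResidueField.lift_residue_apply, hg]
      change (MvPolynomial.aeval x) (MvPolynomial.map (residue R) (MvPolynomial.C r)) = _
      rw [MvPolynomial.map_C, MvPolynomial.aeval_C]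
    · intro i
      refine ⟨residue R₁ (algebraMap P R₁ (MvPolynomial.X i)), ?_⟩
      change ResidueField.lift g (residue R₁ _) = _
      rw [ResidueField.lift_residue_apply, hg]
      change (MvPolynomial.aeval x) (MvPolynomial.map (residue R) (MvPolynomial.X i)) = _
      rw [MvPolynomial.map_X, MvPolynomial.aeval_X]
  obtain ⟨T, _, _, φ, hflat, hsurj, hkerφ⟩ := exists_flat_algebraic R₁ K
  -- localise at the kernel
  have hprimeφ : (RingHom.ker (φ : T →+* K)).IsPrime := RingHom.ker_isPrime _
  let T' := Localization.AtPrime (RingHom.ker (φ : T →+* K))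
  let ψ : T' →+* K := IsLocalization.lift (M := (RingHom.ker (φ : T →+* K)).primeCompl)
    (g := (φ : T →+* K)) (by
    rintro ⟨y, hy⟩
    refine IsUnit.mk0 _ ?_
    intro h
    exact hy h)
  have hψ : ∀ q, ψ (algebraMap T T' q) = φ q := fun q => IsLocalization.lift_eq _ q
  let _ : Algebra R T' := ((algebraMap R₁ T').comp (algebraMap R R₁)).toAlgebra
  have : IsScalarTower R R₁ T' := IsScalarTower.of_algebraMap_eq fun _ => rfl
  have hflat2 : Module.Flat R₁ T' := Module.Flat.trans R₁ T T'
  have hflat3 : Module.Flat R T' := Module.Flat.trans R R₁ T'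
  refine ⟨T', inferInstance, inferInstance, inferInstance, ψ, hflat3, ?_, ?_, ?_⟩
  · intro a
    obtain ⟨t, rfl⟩ := hsurj a
    exact ⟨algebraMap T T' t, hψ t⟩
  · intro r
    have h1 : algebraMap R T' r = algebraMap T T' (algebraMap R₁ T (algebraMap R R₁ r)) := by
      rw [← IsScalarTower.algebraMap_apply R₁ T T']; rfl
    rw [h1, hψ, φ.commutes]
    change g (algebraMap R R₁ r) = _
    rw [IsScalarTower.algebraMap_apply R P R₁, hg]
    change (MvPolynomial.aeval x) (MvPolynomial.map (residue R) (MvPolynomial.C r)) = _
    rw [MvPolynomial.map_C, MvPolynomial.aeval_C]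
  · rw [← Localization.AtPrime.map_eq_maximalIdeal]
    have h2 : RingHom.ker (φ : T →+* K) = (maximalIdeal R₁).map (algebraMap R₁ T) := hkerφ
    refine Eq.symm ((congrArg (Ideal.map (algebraMap T T')) h2).trans ?_)
    rw [hmax1, Ideal.map_map, Ideal.map_map]
    congr 1

end

end Crest.Agent.R183.G
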