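import Mathlib

/-!
# Hilbert-Samuel basics for R183 (Lech): counting lemmas

* `cc n N = ∑_{k<N} multichoose n k` = number of monomials of degree `< N` in `n` variables
* `length_quot_eq_add` : `l(R/J) = l(I/J) + l(R/I)`
* `length_quot_pow_le` : `l(R/q^N) ≤ cc n N * l(R/q)` for `q` generated by `n` elements
-/

set_option autoImplicit false

namespace Crest.Agent.R183.HS

open IsLocalRing Finset

universe u

/-- number of monomials of degree `< N` in `n` variables. -/
def cc (n N : ℕ) : ℕ := ∑ k ∈ Finset.range N, n.multichoose k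

@[simp] lemma cc_zero_right (n : ℕ) : cc n 0 = 0 := by simp [cc]

lemma cc_succ (n N : ℕ) : cc n (N + 1) = cc n N + n.multichoose N := by
  simp [cc, Finset.sum_range_succ]

lemma cc_succ_eq (n N : ℕ) : cc n (N + 1) = (n + 1).multichoose N := by
  induction N with
  | zero => simp [cc]
  | succ N ih => rw [cc_succ, ih, Nat.multichoose_succ_succ, add_comm]

lemma cc_mono (n : ℕ) {N N' : ℕ} (h : N ≤ N') : cc n N ≤ cc n N' :=
  Finset.sum_le_sum_of_subset (Finset.range_mono h)

lemma factorial_mul_cc (n N : ℕ) : n.factorial * cc n (N + 1) = (N + 1).ascFactorial n := by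
  rw [cc_succ_eq, Nat.multichoose_eq, Nat.ascFactorial_eq_factorial_mul_choose']
  congr 1
  have : n + 1 + N - 1 = n + N := by omega
  rw [this]
  have h2 : N + 1 + n - 1 = n + N := by omega
  rw [h2]
  have := Nat.choose_symm_add (a := n) (b := N)
  exact this.symm

lemma pow_le_factorial_mul_cc (n N : ℕ) (h : 0 < N) : N ^ n ≤ n.factorial * cc n N := by
  obtain ⟨M, rfl⟩ := Nat.exists_eq_succ_of_ne_zero h.ne'
  rw [Nat.succ_eq_add_one, factorial_mul_cc]
  exact Nat.pow_succ_le_ascFactorial _ _

lemma factorial_mul_cc_le (n N : ℕ) : n.factorial * cc n N ≤ (N + n) ^ n := by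
  rcases Nat.eq_zero_or_pos N with rfl | h
  · simp
  obtain ⟨M, rfl⟩ := Nat.exists_eq_succ_of_ne_zero h.ne'
  rw [Nat.succ_eq_add_one, factorial_mul_cc]
  refine (Nat.ascFactorial_le_pow_add M n).trans (Nat.pow_le_pow_left (by omega) _)

section length

variable {R : Type*} [CommRing R]

lemma length_quot_eq_add {J I : Ideal R} (h : J ≤ I) :
    Module.length R (R ⧸ J) =
      Module.length R (Submodule.map (Submodule.mkQ J) I) + Module.length R (R ⧸ I) := by
  have hker : LinearMap.ker (Submodule.factor h) = Submodule.map (Submodule.mkQ J) I := by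
    rw [Submodule.factor, Submodule.mapQ, Submodule.ker_liftQ]
    simp
  rw [Module.length_eq_add_of_exact (LinearMap.ker (Submodule.factor h)).subtype
    (Submodule.factor h) (Submodule.subtype_injective _) (Submodule.factor_surjective h)
    (LinearMap.exact_subtype_ker_map _), hker]

lemma length_quot_mono {J I : Ideal R} (h : J ≤ I) :
    Module.length R (R ⧸ I) ≤ Module.length R (R ⧸ J) :=
  Module.length_le_of_surjective (Submodule.factor h) (Submodule.factor_surjective h)

/-- the linear map `(A → R/q) → M` sending the basis vector `a` to `v a`, when `q • v a = 0` -/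
noncomputable def comb {A : Type*} [Fintype A] (q : Ideal R) {M : Type*} [AddCommGroup M] [Module R M]
    (v : A → M) (hv : ∀ a, ∀ r ∈ q, r • v a = 0) : (A → (R ⧸ q)) →ₗ[R] M :=
  ∑ a, (Submodule.liftQ q (LinearMap.toSpanSingleton R M (v a))
    (fun r hr => by simpa using hv a r hr)).comp (LinearMap.proj a)

lemma comb_mk {A : Type*} [Fintype A] (q : Ideal R) {M : Type*} [AddCommGroup M] [Module R M]
    (v : A → M) (hv : ∀ a, ∀ r ∈ q, r • v a = 0) (f : A → R) :
    comb q v hv (fun a => Submodule.mkQ q (f a)) = ∑ a, f a • v a := by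
  rw [comb, LinearMap.sum_apply]
  refine Finset.sum_congr rfl fun a _ => ?_
  rw [LinearMap.comp_apply, LinearMap.proj_apply, Submodule.mkQ_apply, Submodule.liftQ_apply,
    LinearMap.toSpanSingleton_apply]

lemma range_comb {A : Type*} [Fintype A] (q : Ideal R) {M : Type*} [AddCommGroup M] [Module R M]
    (v : A → M) (hv : ∀ a, ∀ r ∈ q, r • v a = 0) :
    LinearMap.range (comb q v hv) = Submodule.span R (Set.range v) := by
  apply le_antisymm
  · rintro _ ⟨f, rfl⟩
    obtain ⟨g, rfl⟩ : ∃ g : A → R, f = fun a => Submodule.mkQ q (g a) := by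
      choose g hg using fun a => Submodule.mkQ_surjective q (f a)
      exact ⟨g, funext fun a => (hg a).symm⟩
    rw [comb_mk]
    exact Submodule.sum_mem _ fun a _ => Submodule.smul_mem _ _ (Submodule.subset_span ⟨a, rfl⟩)
  · rw [Submodule.span_le]
    rintro _ ⟨a, rfl⟩
    classical
    refine ⟨fun b => Submodule.mkQ q (if b = a then 1 else 0), ?_⟩
    rw [comb_mk]
    simp

/-- length of the span of finitely many elements killed by `q` -/
lemma length_span_le {A : Type*} [Fintype A] (q : Ideal R) {M : Type*} [AddCommGroup M] [Module R M]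
    (v : A → M) (hv : ∀ a, ∀ r ∈ q, r • v a = 0) :
    Module.length R (Submodule.span R (Set.range v)) ≤ Fintype.card A * Module.length R (R ⧸ q) := by
  rw [← range_comb q v hv]
  refine (Module.length_le_of_surjective (comb q v hv).rangeRestrict
    (LinearMap.surjective_rangeRestrict _)).trans ?_
  simp

/-- the monomial `x^s` -/
def mono {n : ℕ} (x : Fin n → R) (s : Fin n →₀ ℕ) : R := ∏ i, x i ^ s i

lemma mono_eq_prod {n : ℕ} (x : Fin n → R) (s : Fin n →₀ ℕ) :
    (s.prod fun i e => x i ^ e) = mono x s := by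
  rw [mono, Finsupp.prod_fintype]
  simp

lemma mono_mem {n : ℕ} (x : Fin n → R) (I : Ideal R) (hx : ∀ i, x i ∈ I) (s : Fin n →₀ ℕ) {k : ℕ}
    (hs : s.degree = k) : mono x s ∈ I ^ k := by
  rw [← hs, Finsupp.degree_eq_sum, mono, ← Finset.prod_pow_eq_pow_sum]
  exact Ideal.prod_mem_prod fun i _ => Ideal.pow_mem_pow (hx i) _

/-- the finite set of exponents of degree `k` -/
abbrev AD (n k : ℕ) : Type := (Finset.finsuppAntidiag (Finset.univ : Finset (Fin n)) k)

lemma card_AD (n k : ℕ) : Fintype.card (AD n k) = n.multichoose k := by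
  simp [AD, Finset.card_finsuppAntidiag_nat_eq_multichoose]

lemma mem_AD {n k : ℕ} {s : Fin n →₀ ℕ} :
    s ∈ (Finset.finsuppAntidiag (Finset.univ : Finset (Fin n)) k) ↔ s.degree = k := by
  simp [Finset.mem_finsuppAntidiag, Finsupp.degree_eq_sum]

/-- monomials of degree `k` generate the `k`-th power -/
lemma span_pow_eq_span_monomials {n : ℕ} (x : Fin n → R) (k : ℕ) :
    Ideal.span (Set.range x) ^ k = Ideal.span (Set.range
      (fun s : AD n k => mono x (s : Fin n →₀ ℕ))) := by
  apply le_antisymm
  · intro y hy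
    obtain ⟨p, hp, rfl⟩ := (Ideal.mem_span_pow_iff_exists_isHomogeneous x y).1 hy
    rw [MvPolynomial.eval_eq']
    refine Ideal.sum_mem _ fun d hd => Ideal.mul_mem_left _ _ (Ideal.subset_span ?_)
    have : d.degree = k := by
      have := hp (MvPolynomial.mem_support_iff.1 hd)
      rwa [Finsupp.degree_eq_weight_one]
    exact ⟨⟨d, mem_AD.2 this⟩, rfl⟩
  · rw [Ideal.span_le]
    rintro _ ⟨s, rfl⟩
    exact mono_mem x _ (fun i => Ideal.subset_span (Set.mem_range_self i)) _ (mem_AD.1 s.2)

/-- graded pieces -/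
lemma length_gr_le {n : ℕ} (x : Fin n → R) (k : ℕ) :
    Module.length R (Submodule.map (Submodule.mkQ (Ideal.span (Set.range x) ^ (k + 1)))
      (Ideal.span (Set.range x) ^ k)) ≤
      n.multichoose k * Module.length R (R ⧸ Ideal.span (Set.range x)) := by
  have h := length_span_le (Ideal.span (Set.range x))
    (M := R ⧸ (Ideal.span (Set.range x) ^ (k + 1)))
    (fun s : AD n k => Submodule.mkQ (Ideal.span (Set.range x) ^ (k + 1)) (mono x (s : Fin n →₀ ℕ)))
    (by
      intro s r hr
      rw [← map_smul, Submodule.mkQ_apply, Submodule.Quotient.mk_eq_zero, smul_eq_mul, pow_succ',]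
      exact Ideal.mul_mem_mul hr
        (mono_mem x _ (fun i => Ideal.subset_span (Set.mem_range_self i)) _ (mem_AD.1 s.2)))
  rw [card_AD] at h
  have h2 : Submodule.map (Submodule.mkQ (Ideal.span (Set.range x) ^ (k + 1)))
      (Ideal.span (Set.range x) ^ k) = Submodule.span R (Set.range fun s : AD n k =>
        (Submodule.mkQ (Ideal.span (Set.range x) ^ (k + 1))) (mono x (s : Fin n →₀ ℕ))) := by
    conv_lhs => rw [span_pow_eq_span_monomials x k]
    rw [Ideal.span, Submodule.map_span, ← Set.range_comp]
    rfl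
  rw [h2]
  exact h

theorem length_quot_pow_le {n : ℕ} (x : Fin n → R) (N : ℕ) :
    Module.length R (R ⧸ Ideal.span (Set.range x) ^ N) ≤
      cc n N * Module.length R (R ⧸ Ideal.span (Set.range x)) := by
  induction N with
  | zero =>
    have : Subsingleton (R ⧸ (Ideal.span (Set.range x) ^ 0)) := by
      rw [pow_zero, Ideal.one_eq_top]
      infer_instance
    simp [Module.length_eq_zero]
  | succ N ih =>
    rw [length_quot_eq_add (Ideal.pow_le_pow_right (Nat.le_succ N)), cc_succ, Nat.cast_add, add_mul,
      add_comm]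
    exact add_le_add ih (length_gr_le x N)


end length

end Crest.Agent.R183.HS
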