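import Crest.Agent.R183.PC1

/-!
# R183, INSEP (helper234), part 1: generic separability of `A[R^q]`

`A` a normal Noetherian domain of characteristic `p`, `R` a domain finite over `A`. For `q = p ^ e`
large the subring `R₁ = A[R^q]` of `R` is generically separable over `A`.
-/

set_option autoImplicit false

namespace Crest.Agent.R183.Ins

open Crest.Agent.R183.PC

universe u v

/-- In a finite extension of fields of characteristic `p` all `p ^ e`-th powers are separable for
`e` large. -/
theorem exists_pow_mem_separableClosure (p : ℕ) [Fact p.Prime] (K : Type u) (L : Type v) [Field K]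
    [Field L] [Algebra K L] [FiniteDimensional K L] [CharP K p] :
    ∃ e₀, ∀ e ≥ e₀, ∀ x : L, x ^ p ^ e ∈ separableClosure K L := by
  have : CharP (separableClosure K L) p :=
    charP_of_injective_algebraMap (algebraMap K (separableClosure K L)).injective p
  have : ExpChar (separableClosure K L) p := ExpChar.prime Fact.out
  have h1 : IsPurelyInseparable (separableClosure K L) L :=
    separableClosure.isPurelyInseparable K L
  have h2 : IsPurelyInseparable.HasExponent (separableClosure K L) L := inferInstance
  obtain ⟨e₀, he⟩ := (IsPurelyInseparable.hasExponent_iff' (separableClosure K L) L p).1 h2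
  refine ⟨e₀, fun e hle x => ?_⟩
  obtain ⟨k, rfl⟩ := Nat.exists_eq_add_of_le hle
  obtain ⟨y, hy⟩ := he x
  rw [pow_add, pow_mul, ← hy]
  exact (y ^ p ^ k).2

section

variable (A : Type u) (R : Type v) [CommRing A] [CommRing R] [Algebra A R] [IsDomain A]
  [IsDomain R] [Module.Finite A R]

theorem finiteDimensional_of_isFractionRing (K : Type*) (L : Type*) [Field K] [Field L]
    [Algebra A K] [IsFractionRing A K]
    [Algebra R L] [IsFractionRing R L] [Algebra K L] [Algebra A L] [IsScalarTower A K L]
    [IsScalarTower A R L] : FiniteDimensional K L := by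
  classical
  have hden : ∀ y : L, ∃ a : A, a ≠ 0 ∧ ∃ x : R, algebraMap A L a * y = algebraMap R L x := by
    intro y
    obtain ⟨a, ha, x, hx⟩ := exists_den (A := A) (R := R) L y
    exact ⟨a, ha, x, by rw [IsScalarTower.algebraMap_apply A R L]; exact hx⟩
  have hspan : ⊤ ≤ Submodule.span K (Set.range (algebraMap R L)) := by
    intro y _
    obtain ⟨a, ha, x, hx⟩ := hden y
    have ha' : algebraMap A K a ≠ 0 := by
      simpa using (IsFractionRing.injective A K).ne ha
    have : y = (algebraMap A K a)⁻¹ • algebraMap R L x := by
      rw [← hx, Algebra.smul_def, IsScalarTower.algebraMap_apply A K L, ← mul_assoc, ← map_mul,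
        inv_mul_cancel₀ ha', map_one, one_mul]
    rw [this]
    exact Submodule.smul_mem _ _ (Submodule.subset_span ⟨x, rfl⟩)
  obtain ⟨s, hs⟩ := (Module.finite_def (R := A) (M := R)).1 inferInstance
  have h2 : ∀ x : R, algebraMap R L x ∈ Submodule.span K (s.image (algebraMap R L) : Set L) := by
    intro x
    have hx : x ∈ Submodule.span A (s : Set R) := by rw [hs]; trivial
    induction hx using Submodule.span_induction with
    | mem x hx =>
      refine Submodule.subset_span ?_
      rw [Finset.coe_image]
      exact ⟨x, hx, rfl⟩
    | zero => simp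
    | add x y _ _ hx hy => rw [map_add]; exact Submodule.add_mem _ hx hy
    | smul a x _ hx =>
      rw [Algebra.smul_def, map_mul, ← IsScalarTower.algebraMap_apply,
        IsScalarTower.algebraMap_apply A K L, ← Algebra.smul_def]
      exact Submodule.smul_mem _ _ hx
  refine Module.finite_def.2 ⟨s.image (algebraMap R L), ?_⟩
  rw [eq_top_iff]
  refine hspan.trans (Submodule.span_le.2 ?_)
  rintro _ ⟨x, rfl⟩
  exact h2 x

/-- `A[R^q]` -/
def fAdj (p e : ℕ) : Subalgebra A R := Algebra.adjoin A (Set.range fun x : R => x ^ p ^ e)

omit [IsDomain A] [IsDomain R] [Module.Finite A R] in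
theorem pow_mem_fAdj (p e : ℕ) (x : R) : x ^ p ^ e ∈ fAdj A R p e :=
  Algebra.subset_adjoin ⟨x, rfl⟩

/-- **Generic separability of `A[R^q]`**: there is a trace datum for `e` large. -/
theorem exists_trData_fAdj (p : ℕ) [Fact p.Prime] [CharP A p] [IsIntegrallyClosed A]
    [IsNoetherianRing A] (hinj : Function.Injective (algebraMap A R)) :
    ∃ e₀, ∀ e ≥ e₀, ∃ D : TrData p A (fAdj A R p e), D.δ ≠ 0 := by
  let K := FractionRing A
  let L := FractionRing R
  have : FaithfulSMul A R := (faithfulSMul_iff_algebraMap_injective A R).2 hinj
  let _ : Algebra K L := FractionRing.liftAlgebra A L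
  have _ : IsScalarTower A K L := FractionRing.isScalarTower_liftAlgebra A L
  have hfd : FiniteDimensional K L := finiteDimensional_of_isFractionRing A R K L
  have hKp : CharP K p := charP_of_injective_algebraMap (IsFractionRing.injective A K) p
  obtain ⟨e₀, he⟩ := exists_pow_mem_separableClosure p K L
  refine ⟨e₀, fun e hle => ?_⟩
  let R1 := fAdj A R p e
  let L1 := FractionRing R1
  have : FaithfulSMul R1 L := (faithfulSMul_iff_algebraMap_injective R1 L).2 (by
    rw [IsScalarTower.algebraMap_eq R1 R L]
    exact (IsFractionRing.injective R L).comp Subtype.val_injective)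
  have hAR1 : Function.Injective (algebraMap A R1) := by
    have h1 : ⇑(algebraMap A R) = ⇑(algebraMap R1 R) ∘ ⇑(algebraMap A R1) := rfl
    rw [h1] at hinj
    exact Function.Injective.of_comp hinj
  have : FaithfulSMul A R1 := (faithfulSMul_iff_algebraMap_injective A R1).2 hAR1
  have hN : IsNoetherian A R := isNoetherian_of_isNoetherianRing_of_finite A R
  have : Module.Finite A R1 :=
    inferInstanceAs (Module.Finite A (Subalgebra.toSubmodule R1))
  let _ : Algebra L1 L := FractionRing.liftAlgebra R1 L
  have _ : IsScalarTower R1 L1 L := FractionRing.isScalarTower_liftAlgebra R1 L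
  let _ : Algebra K L1 := FractionRing.liftAlgebra A L1
  have _ : IsScalarTower A K L1 := FractionRing.isScalarTower_liftAlgebra A L1
  have htow : IsScalarTower K L1 L := by
    refine IsScalarTower.of_algebraMap_eq' ?_
    refine IsLocalization.ringHom_ext (nonZeroDivisors A) ?_
    ext a
    simp only [RingHom.comp_apply]
    rw [← IsScalarTower.algebraMap_apply A K L, ← IsScalarTower.algebraMap_apply A K L1,
      IsScalarTower.algebraMap_apply A R1 L1, ← IsScalarTower.algebraMap_apply R1 L1 L]
    rfl
  have hR1 : ∀ a : R1, algebraMap R1 L a ∈ separableClosure K L := by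
    rintro ⟨a, ha⟩
    change algebraMap R L a ∈ separableClosure K L
    induction ha using Algebra.adjoin_induction with
    | mem x hx =>
      obtain ⟨y, rfl⟩ := hx
      rw [map_pow]
      exact he e hle _
    | algebraMap a =>
      rw [← IsScalarTower.algebraMap_apply A R L, IsScalarTower.algebraMap_apply A K L]
      exact (separableClosure K L).algebraMap_mem _
    | add x y _ _ hx hy => rw [map_add]; exact add_mem hx hy
    | mul x y _ _ hx hy => rw [map_mul]; exact mul_mem hx hy
  have hsep : Algebra.IsSeparable K L1 := by
    refine ⟨fun y => ?_⟩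
    have h1 : algebraMap L1 L y ∈ separableClosure K L := by
      obtain ⟨a, s, hs, rfl⟩ := IsFractionRing.div_surjective (A := R1) y
      rw [map_div₀, ← IsScalarTower.algebraMap_apply, ← IsScalarTower.algebraMap_apply]
      exact div_mem (hR1 a) (hR1 s)
    rw [mem_separableClosure_iff] at h1
    exact IsSeparable.of_algHom (IsScalarTower.toAlgHom K L1 L) h1
  obtain ⟨D, hD, -⟩ := exists_trData (A := A) (R := R1) p K L1
  exact ⟨D, hD⟩

end

end Crest.Agent.R183.Ins
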