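import Crest.Agent.R183.G3

/-!
# R183, INSEP (helper234), part 2: the local criterion of flatness (`Tor₁` form)
-/

set_option autoImplicit false

namespace Crest.Agent.R183.Ins

open Ideal TensorProduct

universe u v w

section criterion

variable {A : Type u} [CommRing A] {B : Type v} [AddCommGroup B] [Module A B]
  {M : Type w} [AddCommGroup M] [Module A M]

/-- one step of the devissage: `N'' = N + A x`, `m x ⊆ N`. -/
theorem inclusion_rTensor_injective (m : Ideal A) [m.IsMaximal]
    (hm : Function.Injective (m.subtype.rTensor B)) {N N'' : Submodule A M} (h : N ≤ N'')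
    (x : M) (hxN'' : x ∈ N'') (hN'' : ∀ y ∈ N'', ∃ a : A, y - a • x ∈ N) (hx : x ∉ N)
    (hmx : ∀ a ∈ m, a • x ∈ N) : Function.Injective ((Submodule.inclusion h).rTensor B) := by
  let φ : (A × N) →ₗ[A] N'' :=
    (LinearMap.toSpanSingleton A N'' ⟨x, hxN''⟩).coprod (Submodule.inclusion h)
  let ψ : m →ₗ[A] (A × N) :=
    { toFun := fun a => ((a : A), -⟨(a : A) • x, hmx a a.2⟩)
      map_add' := fun a b => by
        ext
        · rfl
        · simp only [Submodule.coe_add, add_smul, Prod.snd_add, Submodule.coe_neg, neg_add]
      map_smul' := fun c a => by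
        ext
        · rfl
        · simp [smul_smul] }
  have hφ : Function.Surjective φ := by
    rintro ⟨y, hy⟩
    obtain ⟨a, ha⟩ := hN'' y hy
    refine ⟨(a, ⟨y - a • x, ha⟩), ?_⟩
    apply Subtype.ext
    simp [φ]
  have hex : Function.Exact ψ φ := by
    rintro ⟨a, n⟩
    constructor
    · intro h0
      have h1 : a • x + (n : M) = 0 := by
        have := congrArg Subtype.val h0
        simpa [φ] using this
      have h2 : a • x ∈ N := by
        rw [eq_neg_of_add_eq_zero_left h1]
        exact neg_mem n.2
      have ha : a ∈ m := by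
        by_contra hc
        have h3 : IsUnit (Ideal.Quotient.mk m a) := by
          let _ := Ideal.Quotient.field m
          rw [isUnit_iff_ne_zero]
          rwa [Ne, Ideal.Quotient.eq_zero_iff_mem]
        obtain ⟨b', hb'⟩ := h3.exists_left_inv
        obtain ⟨b, rfl⟩ := Ideal.Quotient.mk_surjective b'
        have h4 : b * a - 1 ∈ m := by
          rw [← Ideal.Quotient.eq_zero_iff_mem, map_sub, map_mul, hb', map_one, sub_self]
        apply hx
        have h5 : x = b • (a • x) - (b * a - 1) • x := by
          rw [sub_smul, smul_smul, one_smul]; abel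
        rw [h5]
        exact sub_mem (N.smul_mem b h2) (hmx _ h4)
      refine ⟨⟨a, ha⟩, ?_⟩
      refine Prod.ext rfl (Subtype.ext ?_)
      change -(a • x) = n
      rw [neg_eq_iff_add_eq_zero, h1]
    · rintro ⟨⟨b, hb⟩, h0⟩
      rw [← h0]
      apply Subtype.ext
      simp [φ, ψ]
  have hex' := rTensor_exact B hex hφ
  rw [injective_iff_map_eq_zero]
  intro z hz
  have h1 : φ.rTensor B ((LinearMap.inr A A N).rTensor B z) = 0 := by
    rw [← LinearMap.comp_apply, ← LinearMap.rTensor_comp]
    have : φ ∘ₗ LinearMap.inr A A N = Submodule.inclusion h := by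
      ext n; simp [φ]
    rw [this]; exact hz
  obtain ⟨u, hu⟩ := (hex' _).1 h1
  have h2 : (LinearMap.fst A A N).rTensor B ((LinearMap.inr A A N).rTensor B z) = 0 := by
    rw [← LinearMap.comp_apply, ← LinearMap.rTensor_comp, LinearMap.fst_comp_inr]
    simp
  have h3 : m.subtype.rTensor B u = 0 := by
    rw [← hu, ← LinearMap.comp_apply, ← LinearMap.rTensor_comp] at h2
    exact h2
  have h4 : u = 0 := by rwa [map_eq_zero_iff _ hm] at h3
  have h5 : (LinearMap.snd A A N).rTensor B ((LinearMap.inr A A N).rTensor B z) = z := by
    rw [← LinearMap.comp_apply, ← LinearMap.rTensor_comp, LinearMap.snd_comp_inr]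
    simp
  rw [← h5, ← hu, h4, map_zero, map_zero]

/-- If `m ⊗ B → B` is injective (`Tor₁(A/m, B) = 0`) then `N ⊗ B → M ⊗ B` is injective for every
submodule `N` of a Noetherian module `M` with `m ^ n M ⊆ N`. -/
theorem subtype_rTensor_injective [IsNoetherian A M] (m : Ideal A) [m.IsMaximal]
    (hm : Function.Injective (m.subtype.rTensor B)) (n : ℕ) (N : Submodule A M)
    (hN : m ^ n • (⊤ : Submodule A M) ≤ N) : Function.Injective (N.subtype.rTensor B) := by
  classical
  induction N using WellFoundedGT.induction with
  | ind N ih =>
    by_cases hT : N = ⊤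
    · subst hT
      have : (⊤ : Submodule A M).subtype = (Submodule.topEquiv (R := A) (M := M)).toLinearMap := rfl
      rw [this]
      exact (LinearEquiv.rTensor B (Submodule.topEquiv (R := A) (M := M))).injective
    · have hex : ∃ j, m ^ j • (⊤ : Submodule A M) ≤ N := ⟨n, hN⟩
      obtain ⟨j, hj⟩ : ∃ j, Nat.find hex = j + 1 := by
        rcases h : Nat.find hex with _ | j
        · exfalso
          have := Nat.find_spec hex
          rw [h, pow_zero, Ideal.one_eq_top, Submodule.top_smul, top_le_iff] at this
          exact hT this
        · exact ⟨j, rfl⟩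
      have h1 : m ^ (j + 1) • (⊤ : Submodule A M) ≤ N := hj ▸ Nat.find_spec hex
      have h2 : ¬ m ^ j • (⊤ : Submodule A M) ≤ N := Nat.find_min hex (by omega)
      obtain ⟨x, hx, hxN⟩ := Set.not_subset.1 h2
      have hmx : ∀ a ∈ m, a • x ∈ N := by
        intro a ha
        apply h1
        rw [pow_succ', Submodule.mul_smul]
        exact Submodule.smul_mem_smul ha hx
      let N'' : Submodule A M := N ⊔ Submodule.span A {x}
      have hle : N ≤ N'' := le_sup_left
      have hlt : N < N'' := by
        refine lt_of_le_of_ne hle fun h => hxN ?_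
        rw [h]
        exact (le_sup_right : Submodule.span A {x} ≤ N'') (Submodule.mem_span_singleton_self x)
      have h3 : Function.Injective (N''.subtype.rTensor B) := ih N'' hlt (hN.trans hle)
      have h4 := inclusion_rTensor_injective (B := B) m hm hle x
        ((le_sup_right : Submodule.span A {x} ≤ N'') (Submodule.mem_span_singleton_self x))
        (by
          intro y hy
          obtain ⟨n', hn', z, hz, rfl⟩ := Submodule.mem_sup.1 hy
          obtain ⟨a, rfl⟩ := Submodule.mem_span_singleton.1 hz
          exact ⟨a, by simpa using hn'⟩) hxN hmx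
      have h5 : N.subtype.rTensor B = N''.subtype.rTensor B ∘ₗ
          (Submodule.inclusion hle).rTensor B := by
        rw [← LinearMap.rTensor_comp]; rfl
      rw [h5]
      exact h3.comp h4

end criterion

section ring

variable {A : Type u} {B : Type v} [CommRing A] [CommRing B] [Algebra A B]

/-- converse of `G.rTensor_injective_of_flat_baseChange` -/
theorem rTensor_baseChange_injective (Q : Type*) [CommRing Q] [Algebra A Q]
    {M N : Type*} [AddCommGroup M] [AddCommGroup N] [Module A M]
    [Module A N] [Module Q M] [Module Q N] [IsScalarTower A Q M] [IsScalarTower A Q N]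
    (f : M →ₗ[Q] N) (hf : Function.Injective ((f.restrictScalars A).rTensor B)) :
    Function.Injective (f.rTensor (Q ⊗[A] B)) := by
  have h2 : ∀ x, (f.restrictScalars A).rTensor B
      (TensorProduct.AlgebraTensorModule.cancelBaseChange A Q Q M B x) =
      TensorProduct.AlgebraTensorModule.cancelBaseChange A Q Q N B (f.rTensor (Q ⊗[A] B) x) := by
    intro x
    induction x using TensorProduct.induction_on with
    | zero => simp
    | add x y hx hy => simp only [map_add, hx, hy]
    | tmul m y =>
      induction y using TensorProduct.induction_on with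
      | zero => simp
      | add x y hx hy => simp only [map_add, tmul_add, hx, hy]
      | tmul q b => simp
  rw [injective_iff_map_eq_zero]
  intro x hx
  have h3 := h2 x
  rw [hx, map_zero, map_eq_zero_iff _ hf, LinearEquiv.map_eq_zero_iff] at h3
  exact h3

/-- LOCAL CRITERION OF FLATNESS: `A`, `B` Noetherian, `m` a maximal ideal of `A` with
`m B ⊆ rad B` and `m ⊗ B → B` injective. Then `B` is flat over `A`. -/
theorem flat_of_maximal_rTensor_injective [IsNoetherianRing A] [IsNoetherianRing B] (m : Ideal A)
    [m.IsMaximal] (hI : m.map (algebraMap A B) ≤ Ideal.jacobson ⊥)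
    (hm : Function.Injective (m.subtype.rTensor B)) : Module.Flat A B := by
  refine G.flat_of_forall_flat_quotient m hI fun n => ?_
  rw [Module.Flat.iff_rTensor_injective]
  intro J _
  -- the `A`-submodule of `A ⧸ m ^ n`
  have h1 : Function.Injective (((J.restrictScalars A).subtype).rTensor B) := by
    refine subtype_rTensor_injective m hm n (J.restrictScalars A) ?_
    rw [Submodule.smul_le]
    intro a ha y _
    obtain ⟨b, rfl⟩ := Ideal.Quotient.mk_surjective y
    have : a • (Ideal.Quotient.mk (m ^ n) b) = 0 := by
      rw [Algebra.smul_def, Ideal.Quotient.algebraMap_eq, ← map_mul,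
        Ideal.Quotient.eq_zero_iff_mem]
      exact Ideal.mul_mem_right _ _ ha
    rw [this]
    exact zero_mem _
  have h2 : Function.Injective ((J.subtype.restrictScalars A).rTensor B) := h1
  exact rTensor_baseChange_injective (A ⧸ m ^ n) J.subtype h2

end ring

end Crest.Agent.R183.Ins
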