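import Crest.Agent.R183.Ins2
import Crest.Agent.R183.G10

/-!
# R183, INSEP (helper234), part 3: flatness of `T' ⊗_T N` over `G`

`R → T`, `G → T'` flat, `R → G`, `T → T'` compatible, `T' / m_G T'` flat over `T / m_R T`, `N` a
`T`-module which is flat over `R`. Then `Tor₁^G(G/m_G, T' ⊗_T N) = 0`.
-/

set_option autoImplicit false

namespace Crest.Agent.R183.Ins

open Ideal TensorProduct

universe u v w

section

variable {T : Type u} {T' : Type v} [CommRing T] [CommRing T'] [Algebra T T']

/-- The kernel of `T' ⊗ K → (T'/J) ⊗ K` is `J (T' ⊗ K)`. -/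
theorem mem_smul_of_quotient_rTensor_eq_zero (J : Ideal T') {K : Type*} [AddCommGroup K]
    [Module T K] (w : T' ⊗[T] K)
    (hw : ((Ideal.Quotient.mkₐ T J).toLinearMap.rTensor K) w = 0) :
    w ∈ (J • ⊤ : Submodule T' (T' ⊗[T] K)) := by
  have hex : Function.Exact ((J.restrictScalars T).subtype.rTensor K)
      ((Ideal.Quotient.mkₐ T J).toLinearMap.rTensor K) := by
    refine rTensor_exact K ?_ Ideal.Quotient.mk_surjective
    intro x
    constructor
    · intro hx
      have : x ∈ J := Ideal.Quotient.eq_zero_iff_mem.1 hx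
      exact ⟨⟨x, this⟩, rfl⟩
    · rintro ⟨⟨y, hy⟩, rfl⟩
      exact Ideal.Quotient.eq_zero_iff_mem.2 hy
  obtain ⟨y, rfl⟩ := (hex w).1 hw
  induction y using TensorProduct.induction_on with
  | zero => rw [map_zero]; exact zero_mem _
  | add a b ha hb =>
    rw [map_add]
    refine add_mem (ha ?_) (hb ?_)
    · exact (hex _).2 ⟨a, rfl⟩
    · exact (hex _).2 ⟨b, rfl⟩
  | tmul a k =>
    have : ((J.restrictScalars T).subtype.rTensor K) (a ⊗ₜ[T] k) = (a : T') • ((1 : T') ⊗ₜ[T] k) := by
      rw [LinearMap.rTensor_tmul, TensorProduct.smul_tmul', smul_eq_mul, mul_one]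
      rfl
    rw [this]
    exact Submodule.smul_mem_smul a.2 trivial

theorem quotient_rTensor_eq_zero_of_mem (J : Ideal T') {K : Type*} [AddCommGroup K]
    [Module T K] (w : T' ⊗[T] K) (hw : w ∈ (J • ⊤ : Submodule T' (T' ⊗[T] K))) :
    ((Ideal.Quotient.mkₐ T J).toLinearMap.rTensor K) w = 0 := by
  refine Submodule.smul_induction_on hw ?_ ?_
  · intro a ha y _
    induction y using TensorProduct.induction_on with
    | zero => simp
    | add x y hx hy => rw [smul_add, map_add, hx trivial, hy trivial, add_zero]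
    | tmul b k =>
      rw [TensorProduct.smul_tmul', LinearMap.rTensor_tmul]
      have : (Ideal.Quotient.mkₐ T J).toLinearMap (a • b) = 0 :=
        Ideal.Quotient.eq_zero_iff_mem.2 (Ideal.mul_mem_right _ _ ha)
      rw [this, TensorProduct.zero_tmul]
  · intro x y hx hy
    rw [map_add, hx, hy, add_zero]

end

section

variable {R : Type*} {G : Type*} {T : Type u} {T' : Type v} [CommRing R] [CommRing G]
  [CommRing T] [CommRing T'] [Algebra R G] [Algebra R T] [Algebra G T'] [Algebra T T']
  [Algebra R T'] [IsScalarTower R G T'] [IsScalarTower R T T']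

omit [Algebra R G] [Algebra R T'] [IsScalarTower R G T'] [IsScalarTower R T T'] in
/-- The injectivity of `(T'/m_G T') ⊗_T K → (T'/m_G T') ⊗_T F`. -/
theorem quotient_lTensor_injective (mR : Ideal R) (mG : Ideal G)
    [Algebra (T ⧸ mR.map (algebraMap R T)) (T' ⧸ mG.map (algebraMap G T'))]
    [IsScalarTower T (T ⧸ mR.map (algebraMap R T)) (T' ⧸ mG.map (algebraMap G T'))]
    [Module.Flat (T ⧸ mR.map (algebraMap R T)) (T' ⧸ mG.map (algebraMap G T'))]
    {K F : Type*} [AddCommGroup K] [Module T K] [AddCommGroup F] [Module T F]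
    (g : K →ₗ[T] F)
    (hg : Function.Injective (g.lTensor (T ⧸ mR.map (algebraMap R T)))) :
    Function.Injective (g.lTensor (T' ⧸ mG.map (algebraMap G T'))) := by
  set Tb := T ⧸ mR.map (algebraMap R T) with hTb
  set Q := T' ⧸ mG.map (algebraMap G T') with hQ
  let gb : (Tb ⊗[T] K) →ₗ[Tb] (Tb ⊗[T] F) := g.baseChange Tb
  have h1 : Function.Injective (gb.lTensor Q) :=
    Module.Flat.lTensor_preserves_injective_linearMap gb hg
  have h2 : ∀ x, g.lTensor Q
      (TensorProduct.AlgebraTensorModule.cancelBaseChange T Tb Tb Q K x) =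
      TensorProduct.AlgebraTensorModule.cancelBaseChange T Tb Tb Q F (gb.lTensor Q x) := by
    intro x
    induction x using TensorProduct.induction_on with
    | zero => simp
    | add x y hx hy => simp only [map_add, hx, hy]
    | tmul m y =>
      induction y using TensorProduct.induction_on with
      | zero => simp
      | add x y hx hy => simp only [map_add, tmul_add, hx, hy]
      | tmul q b => simp [gb]
  rw [injective_iff_map_eq_zero]
  intro y hy
  obtain ⟨x, rfl⟩ := (TensorProduct.AlgebraTensorModule.cancelBaseChange T Tb Tb Q K).surjective y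
  rw [h2, LinearEquiv.map_eq_zero_iff, map_eq_zero_iff _ h1] at hy
  rw [hy, map_zero]

omit [CommRing G] [CommRing T'] [Algebra R G] [Algebra G T'] [Algebra T T'] [Algebra R T'] [IsScalarTower R G T'] [IsScalarTower R T T'] in
/-- `(m_R T) M = m_R M`. -/
theorem mem_map_smul_top_iff (mR : Ideal R) {M : Type*} [AddCommGroup M] [Module T M] [Module R M]
    [IsScalarTower R T M] (x : M) :
    x ∈ (mR.map (algebraMap R T) • ⊤ : Submodule T M) ↔ x ∈ (mR • ⊤ : Submodule R M) := by
  have h := Submodule.restrictScalars_map_smul_eq mR (⊤ : Submodule T M)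
  rw [Submodule.restrictScalars_top] at h
  rw [← h]
  rfl

/-- `K ∩ m_R F = m_R K` when `F / K` is flat over `R`. -/
theorem quotient_lTensor_injective_of_flat (mR : Ideal R) {K F N : Type*} [AddCommGroup K]
    [Module T K] [AddCommGroup F] [Module T F] [AddCommGroup N] [Module T N]
    [Module R K] [Module R F] [Module R N] [IsScalarTower R T K] [IsScalarTower R T F]
    [IsScalarTower R T N] [Module.Flat R N] (g : K →ₗ[T] F) (f : F →ₗ[T] N)
    (hg : Function.Injective g) (hf : Function.Surjective f) (H : Function.Exact g f) :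
    Function.Injective (g.lTensor (T ⧸ mR.map (algebraMap R T))) := by
  rw [injective_iff_map_eq_zero]
  intro z hz
  obtain ⟨k, rfl⟩ := G.exists_eq_one_tmul _ z
  rw [LinearMap.lTensor_tmul, G.one_tmul_eq_zero_iff, mem_map_smul_top_iff] at hz
  rw [G.one_tmul_eq_zero_iff, mem_map_smul_top_iff]
  have h1 := LinearMap.lTensor_injective_of_exact_of_flat (f.restrictScalars R) hf
    (g.restrictScalars R) hg H (R ⧸ mR)
  rw [← G.one_tmul_eq_zero_iff] at hz ⊢
  apply h1
  rw [map_zero]
  exact hz

/-- every element of `(m_G T') P` comes from `m_G ⊗ P`. -/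
theorem exists_lid_rTensor_eq (mG : Ideal G) {P : Type*} [AddCommGroup P] [Module T' P]
    [Module G P] [IsScalarTower G T' P] (w : P)
    (hw : w ∈ (mG.map (algebraMap G T') • ⊤ : Submodule T' P)) :
    ∃ w' : mG ⊗[G] P, TensorProduct.lid G P (mG.subtype.rTensor P w') = w := by
  rw [mem_map_smul_top_iff] at hw
  refine Submodule.smul_induction_on hw ?_ ?_
  · intro a ha y _
    exact ⟨⟨a, ha⟩ ⊗ₜ y, by simp⟩
  · rintro x y ⟨x', hx⟩ ⟨y', hy⟩
    exact ⟨x' + y', by rw [map_add, map_add, hx, hy]⟩

theorem lid_rTensor_mem (mG : Ideal G) {P : Type*} [AddCommGroup P] [Module T' P]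
    [Module G P] [IsScalarTower G T' P] (w' : mG ⊗[G] P) :
    TensorProduct.lid G P (mG.subtype.rTensor P w') ∈
      (mG.map (algebraMap G T') • ⊤ : Submodule T' P) := by
  rw [mem_map_smul_top_iff]
  induction w' using TensorProduct.induction_on with
  | zero => simp
  | add x y hx hy => rw [map_add, map_add]; exact add_mem hx hy
  | tmul a y =>
    rw [LinearMap.rTensor_tmul, TensorProduct.lid_tmul]
    exact Submodule.smul_mem_smul a.2 trivial

theorem lid_rTensor_lTensor (mG : Ideal G) {M : Type*} {M' : Type*} [AddCommGroup M]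
    [AddCommGroup M'] [Module G M] [Module G M'] (h : M →ₗ[G] M') (z : mG ⊗[G] M) :
    TensorProduct.lid G M' (mG.subtype.rTensor M' (h.lTensor mG z)) =
      h (TensorProduct.lid G M (mG.subtype.rTensor M z)) := by
  induction z using TensorProduct.induction_on with
  | zero => simp
  | add x y hx hy => simp only [map_add, hx, hy]
  | tmul a y => simp

theorem rTensor_tensor_injective_aux [SMulCommClass T G T'] (mG : Ideal G)
    {K : Type*} {F : Type*} {N : Type*} [AddCommGroup K] [Module T K] [AddCommGroup F] [Module T F]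
    [AddCommGroup N] [Module T N] (ι : K →ₗ[T] F) (π : F →ₗ[T] N) (hπ : Function.Surjective π)
    (hex : Function.Exact ι π)
    (h2 : Function.Injective (ι.lTensor (T' ⧸ mG.map (algebraMap G T'))))
    (hflat : Module.Flat G (T' ⊗[T] F)) :
    Function.Injective (mG.subtype.rTensor (T' ⊗[T] N)) := by
  let gP : (T' ⊗[T] K) →ₗ[T'] (T' ⊗[T] F) := ι.baseChange T'
  let fW : (T' ⊗[T] F) →ₗ[T'] (T' ⊗[T] N) := π.baseChange T'
  have hfW : Function.Surjective (fW.restrictScalars G) := LinearMap.lTensor_surjective T' hπ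
  have hexW : Function.Exact gP fW := lTensor_exact T' hex hπ
  have hWinj : Function.Injective (mG.subtype.rTensor (T' ⊗[T] F)) :=
    Module.Flat.rTensor_preserves_injective_linearMap _ Subtype.val_injective
  rw [injective_iff_map_eq_zero]
  intro x hx
  obtain ⟨x', rfl⟩ := LinearMap.lTensor_surjective mG hfW x
  set y := TensorProduct.lid G _ (mG.subtype.rTensor (T' ⊗[T] F) x') with hy
  have hfy : fW y = 0 := by
    have := lid_rTensor_lTensor mG (fW.restrictScalars G) x'
    rw [hx, map_zero] at this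
    exact this.symm
  obtain ⟨w, hw⟩ := (hexW y).1 hfy
  have hyI := lid_rTensor_mem (T' := T') mG x'
  have hq : ((Ideal.Quotient.mkₐ T (mG.map (algebraMap G T'))).toLinearMap.rTensor K) w = 0 := by
    apply h2
    rw [map_zero]
    have h3 := quotient_rTensor_eq_zero_of_mem (T := T) (mG.map (algebraMap G T')) y hyI
    rw [← h3, ← hw]
    change (ι.lTensor _ ∘ₗ (Ideal.Quotient.mkₐ T (mG.map (algebraMap G T'))).toLinearMap.rTensor K) w
      = ((Ideal.Quotient.mkₐ T (mG.map (algebraMap G T'))).toLinearMap.rTensor F ∘ₗ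
        (ι.lTensor T')) w
    rw [LinearMap.lTensor_comp_rTensor, LinearMap.rTensor_comp_lTensor]
  obtain ⟨w', hw'⟩ := exists_lid_rTensor_eq (T' := T') mG w
    (mem_smul_of_quotient_rTensor_eq_zero _ w hq)
  have h4 : ((gP.restrictScalars G).lTensor mG) w' = x' := by
    apply hWinj
    apply (TensorProduct.lid G (T' ⊗[T] F)).injective
    rw [lid_rTensor_lTensor, hw', ← hy, ← hw]
    rfl
  rw [← h4, ← LinearMap.comp_apply, ← LinearMap.lTensor_comp]
  have h5 : (fW.restrictScalars G) ∘ₗ (gP.restrictScalars G) = 0 := by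
    refine LinearMap.ext fun z => ?_
    exact hexW.apply_apply_eq_zero z
  rw [h5, LinearMap.lTensor_zero, LinearMap.zero_apply]

theorem rTensor_tensor_injective_aux2 [SMulCommClass T G T'] (mR : Ideal R) (mG : Ideal G)
    [Algebra (T ⧸ mR.map (algebraMap R T)) (T' ⧸ mG.map (algebraMap G T'))]
    [IsScalarTower T (T ⧸ mR.map (algebraMap R T)) (T' ⧸ mG.map (algebraMap G T'))]
    [Module.Flat (T ⧸ mR.map (algebraMap R T)) (T' ⧸ mG.map (algebraMap G T'))]
    {F : Type*} {N : Type*} [AddCommGroup F] [Module T F]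
    [AddCommGroup N] [Module T N] [Module R F] [IsScalarTower R T F]
    [Module R N] [IsScalarTower R T N] [Module.Flat R N]
    (π : F →ₗ[T] N) (hπ : Function.Surjective π)
    (hflat : Module.Flat G (T' ⊗[T] F)) :
    Function.Injective (mG.subtype.rTensor (T' ⊗[T] N)) := by
  have hex : Function.Exact (LinearMap.ker π).subtype π := LinearMap.exact_subtype_ker_map _
  have h1 : Function.Injective ((LinearMap.ker π).subtype.lTensor (T ⧸ mR.map (algebraMap R T))) :=
    quotient_lTensor_injective_of_flat mR (LinearMap.ker π).subtype π Subtype.val_injective hπ hex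
  have h2 := quotient_lTensor_injective (T' := T') mR mG (LinearMap.ker π).subtype h1
  exact rTensor_tensor_injective_aux mG _ _ hπ hex h2 hflat

/-- MAIN THEOREM. -/
theorem rTensor_tensor_injective [SMulCommClass T G T'] (mR : Ideal R) (mG : Ideal G)
    [Module.Flat G T']
    [Algebra (T ⧸ mR.map (algebraMap R T)) (T' ⧸ mG.map (algebraMap G T'))]
    [IsScalarTower T (T ⧸ mR.map (algebraMap R T)) (T' ⧸ mG.map (algebraMap G T'))]
    [Module.Flat (T ⧸ mR.map (algebraMap R T)) (T' ⧸ mG.map (algebraMap G T'))]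
    (N : Type w) [AddCommGroup N] [Module T N] [Module R N] [IsScalarTower R T N]
    [Module.Flat R N] :
    Function.Injective (mG.subtype.rTensor (T' ⊗[T] N)) := by
  have hπ : Function.Surjective (Finsupp.linearCombination T (id : N → N)) := fun n =>
    ⟨Finsupp.single n 1, (Finsupp.linearCombination_single T (1 : T) n).trans (one_smul T _)⟩
  have hflat : Module.Flat G (T' ⊗[T] (N →₀ T)) := Module.Flat.trans G T' (T' ⊗[T] (N →₀ T))
  exact rTensor_tensor_injective_aux2 (T' := T') mR mG _ hπ hflat

end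

end Crest.Agent.R183.Ins
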