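/-
R183 (Lech), block (E) LATTICE (helper817), part 5: the homomorphisms `g_j : C → K` attached to the
roots of the equation of a generator `θ`, and the packaged lattice theorem.
-/
import Crest.Agent.R183.Lat4

set_option autoImplicit false
set_option linter.unusedSectionVars false

open Polynomial

namespace Crest.Agent.R183.Lat

open Crest.Agent.R183.Heb

section Hom

variable {B C K : Type*} [CommRing B] [CommRing C] [CommRing K] [Algebra B C] [Algebra B K]

/-- A root `τ` of `f` in `K` extends to a homomorphism `C → K`, `θ ↦ τ`. -/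
theorem exists_hom (f : Polynomial B) (θ : C) (hinj : ∀ h : Polynomial B, aeval θ h = 0 → f ∣ h)
    (s : B) (hs : IsUnit (algebraMap B K s)) (hspan : ∀ c : C, ∃ h : Polynomial B, s • c = aeval θ h)
    (τ : K) (hτ : aeval τ f = 0) : ∃ g : C →ₐ[B] K, g θ = τ := by
  choose h hh using hspan
  -- comparison lemma
  have key : ∀ P Q : Polynomial B, aeval θ P = aeval θ Q → aeval τ P = aeval τ Q := by
    intro P Q hPQ
    have h1 : aeval θ (P - Q) = 0 := by rw [map_sub, hPQ, sub_self]
    obtain ⟨R, hR⟩ := hinj _ h1
    have h2 : aeval τ (P - Q) = 0 := by rw [hR, map_mul, hτ, zero_mul]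
    rwa [map_sub, sub_eq_zero] at h2
  obtain ⟨i, hi⟩ := hs.exists_right_inv
  have hval : ∀ (c : C) (P : Polynomial B), s • c = aeval θ P → aeval τ (h c) = aeval τ P := by
    intro c P hP
    exact key _ _ (by rw [← hh, hP])
  have hone : aeval τ (h 1) = algebraMap B K s := by
    rw [hval 1 (Polynomial.C s) (by rw [aeval_C, Algebra.algebraMap_eq_smul_one]), aeval_C]
  refine ⟨{ toFun := fun c => aeval τ (h c) * i
            map_one' := by rw [hone, hi]
            map_mul' := ?_
            map_zero' := ?_
            map_add' := ?_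
            commutes' := ?_ }, ?_⟩
  · intro c c'
    have h1 : aeval τ (h c) * aeval τ (h c') = algebraMap B K s * aeval τ (h (c * c')) := by
      rw [← map_mul, ← aeval_C τ s, ← map_mul]
      apply key
      rw [map_mul, map_mul, aeval_C, ← hh, ← hh, ← hh, smul_mul_smul_comm, Algebra.smul_def,
        Algebra.smul_def, map_mul, mul_assoc]
    linear_combination (-i ^ 2) * h1 - (i * aeval τ (h (c * c'))) * hi
  · have : aeval τ (h 0) = 0 := by
      rw [hval 0 0 (by rw [smul_zero, map_zero]), map_zero]
    change aeval τ (h 0) * i = 0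
    rw [this, zero_mul]
  · intro c c'
    have : aeval τ (h (c + c')) = aeval τ (h c) + aeval τ (h c') := by
      rw [hval (c + c') (h c + h c') (by rw [smul_add, map_add, hh, hh]), map_add]
    rw [this, add_mul]
  · intro b
    have : aeval τ (h (algebraMap B C b)) = algebraMap B K s * algebraMap B K b := by
      rw [hval (algebraMap B C b) (Polynomial.C (s * b))
        (by rw [aeval_C, Algebra.smul_def, map_mul]), aeval_C, map_mul]
    change aeval τ (h (algebraMap B C b)) * i = algebraMap B K b
    rw [this]
    linear_combination (algebraMap B K b) * hi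
  · have : aeval τ (h θ) = algebraMap B K s * τ := by
      rw [hval θ (Polynomial.C s * X) (by rw [map_mul, aeval_C, aeval_X, Algebra.smul_def]),
        map_mul, aeval_C, aeval_X]
    change aeval τ (h θ) * i = τ
    rw [this]
    linear_combination τ * hi

theorem isUnit_sub_of_separable {ι : Type*} [Fintype ι] [DecidableEq ι] (τ : ι → K)
    (h : (∏ j, (X - Polynomial.C (τ j))).Separable) {i j : ι} (hij : i ≠ j) :
    IsUnit (τ i - τ j) := by
  have h1 : ∏ j, (X - Polynomial.C (τ j))
      = ((X - Polynomial.C (τ i)) * (X - Polynomial.C (τ j)))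
        * ∏ l ∈ (Finset.univ.erase i).erase j, (X - Polynomial.C (τ l)) := by
    rw [mul_assoc, Finset.mul_prod_erase _ (fun l => X - Polynomial.C (τ l))
      (Finset.mem_erase.mpr ⟨hij.symm, Finset.mem_univ _⟩),
      Finset.mul_prod_erase _ (fun l => X - Polynomial.C (τ l)) (Finset.mem_univ i)]
  rw [h1] at h
  obtain ⟨a, b, hab⟩ := h.of_mul_left.isCoprime
  have h2 := congrArg (Polynomial.eval (τ i)) hab
  simp only [eval_add, eval_mul, eval_sub, eval_X, eval_C, sub_self, mul_zero, zero_add,
    eval_one] at h2
  exact IsUnit.of_mul_eq_one (b.eval (τ i)) (by rw [mul_comm]; exact h2)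

theorem isUnit_vandermonde {n : ℕ} (τ : Fin n → K)
    (h : (∏ j, (X - Polynomial.C (τ j))).Separable) : IsUnit (Matrix.vandermonde τ).det := by
  rw [Matrix.det_vandermonde, IsUnit.prod_univ_iff]
  intro i
  rw [IsUnit.prod_iff]
  intro j hj
  exact isUnit_sub_of_separable τ h (Finset.mem_Ioi.mp hj).ne'

end Hom

end Crest.Agent.R183.Lat
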