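/-
R183 (Lech), block (E) LATTICE (helper817), part 7: from a split algebra to the lattice data, the
Artin-Rees constant, the descent datum and helper523's `Frame`.
-/
import Crest.Agent.R183.Lat6
import Crest.Agent.R183.BCM5

set_option autoImplicit false
set_option linter.unusedSectionVars false

open Polynomial

namespace Crest.Agent.R183.Lat

open Crest.Agent.R183.Heb

universe u

section Reg

variable {A : Type*} [CommRing A] {a D : A}

theorem reg_pow_of_regMod (ha : ∀ x, a * x = 0 → x = 0) (hD : ∀ x, a ∣ D * x → a ∣ x)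
    (N : ℕ) : ∀ x, a ^ N ∣ D * x → a ^ N ∣ x := by
  induction N with
  | zero => intro x _; simp
  | succ N ih =>
    intro x h
    obtain ⟨y, hy⟩ := h
    obtain ⟨x', hx'⟩ := hD x ⟨a ^ N * y, by rw [hy, pow_succ']; ring⟩
    have h2 : a * (D * x' - a ^ N * y) = 0 := by
      rw [hx', pow_succ] at hy
      linear_combination hy
    have h3 := ha _ h2
    obtain ⟨z, hz⟩ := ih x' ⟨y, by linear_combination h3⟩
    exact ⟨z, by rw [hx', hz, pow_succ]; ring⟩

theorem reg_pow_of_regMod' (ha : ∀ x, a * x = 0 → x = 0) (hD : ∀ x, a ∣ D * x → a ∣ x)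
    (N k : ℕ) : ∀ x, a ^ N ∣ D ^ k * x → a ^ N ∣ x := by
  induction k with
  | zero => intro x h; simpa using h
  | succ k ih =>
    intro x h
    apply ih
    apply reg_pow_of_regMod ha hD
    rwa [← mul_assoc, ← pow_succ']

theorem pow_reg (ha : ∀ x, a * x = 0 → x = 0) (k : ℕ) : ∀ x, a ^ k * x = 0 → x = 0 := by
  induction k with
  | zero => intro x h; simpa using h
  | succ k ih =>
    intro x h
    rw [pow_succ', mul_assoc] at h
    exact ih x (ha _ h)

/-- If `s` divides `(aD)^k` then `s z ∈ a^{N+k} A` implies `z ∈ a^N A`. -/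
theorem div_of_dvd (ha : ∀ x, a * x = 0 → x = 0) (hD : ∀ x, a ∣ D * x → a ∣ x) {s : A} {k : ℕ}
    (hs : s ∣ (a * D) ^ k) (N : ℕ) (z w : A) (h : s * z = a ^ (N + k) * w) :
    ∃ w', z = a ^ N * w' := by
  obtain ⟨r, hr⟩ := hs
  have h1 : a ^ k * (D ^ k * z - a ^ N * (r * w)) = 0 := by
    have : (a * D) ^ k * z = a ^ (N + k) * (r * w) := by
      rw [hr]; linear_combination r * h
    rw [mul_pow, pow_add] at this
    linear_combination this
  have h2 := pow_reg ha k _ h1
  exact reg_pow_of_regMod' ha hD N k z ⟨r * w, by linear_combination h2⟩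

end Reg

section

variable {p : ℕ} [hp : Fact p.Prime]
variable {A₀ A K C : Type u} [CommRing A₀] [CommRing A] [CommRing K] [CommRing C]
  [Algebra A₀ A] [Algebra A K] [Algebra A₀ K] [IsScalarTower A₀ A K] [Algebra A₀ C]
variable {ι : Type} [Fintype ι] [DecidableEq ι]

/-- `(ι → K)` with `C` acting through the `g_j`. -/
def E1 (_S : Split A₀ K C ι) : Type u := ι → K

namespace E1

variable (S : Split A₀ K C ι)

noncomputable instance : AddCommGroup (E1 S) := inferInstanceAs (AddCommGroup (ι → K))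
noncomputable instance : Module A (E1 S) := inferInstanceAs (Module A (ι → K))
noncomputable instance instModuleA₀ : Module A₀ (E1 S) := inferInstanceAs (Module A₀ (ι → K))
noncomputable instance instModuleC : Module C (E1 S) :=
  Module.compHom (ι → K) (RingHom.pi fun j => (S.g j : C →+* K))

@[ext] theorem ext {S : Split A₀ K C ι} {x y : E1 S} (h : ∀ j, x j = y j) : x = y := funext h

theorem smulC (c : C) (x : E1 S) (j : ι) : (c • x : E1 S) j = S.g j c * x j := rfl

theorem smulA (a : A) (x : E1 S) (j : ι) : (a • x : E1 S) j = algebraMap A K a * x j := by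
  change a • (x j) = _
  rw [Algebra.smul_def]

theorem smulA₀ (a : A₀) (x : E1 S) (j : ι) : (a • x : E1 S) j = algebraMap A₀ K a * x j := by
  change a • (x j) = _
  rw [Algebra.smul_def]

instance : IsScalarTower A₀ A (E1 S) := inferInstanceAs (IsScalarTower A₀ A (ι → K))

instance : IsScalarTower A₀ C (E1 S) := ⟨fun a c x => by
  ext j
  rw [smulC, smulA₀, smulC, map_smul, Algebra.smul_def, mul_assoc]⟩

instance : SMulCommClass A C (E1 S) := ⟨fun a c x => by
  ext j
  rw [smulC, smulA, smulA, smulC]; ring⟩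

end E1

/-- The lattice data of a split algebra. -/
theorem Split.exists_LData (S : Split A₀ K C ι) {d : Data p A K}
    [IsAdicComplete (Ideal.span {(p : A)}) A] (hpu : (p : A) ∈ nonunits A) (hK : Bounded d)
    (hg : ∀ j c, IsIntegral A (S.g j c)) :
    ∃ l : LData d ι, l.V = (Matrix.of fun j i => S.g j (S.b i)) ∧ l.U = S.U :=
  Lat.exists_LData hpu hK _ _ S.VU S.UV (fun j i => hg j (S.b i))

theorem isIntegral_g [Algebra.IsIntegral A₀ C] (S : Split A₀ K C ι) (j : ι) (c : C) :
    IsIntegral A (S.g j c) := by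
  have h1 : IsIntegral A₀ c := Algebra.IsIntegral.isIntegral c
  have h2 : IsIntegral A₀ (S.g j c) := h1.map (S.g j)
  exact h2.tower_top

/-- (E2) in the form of `BCM.Tower.ar`. -/
theorem LData.ar {d : Data p A K} (l : LData d ι) (N : ℕ) (w : ι → A)
    (h : (algebraMap A₀ A (p : A₀)) ^ N • w ∈ l.L) :
    (algebraMap A₀ A (p : A₀)) ^ (l.M + 1) • w ∈ l.L := by
  rw [map_natCast] at h ⊢
  rcases Nat.lt_or_ge N (l.M + 1) with hN | hN
  · have : (p : A) ^ (l.M + 1) • w = (p : A) ^ (l.M + 1 - N) • ((p : A) ^ N • w) := by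
      rw [smul_smul, ← pow_add, Nat.sub_add_cancel hN.le]
    rw [this]
    exact Submodule.smul_mem _ _ h
  · obtain ⟨k, rfl⟩ := Nat.exists_eq_add_of_le' hN
    obtain ⟨v', hv', h1⟩ := l.artinRees k h (fun i => ⟨w i, by simp⟩)
    have h2 : (p : A) ^ (l.M + 1) • w = v' := by
      ext i
      have h3 := congrFun h1 i
      simp only [Pi.smul_apply, smul_eq_mul] at h3
      have h4 : (p : A) ^ k * ((p : A) ^ (l.M + 1) * w i - v' i) = 0 := by
        rw [pow_add] at h3
        linear_combination h3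
      have h5 := d.p_pow_reg k _ h4
      simp only [Pi.smul_apply, smul_eq_mul]
      linear_combination h5
    rw [h2]; exact hv'

/-- helper523's frame. -/
noncomputable def frame (S : Split A₀ K C ι) {d : Data p A K} (l : LData d ι)
    (hV : l.V = (Matrix.of fun j i => S.g j (S.b i)))
    (hinjA : Function.Injective (algebraMap A₀ A))
    (hstar : ∀ j c, S.g j c ∈ star d)
    (htf : ∀ x : C, S.s • x = 0 → x = 0)
    (D₀ : A₀) (hD₀ : algebraMap A₀ A D₀ = d.δ 0) (regp : ∀ x : A₀, (p : A₀) * x = 0 → x = 0)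
    (regD : ∀ x : A₀, (p : A₀) ∣ D₀ * x → (p : A₀) ∣ x) (k : ℕ) (hk : S.s ∣ ((p : A₀) * D₀) ^ k) :
    BCM.Frame A₀ A C C (E1 S) ι (p : A₀) S.s k l.L where
  v₀ := Fintype.linearCombination A₀ S.b
  v₁ :=
    { toFun := fun w => l.val w
      map_add' := fun v w => l.val_add v w
      map_smul' := fun a v => by
        ext j
        exact (l.val_smul' a v j).trans (E1.smulA S a _ j).symm }
  j :=
    { toFun := fun c => fun j => S.g j c
      map_add' := fun x y => by ext j; exact map_add _ _ _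
      map_smul' := fun c x => by ext j; exact map_mul _ _ _ }
  comm := by
    intro x
    ext j
    change S.g j (Fintype.linearCombination A₀ S.b x) = l.val (BCM.bc A₀ ι x) j
    rw [Fintype.linearCombination_apply, map_sum, LData.val_apply, hV]
    refine Finset.sum_congr rfl (fun i _ => ?_)
    rw [map_smul, Algebra.smul_def, Matrix.of_apply, BCM.bc_apply,
      ← IsScalarTower.algebraMap_apply A₀ A K, mul_comm]
  inj₀ := by
    intro x y hxy
    have h1 : ∀ j, l.val (fun i => algebraMap A₀ A (x i)) j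
        = l.val (fun i => algebraMap A₀ A (y i)) j := by
      intro j
      have h2 := congrArg (S.g j) hxy
      rw [Fintype.linearCombination_apply, Fintype.linearCombination_apply, map_sum, map_sum] at h2
      rw [LData.val_apply, LData.val_apply, hV]
      convert h2 using 1 <;>
      · refine Finset.sum_congr rfl (fun i _ => ?_)
        rw [map_smul, Algebra.smul_def, Matrix.of_apply,
          ← IsScalarTower.algebraMap_apply A₀ A K, mul_comm]
    have h3 := l.val_injective (funext h1)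
    ext i
    exact hinjA (congrFun h3 i)
  inj₁ := fun v w h => l.val_injective h
  dinj₀ := htf
  hd₀ := fun N z w h => div_of_dvd regp regD hk N z w h
  hd₁ := fun N z w h => by
    have hk' : algebraMap A₀ A S.s ∣ ((p : A) * d.δ 0) ^ k := by
      have := map_dvd (algebraMap A₀ A) hk
      rwa [map_pow, map_mul, map_natCast, hD₀] at this
    rw [map_natCast] at h ⊢
    exact div_of_dvd d.reg_p d.reg_D hk' N z w h
  lat₀ := by
    intro c x
    obtain ⟨a, ha⟩ := S.hspan (c • Fintype.linearCombination A₀ S.b x)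
    exact ⟨a, by rw [ha, Fintype.linearCombination_apply]⟩
  lat₁ := by
    intro c x
    choose a ha using fun i => S.hspan (c * S.b i)
    refine ⟨fun k => ∑ i, algebraMap A₀ A (a i k) * x i, ?_⟩
    ext j
    have h1 : (S.s • c • (show E1 S from l.val x)) j
        = ∑ i, algebraMap A₀ K S.s * S.g j (c * S.b i) * algebraMap A K (x i) := by
      rw [E1.smulA₀, E1.smulC]
      rw [LData.val_apply, hV, Finset.mul_sum, Finset.mul_sum]
      refine Finset.sum_congr rfl (fun i _ => ?_)
      rw [Matrix.of_apply, map_mul]; ring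
    have h2 : ∀ i, algebraMap A₀ K S.s * S.g j (c * S.b i)
        = ∑ k, algebraMap A₀ K (a i k) * S.g j (S.b k) := by
      intro i
      have := congrArg (S.g j) (ha i)
      rw [map_smul, Algebra.smul_def, map_sum] at this
      rw [this]
      exact Finset.sum_congr rfl (fun k _ => by rw [map_smul, Algebra.smul_def])
    refine h1.trans ?_
    change _ = l.val _ j
    rw [LData.val_apply, hV]
    simp only [Matrix.of_apply, map_sum, Finset.mul_sum, h2, Finset.sum_mul]
    rw [Finset.sum_comm]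
    refine Finset.sum_congr rfl (fun k _ => Finset.sum_congr rfl (fun i _ => ?_))
    rw [map_mul, ← IsScalarTower.algebraMap_apply A₀ A K]
    ring
  stab := by
    intro c v hv
    refine ⟨l.act (fun j => ⟨S.g j c, hstar j c⟩) ⟨v, hv⟩, Subtype.coe_prop _, ?_⟩
    ext j
    have h1 := l.act_val (fun j => ⟨S.g j c, hstar j c⟩) ⟨v, hv⟩ j
    exact Eq.trans (E1.smulC S c (l.val v) j) h1.symm

theorem frame_v₁ (S : Split A₀ K C ι) {d : Data p A K} (l : LData d ι)
    (hV : l.V = (Matrix.of fun j i => S.g j (S.b i)))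
    (hinjA : Function.Injective (algebraMap A₀ A))
    (hstar : ∀ j c, S.g j c ∈ star d)
    (htf : ∀ x : C, S.s • x = 0 → x = 0)
    (D₀ : A₀) (hD₀ : algebraMap A₀ A D₀ = d.δ 0) (regp : ∀ x : A₀, (p : A₀) * x = 0 → x = 0)
    (regD : ∀ x : A₀, (p : A₀) ∣ D₀ * x → (p : A₀) ∣ x) (k : ℕ) (hk : S.s ∣ ((p : A₀) * D₀) ^ k)
    (v : ι → A) :
    (frame S l hV hinjA hstar htf D₀ hD₀ regp regD k hk).v₁ v = l.val v := rfl

/-- The map `C → Ω_*`, `c ↦ g_j(c)`. -/
noncomputable def gs (S : Split A₀ K C ι) {d : Data p A K} (hstar : ∀ j c, S.g j c ∈ star d)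
    (j : ι) : C →+* star d :=
  ((S.g j : C →+* K)).codRestrict (star d) (hstar j)

theorem gs_apply (S : Split A₀ K C ι) {d : Data p A K} (hstar : ∀ j c, S.g j c ∈ star d)
    (j : ι) (c : C) : (gs S hstar j c : K) = S.g j c := rfl

theorem mem_map_pi {R R' : Type*} [CommRing R] [CommRing R'] (G : ι → R →+* R') (b : Ideal R)
    (x : ι → R') (h : ∀ j, x j ∈ b.map (G j)) : x ∈ b.map (RingHom.pi G) := by
  have h1 : x = ∑ j, Pi.single j (x j) := by
    ext i; simp [Finset.sum_apply, Pi.single_apply]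
  rw [h1]
  refine Submodule.sum_mem _ (fun j _ => ?_)
  have h2 : ∀ y ∈ b.map (G j), (Pi.single j y : ι → R') ∈ b.map (RingHom.pi G) := by
    intro y hy
    induction hy using Submodule.span_induction with
    | mem y hy =>
      obtain ⟨c, hc, rfl⟩ := hy
      have : (Pi.single j (G j c) : ι → R') = Pi.single j 1 * RingHom.pi G c := by
        ext i
        by_cases hi : i = j
        · subst hi; simp
        · simp [hi]
      rw [this]
      exact Ideal.mul_mem_left _ _ (Ideal.mem_map_of_mem _ hc)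
    | zero => simp
    | add y z _ _ hy hz => rw [Pi.single_add]; exact add_mem hy hz
    | smul r y _ hy =>
      have : (Pi.single j (r • y) : ι → R') = Pi.single j r * Pi.single j y := by
        rw [← Pi.single_mul, smul_eq_mul]
      rw [this]
      exact Ideal.mul_mem_left _ _ hy
  exact h2 _ (h j)

/-- (E5) amplitude: if `g_j(r) ∈ g_j(𝔟) Ω_*` for all `j` then `r L ⊆ 𝔟 L`. -/
theorem amp (S : Split A₀ K C ι) {d : Data p A K} (l : LData d ι)
    (hV : l.V = (Matrix.of fun j i => S.g j (S.b i)))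
    (hinjA : Function.Injective (algebraMap A₀ A))
    (hstar : ∀ j c, S.g j c ∈ star d)
    (htf : ∀ x : C, S.s • x = 0 → x = 0)
    (D₀ : A₀) (hD₀ : algebraMap A₀ A D₀ = d.δ 0) (regp : ∀ x : A₀, (p : A₀) * x = 0 → x = 0)
    (regD : ∀ x : A₀, (p : A₀) ∣ D₀ * x → (p : A₀) ∣ x) (k : ℕ) (hk : S.s ∣ ((p : A₀) * D₀) ^ k)
    (b : Ideal C) (r : C) (hr : ∀ j, gs S hstar j r ∈ b.map (gs S hstar j)) (v : ι → A)
    (hv : v ∈ l.L) :
    r • (frame S l hV hinjA hstar htf D₀ hD₀ regp regD k hk).v₁ v
      ∈ (frame S l hV hinjA hstar htf D₀ hD₀ regp regD k hk).idL b := by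
  set F := frame S l hV hinjA hstar htf D₀ hD₀ regp regD k hk with hF
  have h1 : RingHom.pi (gs S hstar) r ∈ b.map (RingHom.pi (gs S hstar)) :=
    mem_map_pi _ _ _ hr
  have h0 : ∀ (c : C) (w : l.L), F.v₁ (l.act (RingHom.pi (gs S hstar) c) w : ι → A)
      = c • F.v₁ (w : ι → A) := by
    intro c w
    ext j
    exact (l.act_val _ w j).trans (E1.smulC S c (l.val (w : ι → A)) j).symm
  have h2 : ∀ x ∈ b.map (RingHom.pi (gs S hstar)), ∀ w : l.L,
      F.v₁ (l.act x w : ι → A) ∈ F.idL b := by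
    intro x hx
    induction hx using Submodule.span_induction with
    | mem x hx =>
      obtain ⟨c, hc, rfl⟩ := hx
      intro w
      rw [h0 c w]
      exact Submodule.subset_span ⟨c, hc, w, w.2, rfl⟩
    | zero =>
      intro w
      rw [map_zero, LinearMap.zero_apply, Submodule.coe_zero, map_zero]
      exact Submodule.zero_mem _
    | add x y _ _ hx hy =>
      intro w
      rw [map_add, LinearMap.add_apply, Submodule.coe_add, map_add]
      exact Submodule.add_mem _ (hx w) (hy w)
    | smul ω y _ hy =>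
      intro w
      have : l.act (ω • y) w = l.act y (l.act ω w) := by
        rw [smul_eq_mul, mul_comm, map_mul]; rfl
      rw [this]
      exact hy _
  have h3 := h2 _ h1 ⟨v, hv⟩
  rwa [h0 r ⟨v, hv⟩] at h3

/-- (E1): the descent datum, for a split algebra. -/
theorem hL {A2 K2 : Type u} [CommRing A2] [CommRing K2] [Algebra A2 K2]
    [IsAdicComplete (Ideal.span {(p : A2)}) A2] (hpu : (p : A2) ∈ nonunits A2)
    (S : Split A₀ K C ι) {d : Data p A K} (l : LData d ι)
    (hV : l.V = (Matrix.of fun j i => S.g j (S.b i))) (hU : l.U = S.U)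
    (p1 p2 : A →+* A2) (P1 P2 : K →+* K2)
    (h1 : ∀ a, P1 (algebraMap A K a) = algebraMap A2 K2 (p1 a))
    (h2 : ∀ a, P2 (algebraMap A K a) = algebraMap A2 K2 (p2 a))
    (h12 : ∀ a : A₀, p1 (algebraMap A₀ A a) = p2 (algebraMap A₀ A a))
    (d1 d2 : Data p A2 K2) (hϖ1 : ∀ e, d1.ϖ e = p1 (d.ϖ e)) (hδ1 : ∀ e, d1.δ e = p1 (d.δ e))
    (hϖ2 : ∀ e, d2.ϖ e = p2 (d.ϖ e)) (hδ2 : ∀ e, d2.δ e = p2 (d.δ e))
    (hϖ : d1.ϖ = d2.ϖ) (h0 : d1.δ 0 = d2.δ 0) (hK2 : Bounded d1) :
    ∀ v ∈ l.L, (fun i => p2 (v i)) ∈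
      Submodule.span A2 ((fun (w : ι → A) (i : ι) => p1 (w i)) '' (l.L : Set (ι → A))) := by
  intro v hv
  have hP : ∀ x : A₀, P1 (algebraMap A₀ K x) = P2 (algebraMap A₀ K x) := by
    intro x
    rw [IsScalarTower.algebraMap_apply A₀ A K, h1, h2, h12]
  refine descent hpu l p1 p2 P1 P2 h1 h2 d1 d2 hϖ1 hδ1 hϖ2 hδ2 hϖ h0 (fun j j' => ?_) hv
  refine hK2.idem_mem_star hpu ?_
  have := idem_of_homs S.b S.g (Matrix.of fun j i => S.g j (S.b i)) S.U (fun _ _ => rfl) S.VU S.UV
    S.s S.hspan P1 P2 hP (S.hs.map P1) j j'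
  rw [hV, hU]
  exact this

end

end Crest.Agent.R183.Lat
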