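/-
R183 (Lech), block (E) LATTICE (helper817), part 8: the inputs of helper523's `BCM.frame` /
`BCM.StageData` from a split algebra: `Coord`, stability, `RegL`, amplitude.
-/
import Crest.Agent.R183.Lat7
import Crest.Agent.R183.BCM8

set_option autoImplicit false
set_option linter.unusedSectionVars false

open Polynomial

namespace Crest.Agent.R183.Lat

open Crest.Agent.R183.Heb
open Crest.Agent.R183.Glue

universe u

section

variable {p : ℕ} [hp : Fact p.Prime]
variable {A₀ A K C : Type u} [CommRing A₀] [CommRing A] [CommRing K] [CommRing C]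
  [Algebra A₀ A] [Algebra A K] [Algebra A₀ K] [IsScalarTower A₀ A K] [Algebra A₀ C]
variable {ι : Type} [Fintype ι] [DecidableEq ι]

/-- The `b_i` are independent over `A₀`. -/
theorem Split.indep (S : Split A₀ K C ι) (hinj : Function.Injective (algebraMap A₀ K))
    {a a' : ι → A₀} (h : ∑ i, a i • S.b i = ∑ i, a' i • S.b i) : a = a' := by
  have h1 : (Matrix.of fun j i => S.g j (S.b i)).mulVec (fun i => algebraMap A₀ K (a i))
      = (Matrix.of fun j i => S.g j (S.b i)).mulVec (fun i => algebraMap A₀ K (a' i)) := by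
    ext j
    have h2 := congrArg (S.g j) h
    rw [map_sum, map_sum] at h2
    simp only [Matrix.mulVec, dotProduct, Matrix.of_apply]
    convert h2 using 1 <;>
    · refine Finset.sum_congr rfl (fun i _ => ?_)
      rw [map_smul, Algebra.smul_def, mul_comm]
  have h3 := congrArg S.U.mulVec h1
  rw [Matrix.mulVec_mulVec, Matrix.mulVec_mulVec, S.UV, Matrix.one_mulVec, Matrix.one_mulVec] at h3
  ext i
  exact hinj (congrFun h3 i)

/-- The coordinates of helper523's `BCM.frame`. -/
theorem Split.exists_coord (S : Split A₀ K C ι) (hinj : Function.Injective (algebraMap A₀ K)) :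
    ∃ β : C →ₗ[A₀] (ι → A₀), BCM.Coord S.s S.b β := by
  choose a ha using S.hspan
  refine ⟨{ toFun := a
            map_add' := ?_
            map_smul' := ?_ }, ⟨ha, ?_⟩⟩
  · intro x y
    apply S.indep hinj
    rw [← ha, smul_add, ha, ha, ← Finset.sum_add_distrib]
    exact Finset.sum_congr rfl (fun i _ => (add_smul _ _ _).symm)
  · intro r x
    apply S.indep hinj
    rw [← ha, smul_comm, ha, Finset.smul_sum, RingHom.id_apply]
    exact Finset.sum_congr rfl (fun i _ => by rw [Pi.smul_apply, smul_assoc])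
  · intro i
    apply S.indep hinj
    change ∑ j, a (S.b i) j • S.b j = _
    rw [← ha]
    simp [Pi.single_apply, ite_smul]

theorem Split.s_reg (S : Split A₀ K C ι) (hinj : Function.Injective (algebraMap A₀ K)) (x : A₀)
    (h : S.s * x = 0) : x = 0 := by
  apply hinj
  apply S.hs.mul_left_cancel
  rw [← map_mul, h, map_zero (algebraMap A₀ K), mul_zero]

variable {S : Split A₀ K C ι} {d : Data p A K} {l : LData d ι}

theorem Vmap_eq (hV : l.V = (Matrix.of fun j i => S.g j (S.b i))) (v : ι → A) (j : ι) :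
    BCM.Vmap S.g S.b v j = l.val v j := by
  rw [BCM.Vmap_apply, LData.val_apply, hV]
  exact Finset.sum_congr rfl (fun i _ => by rw [Matrix.of_apply, Algebra.smul_def, mul_comm])

theorem Vmap_inj (hV : l.V = (Matrix.of fun j i => S.g j (S.b i))) (x : ι → A)
    (h : BCM.Vmap S.g S.b x = 0) : x = 0 := by
  apply l.val_injective
  ext j
  rw [← Vmap_eq hV, h]
  simp only [LData.val_apply, Pi.zero_apply, map_zero, mul_zero, Finset.sum_const_zero]
  rfl

theorem act_eq (hV : l.V = (Matrix.of fun j i => S.g j (S.b i)))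
    (hstar : ∀ j c, S.g j c ∈ star d) (c : C) (v : l.L) :
    c • BCM.Vmap S.g S.b (v : ι → A)
      = BCM.Vmap S.g S.b (l.act (RingHom.pi (gs S hstar) c) v : ι → A) := by
  ext j
  rw [BCM.EK.smul_apply, Vmap_eq hV, Vmap_eq hV, l.act_val]
  rfl

theorem stab (hV : l.V = (Matrix.of fun j i => S.g j (S.b i)))
    (hstar : ∀ j c, S.g j c ∈ star d) (c : C) :
    ∀ v ∈ l.L, ∃ v' ∈ l.L, c • BCM.Vmap S.g S.b v = BCM.Vmap S.g S.b v' := by
  intro v hv
  exact ⟨_, Subtype.coe_prop _, act_eq hV hstar c ⟨v, hv⟩⟩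

/-- amplitude for any frame whose `v₁` is `Vmap`. -/
theorem amp' (hV : l.V = (Matrix.of fun j i => S.g j (S.b i)))
    (hstar : ∀ j c, S.g j c ∈ star d) {E₀ : Type u} [AddCommGroup E₀] [Module A₀ E₀] [Module C E₀]
    [IsScalarTower A₀ C E₀] {a d' : A₀} {m : ℕ} (F : BCM.Frame A₀ A C E₀ (BCM.EK S.g) ι a d' m l.L)
    (hF : ∀ v, F.v₁ v = BCM.Vmap S.g S.b v)
    (b : Ideal C) (r : C) (hr : ∀ j, gs S hstar j r ∈ b.map (gs S hstar j)) (v : ι → A)
    (hv : v ∈ l.L) : r • F.v₁ v ∈ F.idL b := by
  have h1 : RingHom.pi (gs S hstar) r ∈ b.map (RingHom.pi (gs S hstar)) :=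
    mem_map_pi _ _ _ hr
  have h0 : ∀ (c : C) (w : l.L), F.v₁ (l.act (RingHom.pi (gs S hstar) c) w : ι → A)
      = c • F.v₁ (w : ι → A) := by
    intro c w
    rw [hF, hF, act_eq hV hstar]
  have h2 : ∀ x ∈ b.map (RingHom.pi (gs S hstar)), ∀ w : l.L,
      F.v₁ (l.act x w : ι → A) ∈ F.idL b := by
    intro x hx
    induction hx using Submodule.span_induction with
    | mem x hx =>
      obtain ⟨c, hc, rfl⟩ := hx
      intro w
      rw [h0 c w]
      exact Submodule.subset_span ⟨c, hc, w, w.2, rfl⟩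
    | zero =>
      intro w
      rw [map_zero, LinearMap.zero_apply, Submodule.coe_zero, map_zero]
      exact Submodule.zero_mem _
    | add x y _ _ hx hy =>
      intro w
      rw [map_add, LinearMap.add_apply, Submodule.coe_add, map_add]
      exact Submodule.add_mem _ (hx w) (hy w)
    | smul ω y _ hy =>
      intro w
      have : l.act (ω • y) w = l.act y (l.act ω w) := by
        rw [smul_eq_mul, mul_comm, map_mul]; rfl
      rw [this]
      exact hy _
  have h3 := h2 _ h1 ⟨v, hv⟩
  rwa [h0 r ⟨v, hv⟩] at h3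

/-- `(pD)^{M+1} Ω^ι ⊆ L` in the form `g3` of `StageData`. -/
theorem g3 (D₀ : A₀) (hD₀ : algebraMap A₀ A D₀ = d.δ 0) (v : ι → A) :
    algebraMap A₀ A (((p : A₀) * D₀) ^ (l.M + 1)) • v ∈ l.L := by
  have : algebraMap A₀ A (((p : A₀) * D₀) ^ (l.M + 1)) = mu d 0 ^ (l.M + 1) := by
    rw [map_pow, map_mul, map_natCast, hD₀, mu, d.ϖ0]
  rw [this]
  exact l.smul_mem_L v

end

section RegL

variable {A : Type*} [CommRing A] {M : Type*} [AddCommGroup M] [Module A M]

theorem exists_sum_of_mem (I : Ideal A) {m : M} (hm : m ∈ (I • ⊤ : Submodule A M)) :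
    ∃ (κ : Type) (_ : Fintype κ) (f : κ → A) (x : κ → M), (∀ k, f k ∈ I) ∧ m = ∑ k, f k • x k := by
  refine Submodule.smul_induction_on hm ?_ ?_
  · intro r hr n _
    exact ⟨Unit, inferInstance, fun _ => r, fun _ => n, fun _ => hr, by simp⟩
  · rintro x y ⟨κ, _, f, u, hf, rfl⟩ ⟨κ', _, f', u', hf', rfl⟩
    refine ⟨κ ⊕ κ', inferInstance, Sum.elim f f', Sum.elim u u', ?_, ?_⟩
    · rintro (k | k)
      · exact hf k
      · exact hf' k
    · simp [Fintype.sum_sum_type]

/-- A weakly regular sequence on `A` is weakly regular on every flat module. -/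
theorem regL_of_flat [Module.Flat A M] (ls : List A) (h : RegL A ls) : RegL M ls := by
  induction ls with
  | nil => trivial
  | cons y ls ih =>
    refine ⟨ih h.1, ?_⟩
    intro m hm
    obtain ⟨κ, _, f, x, hf, hsum⟩ := exists_sum_of_mem _ hm
    have h1 : ∑ k : Option κ, (k.elim y (fun k => - f k)) • (k.elim m x) = 0 := by
      rw [Fintype.sum_option]
      simp [hsum]
    obtain ⟨n, c, z, hz, hc⟩ := Module.Flat.isTrivialRelation_of_sum_smul_eq_zero h1
    have h2 : ∀ j, c none j ∈ Ideal.span {z | z ∈ ls} := by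
      intro j
      have h3 := hc j
      rw [Fintype.sum_option] at h3
      have h4 : y • c none j ∈ (Ideal.span {z | z ∈ ls} • ⊤ : Submodule A A) := by
        rw [smul_eq_mul, smul_eq_mul, Ideal.mul_top]
        have h5 : y * c none j = ∑ k, f k * c (some k) j := by
          simp only [Option.elim_none, Option.elim_some, neg_mul, Finset.sum_neg_distrib] at h3
          linear_combination h3
        rw [h5]
        exact Ideal.sum_mem _ (fun k _ => Ideal.mul_mem_right _ _ (hf k))
      have h6 := h.2 _ h4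
      rwa [smul_eq_mul, Ideal.mul_top] at h6
    have h7 : m = ∑ j, c none j • z j := hz none
    rw [h7]
    exact Submodule.sum_mem _ (fun j _ => Submodule.smul_mem_smul (h2 j) Submodule.mem_top)

end RegL

end Crest.Agent.R183.Lat
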