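/-
R183 (Lech), block (E) LATTICE (helper817), part 9: the combined theorem on helper902's environment:
from a split `A₀`-algebra `C` to the lattice, the tower and the frame.
-/
import Crest.Agent.R183.Lat8
import Crest.Agent.R183.Env1

set_option autoImplicit false
set_option linter.unusedSectionVars false

open Polynomial TensorProduct

namespace Crest.Agent.R183.Lat

open Crest.Agent.R183.Heb
open Crest.Agent.R183.Glue
open Crest.Agent.R183.Om

universe u

variable {p : ℕ} [hp : Fact p.Prime]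

theorem Bounded.of_away {A K : Type*} [CommRing A] [CommRing K] [Algebra A K] {d : Data p A K}
    (x : A) (hx : x = mu d 0) [IsLocalization.Away x K] : Bounded d := by
  subst hx
  exact Bounded.of_isLocalization

/-- The output of block (E). -/
structure Out {A₀ A K C : Type u} [CommRing A₀] [CommRing A] [CommRing K] [CommRing C]
    [Algebra A₀ A] [Algebra A K] [Algebra A₀ K] [IsScalarTower A₀ A K] [Algebra A₀ C]
    {ι : Type} [Fintype ι] [DecidableEq ι] (d : Data p A K) (S : Split A₀ K C ι) (D₀ : A₀) (k : ℕ)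
    where
  l : LData d ι
  hV : l.V = (Matrix.of fun j i => S.g j (S.b i))
  tower : BCM.Tower (p : A₀) l.L (l.M + 1)
  β : C →ₗ[A₀] (ι → A₀)
  coord : BCM.Coord S.s S.b β
  F : BCM.Frame A₀ A C (BCM.E0 C S.s) (BCM.EK S.g) ι (p : A₀) S.s k l.L
  hv₀ : ∀ x, F.v₀ x = BCM.v0 S.b S.s x
  hv₁ : ∀ v, F.v₁ v = BCM.Vmap S.g S.b v
  g3 : ∀ v : ι → A, algebraMap A₀ A (((p : A₀) * D₀) ^ (l.M + 1)) • v ∈ l.L
  regL : ∀ ls : List A, RegL A ls → RegL l.L ls
  hstar : ∀ j c, S.g j c ∈ star d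
  amp : ∀ (b : Ideal C) (r : C), (∀ j, gs S hstar j r ∈ b.map (gs S hstar j)) →
    ∀ v ∈ l.L, r • F.v₁ v ∈ F.idL b

theorem exists_out {A₀ A : Type u} [CommRing A₀] [CommRing A] [Algebra A₀ A] {ϖ : ℕ → A₀}
    (d0 : PData p A₀ ϖ) (hr0 : Reg (p : A₀)) [IsAdicComplete (Ideal.span {(p : A₀)}) A₀]
    (dA : PData p A (fun e => algebraMap A₀ A (ϖ e))) (hrA : Reg (p : A))
    [IsAdicComplete (Ideal.span {(p : A)}) A] (huA : ¬ IsUnit (p : A))
    (hgood : W.Good (p : A₀) (algebraMap A₀ A)) (D₀ : A₀) (hD₀ : RegMod D₀ (p : A₀))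
    {K : Type u} [CommRing K] [Algebra A K] [Algebra A₀ K] [IsScalarTower A₀ A K]
    (d : Data p A K) (hdϖ : ∀ e, d.ϖ e = algebraMap A₀ A (ϖ e)) (hdδ : d.δ 0 = algebraMap A₀ A D₀)
    [IsLocalization.Away (mu d 0) K]
    {C : Type u} [CommRing C] [Algebra A₀ C] [Algebra.IsIntegral A₀ C]
    {ι : Type} [Fintype ι] [DecidableEq ι] (S : Split A₀ K C ι) (k : ℕ)
    (hk : S.s ∣ ((p : A₀) * D₀) ^ k) : Nonempty (Out d S D₀ k) := by
  have hpu : (p : A) ∈ nonunits A := huA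
  have hK : Bounded d := Bounded.of_isLocalization
  -- injectivity of `A₀ → A`
  have hinjA : Function.Injective (algebraMap A₀ A) := by
    rw [injective_iff_map_eq_zero]
    intro x hx
    apply sep_of_isAdicComplete (p := (p : A₀))
    intro n
    have := Env.faithfullyFlat_of_good hgood n
    have hinj := (FaithfulSMul.algebraMap_injective (A₀ ⧸ Ideal.span {(p : A₀) ^ n})
      (A ⧸ (Ideal.span {(p : A₀) ^ n}).map (algebraMap A₀ A)))
    rw [← Ideal.mem_span_singleton, ← Ideal.Quotient.eq_zero_iff_mem]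
    apply hinj
    rw [map_zero]
    change Ideal.Quotient.mk _ (algebraMap A₀ A x) = 0
    rw [hx, map_zero]
  have hinjK : Function.Injective (algebraMap A₀ K) := by
    rw [IsScalarTower.algebraMap_eq A₀ A K]
    exact d.inj.comp hinjA
  have hgi : ∀ j c, IsIntegral A (S.g j c) := fun j c => isIntegral_g S j c
  have hstar : ∀ j c, S.g j c ∈ star d := fun j c => hK.mem_star hpu (hgi j c)
  obtain ⟨l, hV, hU⟩ := S.exists_LData hpu hK hgi
  obtain ⟨β, hβ⟩ := S.exists_coord hinjK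
  have hd₀ : ∀ (N : ℕ) (z w : A₀), S.s * z = (p : A₀) ^ (N + k) * w → ∃ w', z = (p : A₀) ^ N * w' :=
    fun N z w h => div_of_dvd hr0 hD₀ hk N z w h
  have hd₁ : ∀ (N : ℕ) (z w : A), algebraMap A₀ A S.s * z = (algebraMap A₀ A (p : A₀)) ^ (N + k) * w →
      ∃ w', z = (algebraMap A₀ A (p : A₀)) ^ N * w' := by
    intro N z w h
    have hk' : algebraMap A₀ A S.s ∣ ((p : A) * d.δ 0) ^ k := by
      have := map_dvd (algebraMap A₀ A) hk
      rwa [map_pow, map_mul, map_natCast, ← hdδ] at this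
    rw [map_natCast] at h ⊢
    exact div_of_dvd d.reg_p d.reg_D hk' N z w h
  let F := BCM.frame S.g hβ S.hs (S.s_reg hinjK) (Vmap_inj hV) (p : A₀) k l.L hd₀ hd₁ (stab hV hstar)
  have hF : ∀ v, F.v₁ v = BCM.Vmap S.g S.b v := fun v => rfl
  -- the square
  obtain ⟨A₂, _, p₁, p₂, hsq, dA₂, hrA₂, hmod⟩ := Env.exists_square d0 dA
    (fun n => Env.flatQ_of_good hgood n)
  have hquot : ∀ (N : ℕ) (x : A₀), Ideal.Quotient.mk (Ideal.span {(p : A₀) ^ N}) x = 0 ↔
      ∃ y, x = (p : A₀) ^ N * y := by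
    intro N x
    rw [Ideal.Quotient.eq_zero_iff_mem, Ideal.mem_span_singleton]
    rfl
  have hquot₁ : ∀ (N : ℕ) (x : A),
      Ideal.Quotient.mk ((Ideal.span {(p : A₀) ^ N}).map (algebraMap A₀ A)) x = 0 ↔
      ∃ y, x = (algebraMap A₀ A (p : A₀)) ^ N * y := by
    intro N x
    rw [Ideal.Quotient.eq_zero_iff_mem, Ideal.map_span, Set.image_singleton,
      Ideal.mem_span_singleton, map_pow]
    rfl
  have hcompl₂ : IsAdicComplete (Ideal.span {(p : A₂)}) A₂ := hsq.complete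
  -- `p` is not a unit in `A₂`
  have hpu₂ : (p : A₂) ∈ nonunits A₂ := by
    intro hu
    have hff := Env.faithfullyFlat_of_good hgood 1
    obtain ⟨Θ, hΘ, -, -⟩ := hsq.bij 1
    have h1 : (1 : A₂ ⧸ Ideal.span {(p : A₂) ^ 1}) = 0 := by
      rw [← map_one (Ideal.Quotient.mk _), Ideal.Quotient.eq_zero_iff_mem, pow_one,
        Ideal.span_singleton_eq_top.mpr hu]
      exact Submodule.mem_top
    have h2 : (1 : (A ⧸ (Ideal.span {(p : A₀) ^ 1}).map (algebraMap A₀ A))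
        ⊗[A₀ ⧸ Ideal.span {(p : A₀) ^ 1}] (A ⧸ (Ideal.span {(p : A₀) ^ 1}).map (algebraMap A₀ A))) = 0 :=
      hΘ.1 (by rw [map_one, map_zero, h1])
    rw [Algebra.TensorProduct.one_def, Module.FaithfullyFlat.one_tmul_eq_zero_iff,
      ← map_one (Ideal.Quotient.mk _)] at h2
    obtain ⟨y, hy⟩ := (hquot₁ 1 1).mp h2
    rw [pow_one, map_natCast] at hy
    exact huA (IsUnit.of_mul_eq_one y hy.symm)
  -- the element `D` of `A₂`
  have hcomm : ∀ x : A₀, p₁ (algebraMap A₀ A x) = p₂ (algebraMap A₀ A x) :=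
    fun x => RingHom.congr_fun hsq.comm x
  have hδ12 : p₁ (d.δ 0) = p₂ (d.δ 0) := by rw [hdδ, hcomm]
  have hregA : RegMod (d.δ 0) (p : A) := by
    rw [hdδ]; exact Env.regMod_of_good hgood hD₀
  have hreg₂ : RegMod (p₁ (d.δ 0)) (p : A₂) := (hmod _ hregA).1
  let K₂ := Localization.Away ((p : A₂) * p₁ (d.δ 0))
  have hinj₂ : Function.Injective (algebraMap A₂ K₂) :=
    (hrA₂.mul (Reg.of_regMod hrA₂ sep_of_isAdicComplete hreg₂)).injective_away
  have hunit₂ : IsUnit (algebraMap A₂ K₂ ((p : A₂) * p₁ (d.δ 0))) :=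
    IsLocalization.Away.algebraMap_isUnit _
  have hup : IsUnit (algebraMap A₂ K₂ (p : A₂)) :=
    isUnit_of_mul_isUnit_left (y := algebraMap A₂ K₂ (p₁ (d.δ 0))) (by rw [← map_mul]; exact hunit₂)
  have huD : IsUnit (algebraMap A₂ K₂ (p₁ (d.δ 0))) :=
    isUnit_of_mul_isUnit_right (x := algebraMap A₂ K₂ (p : A₂)) (by rw [← map_mul]; exact hunit₂)
  let d1 : Data p A₂ K₂ := dA₂.heb hrA₂ hinj₂ hup (fun e => p₁ (d.δ e))
    (fun e => by rw [← map_pow, d.hδ e]) huD hreg₂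
  let d2 : Data p A₂ K₂ := dA₂.heb hrA₂ hinj₂ hup (fun e => p₂ (d.δ e))
    (fun e => by rw [← map_pow, d.hδ e]) (by rw [← hδ12]; exact huD) (by rw [← hδ12]; exact hreg₂)
  have hmu : mu d1 0 = (p : A₂) * p₁ (d.δ 0) := by rw [mu, d1.ϖ0]; rfl
  have hK₂ : Bounded d1 := Bounded.of_away ((p : A₂) * p₁ (d.δ 0)) hmu.symm
  have hmu0 : mu d 0 = (p : A) * d.δ 0 := by rw [mu, d.ϖ0]
  have hP₁ : IsUnit (((algebraMap A₂ K₂).comp p₁) (mu d 0)) := by
    rw [RingHom.comp_apply, hmu0, map_mul, map_natCast]; exact hunit₂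
  have hP₂ : IsUnit (((algebraMap A₂ K₂).comp p₂) (mu d 0)) := by
    rw [RingHom.comp_apply, hmu0, map_mul, map_natCast, ← hδ12]; exact hunit₂
  let P₁ : K →+* K₂ := IsLocalization.Away.lift (mu d 0) hP₁
  let P₂ : K →+* K₂ := IsLocalization.Away.lift (mu d 0) hP₂
  have hLL := hL hpu₂ S l hV hU p₁ p₂ P₁ P₂
    (fun a => IsLocalization.Away.lift_eq (mu d 0) hP₁ a)
    (fun a => IsLocalization.Away.lift_eq (mu d 0) hP₂ a) hcomm d1 d2
    (fun e => by rw [hdϖ]; rfl) (fun e => rfl)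
    (fun e => by rw [hdϖ, ← hcomm]; rfl) (fun e => rfl) rfl hδ12 hK₂
  have htower : BCM.Tower (p : A₀) l.L (l.M + 1) := by
    refine ⟨hr0, fun x hx => ?_, fun N w h => l.ar N w h, fun N => ?_, fun N T x hx => ?_⟩
    · rw [map_natCast] at hx; exact hrA x hx
    · have hff := Env.faithfullyFlat_of_good hgood N
      obtain ⟨Θ, hΘ, h1, h2⟩ := hsq.bij N
      exact BCM.fl_of_flat (p : A₀) N (Ideal.Quotient.mk (Ideal.span {(p : A₀) ^ N}))
        (Ideal.Quotient.mk ((Ideal.span {(p : A₀) ^ N}).map (algebraMap A₀ A)))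
        Ideal.Quotient.mk_surjective Ideal.Quotient.mk_surjective (hquot₁ N) (fun x => rfl) l.L
        (BCM.datum_of_square _ Ideal.Quotient.mk_surjective p₁ p₂ _ Θ hΘ h1 h2 l.L hLL)
    · have hff := Env.faithfullyFlat_of_good hgood N
      exact BCM.ff_of_faithfullyFlat (p : A₀) N (Ideal.Quotient.mk (Ideal.span {(p : A₀) ^ N}))
        (Ideal.Quotient.mk ((Ideal.span {(p : A₀) ^ N}).map (algebraMap A₀ A)))
        Ideal.Quotient.mk_surjective Ideal.Quotient.mk_surjective (hquot N) (hquot₁ N)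
        (fun x => rfl) T x hx
  exact ⟨{
    l := l
    hV := hV
    tower := htower
    β := β
    coord := hβ
    F := F
    hv₀ := fun x => rfl
    hv₁ := hF
    g3 := fun v => g3 D₀ hdδ.symm v
    regL := fun ls h => regL_of_flat ls h
    hstar := hstar
    amp := fun b r hr v hv => amp' hV hstar F hF b r hr v hv }⟩

end Crest.Agent.R183.Lat
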