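import Crest.Agent.R183.Lat3
import Crest.Agent.R183.BCM6
import Crest.Agent.R183.Env1

/-!
R183 / Mix1 (helper902) : regular sequences along flat maps.
-/

set_option autoImplicit false
set_option linter.unusedSectionVars false

namespace Crest.Agent.R183.Mix

open Crest.Agent.R183.Glue Crest.Agent.R183.W Crest.Agent.R183.Om

universe u v w

section

variable {A : Type u} [CommRing A] {M : Type v} [AddCommGroup M] [Module A M]

/-- elements of `(l) M`. -/
theorem mem_span_list_smul {l : List A} {m : M}
    (h : m ∈ (Ideal.span {y | y ∈ l} • (⊤ : Submodule A M))) :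
    ∃ v : Fin l.length → M, m = ∑ i, l.get i • v i := by
  classical
  induction h using Submodule.smul_induction_on' with
  | smul r hr n hn =>
    clear hn
    induction hr using Submodule.span_induction with
    | mem x hx =>
      obtain ⟨i, hi⟩ := List.mem_iff_get.1 hx
      refine ⟨fun j => if j = i then n else 0, ?_⟩
      rw [Finset.sum_eq_single i]
      · simp only [if_true]; rw [hi]
      · intro b _ hb
        simp only [if_neg hb, smul_zero]
      · intro h; exact absurd (Finset.mem_univ i) h
    | zero => exact ⟨0, by simp⟩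
    | add x y _ _ hx hy =>
      obtain ⟨v, hv⟩ := hx
      obtain ⟨v', hv'⟩ := hy
      exact ⟨v + v', by simp only [Pi.add_apply, smul_add, Finset.sum_add_distrib, ← hv, ← hv',
        add_smul]⟩
    | smul a x _ hx =>
      obtain ⟨v, hv⟩ := hx
      refine ⟨a • v, ?_⟩
      rw [smul_eq_mul, mul_smul, hv, Finset.smul_sum]
      exact Finset.sum_congr rfl fun i _ => by rw [Pi.smul_apply, smul_comm]
  | add x hx y hy hx' hy' =>
    obtain ⟨v, hv⟩ := hx'
    obtain ⟨v', hv'⟩ := hy'
    exact ⟨v + v', by simp only [Pi.add_apply, smul_add, Finset.sum_add_distrib, ← hv, ← hv']⟩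

theorem sum_mem_span_list (l : List A) (v : Fin l.length → M) :
    ∑ i, l.get i • v i ∈ (Ideal.span {y | y ∈ l} • (⊤ : Submodule A M)) := by
  refine Submodule.sum_mem _ fun i _ => Submodule.smul_mem_smul (Ideal.subset_span ?_) trivial
  exact List.get_mem l i

theorem mem_smul_top_self {I : Ideal A} {x : A} :
    x ∈ (I • (⊤ : Submodule A A)) ↔ x ∈ I := by
  rw [smul_eq_mul, Ideal.mul_top]

/-- equational criterion for flatness, general index type. -/
theorem flat_relation [Module.Flat A M] {κ : Type*} [Fintype κ] (f : κ → A) (y : κ → M)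
    (h : ∑ o, f o • y o = 0) : ∃ (k : ℕ) (a : κ → Fin k → A) (z : Fin k → M),
      (∀ o, y o = ∑ j, a o j • z j) ∧ ∀ j, ∑ o, f o * a o j = 0 := by
  classical
  let e := Fintype.equivFin κ
  have h0' : ∑ i, f (e.symm i) • y (e.symm i) = 0 := by
    rw [← h]
    exact Fintype.sum_equiv e.symm _ _ fun _ => rfl
  obtain ⟨k, c, z, h1, h2⟩ := (Module.Flat.iff_forall_isTrivialRelation (R := A) (M := M)).1
    inferInstance (f := fun i => f (e.symm i)) (x := fun i => y (e.symm i)) h0'
  refine ⟨k, fun o => c (e o), z, fun o => ?_, fun j => ?_⟩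
  · have := h1 (e o)
    simp only [Equiv.symm_apply_apply] at this
    exact this
  · rw [← h2 j]
    refine Fintype.sum_equiv e _ _ fun o => ?_
    simp only [Equiv.symm_apply_apply]

/-- regular sequences on the ring are regular on flat modules. -/
theorem regL_of_flat [Module.Flat A M] (l : List A) (h : RegL A l) : RegL M l := by
  induction l with
  | nil => trivial
  | cons x l ih =>
    refine ⟨ih h.1, fun m hm => ?_⟩
    obtain ⟨v, hv⟩ := mem_span_list_smul hm
    -- the relation `x m - Σ l_i v_i = 0`
    let f : Option (Fin l.length) → A := fun o => o.elim x fun i => - l.get i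
    let y : Option (Fin l.length) → M := fun o => o.elim m v
    have hrel : ∑ o, f o • y o = 0 := by
      rw [Fintype.sum_option]
      show x • m + ∑ i, (- l.get i) • v i = 0
      simp only [neg_smul, Finset.sum_neg_distrib, ← hv, add_neg_cancel]
    obtain ⟨k, a, z, h1, h2⟩ := flat_relation f y hrel
    have hm1 : m = ∑ j, a none j • z j := h1 none
    rw [hm1]
    refine Submodule.sum_mem _ fun j _ => ?_
    have h3 : a none j ∈ Ideal.span {y | y ∈ l} := by
      have h5 := h2 j
      rw [Fintype.sum_option] at h5
      have h6 : x * a none j = ∑ i, l.get i • a (some i) j := by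
        have h7 : x * a none j + ∑ i, (- l.get i) * a (some i) j = 0 := h5
        simp only [neg_mul, Finset.sum_neg_distrib] at h7
        exact add_neg_eq_zero.1 h7
      have h8 := h.2 (a none j) (by
        have h9 : x • a none j = ∑ i, l.get i • a (some i) j := h6
        rw [h9]
        exact sum_mem_span_list l _)
      rwa [mem_smul_top_self] at h8
    exact Submodule.smul_mem_smul h3 trivial

end

section

variable {A : Type u} {B : Type v} [CommRing A] [CommRing B]

/-- flat modules give `FlatAt`. -/
theorem flatAt_of_flat [Algebra A B] [Module.Flat A B] (a : A) : FlatAt (algebraMap A B) a := by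
  classical
  intro ι _ r x w hrel
  let f : Option ι → A := fun o => o.elim (-a) r
  let y : Option ι → B := fun o => o.elim w x
  have h0 : ∑ o, f o • y o = 0 := by
    rw [Fintype.sum_option]
    show (-a) • w + ∑ i, r i • x i = 0
    simp only [Algebra.smul_def, hrel, map_neg]
    ring
  obtain ⟨k, c, z, h1, h2⟩ := flat_relation f y h0
  refine ⟨Fin k, inferInstance, fun i j => c (some i) j, z, fun _ => 0,
    fun j => c none j, ?_, ?_⟩
  · intro i
    have h3 : x i = ∑ j, c (some i) j • z j := h1 (some i)
    rw [h3]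
    simp [Algebra.smul_def]
  · intro j
    have h4 := h2 j
    rw [Fintype.sum_option] at h4
    have h5 : (-a) * c none j + ∑ i, r i * c (some i) j = 0 := h4
    linear_combination h5

/-- completions are `FlatAt`. -/
theorem flatAt_of_isCompl {π : A} {ι : A →+* B} (h : IsCompl π ι) (n : ℕ) :
    FlatAt ι (π ^ n) := by
  intro κ _ r x w hrel
  choose x' d hd using fun i => h.dense n (x i)
  refine ⟨Unit, inferInstance, fun i _ => x' i, fun _ => 1, d, ?_⟩
  have h1 : π ^ n ∣ ∑ i, r i * x' i := by
    apply h.sat
    refine ⟨w - ∑ i, ι (r i) * d i, ?_⟩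
    have h2 : ∀ i, x i = ι (x' i) + ι π ^ n * d i := fun i => by
      rw [← hd i]; ring
    rw [map_sum, mul_sub, ← map_pow, ← hrel, Finset.mul_sum, ← Finset.sum_sub_distrib]
    refine Finset.sum_congr rfl fun i _ => ?_
    rw [map_mul, map_pow]
    linear_combination (-ι (r i)) * h2 i
  obtain ⟨s, hs⟩ := h1
  refine ⟨fun _ => s, fun i => ?_, fun _ => hs⟩
  rw [Finset.univ_unique, Finset.sum_singleton, mul_one, map_pow]
  linear_combination hd i

/-- the regularity test of an ideal along `FlatAt`. -/
theorem mem_of_flatAt {φ : A →+* B} {a : A} (h : FlatAt φ a) (x : A) (l : List A) (hal : a ∈ l)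
    (hx : ∀ m : A, x * m ∈ Ideal.span {y | y ∈ l} → m ∈ Ideal.span {y | y ∈ l}) (b : B)
    (hb : φ x * b ∈ (Ideal.span {y | y ∈ l}).map φ) : b ∈ (Ideal.span {y | y ∈ l}).map φ := by
  classical
  rw [← BCM.span_map_list] at hb
  have hb' : φ x * b ∈ (Ideal.span {y | y ∈ l.map φ} • (⊤ : Submodule B B)) := by
    rwa [mem_smul_top_self]
  obtain ⟨v, hv⟩ := mem_span_list_smul hb'
  have hlen : (l.map φ).length = l.length := List.length_map ..
  let v' : Fin l.length → B := fun i => v (Fin.cast hlen.symm i)
  have hv' : φ x * b = ∑ i, φ (l.get i) * v' i := by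
    rw [hv]
    refine Fintype.sum_equiv (finCongr hlen) _ _ fun i => ?_
    simp [v', smul_eq_mul]
  let r : Option (Fin l.length) → A := fun o => o.elim x fun i => - l.get i
  let y : Option (Fin l.length) → B := fun o => o.elim b v'
  obtain ⟨κ, _, c, z, x', s, h1, h2⟩ := h (Option (Fin l.length)) r y 0 (by
    rw [Fintype.sum_option]
    show φ x * b + ∑ i, φ (- l.get i) * v' i = φ a * 0
    simp only [map_neg, neg_mul, Finset.sum_neg_distrib, ← hv', add_neg_cancel, mul_zero])
  have h3 := h1 none
  have h4 : b = ∑ j, φ (c none j) * z j + φ a * x' none := h3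
  rw [h4]
  refine Ideal.add_mem _ (Submodule.sum_mem _ fun j _ => ?_) ?_
  · refine Ideal.mul_mem_right _ _ (Ideal.mem_map_of_mem φ (hx _ ?_))
    have h5 := h2 j
    rw [Fintype.sum_option] at h5
    have h6 : x * c none j + ∑ i, (- l.get i) * c (some i) j = a * s j := h5
    have h7 : x * c none j = ∑ i, l.get i * c (some i) j + a * s j := by
      simp only [neg_mul, Finset.sum_neg_distrib] at h6
      linear_combination h6
    rw [h7]
    refine Ideal.add_mem _ (Submodule.sum_mem _ fun i _ => ?_) ?_
    · exact Ideal.mul_mem_right _ _ (Ideal.subset_span (List.get_mem l i))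
    · exact Ideal.mul_mem_right _ _ (Ideal.subset_span hal)
  · exact Ideal.mul_mem_right _ _ (Ideal.mem_map_of_mem φ (Ideal.subset_span hal))

/-- **`RegL` along `FlatAt`** (last entry `a ^ n`). -/
theorem regL_of_flatAt {φ : A →+* B} {a : A} {n : ℕ} (h : FlatAt φ (a ^ n)) (hr : RegAt φ a)
    (l : List A) (hl : RegL A (l ++ [a ^ n])) : RegL B ((l ++ [a ^ n]).map φ) := by
  induction l with
  | nil =>
    refine ⟨trivial, fun m hm => ?_⟩
    have h1 : Ideal.span {y | y ∈ List.map φ ([] : List A)} = ⊥ := by simp
    rw [h1, Submodule.bot_smul, Submodule.mem_bot] at hm ⊢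
    exact hr.pow n m hm
  | cons x l ih =>
    rw [List.cons_append] at hl ⊢
    rw [List.map_cons]
    refine ⟨ih hl.1, fun m hm => ?_⟩
    rw [mem_smul_top_self, BCM.span_map_list] at hm ⊢
    refine mem_of_flatAt h x _ (by simp) ?_ m hm
    intro y hy
    have := hl.2 y (by rw [mem_smul_top_self]; exact hy)
    rwa [mem_smul_top_self] at this

end

section

variable {p : ℕ} [hp : Fact p.Prime] {A K : Type*} [CommRing A] [CommRing K] [Algebra A K]

/-- `RegL` on the lattice `L`. -/
theorem regL_L {d : Heb.Data p A K} {ι : Type*} [Fintype ι] [DecidableEq ι] (l : Lat.LData d ι)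
    (s : List A) (hs : RegL A s) : RegL l.L s := regL_of_flat s hs

end

end Crest.Agent.R183.Mix
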