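import Crest.Agent.R183.Lat6
import Crest.Agent.R183.Env1
import Crest.Agent.R183.Mix1

/-!
R183 / Mix2 (helper902) : the environment of the stage `q = p^e`.
-/

set_option autoImplicit false
set_option linter.unusedSectionVars false

open Polynomial

namespace Crest.Agent.R183.Mix

open Crest.Agent.R183.Om Crest.Agent.R183.Env Crest.Agent.R183.Lat

universe u

/-- change of the splitting ring -/
def splitMap {A₀ K K' C : Type*} [CommRing A₀] [CommRing K] [CommRing K'] [CommRing C]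
    [Algebra A₀ K] [Algebra A₀ K'] [Algebra A₀ C] {ι : Type} [Fintype ι] [DecidableEq ι]
    (S : Split A₀ K C ι) (h : K →ₐ[A₀] K') : Split A₀ K' C ι where
  g j := h.comp (S.g j)
  b := S.b
  U := S.U.map h
  VU := by
    have h1 := congrArg (fun m => Matrix.map m h) S.VU
    rw [← Matrix.map_one h (map_zero h) (map_one h), ← h1]
    exact (Matrix.map_mul (M := S.U) (L := Matrix.of fun j i => S.g j (S.b i))
      (f := (h : K →+* K'))).symm
  UV := by
    have h1 := congrArg (fun m => Matrix.map m h) S.UV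
    rw [← Matrix.map_one h (map_zero h) (map_one h), ← h1]
    exact (Matrix.map_mul (M := Matrix.of fun j i => S.g j (S.b i)) (L := S.U)
      (f := (h : K →+* K'))).symm
  s := S.s
  hs := by
    have := S.hs.map (h : K →+* K')
    rwa [RingHom.coe_coe, AlgHom.commutes] at this
  hspan := S.hspan

/-- An environment over `A₀`: a good extension `A`, a root system of `D`, `K = A[1/pD]`. -/
structure Envr (p : ℕ) [Fact p.Prime] (A₀ : Type u) [CommRing A₀] (ϖ : ℕ → A₀) (D : A₀) :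
    Type (u + 1) where
  A : Type u
  [ring : CommRing A]
  [alg : Algebra A₀ A]
  M : Model p A (fun e => algebraMap A₀ A (ϖ e))
  good : W.Good (p : A₀) (algebraMap A₀ A)
  δ : ℕ → A
  hδ : ∀ e, δ (e + 1) ^ p = δ e
  δ0 : δ 0 = algebraMap A₀ A D
  K : Type u
  [ringK : CommRing K]
  [algK : Algebra A K]
  [alg0 : Algebra A₀ K]
  [tower : IsScalarTower A₀ A K]
  [loc : IsLocalization.Away ((p : A) * δ 0) K]
  reg : RegMod (δ 0) (p : A)

attribute [instance] Envr.ring Envr.alg Envr.ringK Envr.algK Envr.alg0 Envr.tower Envr.loc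

namespace Envr

variable {p : ℕ} [hp : Fact p.Prime] {A₀ : Type u} [CommRing A₀] {ϖ : ℕ → A₀} {D : A₀}

instance complete (E : Envr p A₀ ϖ D) : IsAdicComplete (Ideal.span {(p : E.A)}) E.A :=
  E.M.props.2.2.1

theorem p_nonunit (E : Envr p A₀ ϖ D) : (p : E.A) ∈ nonunits E.A := E.M.props.2.2.2

theorem inj (E : Envr p A₀ ϖ D) : Function.Injective (algebraMap E.A E.K) := by
  have h := E.M.props
  have h1 : Reg ((p : E.A) * E.δ 0) :=
    h.2.1.mul (Reg.of_regMod h.2.1 sep_of_isAdicComplete E.reg)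
  apply IsLocalization.injective E.K (M := Submonoid.powers ((p : E.A) * E.δ 0))
  rintro _ ⟨n, rfl⟩
  have h : Reg (((p : E.A) * E.δ 0) ^ n) := by
    induction n with
    | zero => intro x hx; simpa using hx
    | succ n ih => rw [pow_succ]; exact ih.mul h1
  rw [mem_nonZeroDivisors_iff_right]
  intro x hx
  exact h x (by rw [mul_comm]; exact hx)

theorem unit_pD (E : Envr p A₀ ϖ D) : IsUnit (algebraMap E.A E.K ((p : E.A) * E.δ 0)) :=
  IsLocalization.Away.algebraMap_isUnit _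

theorem unit_p (E : Envr p A₀ ϖ D) : IsUnit (algebraMap E.A E.K (p : E.A)) :=
  isUnit_of_mul_isUnit_left (y := algebraMap E.A E.K (E.δ 0)) (by
      rw [← map_mul]; exact E.unit_pD)

theorem unit_D (E : Envr p A₀ ϖ D) : IsUnit (algebraMap E.A E.K (E.δ 0)) :=
  isUnit_of_mul_isUnit_right (x := algebraMap E.A E.K (p : E.A)) (by
      rw [← map_mul]; exact E.unit_pD)

/-- the `Heb.Data`. -/
noncomputable def data (E : Envr p A₀ ϖ D) : Heb.Data p E.A E.K where
  ϖ e := algebraMap A₀ E.A (ϖ e)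
  δ := E.δ
  ϖ0 := E.M.props.1.zero
  hϖ := fun e => E.M.props.1.roots e
  hδ := E.hδ
  inj := E.inj
  unit_p := E.unit_p
  unit_D := E.unit_D
  reg_p := E.M.props.2.1
  reg_D := E.reg
  fsurj := E.M.props.1.fsurj
  finj := E.M.props.1.finj

theorem data_ϖ (E : Envr p A₀ ϖ D) (e : ℕ) : E.data.ϖ e = algebraMap A₀ E.A (ϖ e) := rfl
theorem data_δ (E : Envr p A₀ ϖ D) (e : ℕ) : E.data.δ e = E.δ e := rfl

theorem mu_zero (E : Envr p A₀ ϖ D) : mu E.data 0 = (p : E.A) * E.δ 0 := by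
  rw [mu, E.data.ϖ0]; rfl

theorem mu_zero' (E : Envr p A₀ ϖ D) : mu E.data 0 = algebraMap A₀ E.A ((p : A₀) * D) := by
  rw [E.mu_zero, map_mul, map_natCast, E.δ0]

theorem bounded (E : Envr p A₀ ϖ D) : Bounded E.data := by
  have : IsLocalization.Away (mu E.data 0) E.K := by rw [E.mu_zero]; exact E.loc
  exact Bounded.of_isLocalization

theorem unit_pow (E : Envr p A₀ ϖ D) (M : ℕ) :
    IsUnit (algebraMap A₀ E.K (((p : A₀) * D) ^ M)) := by
  rw [IsScalarTower.algebraMap_apply A₀ E.A E.K, map_pow, map_pow, ← E.mu_zero']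
  exact (isUnit_mu E.data 0).pow _

theorem mem_star_of_integral (E : Envr p A₀ ϖ D) {x : E.K} (hx : IsIntegral E.A x) :
    x ∈ star E.data := E.bounded.mem_star E.p_nonunit hx

theorem hom_mem_star (E : Envr p A₀ ϖ D) {C : Type*} [CommRing C] [Algebra A₀ C]
    [Algebra.IsIntegral A₀ C] (g : C →ₐ[A₀] E.K) (c : C) : g c ∈ star E.data := by
  apply E.mem_star_of_integral
  have h1 : IsIntegral A₀ c := Algebra.IsIntegral.isIntegral c
  have h2 : IsIntegral A₀ (g c) := h1.map g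
  exact h2.tower_top

/-- maps between the localisations -/
theorem exists_hom (E E' : Envr p A₀ ϖ D) [Algebra E.A E'.A] [IsScalarTower A₀ E.A E'.A]
    (h0 : E'.δ 0 = algebraMap E.A E'.A (E.δ 0)) :
    ∃ h : E.K →ₐ[A₀] E'.K,
      ∀ x : E.A, h (algebraMap E.A E.K x) = algebraMap E'.A E'.K (algebraMap E.A E'.A x) := by
  let g0 : E.A →+* E'.K := (algebraMap E'.A E'.K).comp (algebraMap E.A E'.A)
  have hu : IsUnit (g0 ((p : E.A) * E.δ 0)) := by
    show IsUnit (algebraMap E'.A E'.K (algebraMap E.A E'.A ((p : E.A) * E.δ 0)))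
    rw [map_mul (algebraMap E.A E'.A), map_natCast, ← h0]
    exact E'.unit_pD
  let h' : E.K →+* E'.K := IsLocalization.Away.lift (S := E.K) ((p : E.A) * E.δ 0)
    (g := g0) hu
  have hh' : ∀ x : E.A, h' (algebraMap E.A E.K x) = g0 x :=
    fun x => IsLocalization.Away.lift_eq (g := g0) _ hu x
  refine ⟨{ h' with commutes' := ?_ }, hh'⟩
  intro x
  show h' (algebraMap A₀ E.K x) = _
  rw [IsScalarTower.algebraMap_apply A₀ E.A E.K, hh']
  show algebraMap E'.A E'.K (algebraMap E.A E'.A (algebraMap A₀ E.A x)) = _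
  rw [← IsScalarTower.algebraMap_apply A₀ E.A E'.A, ← IsScalarTower.algebraMap_apply A₀ E'.A E'.K]

/-- the environment with `K = Localization.Away _`. -/
noncomputable def ofModel {A : Type u} [CommRing A] [Algebra A₀ A]
    (M : Model p A (fun e => algebraMap A₀ A (ϖ e))) (good : W.Good (p : A₀) (algebraMap A₀ A))
    (δ : ℕ → A) (hδ : ∀ e, δ (e + 1) ^ p = δ e) (δ0 : δ 0 = algebraMap A₀ A D)
    (reg : RegMod (δ 0) (p : A)) : Envr p A₀ ϖ D where
  A := A
  M := M
  good := good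
  δ := δ
  hδ := hδ
  δ0 := δ0
  K := Localization.Away ((p : A) * δ 0)
  reg := reg

theorem exists_next (E : Envr p A₀ ϖ D) {N : ℕ} (f : Fin N → E.A[X]) (hf : ∀ i, (f i).Monic)
    {k : ℕ} (a : Fin k → E.A) :
    ∃ (E' : Envr p A₀ ϖ D) (_ : Algebra E.A E'.A) (_ : IsScalarTower A₀ E.A E'.A)
      (h : E.K →ₐ[A₀] E'.K),
      (∀ x : E.A, h (algebraMap E.A E.K x) = algebraMap E'.A E'.K (algebraMap E.A E'.A x)) ∧
      (∀ e, E'.δ e = algebraMap E.A E'.A (E.δ e)) ∧
      (∀ i, ∃ t : Fin (f i).natDegree → E'.A, (f i).map (algebraMap E.A E'.A) =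
        ∏ j, (X - C (t j))) ∧
      ∀ i, ∃ σ : ℕ → E'.A, (∀ e, σ (e + 1) ^ p = σ e) ∧ σ 0 = algebraMap E.A E'.A (a i) := by
  obtain ⟨A, _, _, M, φ, h1, h2, h3, h4, h5, h6⟩ := exists_cover E.M f hf a
  let _ : Algebra A₀ A := ((algebraMap E.A A).comp (algebraMap A₀ E.A)).toAlgebra
  have _ : IsScalarTower A₀ E.A A := IsScalarTower.of_algebraMap_eq fun x => rfl
  have hgood : W.Good (p : A₀) (algebraMap A₀ A) := good_trans E.good h4
  have hreg : RegMod (algebraMap E.A A (E.δ 0)) (p : A) := regMod_of_good h4 E.reg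
  let E' : Envr p A₀ ϖ D := ofModel M hgood (fun e => algebraMap E.A A (E.δ e))
    (fun e => by rw [← map_pow, E.hδ]) (by rw [E.δ0]; rfl) hreg
  let _ : Algebra E.A E'.A := (inferInstance : Algebra E.A A)
  have _ : IsScalarTower A₀ E.A E'.A := (inferInstance : IsScalarTower A₀ E.A A)
  obtain ⟨h, hh⟩ := exists_hom E E' rfl
  refine ⟨E', ‹_›, ‹_›, h, hh, fun e => rfl, ?_, ?_⟩
  · intro i
    obtain ⟨t, ht⟩ := h5 i
    exact ⟨fun j => sh M.θ (t j), ht⟩
  · intro i
    obtain ⟨s, hs⟩ := h6 i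
    refine ⟨fun e => sh M.θ (Amp.rt (p := p) e s), fun e => isRoots_sh M.θ s e, ?_⟩
    show sh M.θ (Amp.rt (p := p) 0 s) = algebraMap E.A A (a i)
    rw [rt_zero, hs]

end Envr

end Crest.Agent.R183.Mix
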