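/-
R183 (Lech), block (E) LATTICE (helper817), part 10: the stage from a split algebra over an
environment.
-/
import Crest.Agent.R183.Lat9
import Crest.Agent.R183.Mix2

set_option autoImplicit false
set_option linter.unusedSectionVars false

open Polynomial TensorProduct

namespace Crest.Agent.R183.Lat

open Crest.Agent.R183.Heb
open Crest.Agent.R183.Glue
open Crest.Agent.R183.Om

universe u

variable {p : ℕ} [hp : Fact p.Prime]

/-- `exists_out` on an environment. -/
theorem exists_out_env {A₀ : Type u} [CommRing A₀] {ϖ : ℕ → A₀} {D₀ : A₀}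
    (d0 : PData p A₀ ϖ) (hr0 : Reg (p : A₀)) [IsAdicComplete (Ideal.span {(p : A₀)}) A₀]
    (hD₀ : RegMod D₀ (p : A₀)) (E : Mix.Envr p A₀ ϖ D₀)
    {C : Type u} [CommRing C] [Algebra A₀ C] [Algebra.IsIntegral A₀ C]
    {ι : Type} [Fintype ι] [DecidableEq ι] (S : Split A₀ E.K C ι) (k : ℕ)
    (hk : S.s ∣ ((p : A₀) * D₀) ^ k) : Nonempty (Out E.data S D₀ k) := by
  have : IsLocalization.Away (mu E.data 0) E.K := by rw [E.mu_zero]; exact E.loc
  exact exists_out d0 hr0 E.M.props.1 E.M.props.2.1 E.p_nonunit E.good D₀ hD₀ E.data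
    (fun e => rfl) E.δ0 S k hk

/-- **The stage** from a split algebra over an environment. -/
theorem stage_of_split {A₀ : Type u} [CommRing A₀] {ϖ : ℕ → A₀} {D₀ : A₀}
    (d0 : PData p A₀ ϖ) (hr0 : Reg (p : A₀)) [IsAdicComplete (Ideal.span {(p : A₀)}) A₀]
    (hD₀ : RegMod D₀ (p : A₀)) (E : Mix.Envr p A₀ ϖ D₀)
    {T To C : Type u} [CommRing T] [CommRing To] [CommRing C] [Algebra T To] [Algebra To C]
    [Algebra A₀ C] [Algebra.IsIntegral A₀ C]
    {κ : Type} [Fintype κ] [DecidableEq κ] (S : Split A₀ E.K C κ) (m : ℕ)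
    (hs : S.s = ((p : A₀) * D₀) ^ m) (hst : ∀ j c, S.g j c ∈ star E.data)
    {n : ℕ} (w t : Fin n → T) (𝔞 : Ideal T) (q N : ℕ)
    (Y : Fin n → C) (hY : ∀ i, Y i ^ q = algebraMap To C (algebraMap T To (w i)))
    {c : ℕ} (hc : 0 < c) (x' : Fin c → C)
    (span : ∀ y : C, ∃ v : Fin c → To, y = ∑ i, algebraMap To C (v i) * x' i)
    (indep : ∀ v : Fin c → To, ∑ i, algebraMap To C (v i) * x' i = 0 → ∀ i, v i = 0)
    (τ : List A₀)
    (hτ : ∀ k : ℕ, 0 < k → (List.ofFn fun i => algebraMap To C (algebraMap T To (t i))).map (· ^ k)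
      = (τ.map (· ^ k) ++ [(p : A₀) ^ k]).map (algebraMap A₀ C))
    (hreg : ∀ k : ℕ, 0 < k → RegL E.A ((τ.map (· ^ k) ++ [(p : A₀) ^ k]).map (algebraMap A₀ E.A)))
    (k : ℕ) (hk : (algebraMap A₀ C (p : A₀)) ^ k ∈ (Ideal.span (Set.range Y)) ^ N)
    (amp : ∀ r ∈ 𝔞, ∀ j, gs S hst j (algebraMap To C (algebraMap T To r)) ∈
      ((Ideal.span (Set.range Y)) ^ N).map (gs S hst j)) :
    ∃ M' : ℕ, ∀ Δ : T, algebraMap To C (algebraMap T To Δ) = algebraMap A₀ C (((p : A₀) * D₀) ^ M') →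
      Nonempty (Core.Stage T To w t Δ 𝔞 q N) := by
  obtain ⟨O⟩ := exists_out_env d0 hr0 hD₀ E S m (by rw [hs])
  refine ⟨m + m + (O.l.M + 1), fun Δ hΔ => ?_⟩
  have hinjA : Function.Injective (algebraMap A₀ E.A) := by
    rw [injective_iff_map_eq_zero]
    intro x hx
    apply sep_of_isAdicComplete (p := (p : A₀))
    intro n
    have := Env.faithfullyFlat_of_good E.good n
    have hinj := (FaithfulSMul.algebraMap_injective (A₀ ⧸ Ideal.span {(p : A₀) ^ n})
      (E.A ⧸ (Ideal.span {(p : A₀) ^ n}).map (algebraMap A₀ E.A)))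
    rw [← Ideal.mem_span_singleton, ← Ideal.Quotient.eq_zero_iff_mem]
    apply hinj
    rw [map_zero]
    change Ideal.Quotient.mk _ (algebraMap A₀ E.A x) = 0
    rw [hx, map_zero]
  have hinjK : Function.Injective (algebraMap A₀ E.K) := by
    rw [IsScalarTower.algebraMap_eq A₀ E.A E.K]
    exact E.data.inj.comp hinjA
  have hsreg := S.s_reg hinjK
  let SD : BCM.StageData O.F T To w t Δ 𝔞 q N :=
    { Y := Y
      hY := hY
      c := c
      hc := hc
      x' := x'
      span := span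
      indep := indep
      e₀ := 1
      g1 := fun x => by rw [O.hv₀]; exact BCM.frame_g1 x
      g2 := fun y => by
        obtain ⟨x, hx⟩ := BCM.frame_g2 O.coord y
        exact ⟨x, by rw [O.hv₀]; exact hx⟩
      δ₁ := ((p : A₀) * D₀) ^ (O.l.M + 1)
      g3 := O.g3
      δ₀ := S.s
      g4 := fun y hy => BCM.frame_g4 O.coord hsreg y hy
      hΔ := by rw [hΔ, hs, pow_add, pow_add]
      τ := τ
      hτ := hτ
      reg := fun k hk => O.regL _ (hreg k hk)
      k := k
      hk := hk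
      amp := fun r hr l hl => O.amp _ _ (amp r hr) l hl }
  exact ⟨SD.stage O.tower⟩

end Crest.Agent.R183.Lat
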