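import Mathlib

/-!
# R183, block RE (helper715), part 1: chain lemmas

* `length_quot_add` : `l(M/G) = l(F/G) + l(M/F)` for `G ≤ F`.
* `length_quot_ge` : lower bound of the length of `M / F n` along a descending chain.
* `length_le_modY` : `l_A(Q) ≤ l_T(N/yN)` if `Q` is (a quotient of) a localisation of the
  finitely generated `T`-module `N`, `y` is a unit on `Q` but `1 - y T` consists of units as well.
-/

set_option autoImplicit false

namespace Crest.Agent.R183.Loc

universe u v w

section Chain

variable {R : Type*} [CommRing R] {M : Type*} [AddCommGroup M] [Module R M]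

theorem length_quot_add {G F : Submodule R M} (h : G ≤ F) :
    Module.length R (M ⧸ G) =
      Module.length R (F ⧸ (G.comap F.subtype)) + Module.length R (M ⧸ F) := by
  refine Module.length_eq_add_of_exact
    (Submodule.mapQ (G.comap F.subtype) G F.subtype le_rfl) (Submodule.factor h) ?_
    (Submodule.factor_surjective h) ?_
  · rw [← LinearMap.ker_eq_bot, Submodule.mapQ, Submodule.ker_liftQ_eq_bot]
    intro x hx
    simpa using hx
  · intro x
    obtain ⟨x, rfl⟩ := Submodule.mkQ_surjective _ x
    constructor
    · intro hx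
      have hx' : x ∈ F := by simpa using hx
      exact ⟨Submodule.Quotient.mk ⟨x, hx'⟩, by simp⟩
    · rintro ⟨y, hy⟩
      obtain ⟨y, rfl⟩ := Submodule.mkQ_surjective _ y
      rw [← hy]
      simp

/-- Lower bound of the length of `M / F n` along a descending chain. -/
theorem length_quot_ge (F : ℕ → Submodule R M) (hF : ∀ n, F (n + 1) ≤ F n)
    (N : ℕ → Type*) [∀ n, AddCommGroup (N n)] [∀ n, Module R (N n)] (n : ℕ)
    (hg : ∀ j < n, ∃ g : F j →ₗ[R] N j, Function.Surjective g ∧
      ∀ x : F j, (x : M) ∈ F (j + 1) → g x = 0) :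
    ∑ j ∈ Finset.range n, Module.length R (N j) ≤ Module.length R (M ⧸ F n) := by
  induction n with
  | zero => simp
  | succ n ih =>
    rw [Finset.sum_range_succ, length_quot_add (hF n), add_comm]
    refine add_le_add ?_ (ih (fun j hj => hg j (hj.trans n.lt_succ_self)))
    obtain ⟨g, hg1, hg0⟩ := hg n n.lt_succ_self
    refine Module.length_le_of_surjective
      (Submodule.liftQ _ g ?_) ?_
    · intro x hx
      exact hg0 x (Submodule.mem_comap.1 hx)
    · intro z
      obtain ⟨x, rfl⟩ := hg1 z
      exact ⟨Submodule.Quotient.mk x, rfl⟩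

end Chain

section ModY

variable {T : Type*} [CommRing T]

/-- `N / y N`. -/
abbrev modY (y : T) (N : Type*) [AddCommGroup N] [Module T N] : Type _ :=
  N ⧸ (LinearMap.range (LinearMap.lsmul T N y))

theorem length_modY_add {N N'' : Type*} [AddCommGroup N] [Module T N] [AddCommGroup N'']
    [Module T N''] (y : T) (p : N →ₗ[T] N'') (hp : Function.Surjective p)
    (hy : ∀ x : N'', y • x = 0 → x = 0) :
    Module.length T (modY y N) =
      Module.length T (modY y (LinearMap.ker p)) + Module.length T (modY y N'') := by
  have h1 : LinearMap.range (LinearMap.lsmul T (LinearMap.ker p) y) ≤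
      (LinearMap.range (LinearMap.lsmul T N y)).comap (LinearMap.ker p).subtype := by
    rintro _ ⟨x, rfl⟩
    exact ⟨x, by simp⟩
  have h2 : LinearMap.range (LinearMap.lsmul T N y) ≤
      (LinearMap.range (LinearMap.lsmul T N'' y)).comap p := by
    rintro _ ⟨x, rfl⟩
    exact ⟨p x, by simp⟩
  refine Module.length_eq_add_of_exact (Submodule.mapQ _ _ (LinearMap.ker p).subtype h1)
    (Submodule.mapQ _ _ p h2) ?_ ?_ ?_
  · rw [← LinearMap.ker_eq_bot, Submodule.mapQ, Submodule.ker_liftQ_eq_bot]
    intro x hx
    have hx' : (Submodule.Quotient.mk (x : N) : modY y N) = 0 := by simpa using hx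
    rw [Submodule.Quotient.mk_eq_zero] at hx'
    obtain ⟨z, hz⟩ := hx'
    have hz' : y • z = (x : N) := by simpa using hz
    have : y • p z = 0 := by
      rw [← map_smul, hz']
      exact x.2
    exact ⟨⟨z, hy _ this⟩, Subtype.ext (by simpa using hz')⟩
  · intro z
    obtain ⟨z, rfl⟩ := Submodule.mkQ_surjective _ z
    obtain ⟨x, rfl⟩ := hp z
    exact ⟨Submodule.Quotient.mk x, by simp⟩
  · intro x
    obtain ⟨x, rfl⟩ := Submodule.mkQ_surjective _ x
    constructor
    · intro hx
      have hx' : (Submodule.Quotient.mk (p x) : modY y N'') = 0 := by simpa using hx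
      rw [Submodule.Quotient.mk_eq_zero] at hx'
      obtain ⟨z, hz⟩ := hx'
      obtain ⟨z, rfl⟩ := hp z
      have hz' : y • p z = p x := by simpa using hz
      refine ⟨Submodule.Quotient.mk ⟨x - y • z, ?_⟩, ?_⟩
      · rw [LinearMap.mem_ker, map_sub, map_smul, hz', sub_self]
      · rw [Submodule.mapQ_apply, Submodule.mkQ_apply, Submodule.Quotient.eq]
        exact ⟨-z, by simp⟩
    · rintro ⟨z, hz⟩
      obtain ⟨z, rfl⟩ := Submodule.mkQ_surjective _ z
      rw [← hz]
      have : p (z : N) = 0 := z.2
      simp [this]

end ModY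

section Key

variable {T : Type*} [CommRing T] {A : Type*} [CommRing A] [Algebra T A]

theorem length_le_modY_aux (y : T) (hy : IsUnit (algebraMap T A y))
    (hU : ∀ a : T, IsUnit (algebraMap T A (1 - y * a))) :
    ∀ (n : ℕ) (N : Type u) [AddCommGroup N] [Module T N] [IsNoetherian T N]
      (Q : Type v) [AddCommGroup Q] [Module A Q] [Module T Q] [IsScalarTower T A Q]
      [IsNoetherian A Q] (i : N →ₗ[T] Q)
      (_ : ∀ q : Q, ∃ s : T, IsUnit (algebraMap T A s) ∧ ∃ x : N, i x = s • q),
      (n : ℕ∞) ≤ Module.length A Q → (n : ℕ∞) ≤ Module.length T (modY y N) := by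
  intro n
  induction n with
  | zero => intros; simp
  | succ n ih =>
    intro N _ _ _ Q _ _ _ _ _ i hi hn
    -- `Q` is nonzero
    have hQ : Nontrivial Q := by
      rw [← not_subsingleton_iff_nontrivial]
      intro hs
      rw [Module.length_eq_zero_iff.2 hs] at hn
      simp at hn
    -- a maximal submodule
    obtain ⟨K, hK⟩ := IsCoatomic.exists_coatom (α := Submodule A Q)
    have hsimple : IsSimpleModule A (Q ⧸ K) := by
      rw [isSimpleModule_iff_isCoatom]
      exact hK
    have hlen : Module.length A Q = Module.length A K + 1 := by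
      rw [Module.length_eq_add_of_exact K.subtype K.mkQ (Submodule.subtype_injective _)
        (Submodule.mkQ_surjective _) (LinearMap.exact_subtype_mkQ K),
        Module.length_eq_one A (Q ⧸ K)]
    have hnK : (n : ℕ∞) ≤ Module.length A K := by
      rw [hlen] at hn
      push_cast at hn
      exact (ENat.add_le_add_iff_right (by simp : (1 : ℕ∞) ≠ ⊤)).1 hn
    -- the composite map
    let π : N →ₗ[T] (Q ⧸ K) := (K.mkQ.restrictScalars T).comp i
    let p : N →ₗ[T] LinearMap.range π := π.rangeRestrict
    have hp : Function.Surjective p := LinearMap.surjective_rangeRestrict π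
    have hunit : ∀ (t : T), IsUnit (algebraMap T A t) → ∀ x : Q ⧸ K, t • x = 0 → x = 0 := by
      intro t ht x hx
      rw [← algebraMap_smul A t x] at hx
      obtain ⟨u, hu⟩ := ht
      rw [← hu, ← Units.smul_def, smul_eq_zero_iff_eq] at hx
      exact hx
    have hyi : ∀ x : LinearMap.range π, y • x = 0 → x = 0 := by
      intro x hx
      have hx' : y • (x : Q ⧸ K) = 0 := by
        rw [← Submodule.coe_smul, hx]; rfl
      exact Subtype.ext (hunit y hy _ hx')
    rw [length_modY_add y p hp hyi]
    push_cast
    refine add_le_add ?_ ?_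
    · -- the kernel
      have hker : ∀ x : LinearMap.ker p, i (x : N) ∈ K := by
        intro x
        have h1 : p (x : N) = 0 := x.2
        have h2 : π (x : N) = 0 := congrArg Subtype.val h1
        have h3 : K.mkQ (i (x : N)) = 0 := h2
        simpa using h3
      let i' : LinearMap.ker p →ₗ[T] K :=
        { toFun := fun x => ⟨i (x : N), hker x⟩
          map_add' := fun x y => Subtype.ext (by simp)
          map_smul' := fun t x => Subtype.ext (by
            simp only [Submodule.coe_smul, map_smul, RingHom.id_apply]
            rw [← algebraMap_smul A t (i (x : N)), ← algebraMap_smul A t (⟨i (x : N), hker x⟩ : K)]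
            rfl) }
      refine ih (LinearMap.ker p) K i' ?_ hnK
      intro q
      obtain ⟨s, hs, x, hx⟩ := hi (q : Q)
      refine ⟨s, hs, ⟨x, ?_⟩, ?_⟩
      · rw [LinearMap.mem_ker]
        apply Subtype.ext
        change K.mkQ (i x) = 0
        rw [hx, ← algebraMap_smul A s (q : Q)]
        exact (Submodule.Quotient.mk_eq_zero K).2 (K.smul_mem _ q.2)
      · apply Subtype.ext
        change i x = _
        rw [hx, ← algebraMap_smul A s (q : Q), ← algebraMap_smul A s q]
        rfl
    · -- the image
      rw [Order.one_le_iff_pos, pos_iff_ne_zero]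
      intro h0
      rw [Module.length_eq_zero_iff, Submodule.Quotient.subsingleton_iff] at h0
      have hfg : (⊤ : Submodule T (LinearMap.range π)).FG := IsNoetherian.noetherian _
      obtain ⟨r, hr1, hr2⟩ := Submodule.exists_sub_one_mem_and_smul_eq_zero_of_fg_of_le_smul
        (Ideal.span {y}) (⊤ : Submodule T (LinearMap.range π)) hfg (by
          intro x _
          have hx : x ∈ LinearMap.range (LinearMap.lsmul T (LinearMap.range π) y) := by
            rw [h0]; exact Submodule.mem_top
          obtain ⟨z, rfl⟩ := hx
          exact Submodule.smul_mem_smul (Ideal.mem_span_singleton_self y) Submodule.mem_top)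
      obtain ⟨a, ha⟩ := Ideal.mem_span_singleton'.1 hr1
      have hr : IsUnit (algebraMap T A r) := by
        have : r = 1 - y * (-a) := by linear_combination -ha
        rw [this]
        exact hU (-a)
      -- a nonzero element of the image
      obtain ⟨q, hq⟩ : ∃ q : Q, q ∉ K := by
        by_contra hcon
        push Not at hcon
        exact hK.1 (eq_top_iff.2 fun x _ => hcon x)
      obtain ⟨s, hs, x, hx⟩ := hi q
      have hx0 : π x = 0 := by
        refine hunit r hr _ ?_
        have := hr2 (p x) Submodule.mem_top
        exact congrArg Subtype.val this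
      have hsq : s • (K.mkQ q) = 0 := by
        have h1 : π x = K.mkQ (i x) := rfl
        rw [h1, hx] at hx0
        rw [← hx0]
        rw [← algebraMap_smul A s q, map_smul, algebraMap_smul]
      have := hunit s hs _ hsq
      exact hq (by simpa using this)

theorem length_le_modY (y : T) (hy : IsUnit (algebraMap T A y))
    (hU : ∀ a : T, IsUnit (algebraMap T A (1 - y * a)))
    (N : Type u) [AddCommGroup N] [Module T N] [IsNoetherian T N]
    (Q : Type v) [AddCommGroup Q] [Module A Q] [Module T Q] [IsScalarTower T A Q]
    [IsNoetherian A Q] (i : N →ₗ[T] Q)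
    (hi : ∀ q : Q, ∃ s : T, IsUnit (algebraMap T A s) ∧ ∃ x : N, i x = s • q) :
    Module.length A Q ≤ Module.length T (modY y N) := by
  refine ENat.forall_natCast_le_iff_le.1 fun n hn => ?_
  exact length_le_modY_aux y hy hU n N Q i hi hn

end Key

end Crest.Agent.R183.Loc
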