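import Mathlib
import Crest.Agent.R183.Loc1

/-!
# R183, block RE (helper715), part 2

* `length_pow_ge` : if `M' = P' + y T`, then `l_T(T/M'^N) ≥ ∑_{s ≤ N} l(A_s)` for suitable
  quotients `A_s` of localisations at `P'`.
* `length_poly` : `l(R[X]/(m,X)^s) = ∑_{i ≤ s} l(R/m^i)`.
-/

set_option autoImplicit false

namespace Crest.Agent.R183.Loc

universe u v w

section PowGe

variable {T : Type u} [CommRing T]

theorem sup_pow_le (P : Ideal T) (y : T) (s j : ℕ) :
    (P ⊔ Ideal.span {y}) ^ (s + j) ≤ P ^ s ⊔ Ideal.span {y ^ (j + 1)} := by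
  induction s generalizing j with
  | zero => simp
  | succ s ihs =>
    induction j with
    | zero =>
      have h1 := ihs 0
      rw [add_zero] at h1 ⊢
      rw [pow_succ', zero_add, pow_one, Ideal.sup_mul]
      refine sup_le ?_ ?_
      · refine (Ideal.mul_mono_right h1).trans ?_
        rw [Ideal.mul_sup, ← pow_succ', zero_add, pow_one]
        exact sup_le_sup le_rfl Ideal.mul_le_right
      · exact Ideal.mul_le_left.trans le_sup_right
    | succ j ihj =>
      have h1 := ihs (j + 1)
      have h2 : s + 1 + (j + 1) = (s + (j + 1)) + 1 := by ring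
      rw [h2, pow_succ', Ideal.sup_mul]
      refine sup_le ?_ ?_
      · refine (Ideal.mul_mono_right h1).trans ?_
        rw [Ideal.mul_sup, ← pow_succ']
        exact sup_le_sup le_rfl Ideal.mul_le_right
      · have h3 : s + (j + 1) = s + 1 + j := by ring
        rw [h3]
        refine (Ideal.mul_mono_right ihj).trans ?_
        rw [Ideal.mul_sup]
        refine sup_le (Ideal.mul_le_right.trans le_sup_left) ?_
        rw [Ideal.span_singleton_mul_span_singleton, ← pow_succ']
        exact le_sup_right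

theorem length_pow_ge [IsNoetherianRing T] (M' P' : Ideal T) (y : T)
    (hM : M' = P' ⊔ Ideal.span {y})
    (A : ℕ → Type v) [∀ s, CommRing (A s)] [∀ s, Algebra T (A s)] [∀ s, IsNoetherianRing (A s)]
    (N : ℕ) (hP : ∀ s, ∀ p ∈ P' ^ s, algebraMap T (A s) p = 0)
    (hy : ∀ s, IsUnit (algebraMap T (A s) y))
    (hU : ∀ s a, IsUnit (algebraMap T (A s) (1 - y * a)))
    (hH : ∀ s, ∀ a : A s, ∃ t x : T, IsUnit (algebraMap T (A s) t) ∧
      algebraMap T (A s) x = algebraMap T (A s) t * a) :
    ∑ s ∈ Finset.range N, Module.length (A (s + 1)) (A (s + 1)) ≤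
      Module.length T (T ⧸ M' ^ N) := by
  let F : ℕ → Submodule T T := fun j => M' ^ N ⊔ Ideal.span {y ^ j}
  have hF : ∀ n, F (n + 1) ≤ F n := by
    intro n
    refine sup_le_sup le_rfl ?_
    rw [Ideal.span_singleton_le_span_singleton]
    exact ⟨y, pow_succ y n⟩
  have hFN : F N = M' ^ N := by
    change M' ^ N ⊔ Ideal.span {y ^ N} = M' ^ N
    refine sup_eq_left.2 ?_
    rw [Ideal.span_singleton_le_iff_mem]
    refine Ideal.pow_mem_pow ?_ N
    rw [hM]
    exact Ideal.mem_sup_right (Ideal.mem_span_singleton_self y)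
  let W : ∀ j : ℕ, Submodule T (A (N - j)) := fun j =>
    LinearMap.range (Algebra.linearMap T (A (N - j)))
  have key : ∀ j < N, Module.length (A (N - j)) (A (N - j)) ≤ Module.length T (modY y (W j)) := by
    intro j hj
    have : IsNoetherian T (W j) := isNoetherian_of_surjective
      (Algebra.linearMap T (A (N - j))).rangeRestrict (LinearMap.range_rangeRestrict _)
    refine length_le_modY y (hy _) (hU _) (W j) (A (N - j)) (W j).subtype ?_
    intro q
    obtain ⟨t, x, ht, hx⟩ := hH _ q
    refine ⟨t, ht, ⟨algebraMap T _ x, ⟨x, rfl⟩⟩, ?_⟩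
    change algebraMap T _ x = _
    rw [hx, Algebra.smul_def]
  have hsum : ∑ s ∈ Finset.range N, Module.length (A (s + 1)) (A (s + 1)) =
      ∑ j ∈ Finset.range N, Module.length (A (N - j)) (A (N - j)) := by
    rw [← Finset.sum_range_reflect]
    refine Finset.sum_congr rfl fun j hj => ?_
    rw [Finset.mem_range] at hj
    have : N - 1 - j + 1 = N - j := by omega
    rw [this]
  rw [hsum]
  refine (Finset.sum_le_sum fun j hj => key j (Finset.mem_range.1 hj)).trans ?_
  have hlen : Module.length T (T ⧸ M' ^ N) = Module.length T (T ⧸ F N) := by rw [hFN]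
  rw [hlen]
  refine length_quot_ge F hF (fun j => modY y (W j)) N ?_
  intro j hj
  obtain ⟨s, rfl⟩ : ∃ s, N = s + j := ⟨N - j, by omega⟩
  have hs : s + j - j = s := by omega
  -- the unit
  obtain ⟨yu, hyu⟩ := hy (s + j - j)
  have hmem : ∀ x ∈ P' ^ s ⊔ Ideal.span {y ^ (j + 1)}, ∃ t : T,
      (↑yu⁻¹ : A (s + j - j)) ^ j * algebraMap T (A (s + j - j)) x =
        algebraMap T (A (s + j - j)) (y * t) := by
    intro x hx
    obtain ⟨p, hp, z, hz, rfl⟩ := Submodule.mem_sup.1 hx
    obtain ⟨t, rfl⟩ := Ideal.mem_span_singleton'.1 hz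
    have hp' : p ∈ P' ^ (s + j - j) := by rw [hs]; exact hp
    refine ⟨t, ?_⟩
    rw [map_add, hP _ p hp', zero_add, map_mul, map_mul, map_pow, ← hyu]
    have : (↑yu⁻¹ : A (s + j - j)) ^ j * ((yu : A (s + j - j)) ^ j) = 1 := by
      rw [← mul_pow, Units.inv_mul, one_pow]
    calc (↑yu⁻¹ : A (s + j - j)) ^ j * (algebraMap T (A (s + j - j)) t * (yu : A (s + j - j)) ^ (j + 1))
        = ((↑yu⁻¹ : A (s + j - j)) ^ j * ((yu : A (s + j - j)) ^ j)) *
          ((yu : A (s + j - j)) * algebraMap T (A (s + j - j)) t) := by ring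
      _ = _ := by rw [this, one_mul]
  have hM1 : M' ^ (s + j) ≤ P' ^ s ⊔ Ideal.span {y ^ (j + 1)} := by
    rw [hM]; exact sup_pow_le P' y s j
  let h : T →ₗ[T] A (s + j - j) :=
    (LinearMap.mulLeft T ((↑yu⁻¹ : A (s + j - j)) ^ j)).comp (Algebra.linearMap T (A (s + j - j)))
  have hh : ∀ x, h x = (↑yu⁻¹ : A (s + j - j)) ^ j * algebraMap T (A (s + j - j)) x := fun x => rfl
  have hcod : ∀ x : F j, (h.comp (F j).subtype) x ∈ W j := by
    intro x
    obtain ⟨p, hp, z, hz, hpz⟩ := Submodule.mem_sup.1 x.2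
    obtain ⟨t, rfl⟩ := Ideal.mem_span_singleton'.1 hz
    obtain ⟨t', ht'⟩ := hmem p (hM1 hp)
    refine ⟨y * t' + t, ?_⟩
    rw [Algebra.linearMap_apply, map_add, ← ht']
    change _ = h (x : T)
    rw [hh, ← hpz, map_add, mul_add, map_mul, map_pow, ← hyu]
    have : (↑yu⁻¹ : A (s + j - j)) ^ j * ((yu : A (s + j - j)) ^ j) = 1 := by
      rw [← mul_pow, Units.inv_mul, one_pow]
    congr 1
    calc algebraMap T (A (s + j - j)) t
        = ((↑yu⁻¹ : A (s + j - j)) ^ j * ((yu : A (s + j - j)) ^ j)) *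
          algebraMap T (A (s + j - j)) t := by rw [this, one_mul]
      _ = _ := by ring
  let g0 : F j →ₗ[T] W j := LinearMap.codRestrict (W j) (h.comp (F j).subtype) hcod
  refine ⟨(Submodule.mkQ _).comp g0, ?_, ?_⟩
  · rw [LinearMap.coe_comp]
    refine (Submodule.mkQ_surjective _).comp ?_
    rintro ⟨_, ⟨t, rfl⟩⟩
    refine ⟨⟨y ^ j * t, ?_⟩, ?_⟩
    · exact Ideal.mul_mem_right _ _ (Ideal.mem_sup_right (Ideal.mem_span_singleton_self _))
    · apply Subtype.ext
      change h (y ^ j * t) = algebraMap T _ t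
      rw [hh, map_mul, map_pow, ← hyu, ← mul_assoc, ← mul_pow, Units.inv_mul, one_pow, one_mul]
  · intro x hx
    have hx' : (x : T) ∈ P' ^ s ⊔ Ideal.span {y ^ (j + 1)} := by
      refine (sup_le hM1 le_sup_right : F (j + 1) ≤ _) hx
    obtain ⟨t, ht⟩ := hmem _ hx'
    rw [LinearMap.comp_apply, Submodule.mkQ_apply, Submodule.Quotient.mk_eq_zero]
    refine ⟨⟨algebraMap T _ t, ⟨t, rfl⟩⟩, ?_⟩
    apply Subtype.ext
    change y • algebraMap T (A (s + j - j)) t = h (x : T)
    rw [hh, ht, Algebra.smul_def, map_mul]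

end PowGe

section Poly

open Polynomial

variable {R : Type u} [CommRing R]

/-- The ideal `(m, X)` of `R[X]`. -/
noncomputable def polyIdeal (m : Ideal R) : Ideal R[X] := m.map C ⊔ Ideal.span {X}

theorem polyIdeal_pow_le_coeff (m : Ideal R) (s : ℕ) :
    ∀ g ∈ polyIdeal m ^ s, ∀ i, g.coeff i ∈ m ^ (s - i) := by
  induction s with
  | zero => intro g _ i; simp
  | succ s ih =>
    intro g hg
    rw [pow_succ'] at hg
    refine Submodule.mul_induction_on hg ?_ ?_
    · intro a ha b hb i
      have hb' := ih b hb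
      have ha0 : a.coeff 0 ∈ m := by
        obtain ⟨c, hc, d, hd, rfl⟩ := Submodule.mem_sup.1 ha
        rw [coeff_add]
        refine m.add_mem ?_ ?_
        · exact (Ideal.mem_map_C_iff.1 hc) 0
        · obtain ⟨e, rfl⟩ := Ideal.mem_span_singleton'.1 hd
          simp
      rw [coeff_mul]
      refine Ideal.sum_mem _ fun p hp => ?_
      rw [Finset.HasAntidiagonal.mem_antidiagonal] at hp
      rcases Nat.eq_zero_or_pos p.1 with h0 | h0
      · rw [h0]
        have h1 : p.2 = i := by omega
        have h2 : a.coeff 0 * b.coeff p.2 ∈ m * m ^ (s - i) := by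
          rw [h1]
          exact Ideal.mul_mem_mul ha0 (hb' i)
        rw [← pow_succ'] at h2
        exact Ideal.pow_le_pow_right (by omega) h2
      · refine Ideal.mul_mem_left _ _ (Ideal.pow_le_pow_right ?_ (hb' p.2))
        omega
    · intro a b ha hb i
      rw [coeff_add]
      exact Ideal.add_mem _ (ha i) (hb i)

theorem mem_polyIdeal_pow_iff (m : Ideal R) (s : ℕ) (g : R[X]) :
    g ∈ polyIdeal m ^ s ↔ ∀ i, g.coeff i ∈ m ^ (s - i) := by
  refine ⟨fun h => polyIdeal_pow_le_coeff m s g h, fun h => ?_⟩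
  rw [g.as_sum_support_C_mul_X_pow]
  refine Ideal.sum_mem _ fun i _ => ?_
  have h1 : C (g.coeff i) ∈ polyIdeal m ^ (s - i) := by
    have : C (g.coeff i) ∈ (m.map C) ^ (s - i) := by
      rw [← Ideal.map_pow]
      exact Ideal.mem_map_of_mem _ (h i)
    exact Ideal.pow_right_mono le_sup_left _ this
  have h2 : (X : R[X]) ^ i ∈ polyIdeal m ^ i :=
    Ideal.pow_mem_pow (Ideal.mem_sup_right (Ideal.mem_span_singleton_self _)) i
  have h3 := Ideal.mul_mem_mul h1 h2
  rw [← pow_add] at h3
  exact Ideal.pow_le_pow_right (by omega) h3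

theorem X_mul_mem_polyIdeal_pow (m : Ideal R) (s : ℕ) (g : R[X]) :
    X * g ∈ polyIdeal m ^ (s + 1) ↔ g ∈ polyIdeal m ^ s := by
  rw [mem_polyIdeal_pow_iff, mem_polyIdeal_pow_iff]
  constructor
  · intro h i
    have := h (i + 1)
    rwa [coeff_X_mul, Nat.add_sub_add_right] at this
  · intro h i
    cases i with
    | zero => simp
    | succ i =>
      rw [coeff_X_mul, Nat.add_sub_add_right]
      exact h i

theorem length_poly (m : Ideal R) (s : ℕ) :
    Module.length R[X] (R[X] ⧸ polyIdeal m ^ s) =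
      ∑ i ∈ Finset.range s, Module.length R (R ⧸ m ^ (i + 1)) := by
  induction s with
  | zero =>
    rw [Finset.range_zero, Finset.sum_empty, pow_zero, Module.length_eq_zero_iff,
      Submodule.Quotient.subsingleton_iff]
    exact Ideal.one_eq_top
  | succ s ih =>
    rw [Finset.sum_range_succ, ← ih]
    -- the evaluation at `0`
    let : Algebra R[X] R := constantCoeff.toAlgebra
    have hlen : Module.length R[X] (R ⧸ m ^ (s + 1)) = Module.length R (R ⧸ m ^ (s + 1)) :=
      Module.length_eq_of_surjective constantCoeff_surjective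
    rw [← hlen]
    let q : R[X] →ₗ[R[X]] (R ⧸ m ^ (s + 1)) :=
      ((Submodule.mkQ (m ^ (s + 1))).restrictScalars R[X]).comp (Algebra.linearMap R[X] R)
    have hq : ∀ g, q g = Ideal.Quotient.mk (m ^ (s + 1)) (constantCoeff g) := fun g => rfl
    have hqs : Function.Surjective q := by
      intro x
      obtain ⟨x, rfl⟩ := Ideal.Quotient.mk_surjective x
      exact ⟨C x, by rw [hq]; simp⟩
    have hker : ∀ g ∈ polyIdeal m ^ (s + 1), q g = 0 := by
      intro g hg
      rw [hq, Ideal.Quotient.eq_zero_iff_mem, constantCoeff_apply]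
      exact (mem_polyIdeal_pow_iff m (s + 1) g).1 hg 0
    let f : R[X] →ₗ[R[X]] R[X] := LinearMap.lsmul R[X] R[X] X
    have hf : ∀ g, f g = X * g := fun g => rfl
    have hle : polyIdeal m ^ s ≤ Submodule.comap f (polyIdeal m ^ (s + 1)) := by
      intro g hg
      rw [Submodule.mem_comap, hf]
      exact (X_mul_mem_polyIdeal_pow m s g).2 hg
    have hle2 : polyIdeal m ^ (s + 1) ≤ LinearMap.ker q := fun g hg => hker g hg
    refine Module.length_eq_add_of_exact
      (Submodule.mapQ (polyIdeal m ^ s) (polyIdeal m ^ (s + 1)) f hle)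
      (Submodule.liftQ (polyIdeal m ^ (s + 1)) q hle2) ?_ ?_ ?_
    · rw [injective_iff_map_eq_zero]
      intro g hg
      obtain ⟨g, rfl⟩ := Submodule.Quotient.mk_surjective _ g
      have h1 : (Submodule.Quotient.mk (f g) : R[X] ⧸ polyIdeal m ^ (s + 1)) = 0 := hg
      rw [Submodule.Quotient.mk_eq_zero, hf] at h1
      rw [Submodule.Quotient.mk_eq_zero]
      exact (X_mul_mem_polyIdeal_pow m s g).1 h1
    · intro x
      obtain ⟨g, hg⟩ := hqs x
      exact ⟨Submodule.Quotient.mk g, hg⟩
    · intro g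
      obtain ⟨g, rfl⟩ := Submodule.Quotient.mk_surjective _ g
      constructor
      · intro hg
        have hg' : q g = 0 := hg
        rw [hq, Ideal.Quotient.eq_zero_iff_mem, constantCoeff_apply] at hg'
        refine ⟨Submodule.Quotient.mk (divX g), ?_⟩
        change (Submodule.Quotient.mk (f (divX g)) : R[X] ⧸ polyIdeal m ^ (s + 1)) =
          Submodule.Quotient.mk g
        rw [Submodule.Quotient.eq, hf]
        have h1 : X * divX g - g = - C (g.coeff 0) := by
          have := X_mul_divX_add g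
          linear_combination this
        rw [h1]
        refine neg_mem ?_
        rw [mem_polyIdeal_pow_iff]
        intro i
        rw [coeff_C]
        split_ifs with h
        · subst h; exact hg'
        · exact zero_mem _
      · rintro ⟨z, hz⟩
        obtain ⟨z, rfl⟩ := Submodule.Quotient.mk_surjective _ z
        rw [← hz]
        change q (f z) = 0
        rw [hq, hf]
        simp

end Poly

end Crest.Agent.R183.Loc
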