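import Mathlib
import Crest.Agent.R183.Loc2

/-!
# R183, block RE (helper715), part 3: the variable trick

`sum_length_ge` : for a Noetherian local ring `S`, a prime `P` and a local domain `V = (S/P)[v]`
with `m_V = v V`, `V ⊆ Frac (S/P)`:
`∑_{i ≤ N} l(S/n^i) ≥ ∑_{r ≤ N} ∑_{i ≤ r} l(S_P/P^i)`.
-/

set_option autoImplicit false

namespace Crest.Agent.R183.Loc

open Polynomial IsLocalRing

universe u v w

/-- `R[X] / (m, X)^s`. -/
def PQ (R : Type u) [CommRing R] (m : Ideal R) (s : ℕ) : Type u := R[X] ⧸ polyIdeal m ^ s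

noncomputable instance (R : Type u) [CommRing R] (m : Ideal R) (s : ℕ) : CommRing (PQ R m s) :=
  inferInstanceAs (CommRing (R[X] ⧸ polyIdeal m ^ s))

instance (R : Type u) [CommRing R] [IsNoetherianRing R] (m : Ideal R) (s : ℕ) :
    IsNoetherianRing (PQ R m s) :=
  inferInstanceAs (IsNoetherianRing (R[X] ⧸ polyIdeal m ^ s))

/-- The quotient map. -/
noncomputable def PQ.mk (R : Type u) [CommRing R] (m : Ideal R) (s : ℕ) : R[X] →+* PQ R m s :=
  Ideal.Quotient.mk (polyIdeal m ^ s)

theorem PQ.mk_surjective (R : Type u) [CommRing R] (m : Ideal R) (s : ℕ) :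
    Function.Surjective (PQ.mk R m s) := Ideal.Quotient.mk_surjective

theorem PQ.mk_eq_zero (R : Type u) [CommRing R] (m : Ideal R) (s : ℕ) (g : R[X]) :
    PQ.mk R m s g = 0 ↔ g ∈ polyIdeal m ^ s := Ideal.Quotient.eq_zero_iff_mem

theorem PQ.length (R : Type u) [CommRing R] (m : Ideal R) (s : ℕ) :
    Module.length (PQ R m s) (PQ R m s) =
      ∑ i ∈ Finset.range s, Module.length R (R ⧸ m ^ (i + 1)) := by
  rw [← length_poly]
  exact (Module.length_eq_of_surjective (S := R[X]) (R := R[X] ⧸ polyIdeal m ^ s)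
    (M := R[X] ⧸ polyIdeal m ^ s) Ideal.Quotient.mk_surjective).symm

theorem mem_polyIdeal_iff {R : Type u} [CommRing R] (m : Ideal R) (g : R[X]) :
    g ∈ polyIdeal m ↔ g.coeff 0 ∈ m := by
  have := mem_polyIdeal_pow_iff m 1 g
  rw [pow_one] at this
  rw [this]
  constructor
  · intro h; simpa using h 0
  · intro h i
    cases i with
    | zero => simpa using h
    | succ i => simp

theorem PQ.isUnit_mk (R : Type u) [CommRing R] [IsLocalRing R] (s : ℕ) (g : R[X])
    (hg : g.coeff 0 ∉ maximalIdeal R) : IsUnit (PQ.mk R (maximalIdeal R) s g) := by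
  have h1 : PQ.mk R (maximalIdeal R) s g =
      PQ.mk R (maximalIdeal R) s (C (g.coeff 0)) + PQ.mk R (maximalIdeal R) s (X * divX g) := by
    rw [← map_add]
    congr 1
    rw [add_comm]
    exact (X_mul_divX_add g).symm
  rw [h1]
  have hu : IsUnit (g.coeff 0) := by
    by_contra h
    exact hg ((mem_maximalIdeal _).2 h)
  have h2 : IsNilpotent (PQ.mk R (maximalIdeal R) s (X * divX g)) := by
    refine ⟨s, ?_⟩
    rw [← map_pow, PQ.mk_eq_zero]
    refine Ideal.pow_mem_pow ?_ s
    rw [mem_polyIdeal_iff]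
    simp
  exact h2.isUnit_add_left_of_commute ((hu.map C).map _) (Commute.all _ _)

section Main

variable {S : Type u} [CommRing S] [IsLocalRing S] [IsNoetherianRing S] (P : Ideal S) [P.IsPrime]
  {V : Type v} [CommRing V] [IsDomain V] [Algebra S V]

theorem sum_length_ge (hker : RingHom.ker (algebraMap S V) = P) (v : V) (hv0 : v ≠ 0)
    (hsurj : ∀ x : V, ∃ f : S[X], aeval v f = x)
    (hn : ∀ a : S, a ∈ maximalIdeal S ↔ algebraMap S V a ∈ Ideal.span {v})
    (a₀ b₀ : S) (hb : b₀ ∉ P) (hab : algebraMap S V b₀ * v = algebraMap S V a₀) (N : ℕ) :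
    ∑ s ∈ Finset.range N, ∑ i ∈ Finset.range (s + 1),
      Module.length (Localization.AtPrime P)
        (Localization.AtPrime P ⧸ maximalIdeal (Localization.AtPrime P) ^ (i + 1)) ≤
    ∑ i ∈ Finset.range N, Module.length S (S ⧸ maximalIdeal S ^ (i + 1)) := by
  classical
  let SP := Localization.AtPrime P
  let K := FractionRing V
  have hkermem : ∀ a : S, algebraMap S V a = 0 ↔ a ∈ P := by
    intro a; rw [← hker]; rfl
  -- the map `SP → K`
  have hunits : ∀ s : P.primeCompl, IsUnit (((algebraMap V K).comp (algebraMap S V)) (s : S)) := by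
    intro s
    rw [RingHom.comp_apply]
    refine IsUnit.mk0 _ ?_
    rw [Ne, FaithfulSMul.algebraMap_eq_zero_iff, hkermem]
    exact s.2
  let ρ : SP →+* K := IsLocalization.lift (M := P.primeCompl) hunits
  have hρ : ∀ a : S, ρ (algebraMap S SP a) = algebraMap V K (algebraMap S V a) := fun a =>
    IsLocalization.lift_eq hunits a
  have hρ0 : ∀ x : SP, ρ x = 0 ↔ x ∈ maximalIdeal SP := by
    intro x
    obtain ⟨a, s, rfl⟩ := IsLocalization.exists_mk'_eq P.primeCompl x
    rw [IsLocalization.AtPrime.mk'_mem_maximal_iff SP P a s, IsLocalization.lift_mk', ← hkermem]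
    rw [Units.mul_left_eq_zero, RingHom.comp_apply, FaithfulSMul.algebraMap_eq_zero_iff]
  let w : SP := IsLocalization.mk' SP a₀ (⟨b₀, hb⟩ : P.primeCompl)
  have hw : ρ w = algebraMap V K v := by
    have h1 : algebraMap S SP b₀ * w = algebraMap S SP a₀ :=
      IsLocalization.mk'_spec' SP a₀ (⟨b₀, hb⟩ : P.primeCompl)
    have h2 := congrArg ρ h1
    rw [map_mul, hρ, hρ, ← hab, map_mul] at h2
    refine mul_left_cancel₀ ?_ h2
    rw [Ne, FaithfulSMul.algebraMap_eq_zero_iff, hkermem]
    exact hb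
  -- the map `θ : S[X] → SP[X]`, `X ↦ X + w`
  let θ : S[X] →+* SP[X] := eval₂RingHom (C.comp (algebraMap S SP)) (X + C w)
  have hθC : ∀ a : S, θ (C a) = C (algebraMap S SP a) := fun a => by
    change eval₂ _ _ (C a) = _
    rw [eval₂_C]; rfl
  have hθX : θ X = X + C w := by
    change eval₂ _ _ X = _
    rw [eval₂_X]
  have hθmap : ∀ f : S[X], θ f = (f.map (algebraMap S SP)).comp (X + C w) := by
    intro f
    change eval₂ _ _ f = _
    rw [comp, eval₂_map]
  have hE : ∀ f : S[X], ρ ((θ f).coeff 0) = algebraMap V K (aeval v f) := by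
    intro f
    have h1 : (ρ.comp (constantCoeff.comp θ)) = (algebraMap V K).comp (aeval v : S[X] →ₐ[S] V).toRingHom := by
      refine Polynomial.ringHom_ext ?_ ?_
      · intro a
        change ρ (constantCoeff (θ (C a))) = algebraMap V K (aeval v (C a))
        rw [hθC, aeval_C, constantCoeff_apply, coeff_C_zero, hρ]
      · change ρ (constantCoeff (θ X)) = algebraMap V K (aeval v X)
        rw [hθX, aeval_X]
        simp [hw]
    exact RingHom.congr_fun h1 f
  have hE' : ∀ f : S[X], (θ f).coeff 0 ∈ maximalIdeal SP ↔ aeval v f = 0 := by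
    intro f
    rw [← hρ0, hE, FaithfulSMul.algebraMap_eq_zero_iff]
  -- the algebra structures
  let : ∀ s, Algebra S[X] (PQ SP (maximalIdeal SP) s) := fun s =>
    ((PQ.mk SP (maximalIdeal SP) s).comp θ).toAlgebra
  have halg : ∀ s (f : S[X]), algebraMap S[X] (PQ SP (maximalIdeal SP) s) f =
    PQ.mk SP (maximalIdeal SP) s (θ f) := fun s f => rfl
  let P' : Ideal S[X] := RingHom.ker (aeval v : S[X] →ₐ[S] V).toRingHom
  have hP' : ∀ f : S[X], f ∈ P' ↔ aeval v f = 0 := fun f => Iff.rfl
  have hM : polyIdeal (maximalIdeal S) = P' ⊔ Ideal.span {X} := by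
    apply le_antisymm
    · refine sup_le ?_ le_sup_right
      rw [Ideal.map_le_iff_le_comap]
      intro a ha
      rw [Ideal.mem_comap]
      obtain ⟨x, hx⟩ := Ideal.mem_span_singleton'.1 ((hn a).1 ha)
      obtain ⟨f, rfl⟩ := hsurj x
      have h1 : C a = (C a - f * X) + f * X := by ring
      rw [h1]
      refine Ideal.add_mem _ (Ideal.mem_sup_left ?_) (Ideal.mem_sup_right ?_)
      · rw [hP', map_sub, map_mul, aeval_C, aeval_X, hx, sub_self]
      · exact Ideal.mul_mem_left _ _ (Ideal.mem_span_singleton_self _)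
    · refine sup_le ?_ le_sup_right
      intro f hf
      rw [hP'] at hf
      rw [mem_polyIdeal_iff, hn]
      have h1 := X_mul_divX_add f
      have h2 := congrArg (aeval v) h1
      rw [map_add, map_mul, aeval_X, aeval_C, hf] at h2
      rw [Ideal.mem_span_singleton']
      exact ⟨-(aeval v (divX f)), by linear_combination -h2⟩
  have h := length_pow_ge (polyIdeal (maximalIdeal S)) P' X hM
    (fun s => PQ SP (maximalIdeal SP) s) N ?_ ?_ ?_ ?_
  · rw [length_poly] at h
    refine le_trans (le_of_eq ?_) h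
    refine Finset.sum_congr rfl fun s _ => ?_
    rw [PQ.length]
  · intro s p hp
    rw [halg, PQ.mk_eq_zero]
    have h1 : P' ≤ (polyIdeal (maximalIdeal SP)).comap θ := by
      intro f hf
      rw [Ideal.mem_comap, mem_polyIdeal_iff, hE']
      exact hf
    exact (Ideal.le_comap_pow θ s) (Ideal.pow_right_mono h1 s hp)
  · intro s
    rw [halg]
    refine PQ.isUnit_mk SP s _ ?_
    rw [hE', aeval_X]
    exact hv0
  · intro s a
    rw [halg]
    refine PQ.isUnit_mk SP s _ ?_
    rw [hE']
    intro h0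
    rw [map_sub, map_one, map_mul, aeval_X, sub_eq_zero] at h0
    have h1 : (1 : S) ∈ maximalIdeal S := by
      rw [hn, map_one, Ideal.mem_span_singleton']
      exact ⟨aeval v a, by rw [h0]; ring⟩
    exact (Ideal.ne_top_iff_one _).1 (maximalIdeal.isMaximal S).ne_top h1
  · intro s a
    obtain ⟨g, rfl⟩ := PQ.mk_surjective SP (maximalIdeal SP) s a
    obtain ⟨b, hbP, hb⟩ := IsLocalization.integerNormalization_spec P.primeCompl
      (g.comp (X - C w) : SP[X])
    refine ⟨C (b : S), IsLocalization.integerNormalization P.primeCompl (g.comp (X - C w)), ?_, ?_⟩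
    · rw [halg]
      refine PQ.isUnit_mk SP s _ ?_
      rw [hE', aeval_C, hkermem]
      exact hbP
    · rw [halg, halg, ← map_mul]
      congr 1
      rw [hθC, hθmap, hb, Algebra.smul_def, Polynomial.algebraMap_apply, mul_comp, C_comp,
        comp_assoc, sub_comp, X_comp, C_comp, add_sub_cancel_right, comp_X]

end Main

end Crest.Agent.R183.Loc
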