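import Mathlib

/-!
# R183, block RE, part A: pointwise inequalities between Hilbert functions

`hf A k = length (A / m^k)`, `sg H k = ∑_{m < k} H (m+1)`.
-/

set_option autoImplicit false

namespace Crest.Agent.R183.RE

open IsLocalRing

universe u v w

/-- Hilbert function of a local ring. -/
noncomputable def hf (A : Type u) [CommRing A] [IsLocalRing A] (k : ℕ) : ℕ∞ :=
  Module.length A (A ⧸ maximalIdeal A ^ k)

/-- Summation operator. -/
noncomputable def sg (H : ℕ → ℕ∞) (k : ℕ) : ℕ∞ := ∑ m ∈ Finset.range k, H (m + 1)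

lemma sg_zero (H : ℕ → ℕ∞) : sg H 0 = 0 := by simp [sg]

lemma sg_succ (H : ℕ → ℕ∞) (k : ℕ) : sg H (k + 1) = sg H k + H (k + 1) := by
  simp [sg, Finset.sum_range_succ]

lemma sg_mono {H H' : ℕ → ℕ∞} (h : ∀ k, H k ≤ H' k) (k : ℕ) : sg H k ≤ sg H' k :=
  Finset.sum_le_sum fun _ _ => h _

lemma sg_iterate_mono {H H' : ℕ → ℕ∞} (h : ∀ k, H k ≤ H' k) (r k : ℕ) :
    sg^[r] H k ≤ sg^[r] H' k := by
  induction r generalizing k with
  | zero => exact h k
  | succ r ih =>
    rw [Function.iterate_succ_apply', Function.iterate_succ_apply']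
    exact sg_mono ih k

/-- Elements of `A'` are unit multiples of elements coming from `A`. -/
def LocLike (A : Type u) (A' : Type v) [CommRing A] [CommRing A'] [Algebra A A'] : Prop :=
  ∀ a' : A', ∃ u : A', IsUnit u ∧ ∃ a : A, algebraMap A A' a = u * a'

lemma locLike_localization (A : Type u) [CommRing A] (S : Submonoid A) (A' : Type v) [CommRing A']
    [Algebra A A'] [IsLocalization S A'] : LocLike A A' := by
  intro a'
  obtain ⟨⟨a, s⟩, h⟩ := IsLocalization.surj S a'
  exact ⟨algebraMap A A' s, IsLocalization.map_units A' s, a, by rw [mul_comm]; exact h.symm⟩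

/-- (L0) `length M' ≤ length (M / xM)`. -/
theorem length_le_length_quot_smul {A : Type u} {A' : Type v} [CommRing A] [IsLocalRing A]
    [CommRing A'] [Algebra A A'] {M : Type w} {M' : Type*} [AddCommGroup M] [Module A M]
    [IsNoetherian A M]
    [AddCommGroup M'] [Module A M'] [Module A' M'] [IsScalarTower A A' M']
    (f : M →ₗ[A] M') (hf : ∀ m' : M', ∃ u : A', IsUnit u ∧ ∃ m, f m = u • m')
    (x : A) (hx : x ∈ maximalIdeal A) (hxu : IsUnit (algebraMap A A' x)) :
    Module.length A' M' ≤ Module.length A (M ⧸ (Ideal.span {x} • ⊤ : Submodule A M)) := by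
  set N0 : Submodule A M := Ideal.span {x} • ⊤ with hN0
  have hN0mem : ∀ m : M, m ∈ N0 ↔ ∃ m0 : M, x • m0 = m := by
    intro m
    rw [hN0, Submodule.ideal_span_singleton_smul]
    constructor
    · intro h
      obtain ⟨m0, -, h0⟩ := Submodule.mem_smul_pointwise_iff_exists _ _ _ |>.1 h
      exact ⟨m0, h0⟩
    · rintro ⟨m0, rfl⟩
      exact Submodule.smul_mem_pointwise_smul _ _ _ trivial
  let φ : Submodule A' M' → Submodule A (M ⧸ N0) := fun L =>
    Submodule.map N0.mkQ (Submodule.comap f (L.restrictScalars A))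
  have hmono : StrictMono φ := by
    intro L L' hLL'
    have hle : Submodule.comap f (L.restrictScalars A) ≤ Submodule.comap f (L'.restrictScalars A) :=
      Submodule.comap_mono (fun z hz => hLL'.le hz)
    refine lt_of_le_of_ne (Submodule.map_mono hle) ?_
    intro heq
    apply hLL'.not_ge
    -- preimage of L' is contained in preimage of L
    set N := Submodule.comap f (L.restrictScalars A) with hN
    set N' := Submodule.comap f (L'.restrictScalars A) with hN'
    have key : N' ≤ N := by
      have hfg : N'.FG := IsNoetherian.noetherian N'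
      refine Submodule.le_of_le_smul_of_le_jacobson_bot (I := Ideal.span {x}) hfg ?_ ?_
      · rw [IsLocalRing.jacobson_eq_maximalIdeal ⊥ bot_ne_top]
        rw [Ideal.span_le]; simpa using hx
      · intro m hm
        have h1 : N0.mkQ m ∈ φ L := by
          have : N0.mkQ m ∈ φ L' := Submodule.mem_map_of_mem hm
          rw [← heq] at this
          exact this
        obtain ⟨n, hn, hnm⟩ := h1
        have h2 : m - n ∈ N0 := by
          rw [← Submodule.Quotient.mk_eq_zero, Submodule.Quotient.mk_sub, sub_eq_zero]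
          exact hnm.symm
        obtain ⟨m0, hm0⟩ := (hN0mem _).1 h2
        have hn' : n ∈ N' := hle hn
        have hm0' : m0 ∈ N' := by
          have h3 : f (x • m0) ∈ L' := by
            rw [hm0, map_sub]
            exact L'.sub_mem hm hn'
          have h4 : algebraMap A A' x • f m0 ∈ L' := by
            rw [algebraMap_smul, ← map_smul]; exact h3
          obtain ⟨ux, hux⟩ := hxu
          have h5 := L'.smul_mem (↑ux⁻¹ : A') h4
          rw [← hux, smul_smul, Units.inv_mul, one_smul] at h5
          exact h5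
        have : m = n + x • m0 := by rw [hm0]; abel
        rw [this]
        refine Submodule.add_mem_sup hn ?_
        exact Submodule.smul_mem_smul (Ideal.mem_span_singleton_self x) hm0'
    intro m' hm'
    obtain ⟨u, hu, m, hm⟩ := hf m'
    have h1 : m ∈ N' := by
      change f m ∈ L'
      rw [hm]; exact L'.smul_mem u hm'
    have h2 : f m ∈ L := key h1
    obtain ⟨uu, huu⟩ := hu
    have h5 := L.smul_mem (↑uu⁻¹ : A') h2
    rw [hm, ← huu, smul_smul, Units.inv_mul, one_smul] at h5
    exact h5
  have := Order.krullDim_le_of_strictMono φ hmono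
  rw [← Module.coe_length, ← Module.coe_length] at this
  exact WithBot.coe_le_coe.1 this


section F1

variable {A : Type u} {A' : Type v} [CommRing A] [IsLocalRing A] [IsNoetherianRing A]
  [CommRing A'] [IsLocalRing A'] [Algebra A A']

/-- symbolic powers -/
noncomputable def symPow (A : Type u) (A' : Type v) [CommRing A] [CommRing A'] [IsLocalRing A']
    [Algebra A A'] (j : ℕ) : Ideal A :=
  Ideal.comap (algebraMap A A') (maximalIdeal A' ^ j)

/-- `nn k = ∑_{j ≤ k} x^(k-j) q^(j)`. -/
noncomputable def nn (A' : Type v) [CommRing A'] [IsLocalRing A'] [Algebra A A'] (x : A) :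
    ℕ → Ideal A
  | 0 => ⊤
  | k + 1 => Ideal.span {x} * nn A' x k ⊔ symPow A A' (k + 1)

omit [IsLocalRing A] [IsNoetherianRing A] in
lemma symPow_antitone (j : ℕ) : symPow A A' (j + 1) ≤ symPow A A' j :=
  Ideal.comap_mono (Ideal.pow_le_pow_right (Nat.le_succ j))

omit [IsLocalRing A] [IsNoetherianRing A] in
lemma symPow_le_nn (x : A) (k : ℕ) : symPow A A' k ≤ nn A' x k := by
  cases k with
  | zero => exact le_top
  | succ k => exact le_sup_right

omit [IsLocalRing A] [IsNoetherianRing A] in
lemma q_mul_symPow (j : ℕ) :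
    symPow A A' 1 * symPow A A' j ≤ symPow A A' (j + 1) := by
  rw [Ideal.mul_le]
  intro a ha b hb
  simp only [symPow, Ideal.mem_comap, pow_one] at ha hb ⊢
  rw [map_mul, pow_succ']
  exact Ideal.mul_mem_mul ha hb

omit [IsLocalRing A] [IsNoetherianRing A] in
lemma q_mul_nn (x : A) (k : ℕ) : symPow A A' 1 * nn A' x k ≤ nn A' x (k + 1) := by
  induction k with
  | zero =>
    rw [nn, Ideal.mul_top]
    exact (symPow_le_nn x 1)
  | succ k ih =>
    rw [nn, Ideal.mul_sup, sup_le_iff]
    constructor
    · rw [← mul_assoc, mul_comm (symPow A A' 1), mul_assoc]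
      exact (Ideal.mul_mono_right ih).trans le_sup_left
    · exact (q_mul_symPow _).trans (symPow_le_nn x _)

omit [IsNoetherianRing A] in
lemma pow_le_nn (x : A) (hm : maximalIdeal A = symPow A A' 1 ⊔ Ideal.span {x}) (k : ℕ) :
    maximalIdeal A ^ k ≤ nn A' x k := by
  induction k with
  | zero => exact le_top
  | succ k ih =>
    rw [pow_succ']
    refine (Ideal.mul_mono_right ih).trans ?_
    conv_lhs => rw [hm]
    rw [Ideal.sup_mul, sup_le_iff]
    exact ⟨q_mul_nn x k, le_sup_left⟩

omit [IsLocalRing A] [IsNoetherianRing A] in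
lemma symPow_mul_mem (x : A) (hxu : IsUnit (algebraMap A A' x)) (j : ℕ) {a : A}
    (h : x * a ∈ symPow A A' j) : a ∈ symPow A A' j := by
  simp only [symPow, Ideal.mem_comap, map_mul] at h ⊢
  exact (Ideal.unit_mul_mem_iff_mem _ hxu).1 h

omit [IsLocalRing A] [IsNoetherianRing A] in
lemma nn_colon (x : A) (hxu : IsUnit (algebraMap A A' x)) (k : ℕ) {s : A}
    (h : x * s ∈ nn A' x (k + 1)) : s ∈ nn A' x k := by
  rw [nn, Submodule.mem_sup] at h
  obtain ⟨y, hy, a, ha, hya⟩ := h
  obtain ⟨n, hn, rfl⟩ := Ideal.mem_span_singleton_mul.1 hy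
  have h1 : x * (s - n) ∈ symPow A A' (k + 1) := by
    have : x * (s - n) = a := by rw [mul_sub, ← hya]; ring
    rw [this]; exact ha
  have h2 := symPow_mul_mem x hxu (k + 1) h1
  have h3 : s - n ∈ nn A' x k := symPow_le_nn x k (symPow_antitone k h2)
  have : s = (s - n) + n := by ring
  rw [this]; exact Ideal.add_mem _ h3 hn

/-- (F1) -/
theorem sg_hf_le_hf (hA : LocLike A A') (x : A) (hx : x ∈ maximalIdeal A)
    (hxu : IsUnit (algebraMap A A' x))
    (hm : maximalIdeal A = symPow A A' 1 ⊔ Ideal.span {x}) (k : ℕ) :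
    sg (hf A') k ≤ hf A k := by
  have key : ∀ k, sg (hf A') k ≤ Module.length A (A ⧸ nn A' x k) := by
    intro k
    induction k with
    | zero => simp [sg]
    | succ k ih =>
      rw [sg_succ]
      -- exact sequence A/N_k -> A/N_{k+1} -> A/(N_{k+1}+x)
      let g : (A ⧸ nn A' x k) →ₗ[A] (A ⧸ nn A' x (k + 1)) :=
        Submodule.mapQ _ _ (LinearMap.mulLeft A x) (by
          intro s hs
          simp only [Submodule.mem_comap, LinearMap.mulLeft_apply]
          exact Ideal.mem_sup_left (Ideal.mul_mem_mul (Ideal.mem_span_singleton_self x) hs))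
      have hg : Function.Injective g := by
        rw [← LinearMap.ker_eq_bot, LinearMap.ker_eq_bot']
        intro m hm0
        obtain ⟨s, rfl⟩ := Submodule.mkQ_surjective _ m
        simp only [g, Submodule.mkQ_apply, Submodule.mapQ_apply, LinearMap.mulLeft_apply,
          Submodule.Quotient.mk_eq_zero] at hm0 ⊢
        exact nn_colon x hxu k hm0
      rw [Module.length_eq_add_of_exact g (LinearMap.range g).mkQ hg
        (Submodule.mkQ_surjective _) (LinearMap.exact_map_mkQ_range g)]
      refine add_le_add ih ?_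
      -- L0 for A / symPow (k+1)
      let M := A ⧸ symPow A A' (k + 1)
      let M' := A' ⧸ maximalIdeal A' ^ (k + 1)
      let f : M →ₗ[A] M' :=
        Submodule.liftQ _ ((Submodule.mkQ (maximalIdeal A' ^ (k+1))).restrictScalars A ∘ₗ
          (Algebra.linearMap A A')) (by
          intro a ha
          exact (Submodule.Quotient.mk_eq_zero _).2 ha)
      have hf' : ∀ m' : M', ∃ u : A', IsUnit u ∧ ∃ m, f m = u • m' := by
        intro m'
        obtain ⟨a', rfl⟩ := Submodule.mkQ_surjective _ m'
        obtain ⟨u, hu, a, ha⟩ := hA a'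
        refine ⟨u, hu, Submodule.Quotient.mk a, ?_⟩
        change Submodule.mkQ (maximalIdeal A' ^ (k+1)) (algebraMap A A' a) = _
        rw [ha, ← smul_eq_mul, map_smul]
      have h1 := length_le_length_quot_smul f hf' x hx hxu
      refine h1.trans ?_
      -- surjection A/N_{k+1} / range g -> M / xM
      let p : (A ⧸ nn A' x (k + 1)) →ₗ[A] (M ⧸ (Ideal.span {x} • ⊤ : Submodule A M)) :=
        Submodule.liftQ _ ((Submodule.mkQ _) ∘ₗ (Submodule.mkQ (symPow A A' (k + 1)))) (by
          intro a ha
          rw [nn, Submodule.mem_sup] at ha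
          obtain ⟨y, hy, b, hb, rfl⟩ := ha
          obtain ⟨n, hn, rfl⟩ := Ideal.mem_span_singleton_mul.1 hy
          rw [LinearMap.mem_ker, map_add, LinearMap.comp_apply, LinearMap.comp_apply]
          have e1 : Submodule.mkQ (symPow A A' (k + 1)) b = 0 :=
            (Submodule.Quotient.mk_eq_zero _).2 hb
          rw [e1, map_zero, add_zero]
          rw [Submodule.mkQ_apply, Submodule.Quotient.mk_eq_zero, ← smul_eq_mul, map_smul]
          exact Submodule.smul_mem_smul (Ideal.mem_span_singleton_self x) trivial)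
      have hp : Function.Surjective p := by
        intro z
        obtain ⟨z1, rfl⟩ := Submodule.mkQ_surjective _ z
        obtain ⟨z2, rfl⟩ := Submodule.mkQ_surjective _ z1
        exact ⟨Submodule.Quotient.mk z2, rfl⟩
      let p' : ((A ⧸ nn A' x (k + 1)) ⧸ LinearMap.range g) →ₗ[A]
          (M ⧸ (Ideal.span {x} • ⊤ : Submodule A M)) :=
        Submodule.liftQ _ p (by
          rintro _ ⟨z, rfl⟩
          obtain ⟨s, rfl⟩ := Submodule.mkQ_surjective _ z
          simp only [g, p, Submodule.mkQ_apply, Submodule.mapQ_apply, LinearMap.mulLeft_apply,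
            LinearMap.mem_ker, Submodule.liftQ_apply, LinearMap.comp_apply]
          rw [Submodule.Quotient.mk_eq_zero, ← smul_eq_mul, map_smul]
          exact Submodule.smul_mem_smul (Ideal.mem_span_singleton_self x) trivial)
      have hp' : Function.Surjective p' := by
        intro z
        obtain ⟨y, rfl⟩ := hp z
        exact ⟨Submodule.Quotient.mk y, rfl⟩
      exact Module.length_le_of_surjective p' hp'
  refine (key k).trans ?_
  rw [hf]
  let r : (A ⧸ maximalIdeal A ^ k) →ₗ[A] (A ⧸ nn A' x k) :=
    Submodule.mapQ _ _ LinearMap.id (pow_le_nn x hm k)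
  refine Module.length_le_of_surjective r ?_
  intro z
  obtain ⟨y, rfl⟩ := Submodule.mkQ_surjective _ z
  exact ⟨Submodule.Quotient.mk y, rfl⟩

end F1

end Crest.Agent.R183.RE
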