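import Crest.Agent.R183.LocA

/-!
# R183, block RE, part B: upper bound under generation, lower bound under flatness
-/

set_option autoImplicit false

namespace Crest.Agent.R183.RE

open IsLocalRing TensorProduct

universe u v w

/-- Upper bound for the length of a base change. -/
theorem length_tensor_le {A : Type u} {B : Type v} [CommRing A] [IsLocalRing A]
    [CommRing B] [Algebra A B] (E : Type v) [AddCommGroup E] [Module A E] [Module B E]
    [IsScalarTower A B E]
    (hE : Module.length B (E ⊗[A] (A ⧸ maximalIdeal A)) ≤ 1)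
    (M : Type u) [AddCommGroup M] [Module A M] (hM : IsFiniteLength A M) :
    Module.length B (E ⊗[A] M) ≤ Module.length A M := by
  induction hM with
  | of_subsingleton => simp
  | @of_simple_quotient M _ _ N hs _ ih =>
    have h1 : Module.length A M = Module.length A N + Module.length A (M ⧸ N) :=
      Module.length_eq_add_of_exact N.subtype N.mkQ (Submodule.subtype_injective _)
        (Submodule.mkQ_surjective _) (LinearMap.exact_subtype_mkQ N)
    have h2 : Module.length A (M ⧸ N) = 1 := Module.length_eq_one_iff.2 hs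
    let i : E ⊗[A] N →ₗ[B] E ⊗[A] M := TensorProduct.AlgebraTensorModule.lTensor B E N.subtype
    let p : E ⊗[A] M →ₗ[B] E ⊗[A] (M ⧸ N) := TensorProduct.AlgebraTensorModule.lTensor B E N.mkQ
    have hp : Function.Surjective p :=
      LinearMap.lTensor_surjective E (Submodule.mkQ_surjective N)
    have hex : Function.Exact i p :=
      lTensor_exact E (LinearMap.exact_subtype_mkQ N) (Submodule.mkQ_surjective N)
    have h3 : Module.length B (E ⊗[A] M) ≤
        Module.length B (E ⊗[A] N) + Module.length B (E ⊗[A] (M ⧸ N)) := by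
      have e := Module.length_eq_add_of_exact (LinearMap.ker p).subtype p
        (Submodule.subtype_injective _) hp (LinearMap.exact_subtype_ker_map p)
      rw [e]
      refine add_le_add_left ?_ _
      have hk : LinearMap.ker p = LinearMap.range i := LinearMap.exact_iff.1 hex
      rw [hk]
      exact Module.length_le_of_surjective i.rangeRestrict (LinearMap.surjective_rangeRestrict i)
    refine h3.trans ?_
    rw [h1, h2]
    refine add_le_add ih ?_
    obtain ⟨m, hm, ⟨e⟩⟩ := isSimpleModule_iff_quot_maximal.1 hs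
    have hmm : m = maximalIdeal A := IsLocalRing.eq_maximalIdeal hm
    subst hmm
    have e' : E ⊗[A] (M ⧸ N) ≃ₗ[B] E ⊗[A] (A ⧸ maximalIdeal A) :=
      TensorProduct.AlgebraTensorModule.congr (LinearEquiv.refl B E) e
    rw [e'.length_eq]
    exact hE


section F2

variable {A : Type u} {B : Type v} [CommRing A] [IsLocalRing A] [IsNoetherianRing A]
  [CommRing B] [IsLocalRing B] [Algebra A B]

omit [IsNoetherianRing A] in
lemma length_resid_le (x : B)
    (hm : maximalIdeal B = (maximalIdeal A).map (algebraMap A B) ⊔ Ideal.span {x}) :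
    Module.length B ((B ⧸ Ideal.span {x}) ⊗[A] (A ⧸ maximalIdeal A)) ≤ 1 := by
  have hsimple : Module.length B (B ⧸ maximalIdeal B) = 1 := by
    rw [Module.length_eq_one_iff]
    exact isSimpleModule_iff_quot_maximal.2 ⟨maximalIdeal B, inferInstance, ⟨LinearEquiv.refl _ _⟩⟩
  rw [← hsimple]
  let g : B →ₗ[B] ((B ⧸ Ideal.span {x}) ⊗[A] (A ⧸ maximalIdeal A)) :=
    LinearMap.toSpanSingleton B _ ((Submodule.Quotient.mk 1) ⊗ₜ (Submodule.Quotient.mk 1))
  have hg : ∀ b, g b = (Submodule.Quotient.mk b : B ⧸ Ideal.span {x}) ⊗ₜ[A]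
      (Submodule.Quotient.mk 1 : A ⧸ maximalIdeal A) := by
    intro b
    simp only [g, LinearMap.toSpanSingleton_apply, TensorProduct.smul_tmul',
      ← Submodule.Quotient.mk_smul, smul_eq_mul, mul_one]
  have hker : maximalIdeal B ≤ LinearMap.ker g := by
    rw [hm, sup_le_iff]
    constructor
    · rw [Ideal.map_le_iff_le_comap]
      intro a ha
      rw [Ideal.mem_comap]
      change g _ = 0
      rw [hg]
      have e1 : (Submodule.Quotient.mk (algebraMap A B a) : B ⧸ Ideal.span {x}) =
          a • (Submodule.Quotient.mk (1 : B)) := by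
        rw [← Submodule.Quotient.mk_smul, Algebra.smul_def, mul_one]
      rw [e1, TensorProduct.smul_tmul, ← Submodule.Quotient.mk_smul, smul_eq_mul, mul_one,
        (Submodule.Quotient.mk_eq_zero _).2 ha, TensorProduct.tmul_zero]
    · rw [Ideal.span_singleton_le_iff_mem]
      change g _ = 0
      rw [hg, (Submodule.Quotient.mk_eq_zero _).2 (Ideal.mem_span_singleton_self x),
        TensorProduct.zero_tmul]
  let g' : (B ⧸ maximalIdeal B) →ₗ[B] ((B ⧸ Ideal.span {x}) ⊗[A] (A ⧸ maximalIdeal A)) :=
    Submodule.liftQ _ g hker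
  refine Module.length_le_of_surjective g' ?_
  intro z
  induction z with
  | zero => exact ⟨0, map_zero _⟩
  | tmul b a =>
    obtain ⟨b, rfl⟩ := Submodule.Quotient.mk_surjective _ b
    obtain ⟨a, rfl⟩ := Submodule.Quotient.mk_surjective _ a
    refine ⟨Submodule.Quotient.mk (a • b), ?_⟩
    change g (a • b) = _
    rw [hg, Submodule.Quotient.mk_smul, TensorProduct.smul_tmul, ← Submodule.Quotient.mk_smul,
      smul_eq_mul, mul_one]
  | add z w hz hw =>
    obtain ⟨z', rfl⟩ := hz
    obtain ⟨w', rfl⟩ := hw
    exact ⟨z' + w', map_add _ _ _⟩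

lemma isFiniteLength_quot_pow (k : ℕ) : IsFiniteLength A (A ⧸ maximalIdeal A ^ k) := by
  rcases Nat.eq_zero_or_pos k with rfl | hk
  · have : Subsingleton (A ⧸ maximalIdeal A ^ 0) := by
      rw [pow_zero, Ideal.one_eq_top]; infer_instance
    exact IsFiniteLength.of_subsingleton
  · have hne : maximalIdeal A ^ k ≠ ⊤ := fun h =>
      (maximalIdeal.isMaximal A).ne_top (top_le_iff.1 (h ▸ Ideal.pow_le_self hk.ne'))
    have : Nontrivial (A ⧸ maximalIdeal A ^ k) := Ideal.Quotient.nontrivial_iff.2 hne
    have : IsLocalRing (A ⧸ maximalIdeal A ^ k) :=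
      IsLocalRing.of_surjective' (Ideal.Quotient.mk _) Ideal.Quotient.mk_surjective
    have hnil : IsNilpotent (maximalIdeal (A ⧸ maximalIdeal A ^ k)) := by
      refine ⟨k, ?_⟩
      have h1 : maximalIdeal (A ⧸ maximalIdeal A ^ k) ≤
          (maximalIdeal A).map (Ideal.Quotient.mk _) := by
        intro z hz
        obtain ⟨a, rfl⟩ := Ideal.Quotient.mk_surjective z
        refine Ideal.mem_map_of_mem _ ?_
        rw [mem_maximalIdeal, mem_nonunits_iff] at hz ⊢
        exact fun hu => hz (hu.map _)
      rw [Ideal.zero_eq_bot, eq_bot_iff]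
      refine (Ideal.pow_right_mono h1 k).trans ?_
      rw [← Ideal.map_pow, Ideal.map_quotient_self]
    have hart := (isArtinianRing_iff_isNilpotent_maximalIdeal (A ⧸ maximalIdeal A ^ k)).2 hnil
    rw [← Module.length_ne_top_iff, Module.length_eq_of_surjective (S := A)
      (R := A ⧸ maximalIdeal A ^ k) Ideal.Quotient.mk_surjective]
    exact Module.length_ne_top

omit [IsNoetherianRing A] in
/-- `length (B/(I B + x)) ≤ length (A/I)`. -/
lemma length_quot_sup_le (x : B)
    (hm : maximalIdeal B = (maximalIdeal A).map (algebraMap A B) ⊔ Ideal.span {x}) (I : Ideal A)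
    (hI : IsFiniteLength A (A ⧸ I)) :
    Module.length B (B ⧸ (I.map (algebraMap A B) ⊔ Ideal.span {x})) ≤
      Module.length A (A ⧸ I) := by
  refine le_trans ?_ (length_tensor_le (B ⧸ Ideal.span {x}) (length_resid_le x hm) (A ⧸ I) hI)
  set J := I.map (algebraMap A B) ⊔ Ideal.span {x} with hJ
  let f0 : (B ⧸ Ideal.span {x}) →ₗ[B] (B ⧸ J) := Submodule.mapQ _ _ LinearMap.id le_sup_right
  let g0 : (A ⧸ I) →ₗ[A] Module.End B (B ⧸ J) := Submodule.liftQ _
    (Algebra.lsmul A B (B ⧸ J)).toLinearMap (by
      intro a ha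
      rw [LinearMap.mem_ker]
      ext
      simp only [AlgHom.toLinearMap_apply, LinearMap.comp_apply, Submodule.mkQ_apply,
        Algebra.lsmul_coe, LinearMap.zero_apply]
      rw [← Submodule.Quotient.mk_smul, Submodule.Quotient.mk_eq_zero, Algebra.smul_def, mul_one]
      exact Ideal.mem_sup_left (Ideal.mem_map_of_mem _ ha))
  let T : (B ⧸ Ideal.span {x}) ⊗[A] (A ⧸ I) →ₗ[B] (B ⧸ J) :=
    TensorProduct.AlgebraTensorModule.lift
      { toFun := fun b =>
          { toFun := fun a => g0 a (f0 b)
            map_add' := fun a a' => by rw [map_add, LinearMap.add_apply]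
            map_smul' := fun c a => by rw [map_smul]; rfl }
        map_add' := fun b b' => by ext; simp
        map_smul' := fun c b => by ext; simp }
  refine Module.length_le_of_surjective T ?_
  intro z
  obtain ⟨b, rfl⟩ := Submodule.Quotient.mk_surjective _ z
  refine ⟨(Submodule.Quotient.mk b) ⊗ₜ (Submodule.Quotient.mk 1), ?_⟩
  change g0 (Submodule.Quotient.mk 1) (f0 (Submodule.Quotient.mk b)) = _
  change ((1 : A) • (Submodule.Quotient.mk b : B ⧸ J)) = _
  rw [one_smul]

/-- (F2, upper bound) one step. -/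
theorem hf_succ_le (x : B)
    (hm : maximalIdeal B = (maximalIdeal A).map (algebraMap A B) ⊔ Ideal.span {x}) (k : ℕ) :
    hf B (k + 1) ≤ hf B k + hf A (k + 1) := by
  have hx : x ∈ maximalIdeal B := by
    rw [hm]; exact Ideal.mem_sup_right (Ideal.mem_span_singleton_self x)
  let g : (B ⧸ maximalIdeal B ^ k) →ₗ[B] (B ⧸ maximalIdeal B ^ (k + 1)) :=
    Submodule.mapQ _ _ (LinearMap.mulLeft B x) (by
      intro s hs
      simp only [Submodule.mem_comap, LinearMap.mulLeft_apply]
      rw [pow_succ']
      exact Ideal.mul_mem_mul hx hs)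
  let p : (B ⧸ maximalIdeal B ^ (k + 1)) →ₗ[B]
      ((B ⧸ maximalIdeal B ^ (k + 1)) ⧸ LinearMap.range g) := Submodule.mkQ _
  have h1 : Module.length B (B ⧸ maximalIdeal B ^ (k + 1)) =
      Module.length B (LinearMap.range g) +
        Module.length B ((B ⧸ maximalIdeal B ^ (k + 1)) ⧸ LinearMap.range g) :=
    Module.length_eq_add_of_exact (LinearMap.range g).subtype (LinearMap.range g).mkQ
      (Submodule.subtype_injective _)
      (Submodule.mkQ_surjective _) (LinearMap.exact_subtype_mkQ _)
  rw [hf, h1]
  refine add_le_add ?_ ?_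
  · exact Module.length_le_of_surjective g.rangeRestrict (LinearMap.surjective_rangeRestrict g)
  · refine le_trans ?_ (length_quot_sup_le x hm (maximalIdeal A ^ (k + 1))
      (isFiniteLength_quot_pow (k + 1)))
    let q0 : B →ₗ[B] ((B ⧸ maximalIdeal B ^ (k + 1)) ⧸ LinearMap.range g) :=
      (LinearMap.range g).mkQ ∘ₗ Submodule.mkQ _
    have hq0 : Function.Surjective q0 :=
      (Submodule.mkQ_surjective _).comp (Submodule.mkQ_surjective _)
    let q1 : (B ⧸ ((maximalIdeal A ^ (k + 1)).map (algebraMap A B) ⊔ Ideal.span {x})) →ₗ[B]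
        ((B ⧸ maximalIdeal B ^ (k + 1)) ⧸ LinearMap.range g) :=
      Submodule.liftQ _ q0 (by
        rw [sup_le_iff]
        constructor
        · intro b hb
          have hb' : b ∈ maximalIdeal B ^ (k + 1) := by
            rw [Ideal.map_pow] at hb
            refine Ideal.pow_right_mono ?_ _ hb
            rw [hm]; exact le_sup_left
          rw [LinearMap.mem_ker]
          change (LinearMap.range g).mkQ (Submodule.mkQ _ b) = 0
          rw [Submodule.mkQ_apply (maximalIdeal B ^ (k + 1)),
            (Submodule.Quotient.mk_eq_zero _).2 hb', map_zero]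
        · rw [Ideal.span_singleton_le_iff_mem, LinearMap.mem_ker]
          change (LinearMap.range g).mkQ (Submodule.mkQ _ x) = 0
          rw [Submodule.mkQ_apply, Submodule.Quotient.mk_eq_zero]
          refine ⟨Submodule.Quotient.mk 1, ?_⟩
          simp only [g, Submodule.mapQ_apply, LinearMap.mulLeft_apply, mul_one]
          rfl)
    refine Module.length_le_of_surjective q1 ?_
    intro z
    obtain ⟨b, rfl⟩ := hq0 z
    exact ⟨Submodule.Quotient.mk b, rfl⟩

/-- (F2, upper bound). -/
theorem hf_le_sg (x : B)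
    (hm : maximalIdeal B = (maximalIdeal A).map (algebraMap A B) ⊔ Ideal.span {x}) (k : ℕ) :
    hf B k ≤ sg (hf A) k := by
  induction k with
  | zero => simp [hf, sg]
  | succ k ih =>
    rw [sg_succ]
    exact (hf_succ_le x hm k).trans (add_le_add_left ih _)

end F2

section Flat

/-- The Hilbert function does not change under flat local extensions with `m_A C = m_C`. -/
theorem hf_eq_of_flat {A : Type u} {C : Type v} [CommRing A] [IsLocalRing A]
    [CommRing C] [IsLocalRing C] [Algebra A C] [IsLocalHom (algebraMap A C)] [Module.Flat A C]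
    (hm : maximalIdeal C = (maximalIdeal A).map (algebraMap A C)) (k : ℕ) :
    hf C k = hf A k := by
  have h1 := IsLocalRing.length_baseChange A C (A ⧸ maximalIdeal A ^ k)
  have hsimple : Module.length C (C ⧸ (maximalIdeal A).map (algebraMap A C)) = 1 := by
    rw [← hm, Module.length_eq_one_iff]
    exact isSimpleModule_iff_quot_maximal.2 ⟨maximalIdeal C, inferInstance, ⟨LinearEquiv.refl _ _⟩⟩
  rw [hsimple, mul_one] at h1
  rw [hf, hf, ← h1]
  have e := (Algebra.TensorProduct.quotIdealMapEquivTensorQuot C
    (maximalIdeal A ^ k)).toLinearEquiv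
  rw [← e.length_eq, Ideal.map_pow, ← hm]

variable {A : Type u} {B : Type v} [CommRing A] [IsLocalRing A] [IsNoetherianRing A]
  [CommRing B] [IsLocalRing B] [IsNoetherianRing B] [Algebra A B]

omit [IsNoetherianRing A] in
/-- (F2, lower bound). -/
theorem sg_hf_le_of_flat [IsLocalHom (algebraMap A B)] [Module.Flat A B]
    (hprime : ((maximalIdeal A).map (algebraMap A B)).IsPrime)
    (x : B) (hx : x ∉ (maximalIdeal A).map (algebraMap A B))
    (hm : maximalIdeal B = (maximalIdeal A).map (algebraMap A B) ⊔ Ideal.span {x}) (k : ℕ) :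
    sg (hf A) k ≤ hf B k := by
  set q := (maximalIdeal A).map (algebraMap A B) with hq
  let C := Localization.AtPrime q
  have hmC : maximalIdeal C = (maximalIdeal A).map (algebraMap A C) := by
    rw [IsScalarTower.algebraMap_eq A B C, ← Ideal.map_map, ← hq]
    exact (Localization.AtPrime.map_eq_maximalIdeal (I := q)).symm
  have hflat : Module.Flat A C := Module.Flat.trans A B C
  have hloc : IsLocalHom (algebraMap A C) := by
    refine ((IsLocalRing.local_hom_TFAE (algebraMap A C)).out 0 2).2 ?_
    rw [hmC]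
  have h1 : ∀ k, hf C k = hf A k := hf_eq_of_flat hmC
  have h2 : sg (hf C) k = sg (hf A) k := by
    unfold sg; exact Finset.sum_congr rfl fun _ _ => h1 _
  rw [← h2]
  have hcomap : symPow B C 1 = q := by
    rw [symPow, pow_one]
    exact Localization.AtPrime.under_maximalIdeal (I := q)
  refine sg_hf_le_hf (locLike_localization B q.primeCompl C) x ?_ ?_ ?_ k
  · rw [hm]; exact Ideal.mem_sup_right (Ideal.mem_span_singleton_self x)
  · exact IsLocalization.map_units C (⟨x, hx⟩ : q.primeCompl)
  · rw [hcomap]; exact hm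

end Flat

end Crest.Agent.R183.RE
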