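import Crest.Agent.R183.LocB

/-!
# R183, block RE, part C: adjoining one variable
-/

set_option autoImplicit false

namespace Crest.Agent.R183.RE

open IsLocalRing Polynomial

universe u v w

section Poly

variable {A : Type u} [CommRing A] (P1 : Ideal A[X]) [P1.IsPrime]

omit [P1.IsPrime] in
lemma exists_gen (hne : P1 ≠ (P1.comap C).map C) :
    ∃ f ∈ P1, f ∉ (P1.comap C).map C ∧ ∃ c : A, C c ∉ P1 ∧
      ∀ g ∈ P1, ∃ e : ℕ, C c ^ e * g ∈ Ideal.span {f} ⊔ (P1.comap C).map C := by
  classical
  set P := P1.comap C with hP
  have hle : P.map C ≤ P1 := Ideal.map_comap_le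
  have hex : ∃ n : ℕ, ∃ f ∈ P1, f ∉ P.map C ∧ f.natDegree = n := by
    by_contra h
    push Not at h
    apply hne
    refine le_antisymm (fun f hf => ?_) hle
    by_contra hf'
    exact h f.natDegree f hf hf' rfl
  obtain ⟨f, hf, hf', hdeg⟩ := Nat.find_spec hex
  have hmin : ∀ g ∈ P1, g.natDegree < Nat.find hex → g ∈ P.map C := by
    intro g hg hlt
    by_contra hg'
    exact Nat.find_min hex hlt ⟨g, hg, hg', rfl⟩
  set n := Nat.find hex with hn
  have hn0 : 0 < n := by
    rw [Nat.pos_iff_ne_zero]
    intro h0
    rw [h0] at hdeg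
    obtain ⟨c, hc⟩ := Polynomial.natDegree_eq_zero.1 hdeg
    apply hf'
    rw [← hc]
    refine Ideal.mem_map_of_mem C ?_
    rw [hP, Ideal.mem_comap, hc]
    exact hf
  set c := f.leadingCoeff with hc
  have hcP : C c ∉ P1 := by
    intro hcP
    have h1 : C c ∈ P.map C := Ideal.mem_map_of_mem C hcP
    have h2 : f.eraseLead + C c * X ^ f.natDegree = f := eraseLead_add_C_mul_X_pow f
    have h3 : C c * X ^ f.natDegree ∈ P.map C := Ideal.mul_mem_right _ _ h1
    have h4 : f.eraseLead ∈ P1 := by
      have : f.eraseLead = f - C c * X ^ f.natDegree := eq_sub_of_add_eq h2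
      rw [this]; exact P1.sub_mem hf (hle h3)
    apply hf'
    rw [← h2]
    refine Ideal.add_mem _ ?_ h3
    rcases eraseLead_natDegree_lt_or_eraseLead_eq_zero f with h | h
    · exact hmin _ h4 (by rw [← hdeg]; exact h)
    · rw [h]; exact Ideal.zero_mem _
  refine ⟨f, hf, hf', c, hcP, ?_⟩
  have key : ∀ m : ℕ, ∀ g ∈ P1, g.natDegree ≤ m → ∃ e : ℕ,
      C c ^ e * g ∈ Ideal.span {f} ⊔ P.map C := by
    intro m
    induction m with
    | zero =>
      intro g hg hm
      exact ⟨0, by
        rw [pow_zero, one_mul]
        exact Ideal.mem_sup_right (hmin g hg (by omega))⟩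
    | succ m ih =>
      intro g hg hm
      by_cases hlt : g.natDegree < n
      · exact ⟨0, by
          rw [pow_zero, one_mul]
          exact Ideal.mem_sup_right (hmin g hg hlt)⟩
      · rw [not_lt] at hlt
        set g' := C c * g - C g.leadingCoeff * X ^ (g.natDegree - n) * f with hg'
        have hg'mem : g' ∈ P1 := P1.sub_mem (Ideal.mul_mem_left _ _ hg) (Ideal.mul_mem_left _ _ hf)
        have hdeg' : g'.natDegree ≤ m := by
          rw [Polynomial.natDegree_le_iff_coeff_eq_zero]
          intro N hN
          rw [hg', coeff_sub, coeff_C_mul, mul_assoc, coeff_C_mul]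
          rw [mul_comm (X ^ _) f, Polynomial.coeff_mul_X_pow']
          by_cases hNn : g.natDegree < N
          · rw [Polynomial.coeff_eq_zero_of_natDegree_lt hNn, mul_zero, if_pos (by omega),
              Polynomial.coeff_eq_zero_of_natDegree_lt (by omega), mul_zero, sub_zero]
          · have hNe : N = g.natDegree := by omega
            rw [if_pos (by omega), hNe]
            have : g.natDegree - (g.natDegree - n) = f.natDegree := by omega
            rw [this]
            simp only [coeff_natDegree]
            ring
        obtain ⟨e, he⟩ := ih g' hg'mem hdeg'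
        refine ⟨e + 1, ?_⟩
        have : C c ^ (e + 1) * g = C c ^ e * g' +
            (C c ^ e * (C g.leadingCoeff * X ^ (g.natDegree - n))) * f := by
          rw [hg']; ring
        rw [this]
        exact Ideal.add_mem _ he (Ideal.mem_sup_left
          (Ideal.mul_mem_left _ _ (Ideal.mem_span_singleton_self f)))
  intro g hg
  exact key g.natDegree g hg le_rfl


variable [IsNoetherianRing A]

/-- The basic step: adjoining one variable, with a prime `P1` of `A[X]` bigger than the
extension of its contraction. -/
theorem hf_poly (P : Ideal A) [P.IsPrime] (hP : P = P1.comap C) (hne : P1 ≠ P.map C) :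
    (∀ k, hf (Localization.AtPrime P1) k ≤ sg (hf (Localization.AtPrime P)) k) ∧
    (∀ k, sg (hf (Localization.AtPrime P)) k ≤ hf (Localization.AtPrime P1) k) := by
  subst hP
  set P := P1.comap C with hP
  obtain ⟨f, hf1, hf2, c, hc, hgen⟩ := exists_gen P1 hne
  let AP := Localization.AtPrime P
  let B := Localization.AtPrime P1
  let φ : AP →+* B := Localization.localRingHom P P1 C rfl
  let : Algebra AP B := φ.toAlgebra
  have hcomp : ∀ a : A, algebraMap AP B (algebraMap A AP a) = algebraMap A[X] B (C a) :=
    fun a => Localization.localRingHom_to_map P P1 C rfl a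
  have hloc : IsLocalHom (algebraMap AP B) := Localization.isLocalHom_localRingHom P P1 C rfl
  have hflat : Module.Flat AP B := by
    have h0 : (C : A →+* A[X]).Flat := by
      rw [← Polynomial.algebraMap_eq]
      exact RingHom.flat_algebraMap_iff.2 inferInstance
    exact RingHom.Flat.localRingHom h0 P1 P rfl
  have hmap : (maximalIdeal AP).map (algebraMap AP B) = (P.map C).map (algebraMap A[X] B) := by
    have h1 : P.map (algebraMap A AP) = maximalIdeal AP :=
      Localization.AtPrime.map_eq_maximalIdeal (I := P)
    rw [← h1, Ideal.map_map, Ideal.map_map]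
    congr 1
    ext a
    exact hcomp a
  have hmB : maximalIdeal B = (maximalIdeal AP).map (algebraMap AP B) ⊔
      Ideal.span {algebraMap A[X] B f} := by
    rw [hmap]
    have h1 : P1.map (algebraMap A[X] B) = maximalIdeal B :=
      Localization.AtPrime.map_eq_maximalIdeal (I := P1)
    apply le_antisymm
    · rw [← h1, Ideal.map_le_iff_le_comap]
      intro g hg
      obtain ⟨e, he⟩ := hgen g hg
      rw [Ideal.mem_comap]
      have hu : IsUnit (algebraMap A[X] B (C c ^ e)) := by
        rw [map_pow]
        exact (IsLocalization.map_units B (⟨C c, hc⟩ : P1.primeCompl)).pow e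
      rw [← Ideal.unit_mul_mem_iff_mem _ hu, ← map_mul]
      have h2 := Ideal.mem_map_of_mem (algebraMap A[X] B) he
      rw [Ideal.map_sup, Ideal.map_span, Set.image_singleton, sup_comm] at h2
      exact h2
    · rw [sup_le_iff]
      constructor
      · rw [← h1]; exact Ideal.map_mono Ideal.map_comap_le
      · rw [Ideal.span_singleton_le_iff_mem, ← h1]
        exact Ideal.mem_map_of_mem _ hf1
  have hdisj : Disjoint (P1.primeCompl : Set A[X]) (P.map C : Ideal A[X]) := by
    rw [Set.disjoint_left]
    intro g hg hg'
    exact hg (Ideal.map_comap_le hg')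
  have hprime0 : (P.map C).IsPrime := inferInstance
  have hprime : ((maximalIdeal AP).map (algebraMap AP B)).IsPrime := by
    rw [hmap]
    exact IsLocalization.isPrime_of_isPrime_disjoint P1.primeCompl B (P.map C) hprime0 hdisj
  have hx : algebraMap A[X] B f ∉ (maximalIdeal AP).map (algebraMap AP B) := by
    rw [hmap]
    intro h
    apply hf2
    have h3 := IsLocalization.under_map_of_isPrime_disjoint P1.primeCompl B hprime0 hdisj
    rw [← h3]
    exact h
  exact ⟨fun k => hf_le_sg (algebraMap A[X] B f) hmB k,
    fun k => sg_hf_le_of_flat hprime (algebraMap A[X] B f) hx hmB k⟩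

end Poly

end Crest.Agent.R183.RE
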