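import Crest.Agent.R183.LocC

/-!
# R183, block RE, part D: adjoining finitely many elements of a local domain
-/

set_option autoImplicit false

namespace Crest.Agent.R183.RE

open IsLocalRing Polynomial

universe u v w

section Chain

variable {W : Type v} [CommRing W] [IsDomain W] [IsLocalRing W]

/-- Hilbert function at the kernel of `φ`. -/
noncomputable def hfQ {A : Type u} [CommRing A] (φ : A →+* W) (k : ℕ) : ℕ∞ :=
  haveI := RingHom.ker_isPrime φ
  hf (Localization.AtPrime (RingHom.ker φ)) k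

/-- Hilbert function at the preimage of the maximal ideal. -/
noncomputable def hfN {A : Type u} [CommRing A] (φ : A →+* W) (k : ℕ) : ℕ∞ :=
  hf (Localization.AtPrime ((maximalIdeal W).comap φ)) k

theorem chain (vs : List W) : ∀ (A : Type u) [CommRing A] [IsNoetherianRing A] (φ : A →+* W),
    (∀ v ∈ vs, (∃ a b : A, φ b ≠ 0 ∧ φ b * v = φ a) ∧ φ.IsIntegralElem v) →
    ∃ (A' : Type u) (_ : CommRing A') (_ : IsNoetherianRing A') (φ' : A' →+* W),
      φ.range ≤ φ'.range ∧ (∀ v ∈ vs, v ∈ φ'.range) ∧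
      (∀ k, hfN φ' k ≤ sg^[vs.length] (hfN φ) k) ∧
      (∀ k, sg^[vs.length] (hfQ φ) k ≤ hfQ φ' k) := by
  induction vs with
  | nil =>
    intro A _ _ φ _
    exact ⟨A, inferInstance, inferInstance, φ, le_rfl, by simp, fun k => le_rfl, fun k => le_rfl⟩
  | cons v vs ih =>
    intro A _ _ φ hφ
    let φ1 : A[X] →+* W := eval₂RingHom φ v
    have hC : ∀ a, φ1 (C a) = φ a := fun a => eval₂_C φ v
    have hX : φ1 X = v := eval₂_X φ v
    obtain ⟨⟨a, b, hb, hab⟩, p, hp, hpv⟩ := hφ v (by simp)
    have h1 : ∀ w ∈ vs, (∃ a b : A[X], φ1 b ≠ 0 ∧ φ1 b * w = φ1 a) ∧ φ1.IsIntegralElem w := by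
      intro w hw
      obtain ⟨⟨a', b', hb', hab'⟩, p', hp', hpv'⟩ := hφ w (by simp [hw])
      refine ⟨⟨C a', C b', by rw [hC]; exact hb', by rw [hC, hC]; exact hab'⟩, ?_⟩
      refine ⟨p'.map C, hp'.map C, ?_⟩
      rw [eval₂_map]
      have : φ1.comp C = φ := by ext a; exact hC a
      rw [this]; exact hpv'
    obtain ⟨A', _, _, φ', hr, hvs, hN, hQ⟩ := ih A[X] φ1 h1
    have hprQ : (RingHom.ker φ).IsPrime := RingHom.ker_isPrime φ
    have hprQ1 : (RingHom.ker φ1).IsPrime := RingHom.ker_isPrime φ1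
    have hker : RingHom.ker φ = (RingHom.ker φ1).comap C := by
      ext a; simp only [RingHom.mem_ker, Ideal.mem_comap, hC]
    have hkerne : RingHom.ker φ1 ≠ (RingHom.ker φ).map C := by
      intro h
      have h2 : (C b * X - C a : A[X]) ∈ RingHom.ker φ1 := by
        rw [RingHom.mem_ker, map_sub, map_mul, hC, hC, hX, hab, sub_self]
      rw [h, Ideal.mem_map_C_iff] at h2
      have h3 := h2 1
      rw [coeff_sub, coeff_C_mul, coeff_X_one, mul_one, coeff_C_succ, sub_zero] at h3
      exact hb h3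
    have hNN : (maximalIdeal W).comap φ = ((maximalIdeal W).comap φ1).comap C := by
      ext a; simp only [Ideal.mem_comap, hC]
    have hNNne : (maximalIdeal W).comap φ1 ≠ ((maximalIdeal W).comap φ).map C := by
      intro h
      have h2 : p ∈ (maximalIdeal W).comap φ1 := by
        rw [Ideal.mem_comap]
        have : φ1 p = 0 := hpv
        rw [this]; exact Ideal.zero_mem _
      rw [h, Ideal.mem_map_C_iff] at h2
      have h3 := h2 p.natDegree
      rw [hp.coeff_natDegree] at h3
      exact (inferInstance : ((maximalIdeal W).comap φ).IsPrime).ne_top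
        ((Ideal.eq_top_iff_one _).2 h3)
    obtain ⟨hN1, -⟩ := hf_poly ((maximalIdeal W).comap φ1) ((maximalIdeal W).comap φ) hNN hNNne
    obtain ⟨-, hQ1⟩ := hf_poly (RingHom.ker φ1) (RingHom.ker φ) hker hkerne
    refine ⟨A', inferInstance, inferInstance, φ', ?_, ?_, ?_, ?_⟩
    · rintro _ ⟨a, rfl⟩
      exact hr ⟨C a, hC a⟩
    · intro w hw
      rcases List.mem_cons.1 hw with rfl | hw
      · exact hr ⟨X, hX⟩
      · exact hvs w hw
    · intro k
      refine (hN k).trans ?_
      rw [List.length_cons, Function.iterate_succ_apply]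
      exact sg_iterate_mono hN1 _ k
    · intro k
      refine le_trans ?_ (hQ k)
      rw [List.length_cons, Function.iterate_succ_apply]
      exact sg_iterate_mono hQ1 _ k

end Chain

end Crest.Agent.R183.RE
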