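import Crest.Agent.R183.LocD

/-!
# R183, block RE, part E: the top step when the image is (locally) a DVR
-/

set_option autoImplicit false

namespace Crest.Agent.R183.RE

open IsLocalRing Polynomial

universe u v w

section Top

variable {W : Type v} [CommRing W] [IsDomain W] [IsLocalRing W]

theorem sg_hfQ_le_hfN {A : Type u} [CommRing A] [IsNoetherianRing A] (φ : A →+* W)
    (π : W) (hπ : maximalIdeal W = Ideal.span {π}) (hπ0 : π ≠ 0)
    (hsurj : ∀ w : W, ∃ a s : A, IsUnit (φ s) ∧ φ s * w = φ a) (k : ℕ) :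
    sg (hfQ φ) k ≤ hfN φ k := by
  have hprQ : (RingHom.ker φ).IsPrime := RingHom.ker_isPrime φ
  set Q := RingHom.ker φ with hQ
  set N := (maximalIdeal W).comap φ with hN
  have hQN : Q ≤ N := by
    intro a ha
    rw [hN, Ideal.mem_comap, (RingHom.mem_ker).1 ha]
    exact Ideal.zero_mem _
  let AN := Localization.AtPrime N
  let AQ := Localization.AtPrime Q
  let ψ : AN →+* AQ := IsLocalization.lift (M := N.primeCompl) (g := algebraMap A AQ) (by
    intro y
    exact IsLocalization.map_units AQ (⟨y.1, fun h => y.2 (hQN h)⟩ : Q.primeCompl))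
  let : Algebra AN AQ := ψ.toAlgebra
  have hψ : ∀ a : A, algebraMap AN AQ (algebraMap A AN a) = algebraMap A AQ a := fun a =>
    IsLocalization.lift_eq _ a
  have hLL : LocLike AN AQ := by
    intro a'
    obtain ⟨u, hu, a, ha⟩ := locLike_localization A Q.primeCompl AQ a'
    exact ⟨u, hu, algebraMap A AN a, by rw [hψ]; exact ha⟩
  obtain ⟨a0, s0, hs0, h0⟩ := hsurj π
  have hmapN : N.map (algebraMap A AN) = maximalIdeal AN :=
    Localization.AtPrime.map_eq_maximalIdeal (I := N)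
  have hmapQ : Q.map (algebraMap A AQ) = maximalIdeal AQ :=
    Localization.AtPrime.map_eq_maximalIdeal (I := Q)
  have hπm : π ∈ maximalIdeal W := by rw [hπ]; exact Ideal.mem_span_singleton_self π
  have ha0N : a0 ∈ N := by
    rw [hN, Ideal.mem_comap, ← h0]
    exact Ideal.mul_mem_left _ _ hπm
  have ha0Q : a0 ∉ Q := by
    intro h
    rw [hQ, RingHom.mem_ker, ← h0] at h
    rcases mul_eq_zero.1 h with h | h
    · exact hs0.ne_zero h
    · exact hπ0 h
  have hunitN : ∀ s : A, IsUnit (φ s) → IsUnit (algebraMap A AN s) := fun s hs =>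
    IsLocalization.map_units AN (⟨s, fun h => (mem_nonunits_iff.1 h) hs⟩ : N.primeCompl)
  have hx : algebraMap A AN a0 ∈ maximalIdeal AN := by
    rw [← hmapN]; exact Ideal.mem_map_of_mem _ ha0N
  have hxu : IsUnit (algebraMap AN AQ (algebraMap A AN a0)) := by
    rw [hψ]; exact IsLocalization.map_units AQ (⟨a0, ha0Q⟩ : Q.primeCompl)
  refine sg_hf_le_hf hLL (algebraMap A AN a0) hx hxu ?_ k
  apply le_antisymm
  · rw [← hmapN, Ideal.map_le_iff_le_comap]
    intro a ha
    rw [Ideal.mem_comap]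
    have h1 : φ a ∈ maximalIdeal W := ha
    rw [hπ, Ideal.mem_span_singleton] at h1
    obtain ⟨w, hw⟩ := h1
    obtain ⟨c, s, hs, hsc⟩ := hsurj w
    have h2 : s0 * s * a - a0 * c ∈ Q := by
      rw [hQ, RingHom.mem_ker, map_sub, map_mul, map_mul, map_mul, hw, ← h0, ← hsc]
      ring
    have hu : IsUnit (algebraMap A AN (s0 * s)) := by
      rw [map_mul]; exact (hunitN s0 hs0).mul (hunitN s hs)
    rw [← Ideal.unit_mul_mem_iff_mem _ hu, ← map_mul]
    have h3 : s0 * s * a = (s0 * s * a - a0 * c) + a0 * c := by ring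
    rw [h3, map_add]
    refine Ideal.add_mem _ (Ideal.mem_sup_left ?_) (Ideal.mem_sup_right ?_)
    · rw [symPow, pow_one, Ideal.mem_comap, hψ, ← hmapQ]
      exact Ideal.mem_map_of_mem _ h2
    · rw [map_mul]
      exact Ideal.mul_mem_right _ _ (Ideal.mem_span_singleton_self _)
  · rw [sup_le_iff]
    constructor
    · refine le_maximalIdeal ?_
      intro h
      have h1 : (1 : AN) ∈ symPow AN AQ 1 := h ▸ trivial
      rw [symPow, pow_one, Ideal.mem_comap, map_one] at h1
      exact (mem_nonunits_iff.1 h1) isUnit_one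
    · rw [Ideal.span_singleton_le_iff_mem]; exact hx

/-- Combination of the chain with the top step. -/
theorem main_chain {A : Type u} [CommRing A] [IsNoetherianRing A] (φ : A →+* W)
    (π : W) (hπ : maximalIdeal W = Ideal.span {π}) (hπ0 : π ≠ 0) (vs : List W)
    (hvs : ∀ v ∈ vs, (∃ a b : A, φ b ≠ 0 ∧ φ b * v = φ a) ∧ φ.IsIntegralElem v)
    (V : Subring W) (hV : V ≤ Subring.closure (φ.range ∪ {v | v ∈ vs}))
    (hloc : ∀ w : W, ∃ a ∈ V, ∃ s ∈ V, IsUnit s ∧ s * w = a) (k : ℕ) :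
    sg^[vs.length + 1] (hfQ φ) k ≤ sg^[vs.length] (hfN φ) k := by
  obtain ⟨A', _, _, φ', hr, hvs', hN, hQ⟩ := chain vs A φ hvs
  have hVr : V ≤ φ'.range := by
    refine hV.trans ?_
    rw [Subring.closure_le]
    rintro w (hw | hw)
    · exact hr hw
    · exact hvs' w hw
  have hsurj : ∀ w : W, ∃ a s : A', IsUnit (φ' s) ∧ φ' s * w = φ' a := by
    intro w
    obtain ⟨a, ha, s, hs, hsu, hsw⟩ := hloc w
    obtain ⟨a', rfl⟩ := hVr ha
    obtain ⟨s', rfl⟩ := hVr hs
    exact ⟨a', s', hsu, hsw⟩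
  rw [Function.iterate_succ_apply']
  calc sg (sg^[vs.length] (hfQ φ)) k ≤ sg (hfQ φ') k := sg_mono hQ k
    _ ≤ hfN φ' k := sg_hfQ_le_hfN φ' π hπ hπ0 hsurj k
    _ ≤ _ := hN k

end Top

end Crest.Agent.R183.RE
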