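import Mathlib

/-!
# R183, block RE, part F: finiteness of the normalisation of a complete one-dimensional local domain
-/

set_option autoImplicit false

namespace Crest.Agent.R183.RE

open IsLocalRing

universe u v w

section Length

variable {D : Type u} [CommRing D] {M : Type v} [AddCommGroup M] [Module D M]

lemma length_quot_eq (A B : Submodule D M) (h : A ≤ B) :
    Module.length D (M ⧸ A) = Module.length D (B.map A.mkQ) + Module.length D (M ⧸ B) := by
  let g : (M ⧸ A) →ₗ[D] (M ⧸ B) := Submodule.mapQ A B LinearMap.id h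
  have hg : Function.Surjective g := by
    intro z
    obtain ⟨y, rfl⟩ := Submodule.mkQ_surjective _ z
    exact ⟨Submodule.Quotient.mk y, rfl⟩
  have hker : LinearMap.ker g = B.map A.mkQ := by
    ext z
    obtain ⟨y, rfl⟩ := Submodule.mkQ_surjective _ z
    rw [LinearMap.mem_ker]
    change Submodule.Quotient.mk y = 0 ↔ _
    rw [Submodule.Quotient.mk_eq_zero, Submodule.mem_map]
    constructor
    · intro hy; exact ⟨y, hy, rfl⟩
    · rintro ⟨b, hb, hby⟩
      have h1 : b - y ∈ A := (Submodule.Quotient.eq A).1 hby
      have : y = b - (b - y) := by abel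
      rw [this]; exact B.sub_mem hb (h h1)
  rw [Module.length_eq_add_of_exact (LinearMap.ker g).subtype g (Submodule.subtype_injective _) hg
    (LinearMap.exact_subtype_ker_map g), hker]

/-- For a rank one situation: `length (M / xM) ≤ length (D / xD)`. -/
lemma length_quot_smul_le [IsDomain D] (x : D) (e : M)
    (hxM : Function.Injective (fun m : M => x • m)) (he : ∀ d : D, d • e = 0 → d = 0)
    (hfin : Module.length D (M ⧸ (Submodule.span D {e})) ≠ ⊤) :
    Module.length D (M ⧸ (LinearMap.range (LinearMap.lsmul D M x))) ≤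
      Module.length D (D ⧸ Ideal.span {x}) := by
  set N := Submodule.span D {e} with hN
  set X := LinearMap.lsmul D M x with hX
  -- xN
  set xN := N.map X with hxN
  have h1 : xN ≤ N := by
    rintro _ ⟨n, hn, rfl⟩
    exact N.smul_mem x hn
  have h2 : xN ≤ LinearMap.range X := LinearMap.map_le_range
  have e1 := length_quot_eq xN N h1
  have e2 := length_quot_eq xN (LinearMap.range X) h2
  -- range part: iso to M / N
  have e3 : Module.length D ((LinearMap.range X).map xN.mkQ) = Module.length D (M ⧸ N) := by
    let f : M →ₗ[D] (M ⧸ xN) := xN.mkQ ∘ₗ X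
    have hr : LinearMap.range f = (LinearMap.range X).map xN.mkQ := LinearMap.range_comp _ _
    have hk : LinearMap.ker f = N := by
      ext m
      rw [LinearMap.mem_ker, LinearMap.comp_apply, Submodule.mkQ_apply,
        Submodule.Quotient.mk_eq_zero, hxN, Submodule.mem_map]
      constructor
      · rintro ⟨n, hn, hnm⟩
        have : n = m := hxM hnm
        rw [← this]; exact hn
      · intro hm; exact ⟨m, hm, rfl⟩
    rw [← hr, ← hk]
    exact (LinearMap.quotKerEquivRange f).length_eq.symm
  have e4 : Module.length D (N.map xN.mkQ) = Module.length D (D ⧸ Ideal.span {x}) := by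
    let f : D →ₗ[D] (M ⧸ xN) := xN.mkQ ∘ₗ (LinearMap.toSpanSingleton D M e)
    have hr : LinearMap.range f = N.map xN.mkQ := by
      rw [LinearMap.range_comp, LinearMap.range_toSpanSingleton]
    have hk : LinearMap.ker f = Ideal.span {x} := by
      ext d
      rw [LinearMap.mem_ker, LinearMap.comp_apply, Submodule.mkQ_apply,
        Submodule.Quotient.mk_eq_zero, hxN, Submodule.mem_map, Ideal.mem_span_singleton]
      constructor
      · rintro ⟨n, hn, hnm⟩
        obtain ⟨a, rfl⟩ := Submodule.mem_span_singleton.1 hn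
        have h3 : (d - x * a) • e = 0 := by
          rw [sub_smul, sub_eq_zero, mul_smul]
          exact hnm.symm
        exact ⟨a, sub_eq_zero.1 (he _ h3)⟩
      · rintro ⟨a, rfl⟩
        refine ⟨a • e, Submodule.smul_mem _ _ (Submodule.mem_span_singleton_self e), ?_⟩
        rw [hX, LinearMap.lsmul_apply, LinearMap.toSpanSingleton_apply, mul_smul]
    rw [← hr, ← hk]
    exact (LinearMap.quotKerEquivRange f).length_eq.symm
  rw [e1, e3, e4, add_comm] at e2
  exact le_of_eq (WithTop.add_left_cancel hfin e2).symm

/-- A module all of whose finitely generated submodules have bounded length is finite. -/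
lemma finite_of_bounded (L : ℕ∞) (hL : L ≠ ⊤)
    (h : ∀ E : Submodule D M, E.FG → Module.length D E ≤ L) : Module.Finite D M := by
  classical
  let S : Set ℕ := {n | ∃ E : Submodule D M, E.FG ∧ Module.length D E = n}
  have hS0 : S.Nonempty := ⟨0, ⊥, Submodule.fg_bot, by simp⟩
  have hSb : BddAbove S := by
    refine ⟨L.toNat, ?_⟩
    rintro n ⟨E, hE, hn⟩
    have := h E hE
    rw [hn] at this
    have h2 := ENat.toNat_le_toNat this hL
    simpa using h2
  obtain ⟨E, hE, hn⟩ := Nat.sSup_mem hS0 hSb
  have hmax : ∀ E' : Submodule D M, E ≤ E' → E'.FG → E' = E := by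
    intro E' hle hE'
    have h1 : Module.length D E' ≤ Module.length D E := by
      obtain ⟨m, hm⟩ := ENat.ne_top_iff_exists.1 (ne_top_of_le_ne_top hL (h E' hE'))
      rw [← hm, hn]
      exact_mod_cast le_csSup hSb ⟨E', hE', hm.symm⟩
    by_contra hne
    have hlt : E < E' := lt_of_le_of_ne hle (Ne.symm hne)
    rw [Module.length_submodule, Module.length_submodule] at h1
    have hfin : Order.height E < ⊤ := by
      rw [← Module.length_submodule, hn]; exact ENat.natCast_lt_top _
    exact absurd (Order.height_strictMono hlt hfin) (not_lt.2 h1)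
  have htop : E = ⊤ := by
    rw [eq_top_iff]
    intro y _
    have h1 := hmax (E ⊔ Submodule.span D {y}) le_sup_left
      (hE.sup (Submodule.fg_span_singleton y))
    rw [← h1]
    exact Submodule.mem_sup_right (Submodule.mem_span_singleton_self y)
  exact ⟨htop ▸ hE⟩

end Length

section RankOne

variable {D : Type u} [CommRing D] [IsDomain D] [IsNoetherianRing D] [Ring.KrullDimLE 1 D]

lemma isFiniteLength_quot_of_ne_bot {I : Ideal D} (hI : I ≠ ⊥) : IsFiniteLength D (D ⧸ I) := by
  obtain ⟨x, hx, hx0⟩ := Submodule.exists_mem_ne_zero_of_ne_bot hI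
  have h1 := isFiniteLength_quotient_span_singleton D (mem_nonZeroDivisors_of_ne_zero hx0)
  let g : (D ⧸ Ideal.span {x}) →ₗ[D] (D ⧸ I) :=
    Submodule.mapQ _ _ LinearMap.id ((Ideal.span_singleton_le_iff_mem I).2 hx)
  refine h1.of_surjective (f := g) ?_
  intro z
  obtain ⟨y, rfl⟩ := Submodule.mkQ_surjective _ z
  exact ⟨Submodule.Quotient.mk y, rfl⟩

/-- Finitely generated module killed by `c ≠ 0` has finite length. -/
lemma isFiniteLength_of_smul_eq_zero {M : Type v} [AddCommGroup M] [Module D M] [Module.Finite D M]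
    (c : D) (hc : c ≠ 0) (h : ∀ m : M, c • m = 0) : IsFiniteLength D M := by
  have h1 : IsFiniteLength D (D ⧸ Ideal.span {c}) :=
    isFiniteLength_quotient_span_singleton D (mem_nonZeroDivisors_of_ne_zero hc)
  have hart : IsArtinian D (D ⧸ Ideal.span {c}) := (isFiniteLength_iff_isNoetherian_isArtinian.1 h1).2
  obtain ⟨n, f, hf⟩ := Module.Finite.exists_fin' D M
  have hle : Ideal.span {c} • (⊤ : Submodule D (Fin n → D)) ≤ LinearMap.ker f := by
    rw [Submodule.ideal_span_singleton_smul]
    intro z hz
    obtain ⟨y, -, rfl⟩ := Submodule.mem_smul_pointwise_iff_exists _ _ _ |>.1 hz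
    rw [LinearMap.mem_ker, map_smul, h]
  rw [isFiniteLength_iff_isNoetherian_isArtinian]
  refine ⟨inferInstance, ?_⟩
  -- M is a quotient of (D/c)^n
  let v : Fin n → M := fun i => f (Pi.single i 1)
  let g : (Fin n → (D ⧸ Ideal.span {c})) →ₗ[D] M :=
    LinearMap.lsum D (fun _ : Fin n => (D ⧸ Ideal.span {c})) D
      (fun i => Submodule.liftQ _ (LinearMap.toSpanSingleton D M (v i)) (by
        rw [Ideal.span_singleton_le_iff_mem, LinearMap.mem_ker, LinearMap.toSpanSingleton_apply, h]))
  refine isArtinian_of_surjective _ g ?_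
  intro m
  obtain ⟨d, rfl⟩ := hf m
  refine ⟨fun i => Submodule.Quotient.mk (d i), ?_⟩
  simp only [g, LinearMap.lsum_apply, LinearMap.sum_apply, LinearMap.comp_apply,
    LinearMap.proj_apply]
  conv_rhs => rw [pi_eq_sum_univ d, map_sum]
  refine Finset.sum_congr rfl fun i _ => ?_
  change (d i) • v i = _
  rw [← map_smul]
  congr 1
  ext j
  simp [Pi.single_apply, eq_comm]

/-- `V/xV` is finite over `D` for a torsion free rank one module `V`. -/
lemma finite_quot_smul {V : Type v} [AddCommGroup V] [Module D V] (x : D) (hx : x ≠ 0)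
    (htf : ∀ (d : D) (v : V), d ≠ 0 → d • v = 0 → v = 0) (e : V) (he0 : e ≠ 0)
    (hrk : ∀ v : V, ∃ c : D, c ≠ 0 ∧ c • v ∈ Submodule.span D {e}) :
    Module.Finite D (V ⧸ (LinearMap.range (LinearMap.lsmul D V x))) := by
  classical
  have hL : Module.length D (D ⧸ Ideal.span {x}) ≠ ⊤ :=
    Module.length_ne_top_iff.2
      (isFiniteLength_quotient_span_singleton D (mem_nonZeroDivisors_of_ne_zero hx))
  set X := LinearMap.range (LinearMap.lsmul D V x) with hX
  refine finite_of_bounded _ hL ?_
  intro E hE
  -- lift the generators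
  obtain ⟨F, hF, hFE⟩ : ∃ F : Submodule D V, F.FG ∧ F.map X.mkQ = E := by
    obtain ⟨s, hs⟩ := hE
    choose g hg using Submodule.mkQ_surjective X
    refine ⟨Submodule.span D (g '' s), ⟨s.image g, by rw [Finset.coe_image]⟩, ?_⟩
    rw [Submodule.map_span, ← hs, Set.image_image]
    congr 1
    simp [hg]
  let M : Submodule D V := F ⊔ Submodule.span D {e}
  have hM : M.FG := hF.sup (Submodule.fg_span_singleton e)
  have hMfin : Module.Finite D M := Module.Finite.iff_fg.2 hM
  have heM : e ∈ M := Submodule.mem_sup_right (Submodule.mem_span_singleton_self e)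
  -- common denominator
  obtain ⟨c, hc0, hc⟩ : ∃ c : D, c ≠ 0 ∧ ∀ m ∈ M, c • m ∈ Submodule.span D {e} := by
    obtain ⟨s, hs⟩ := hM
    choose cc hcc0 hcc using hrk
    refine ⟨∏ v ∈ s, cc v, Finset.prod_ne_zero_iff.2 fun v _ => hcc0 v, ?_⟩
    intro m hm
    rw [← hs] at hm
    induction hm using Submodule.span_induction with
    | mem y hy =>
      rw [← Finset.prod_erase_mul s cc hy, mul_smul]
      exact Submodule.smul_mem _ _ (hcc y)
    | zero => rw [smul_zero]; exact Submodule.zero_mem _
    | add y z _ _ hy hz => rw [smul_add]; exact Submodule.add_mem _ hy hz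
    | smul d y _ hy => rw [smul_comm]; exact Submodule.smul_mem _ _ hy
  let e' : M := ⟨e, heM⟩
  have hspan : ∀ m : M, (m : V) ∈ Submodule.span D {e} → m ∈ Submodule.span D {e'} := by
    intro m hm
    obtain ⟨a, ha⟩ := Submodule.mem_span_singleton.1 hm
    exact Submodule.mem_span_singleton.2 ⟨a, Subtype.ext ha⟩
  have hfl : IsFiniteLength D (M ⧸ (Submodule.span D {e'})) := by
    refine isFiniteLength_of_smul_eq_zero c hc0 ?_
    intro z
    obtain ⟨m, rfl⟩ := Submodule.mkQ_surjective _ z
    rw [← map_smul, Submodule.mkQ_apply, Submodule.Quotient.mk_eq_zero]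
    exact hspan _ (hc m m.2)
  have h1 := length_quot_smul_le (M := M) x e' (by
      intro m m' h
      have h2 : x • (m - m') = 0 := by
        rw [smul_sub, sub_eq_zero]; exact h
      have h3 : ((m - m' : M) : V) = 0 := htf x _ hx (by
        rw [← Submodule.coe_smul, h2]; rfl)
      have h4 : m - m' = 0 := Subtype.ext h3
      exact sub_eq_zero.1 h4) (by
      intro d hd
      by_contra hd0
      exact he0 (htf d e hd0 (congrArg Subtype.val hd))) (Module.length_ne_top_iff.2 hfl)
  refine le_trans ?_ h1
  -- surjection from M / xM onto map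
  have hEle : E ≤ M.map X.mkQ := by rw [← hFE]; exact Submodule.map_mono le_sup_left
  refine (Module.length_le_of_injective (Submodule.inclusion hEle)
    (Submodule.inclusion_injective hEle)).trans ?_
  let g0 : M →ₗ[D] (M.map X.mkQ) := (X.mkQ.restrict (p := M) (q := M.map X.mkQ)
    (fun m hm => Submodule.mem_map_of_mem hm))
  let g : (M ⧸ (LinearMap.range (LinearMap.lsmul D M x))) →ₗ[D] (M.map X.mkQ) :=
    Submodule.liftQ _ g0 (by
      rintro _ ⟨m, rfl⟩
      rw [LinearMap.mem_ker]
      refine Subtype.ext ?_
      change X.mkQ (x • (m : V)) = 0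
      rw [Submodule.mkQ_apply, Submodule.Quotient.mk_eq_zero]
      exact ⟨m, rfl⟩)
  refine Module.length_le_of_surjective g ?_
  rintro ⟨_, m, hm, rfl⟩
  exact ⟨Submodule.Quotient.mk ⟨m, hm⟩, rfl⟩

end RankOne

section Complete

lemma isPrecomplete_fin {S : Type u} [CommRing S] (I : Ideal S) [IsPrecomplete I S] (n : ℕ) :
    IsPrecomplete I (Fin n → S) := by
  have hmem : ∀ (J : Ideal S) (v : Fin n → S), v ∈ (J • ⊤ : Submodule S (Fin n → S)) ↔
      ∀ i, v i ∈ J := by
    intro J v
    constructor
    · intro hv i
      have : J • (⊤ : Submodule S (Fin n → S)) ≤ Submodule.comap (LinearMap.proj i) J := by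
        rw [Submodule.smul_le]
        intro r hr w _
        simp only [Submodule.mem_comap, LinearMap.proj_apply, Pi.smul_apply, smul_eq_mul]
        exact J.mul_mem_right _ hr
      exact this hv
    · intro hv
      rw [pi_eq_sum_univ v]
      refine Submodule.sum_mem _ fun i _ => ?_
      exact Submodule.smul_mem_smul (hv i) trivial
  refine ⟨fun f hf => ?_⟩
  have h1 : ∀ i : Fin n, ∃ L : S, ∀ m, f m i ≡ L [SMOD (I ^ m • ⊤ : Submodule S S)] := by
    intro i
    refine IsPrecomplete.prec' (fun m => f m i) ?_
    intro m k hmk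
    have h2 := hf hmk
    rw [SModEq.sub_mem, hmem] at h2
    rw [SModEq.sub_mem]
    simpa using h2 i
  choose L hL using h1
  refine ⟨L, fun m => ?_⟩
  rw [SModEq.sub_mem, hmem]
  intro i
  have := hL i m
  rw [SModEq.sub_mem] at this
  simpa using this

lemma finite_of_isHausdorff {S : Type u} [CommRing S] (I : Ideal S) [IsPrecomplete I S]
    {V : Type v} [AddCommGroup V] [Module S V] [IsHausdorff I V]
    (hfin : Module.Finite S (V ⧸ (I • ⊤ : Submodule S V))) : Module.Finite S V := by
  obtain ⟨n, f, hf⟩ := Module.Finite.exists_fin' S (V ⧸ (I • ⊤ : Submodule S V))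
  obtain ⟨g, hg⟩ := Module.projective_lifting_property (I • ⊤ : Submodule S V).mkQ f
    (Submodule.mkQ_surjective _)
  have := isPrecomplete_fin I n
  have h1 : Function.Surjective g := by
    refine surjective_of_mkQ_comp_surjective (I := I) ?_
    rw [hg]; exact hf
  exact Module.Finite.of_surjective g h1

variable {S : Type u} [CommRing S] [IsLocalRing S] [IsNoetherianRing S]
  [IsPrecomplete (maximalIdeal S) S]
  {D : Type v} [CommRing D] [IsDomain D] [IsLocalRing D] [IsNoetherianRing D]
  [Ring.KrullDimLE 1 D] [Algebra S D]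

omit [IsLocalRing S] [IsNoetherianRing S] [IsPrecomplete (maximalIdeal S) S] [Algebra S D] in
lemma exists_pow_le {I : Ideal D} (hI : I ≠ ⊥) : ∃ n, maximalIdeal D ^ n ≤ I := by
  have h1 := isFiniteLength_quot_of_ne_bot hI
  have hart : IsArtinian D (D ⧸ I) := (isFiniteLength_iff_isNoetherian_isArtinian.1 h1).2
  have : IsArtinianRing (D ⧸ I) :=
    isArtinian_of_tower (R := D) (S := D ⧸ I) (M := D ⧸ I) hart
  exact IsLocalRing.exists_maximalIdeal_pow_le_of_isArtinianRing_quotient I

omit [IsLocalRing S] [IsNoetherianRing S] [IsPrecomplete (maximalIdeal S) S] [Algebra S D] in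
/-- Elements infinitely divisible by `x` in the integral closure vanish. -/
lemma eq_zero_of_divisible {K : Type w} [Field K] [Algebra D K] [IsFractionRing D K] (x : D)
    (hx : x ∈ maximalIdeal D) (hx0 : x ≠ 0) (v : K)
    (h : ∀ n : ℕ, ∃ w : K, IsIntegral D w ∧ algebraMap D K x ^ n * w = v) : v = 0 := by
  by_contra hv
  have hinj : Function.Injective (algebraMap D K) := IsFractionRing.injective D K
  have hxK : algebraMap D K x ≠ 0 := by
    intro h0; exact hx0 (hinj (by rw [h0, map_zero]))
  obtain ⟨b, c, hc, hbc⟩ := IsFractionRing.div_surjective (A := D) v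
  have hc0 : c ≠ 0 := nonZeroDivisors.ne_zero hc
  have hcK : algebraMap D K c ≠ 0 := fun h0 => hc0 (hinj (by rw [h0, map_zero]))
  have hb0 : b ≠ 0 := by
    rintro rfl
    rw [map_zero, zero_div] at hbc
    exact hv hbc.symm
  obtain ⟨N, hN⟩ := exists_pow_le (D := D) (I := Ideal.span {b}) (by
    rw [Ne, Ideal.span_singleton_eq_bot]; exact hb0)
  obtain ⟨b', hb'⟩ := Ideal.mem_span_singleton.1 (hN (Ideal.pow_mem_pow hx N))
  obtain ⟨w, hw, hwv⟩ := h (N + 1)
  -- 1/x = w * c * b'
  have key : algebraMap D K x * (w * algebraMap D K (c * b')) = 1 := by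
    have h1 : algebraMap D K b = v * algebraMap D K c := by
      rw [← hbc]; field_simp
    have h2 : algebraMap D K x ^ N = v * algebraMap D K c * algebraMap D K b' := by
      rw [← h1, ← map_mul, ← hb', map_pow]
    have h3 : algebraMap D K x ^ N * (algebraMap D K x * (w * algebraMap D K (c * b'))) =
        algebraMap D K x ^ N := by
      calc _ = (algebraMap D K x ^ (N + 1) * w) * algebraMap D K c * algebraMap D K b' := by
            rw [map_mul]; ring
        _ = v * algebraMap D K c * algebraMap D K b' := by rw [hwv]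
        _ = _ := h2.symm
    exact mul_left_cancel₀ (pow_ne_zero N hxK) (by rw [h3, mul_one])
  have hint : IsIntegral D (w * algebraMap D K (c * b')) := hw.mul isIntegral_algebraMap
  have hinv : (algebraMap D K x)⁻¹ = w * algebraMap D K (c * b') :=
    (eq_inv_of_mul_eq_one_right key).symm
  have h4 : IsIntegral D (algebraMap D K x)⁻¹ := by rw [hinv]; exact hint
  obtain ⟨p, hp, hpx⟩ := h4
  have h5 : IsUnit x := by
    let := invertibleOfNonzero (inv_ne_zero hxK)
    have h6 : Polynomial.eval₂ (algebraMap D K) (⅟((algebraMap D K x)⁻¹)) p.reverse = 0 :=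
      (Polynomial.eval₂_reverse_eq_zero_iff _ _ _).2 hpx
    rw [invOf_eq_inv, inv_inv, Polynomial.eval₂_at_apply] at h6
    have h7 : Polynomial.eval x p.reverse = 0 := hinj (by rw [h6, map_zero])
    rw [← Polynomial.divX_mul_X_add p.reverse, Polynomial.eval_add, Polynomial.eval_mul,
      Polynomial.eval_X, Polynomial.eval_C, Polynomial.coeff_zero_reverse, hp.leadingCoeff] at h7
    refine IsUnit.of_mul_eq_one (-(Polynomial.eval x p.reverse.divX)) ?_
    linear_combination -h7
  exact (mem_nonunits_iff.1 ((mem_maximalIdeal x).1 hx)) h5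


omit [IsNoetherianRing S] [IsPrecomplete (maximalIdeal S) S] in
/-- The integral closure is `m_S`-adically separated. -/
lemma isHausdorff_integralClosure {K : Type w} [Field K] [Algebra D K] [IsFractionRing D K]
    [Algebra S K] [IsScalarTower S D K]
    (hsurj : Function.Surjective (algebraMap S D)) (x : D) (hx : x ∈ maximalIdeal D)
    (hx0 : x ≠ 0) : IsHausdorff (maximalIdeal S) (integralClosure D K) := by
  have hloc := IsLocalHom.of_surjective (algebraMap S D) hsurj
  have hmS : (maximalIdeal S).map (algebraMap S D) ≤ maximalIdeal D :=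
    map_maximalIdeal_le (algebraMap S D)
  obtain ⟨c, hc⟩ := exists_pow_le (D := D) (I := Ideal.span {x}) (by
    rw [Ne, Ideal.span_singleton_eq_bot]; exact hx0)
  refine ⟨fun v hv => ?_⟩
  refine Subtype.ext ?_
  change (v : K) = 0
  refine eq_zero_of_divisible x hx hx0 (v : K) fun n => ?_
  have h1 := hv (c * n)
  rw [SModEq.zero] at h1
  let Xn : Submodule S (integralClosure D K) :=
    (LinearMap.range (LinearMap.lsmul D (integralClosure D K) (x ^ n))).restrictScalars S
  have h2 : (maximalIdeal S ^ (c * n) • ⊤ : Submodule S (integralClosure D K)) ≤ Xn := by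
    rw [Submodule.smul_le]
    intro r hr w _
    have h3 : algebraMap S D r ∈ Ideal.span {x ^ n} := by
      rw [← Ideal.span_singleton_pow]
      have h4 : algebraMap S D r ∈ (maximalIdeal D ^ c) ^ n := by
        rw [← pow_mul]
        refine Ideal.pow_right_mono hmS _ ?_
        rw [← Ideal.map_pow]
        exact Ideal.mem_map_of_mem _ hr
      exact Ideal.pow_right_mono hc n h4
    obtain ⟨d, hd⟩ := Ideal.mem_span_singleton.1 h3
    refine ⟨d • w, ?_⟩
    rw [LinearMap.lsmul_apply, smul_smul, ← hd]
    refine Subtype.ext ?_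
    change algebraMap S D r • (w : K) = r • (w : K)
    rw [algebraMap_smul]
  obtain ⟨w, hw⟩ := h2 h1
  refine ⟨w, w.2, ?_⟩
  rw [← hw]
  simp [Algebra.smul_def]

/-- Finiteness of the normalisation of a complete one-dimensional Noetherian local domain. -/
theorem finite_integralClosure {K : Type w} [Field K] [Algebra D K] [IsFractionRing D K]
    [Algebra S K] [IsScalarTower S D K]
    (hsurj : Function.Surjective (algebraMap S D)) (x : D) (hx : x ∈ maximalIdeal D)
    (hx0 : x ≠ 0) : Module.Finite D (integralClosure D K) := by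
  have hinj : Function.Injective (algebraMap D K) := IsFractionRing.injective D K
  have hloc := IsLocalHom.of_surjective (algebraMap S D) hsurj
  have := isHausdorff_integralClosure (K := K) hsurj x hx hx0
  have h1 : Module.Finite D ((integralClosure D K) ⧸
      (LinearMap.range (LinearMap.lsmul D (integralClosure D K) x))) := by
    refine finite_quot_smul x hx0 ?_ 1 one_ne_zero ?_
    · intro d v hd hv
      have h2 : algebraMap D K d * (v : K) = 0 := by
        have := congrArg Subtype.val hv
        simpa [Algebra.smul_def] using this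
      rcases mul_eq_zero.1 h2 with h3 | h3
      · exact absurd (hinj (by rw [h3, map_zero])) hd
      · exact Subtype.ext h3
    · intro v
      obtain ⟨b, c, hc, hbc⟩ := IsFractionRing.div_surjective (A := D) (v : K)
      have hc0 : c ≠ 0 := nonZeroDivisors.ne_zero hc
      have hcK : algebraMap D K c ≠ 0 := fun h0 => hc0 (hinj (by rw [h0, map_zero]))
      refine ⟨c, hc0, Submodule.mem_span_singleton.2 ⟨b, ?_⟩⟩
      refine Subtype.ext ?_
      simp only [Algebra.smul_def, MulMemClass.coe_mul, mul_one, Subalgebra.coe_algebraMap]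
      rw [← hbc]; field_simp
  obtain ⟨s, hs⟩ := hsurj x
  have hsm : s ∈ maximalIdeal S := by
    rw [mem_maximalIdeal, mem_nonunits_iff]
    intro hu
    exact (mem_nonunits_iff.1 ((mem_maximalIdeal x).1 hx)) (hs ▸ hu.map (algebraMap S D))
  have h2 : Module.Finite S ((integralClosure D K) ⧸
      (LinearMap.range (LinearMap.lsmul D (integralClosure D K) x))) :=
    haveI : Module.Finite S D := Module.Finite.of_surjective (Algebra.linearMap S D) hsurj
    Module.Finite.trans D _
  set P := LinearMap.range (LinearMap.lsmul D (integralClosure D K) x) with hP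
  have h3 : Module.Finite S ((integralClosure D K) ⧸ (P.restrictScalars S)) :=
    Module.Finite.equiv (Submodule.Quotient.restrictScalarsEquiv S P).symm
  have h4 : P.restrictScalars S ≤ (maximalIdeal S • ⊤ : Submodule S (integralClosure D K)) := by
    rintro _ ⟨w, rfl⟩
    have h5 : LinearMap.lsmul D (integralClosure D K) x w = s • w := by
      rw [LinearMap.lsmul_apply, ← hs]
      refine Subtype.ext ?_
      change algebraMap S D s • (w : K) = s • (w : K)
      rw [algebraMap_smul]
    rw [h5]
    exact Submodule.smul_mem_smul hsm trivial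
  have h6 : Module.Finite S ((integralClosure D K) ⧸
      (maximalIdeal S • ⊤ : Submodule S (integralClosure D K))) := by
    refine Module.Finite.of_surjective
      (Submodule.mapQ (P.restrictScalars S) _ LinearMap.id h4) ?_
    intro z
    obtain ⟨y, rfl⟩ := Submodule.mkQ_surjective _ z
    exact ⟨Submodule.Quotient.mk y, rfl⟩
  have h7 : Module.Finite S (integralClosure D K) := finite_of_isHausdorff (maximalIdeal S) h6
  exact Module.Finite.of_restrictScalars_finite S D _

end Complete

end Crest.Agent.R183.RE
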