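import Crest.Agent.R183.LocE
import Crest.Agent.R183.LocF

/-!
# R183, block RE, part G: the localisation inequality
-/

set_option autoImplicit false

namespace Crest.Agent.R183.RE

open IsLocalRing

universe u

section Aux

variable {S D V W : Type u} [CommRing S] [IsNoetherianRing S] [CommRing D] [CommRing V]
  [CommRing W] [IsDomain W] [IsLocalRing W] [Algebra S D] [Algebra D V] [Algebra V W]

theorem loc_aux (hsurj : Function.Surjective (algebraMap S D)) [Module.Finite D V]
    (hfrac : ∀ v : V, ∃ b c : D, algebraMap V W (algebraMap D V c) ≠ 0 ∧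
      algebraMap D V c * v = algebraMap D V b)
    (P : Ideal V) [P.IsPrime] [IsLocalization.AtPrime W P]
    (π : W) (hπ : maximalIdeal W = Ideal.span {π}) (hπ0 : π ≠ 0)
    (φ : S →+* W) (hφ : φ = (algebraMap V W).comp ((algebraMap D V).comp (algebraMap S D))) :
    ∃ r : ℕ, ∀ k, sg^[r + 1] (hfQ φ) k ≤ sg^[r] (hfN φ) k := by
  classical
  obtain ⟨t, ht⟩ := (inferInstance : Module.Finite D V).fg_top
  have hφa : ∀ a, φ a = algebraMap V W (algebraMap D V (algebraMap S D a)) := fun a => by
    rw [hφ]; rfl
  let vs : List W := (t.image (algebraMap V W)).toList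
  have hvs : ∀ v ∈ vs, (∃ a b : S, φ b ≠ 0 ∧ φ b * v = φ a) ∧ φ.IsIntegralElem v := by
    intro v hv
    rw [Finset.mem_toList, Finset.mem_image] at hv
    obtain ⟨v0, hv0, rfl⟩ := hv
    constructor
    · obtain ⟨b, c, hc, hbc⟩ := hfrac v0
      obtain ⟨b', rfl⟩ := hsurj b
      obtain ⟨c', rfl⟩ := hsurj c
      refine ⟨b', c', ?_, ?_⟩
      · rw [hφa]; exact hc
      · rw [hφa, hφa, ← map_mul, hbc]
    · have h1 : IsIntegral D v0 := Algebra.IsIntegral.isIntegral v0
      obtain ⟨p, hp, hpv⟩ := h1
      obtain ⟨p', hp', -, hp'm⟩ := Polynomial.lifts_and_natDegree_eq_and_monic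
        (f := algebraMap S D) ((Polynomial.mem_lifts _).2 (Polynomial.map_surjective _ hsurj p)) hp
      refine ⟨p', hp'm, ?_⟩
      have h2 : Polynomial.eval₂ φ (algebraMap V W v0) p' =
          algebraMap V W (Polynomial.eval₂ (algebraMap D V) v0 (p'.map (algebraMap S D))) := by
        rw [Polynomial.eval₂_map, Polynomial.hom_eval₂, hφ]
      rw [h2, hp', hpv, map_zero]
  refine ⟨vs.length, fun k => main_chain φ π hπ hπ0 vs hvs (algebraMap V W).range ?_ ?_ k⟩
  · rintro _ ⟨v, rfl⟩
    have hv : v ∈ Submodule.span D (t : Set V) := by rw [ht]; trivial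
    induction hv using Submodule.span_induction with
    | mem y hy =>
      refine Subring.subset_closure (Or.inr ?_)
      change algebraMap V W y ∈ vs
      rw [Finset.mem_toList]
      exact Finset.mem_image_of_mem _ hy
    | zero => rw [map_zero]; exact Subring.zero_mem _
    | add y z _ _ hy hz => rw [map_add]; exact Subring.add_mem _ hy hz
    | smul d y _ hy =>
      rw [Algebra.smul_def, map_mul]
      refine Subring.mul_mem _ (Subring.subset_closure (Or.inl ?_)) hy
      obtain ⟨d', rfl⟩ := hsurj d
      exact ⟨d', hφa d'⟩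
  · intro w
    obtain ⟨⟨a, s⟩, h⟩ := IsLocalization.surj P.primeCompl w
    refine ⟨algebraMap V W a, ⟨a, rfl⟩, algebraMap V W s, ⟨s, rfl⟩,
      IsLocalization.map_units W s, ?_⟩
    rw [mul_comm]; exact h

end Aux

lemma hfQ_eq {S W : Type u} [CommRing S] [CommRing W] [IsDomain W] [IsLocalRing W]
    (φ : S →+* W) (q : Ideal S) [q.IsPrime] (h : RingHom.ker φ = q) :
    hfQ φ = hf (Localization.AtPrime q) := by
  subst h; rfl

lemma hfN_eq {S W : Type u} [CommRing S] [IsLocalRing S] [IsNoetherianRing S]
    [CommRing W] [IsDomain W] [IsLocalRing W]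
    (φ : S →+* W) (h : (maximalIdeal W).comap φ = maximalIdeal S) :
    hfN φ = hf S := by
  funext k
  unfold hfN
  have h2 : ∀ (N : Ideal S) [N.IsPrime], N = maximalIdeal S →
      hf (Localization.AtPrime N) k = hf S k := by
    intro N _ hN
    subst hN
    have hm : maximalIdeal (Localization.AtPrime (maximalIdeal S)) =
        (maximalIdeal S).map (algebraMap S (Localization.AtPrime (maximalIdeal S))) :=
      (Localization.AtPrime.map_eq_maximalIdeal (I := maximalIdeal S)).symm
    have hloc : IsLocalHom (algebraMap S (Localization.AtPrime (maximalIdeal S))) := by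
      refine ((IsLocalRing.local_hom_TFAE _).out 0 2).2 ?_
      rw [hm]
    have hflat : Module.Flat S (Localization.AtPrime (maximalIdeal S)) := inferInstance
    exact hf_eq_of_flat hm k
  exact h2 _ h

/-- A discrete valuation ring which is a localisation of the (finite) normalisation. -/
lemma exists_dvr (D K : Type u) [CommRing D] [IsDomain D] [IsLocalRing D] [IsNoetherianRing D]
    [Ring.KrullDimLE 1 D] [Field K] [Algebra D K] [IsFractionRing D K] (x : D)
    (hx : x ∈ maximalIdeal D) (hx0 : x ≠ 0)
    (hfin : Module.Finite D (integralClosure D K)) :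
    ∃ (V : Type u) (_ : CommRing V) (_ : Algebra D V) (_ : Module.Finite D V) (P : Ideal V)
      (_ : P.IsPrime) (W : Type u) (_ : CommRing W) (_ : IsDomain W) (_ : IsLocalRing W)
      (_ : Algebra V W) (_ : IsLocalization.AtPrime W P) (π : W),
      maximalIdeal W = Ideal.span {π} ∧ π ≠ 0 ∧
      (∀ d : D, algebraMap V W (algebraMap D V d) = 0 → d = 0) ∧
      (((maximalIdeal W).comap (algebraMap V W)).comap (algebraMap D V)) = maximalIdeal D ∧
      (∀ v : V, ∃ b c : D, c ≠ 0 ∧ algebraMap D V c * v = algebraMap D V b) := by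
  have hdim : Ring.DimensionLEOne D := ⟨fun {p} hp hpp =>
    Ring.krullDimLE_one_iff_of_noZeroDivisors.1 inferInstance p hp hpp⟩
  have hVnoeth : IsNoetherianRing (integralClosure D K) := IsNoetherianRing.of_finite D _
  have hVdim : Ring.DimensionLEOne (integralClosure D K) := inferInstance
  have hVic : IsIntegrallyClosed (integralClosure D K) :=
    integralClosure.isIntegrallyClosedOfFiniteExtension K
  have hVded : IsDedekindDomain (integralClosure D K) := { }
  have hinjDK : Function.Injective (algebraMap D K) := IsFractionRing.injective D K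
  have hinjDV : Function.Injective (algebraMap D (integralClosure D K)) := by
    intro a b hab
    exact hinjDK (congrArg Subtype.val hab)
  obtain ⟨P, hPmax, hP⟩ : ∃ P : Ideal (integralClosure D K), P.IsMaximal ∧
      P.comap (algebraMap D (integralClosure D K)) = maximalIdeal D := by
    exact Ideal.exists_ideal_over_maximal_of_isIntegral (maximalIdeal D) (by
      rw [(RingHom.injective_iff_ker_eq_bot _).1 hinjDV]; exact bot_le)
  have hPprime : P.IsPrime := hPmax.isPrime
  have hPne : P ≠ ⊥ := by
    intro h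
    have h1 : algebraMap D (integralClosure D K) x ∈ P := by
      have : x ∈ P.comap (algebraMap D (integralClosure D K)) := by rw [hP]; exact hx
      exact this
    rw [h, Ideal.mem_bot] at h1
    exact hx0 (hinjDV (by rw [h1, map_zero]))
  have hWdvr : IsDiscreteValuationRing (Localization.AtPrime P) :=
    IsLocalization.AtPrime.isDiscreteValuationRing_of_dedekind_domain (integralClosure D K) hPne _
  obtain ⟨π, hπ⟩ := IsDiscreteValuationRing.exists_irreducible (Localization.AtPrime P)
  have hπm : maximalIdeal (Localization.AtPrime P) = Ideal.span {π} :=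
    (IsDiscreteValuationRing.irreducible_iff_uniformizer π).1 hπ
  have hinjVW : Function.Injective (algebraMap (integralClosure D K) (Localization.AtPrime P)) :=
    IsLocalization.injective _ (Ideal.primeCompl_le_nonZeroDivisors P)
  have hPc : (maximalIdeal (Localization.AtPrime P)).comap
      (algebraMap (integralClosure D K) (Localization.AtPrime P)) = P :=
    Localization.AtPrime.under_maximalIdeal (I := P)
  refine ⟨integralClosure D K, inferInstance, inferInstance, hfin, P, hPprime,
    Localization.AtPrime P, inferInstance, inferInstance, inferInstance, inferInstance,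
    inferInstance, π, hπm, hπ.ne_zero, ?_, ?_, ?_⟩
  · intro d hd
    exact hinjDV (hinjVW (by rw [hd, map_zero, map_zero]))
  · rw [hPc, hP]
  · intro v0
    obtain ⟨b, c, hc, hbc⟩ := IsFractionRing.div_surjective (A := D) (v0 : K)
    have hc0 : c ≠ 0 := nonZeroDivisors.ne_zero hc
    have hcK : algebraMap D K c ≠ 0 := fun h0 => hc0 (hinjDK (by rw [h0, map_zero]))
    refine ⟨b, c, hc0, ?_⟩
    refine Subtype.ext ?_
    have h2 := (div_eq_iff hcK).1 hbc
    change algebraMap D K c * (v0 : K) = algebraMap D K b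
    rw [mul_comm]; exact h2.symm

/-- Localisation inequality (RE): `S` complete local, `q` a prime with `dim S/q = 1`. -/
theorem localisation_inequality (S : Type u) [CommRing S] [IsLocalRing S] [IsNoetherianRing S]
    [IsPrecomplete (maximalIdeal S) S] (q : Ideal S) [q.IsPrime] (hq : q ≠ maximalIdeal S)
    [Ring.KrullDimLE 1 (S ⧸ q)] :
    ∃ r : ℕ, ∀ k, sg^[r + 1] (hf (Localization.AtPrime q)) k ≤ sg^[r] (hf S) k := by
  have hlocD : IsLocalRing (S ⧸ q) := IsLocalRing.of_surjective' (Ideal.Quotient.mk q)
    Ideal.Quotient.mk_surjective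
  have hsurj : Function.Surjective (algebraMap S (S ⧸ q)) := Ideal.Quotient.mk_surjective
  have hlochom := IsLocalHom.of_surjective (algebraMap S (S ⧸ q)) hsurj
  have hqle : q ≤ maximalIdeal S := le_maximalIdeal (Ideal.IsPrime.ne_top ‹_›)
  -- a nonzero element of the maximal ideal of D
  obtain ⟨s, hs, hsq⟩ : ∃ s ∈ maximalIdeal S, s ∉ q := by
    by_contra h
    push Not at h
    exact hq (le_antisymm hqle h)
  have hx : algebraMap S (S ⧸ q) s ∈ maximalIdeal (S ⧸ q) := by
    have := map_maximalIdeal_le (algebraMap S (S ⧸ q))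
    exact this (Ideal.mem_map_of_mem _ hs)
  have hx0 : algebraMap S (S ⧸ q) s ≠ 0 := by
    intro h
    exact hsq ((Ideal.Quotient.eq_zero_iff_mem).1 h)
  have hfinV : Module.Finite (S ⧸ q) (integralClosure (S ⧸ q) (FractionRing (S ⧸ q))) :=
    finite_integralClosure (S := S) hsurj _ hx hx0
  obtain ⟨V, _, _, _, P, _, W, _, _, _, _, _, π, hπ, hπ0, hinj, hcomap0, hfrac0⟩ :=
    exists_dvr (S ⧸ q) (FractionRing (S ⧸ q)) _ hx hx0 hfinV
  let φ : S →+* W := (algebraMap V W).comp ((algebraMap (S ⧸ q) V).comp (algebraMap S (S ⧸ q)))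
  have hφ : ∀ a : S, φ a = algebraMap V W (algebraMap (S ⧸ q) V (algebraMap S (S ⧸ q) a)) :=
    fun _ => rfl
  have hker : RingHom.ker φ = q := by
    ext a
    rw [RingHom.mem_ker, hφ]
    constructor
    · intro h
      exact (Ideal.Quotient.eq_zero_iff_mem).1 (hinj _ h)
    · intro h
      have : algebraMap S (S ⧸ q) a = 0 := (Ideal.Quotient.eq_zero_iff_mem).2 h
      rw [this, map_zero, map_zero]
  have hcomap : (maximalIdeal W).comap φ = maximalIdeal S := by
    have h2 : (maximalIdeal (S ⧸ q)).comap (algebraMap S (S ⧸ q)) = maximalIdeal S :=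
      IsLocalRing.maximalIdeal_comap (algebraMap S (S ⧸ q))
    rw [← h2, ← hcomap0, Ideal.comap_comap, Ideal.comap_comap]
  have hfrac : ∀ v : V, ∃ b c : (S ⧸ q), algebraMap V W (algebraMap (S ⧸ q) V c) ≠ 0 ∧
      algebraMap (S ⧸ q) V c * v = algebraMap (S ⧸ q) V b := by
    intro v
    obtain ⟨b, c, hc, h⟩ := hfrac0 v
    exact ⟨b, c, fun h0 => hc (hinj _ h0), h⟩
  obtain ⟨r, hr⟩ := loc_aux (V := V) hsurj hfrac P π hπ hπ0 φ rfl
  refine ⟨r, fun k => ?_⟩
  have := hr k
  rw [hfQ_eq φ q hker, hfN_eq φ hcomap] at this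
  exact this

end Crest.Agent.R183.RE
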