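import Crest.Agent.R183.Mix2

/-!
R183 / Mix3 (helper902) : the splitting of `To` over an environment.
-/

set_option autoImplicit false
set_option linter.unusedSectionVars false

open Polynomial

namespace Crest.Agent.R183.Mix

open Crest.Agent.R183.Om Crest.Agent.R183.Env Crest.Agent.R183.Lat

universe u

variable {p : ℕ} [hp : Fact p.Prime] {A₀ : Type u} [CommRing A₀] {ϖ : ℕ → A₀}

/-- the first environment: polynomials split, `D` is a sharp. -/
theorem exists_first (M₀ : Model p A₀ ϖ) {D : A₀} (hD : RegMod D (p : A₀)) {N : ℕ}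
    (f : Fin N → A₀[X]) (hf : ∀ i, (f i).Monic) :
    ∃ (E : Envr p A₀ ϖ D), ∀ i, ∃ t : Fin (f i).natDegree → E.A,
      (f i).map (algebraMap A₀ E.A) = ∏ j, (X - C (t j)) := by
  obtain ⟨A, _, _, M, φ, h1, h2, h3, h4, h5, h6⟩ := exists_cover M₀ f hf (fun _ : Fin 1 => D)
  obtain ⟨s, hs⟩ := h6 0
  have hreg : RegMod (sh M.θ (Amp.rt (p := p) 0 s)) (p : A) := by
    rw [rt_zero, ← hs]
    exact regMod_of_good h4 hD
  refine ⟨Envr.ofModel M h4 (fun e => sh M.θ (Amp.rt (p := p) e s))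
    (fun e => isRoots_sh M.θ s e) (by rw [rt_zero, hs]) hreg, ?_⟩
  intro i
  obtain ⟨t, ht⟩ := h5 i
  exact ⟨fun j => sh M.θ (t j), ht⟩

/-- **The environment of a stage.** -/
theorem exists_level (M₀ : Model p A₀ ϖ) {D : A₀} (hD : RegMod D (p : A₀))
    {To : Type u} [CommRing To] [Algebra A₀ To] [Algebra.IsIntegral A₀ To]
    (f : A₀[X]) (hf : f.Monic) (θ : To) (hθ : aeval θ f = 0)
    (hinj : ∀ h : A₀[X], aeval θ h = 0 → f ∣ h) (M : ℕ)
    (hspan : ∀ c : To, ∃ h : A₀[X], ((p : A₀) * D) ^ M • c = aeval θ h)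
    (hsep : ∃ u v : A₀[X], u * f + v * derivative f = C (((p : A₀) * D) ^ M))
    {k : ℕ} (r : Fin k → To) (q : ℕ) (hq0 : 0 < q) :
    ∃ (E : Envr p A₀ ϖ D) (S : Split A₀ E.K To (Fin f.natDegree)),
      S.s = ((p : A₀) * D) ^ M ∧
      (∀ j i, ∃ σ : ℕ → E.A, (∀ e, σ (e + 1) ^ p = σ e) ∧
        algebraMap E.A E.K (σ 0) = algebraMap E.A E.K (mu E.data 0) * S.g j (r i)) ∧
      ∃ ζ : Fin q → E.K, (X ^ q - 1 : E.K[X]) = ∏ l, (X - C (ζ l)) := by
  have hF2 : (X ^ q - 1 : A₀[X]).Monic := monic_X_pow_sub_C 1 hq0.ne'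
  obtain ⟨E₁, hE₁⟩ := exists_first M₀ hD ![f, X ^ q - 1] (by
    intro i
    fin_cases i
    · exact hf
    · exact hF2)
  obtain ⟨t, ht⟩ := hE₁ 0
  obtain ⟨ζ, hζ⟩ := hE₁ 1
  have hnt : Nontrivial A₀ := by
    refine ⟨⟨(1 : A₀), 0, fun h => ?_⟩⟩
    have h2 : IsUnit (p : A₀) := by
      refine IsUnit.of_mul_eq_one (0 : A₀) ?_
      rw [mul_zero, h]
    exact M₀.props.2.2.2 h2
  -- the splitting over `E₁`
  have hsep₁ : (f.map (algebraMap A₀ E₁.K)).Separable := by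
    obtain ⟨u, v, huv⟩ := hsep
    obtain ⟨i, hi⟩ := (E₁.unit_pow M).exists_right_inv
    refine ⟨C i * u.map (algebraMap A₀ E₁.K), C i * v.map (algebraMap A₀ E₁.K), ?_⟩
    rw [derivative_map, mul_assoc, mul_assoc, ← mul_add, ← Polynomial.map_mul,
      ← Polynomial.map_mul, ← Polynomial.map_add, huv, Polynomial.map_C, ← C_mul, mul_comm, hi,
      C_1]
  have hτ : f.map (algebraMap A₀ E₁.K) =
      ∏ j : Fin f.natDegree, (X - C (algebraMap E₁.A E₁.K (t j))) := by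
    rw [IsScalarTower.algebraMap_eq A₀ E₁.A E₁.K, ← Polynomial.map_map]
    have h1 : f.map (algebraMap A₀ E₁.A) = ∏ j : Fin f.natDegree, (X - C (t j)) := ht
    rw [h1, Polynomial.map_prod]
    refine Finset.prod_congr rfl fun j _ => ?_
    rw [Polynomial.map_sub, Polynomial.map_X, Polynomial.map_C]
  obtain ⟨S₁, -, -, hS₁⟩ := Split.exists_ofTheta (K := E₁.K) (n := f.natDegree) f hf rfl θ hθ hinj
    (((p : A₀) * D) ^ M) (E₁.unit_pow M) hspan (fun j => algebraMap E₁.A E₁.K (t j)) hτ hsep₁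
  -- the numerators
  have hν : ∀ (j : Fin f.natDegree) (i : Fin k), ∃ w : E₁.A,
      algebraMap E₁.A E₁.K (mu E₁.data 0) * S₁.g j (r i) = algebraMap E₁.A E₁.K w :=
    fun j i => E₁.hom_mem_star (S₁.g j) (r i) 0
  choose ν hν using hν
  let e := (finProdFinEquiv (m := f.natDegree) (n := k))
  obtain ⟨E, _, _, h, h1, h2, -, h4⟩ := E₁.exists_next (N := 0) (fun i => i.elim0)
    (fun i => i.elim0) (fun x => ν (e.symm x).1 (e.symm x).2)
  refine ⟨E, splitMap S₁ h, hS₁, ?_, ?_⟩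
  · intro j i
    obtain ⟨σ, hσ, hσ0⟩ := h4 (e (j, i))
    refine ⟨σ, hσ, ?_⟩
    rw [hσ0, Equiv.symm_apply_apply, ← h1]
    have h5 := congrArg h (hν j i)
    rw [← h5, map_mul, h1]
    congr 1
    rw [E₁.mu_zero', E.mu_zero', ← IsScalarTower.algebraMap_apply A₀ E₁.A E.A]
  · have hdeg : (X ^ q - 1 : A₀[X]).natDegree = q := natDegree_X_pow_sub_C (r := (1 : A₀))
    let ζ' : Fin (X ^ q - 1 : A₀[X]).natDegree → E₁.A := ζ
    have hζ' : (X ^ q - 1 : A₀[X]).map (algebraMap A₀ E₁.A) = ∏ j, (X - C (ζ' j)) := hζ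
    let g : E₁.A →+* E.K := (algebraMap E.A E.K).comp (algebraMap E₁.A E.A)
    refine ⟨fun l => g (ζ' (Fin.cast hdeg.symm l)), ?_⟩
    have h6 := congrArg (Polynomial.map g) hζ'
    rw [Polynomial.map_map, Polynomial.map_prod, Polynomial.map_sub, Polynomial.map_pow,
      Polynomial.map_X, Polynomial.map_one] at h6
    rw [h6]
    refine Fintype.prod_equiv (finCongr hdeg) _ _ fun l => ?_
    rw [Polynomial.map_sub, Polynomial.map_X, Polynomial.map_C]
    rfl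

end Crest.Agent.R183.Mix
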