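/-
R183 (Lech), helper902's (ADJ): iterated adjunction of `q`-th roots for split algebras.
helper811
-/
import Crest.Agent.R183.Lat6

set_option autoImplicit false

open Polynomial

namespace Crest.Agent.R183.Lat.Split

universe u

/-- auxiliary form, with a basis. -/
theorem exists_adjoin_aux {A₀ K To : Type u} [CommRing A₀] [CommRing K] [CommRing To]
    [Algebra A₀ K] [Algebra A₀ To] {ι : Type} [Fintype ι] [DecidableEq ι]
    (S : Split A₀ K To ι) {q : ℕ} (hq0 : 0 < q) (hq : IsUnit (q : K)) (ζ : Fin q → K)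
    (hζ : (X ^ q - 1 : K[X]) = ∏ l, (X - Polynomial.C (ζ l))) {d : ℕ} (z : Fin d → To)
    (hz : ∀ j i, IsUnit (S.g j (z i))) (η : ι → Fin d → K) (hη : ∀ j i, η j i ^ q = S.g j (z i)) :
    ∃ (C : Type u) (_ : CommRing C) (_ : Algebra To C) (_ : Algebra A₀ C)
      (_ : IsScalarTower A₀ To C) (κ : Type) (_ : Fintype κ) (_ : DecidableEq κ)
      (S' : Split A₀ K C κ) (ρ : κ → ι) (Y : Fin d → C) (m : Type) (_ : Fintype m)
      (_ : Module.Basis m To C),
      (∀ k c, S'.g k (algebraMap To C c) = S.g (ρ k) c) ∧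
      (∀ i, Y i ^ q = algebraMap To C (z i)) ∧
      (∀ k i, ∃ ω : K, ω ^ q = 1 ∧ S'.g k (Y i) = η (ρ k) i * ω) ∧ S'.s = S.s ∧
      (Nontrivial To → Nonempty m) := by
  induction d with
  | zero =>
    exact ⟨To, inferInstance, inferInstance, inferInstance, inferInstance, ι, inferInstance,
      inferInstance, S, id, fun i => i.elim0, Unit, inferInstance, Module.Basis.singleton Unit To,
      fun k c => rfl, fun i => i.elim0, fun k i => i.elim0, rfl, fun _ => inferInstance⟩
  | succ d ih =>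
    obtain ⟨C, _, _, _, _, κ, _, _, S', ρ, Y, m, _, bas, h1, h2, h3, h4, h5⟩ :=
      ih (fun i => z i.succ) (fun j i => hz j i.succ) (fun j i => η j i.succ)
        (fun j i => hη j i.succ)
    have hadj := exists_adjoin S' hq0 hq ζ hζ (algebraMap To C (z 0))
      (fun k => by rw [h1]; exact hz _ _) (fun k => η (ρ k) 0) (fun k => by rw [h1]; exact hη _ _)
    obtain ⟨F, hF⟩ : ∃ F : Polynomial C, F = X ^ q - Polynomial.C (algebraMap To C (z 0)) :=
      ⟨_, rfl⟩
    rw [← hF] at hadj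
    obtain ⟨S'', g1, g2, -, g4⟩ := hadj
    have hFm : F.Monic := hF ▸ monic_X_pow_sub_C _ hq0.ne'
    have hroot : AdjoinRoot.root F ^ q = algebraMap C (AdjoinRoot F) (algebraMap To C (z 0)) := by
      have e := (congrArg (eval₂ (AdjoinRoot.of F) (AdjoinRoot.root F)) hF).symm.trans
        (AdjoinRoot.eval₂_root F)
      rw [eval₂_sub, eval₂_X_pow, eval₂_C, sub_eq_zero] at e
      exact e
    refine ⟨AdjoinRoot F, inferInstance, inferInstance, inferInstance, ?_, κ × Fin q, inferInstance,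
      inferInstance, S'', fun k => ρ k.1,
      Fin.cons (AdjoinRoot.root F) (fun i => algebraMap C (AdjoinRoot F) (Y i)),
      m × Fin F.natDegree, inferInstance, bas.smulTower (AdjoinRoot.powerBasisAux' hFm),
      ?_, ?_, ?_, ?_, ?_⟩
    · refine IsScalarTower.of_algebraMap_eq fun x => ?_
      rw [IsScalarTower.algebraMap_apply A₀ C (AdjoinRoot F),
        IsScalarTower.algebraMap_apply To C (AdjoinRoot F), IsScalarTower.algebraMap_apply A₀ To C]
    · rintro ⟨k, l⟩ c
      rw [IsScalarTower.algebraMap_apply To C (AdjoinRoot F), g1, h1]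
    · intro i
      refine Fin.cases ?_ (fun i => ?_) i
      · rw [Fin.cons_zero, hroot, ← IsScalarTower.algebraMap_apply]
      · rw [Fin.cons_succ, ← map_pow, h2, ← IsScalarTower.algebraMap_apply]
    · rintro ⟨k, l⟩ i
      refine Fin.cases ?_ (fun i => ?_) i
      · exact ⟨ζ l, root_pow_eq ζ hζ l, by rw [Fin.cons_zero, g2]⟩
      · obtain ⟨ω, hω, hω'⟩ := h3 k i
        exact ⟨ω, hω, by rw [Fin.cons_succ, g1, hω']⟩
    · rw [g4, h4]
    · intro hT
      obtain ⟨i⟩ := h5 hT
      have hC : Nontrivial C := by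
        refine ⟨bas i, 0, bas.ne_zero i⟩
      have hdeg : F.natDegree = q := by rw [hF]; exact natDegree_X_pow_sub_C
      exact ⟨(i, ⟨0, by rw [hdeg]; exact hq0⟩)⟩

/-- **Iterated adjunction of `q`-th roots.** -/
theorem exists_adjoin_all {A₀ K To : Type u} [CommRing A₀] [CommRing K] [CommRing To]
    [Algebra A₀ K] [Algebra A₀ To] {ι : Type} [Fintype ι] [DecidableEq ι]
    (S : Split A₀ K To ι) {q : ℕ} (hq0 : 0 < q) (hq : IsUnit (q : K)) (ζ : Fin q → K)
    (hζ : (X ^ q - 1 : K[X]) = ∏ l, (X - Polynomial.C (ζ l))) {d : ℕ} (z : Fin d → To)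
    (hz : ∀ j i, IsUnit (S.g j (z i))) (η : ι → Fin d → K) (hη : ∀ j i, η j i ^ q = S.g j (z i)) :
    ∃ (C : Type u) (_ : CommRing C) (_ : Algebra To C) (_ : Algebra A₀ C)
      (_ : IsScalarTower A₀ To C) (κ : Type) (_ : Fintype κ) (_ : DecidableEq κ)
      (S' : Split A₀ K C κ) (ρ : κ → ι) (Y : Fin d → C),
      (∀ k c, S'.g k (algebraMap To C c) = S.g (ρ k) c) ∧
      (∀ i, Y i ^ q = algebraMap To C (z i)) ∧
      (∀ k i, ∃ ω : K, ω ^ q = 1 ∧ S'.g k (Y i) = η (ρ k) i * ω) ∧ S'.s = S.s ∧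
      ∃ (n : ℕ) (x' : Fin n → C), 0 < n ∧
        (∀ y : C, ∃ v : Fin n → To, y = ∑ i, algebraMap To C (v i) * x' i) ∧
        ∀ v : Fin n → To, ∑ i, algebraMap To C (v i) * x' i = 0 → ∀ i, v i = 0 := by
  obtain ⟨C, i1, i2, i3, i4, κ, i5, i6, S', ρ, Y, m, i7, bas, h1, h2, h3, h4, h5⟩ :=
    exists_adjoin_aux S hq0 hq ζ hζ z hz η hη
  refine ⟨C, i1, i2, i3, i4, κ, i5, i6, S', ρ, Y, h1, h2, h3, h4, ?_⟩
  rcases subsingleton_or_nontrivial To with hT | hT
  · have hC : Subsingleton C := (algebraMap To C).codomain_trivial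
    exact ⟨1, fun _ => 0, one_pos, fun y => ⟨fun _ => 0, Subsingleton.elim _ _⟩,
      fun v _ i => Subsingleton.elim _ _⟩
  · have := h5 hT
    let b' := bas.reindex (Fintype.equivFin m)
    refine ⟨Fintype.card m, b', Fintype.card_pos, fun y => ⟨b'.repr y, ?_⟩, fun v hv i => ?_⟩
    · conv_lhs => rw [← b'.sum_repr y]
      exact Finset.sum_congr rfl fun i _ => Algebra.smul_def _ _
    · have hv' : ∑ i, v i • b' i = 0 := by
        rw [← hv]
        exact Finset.sum_congr rfl fun i _ => Algebra.smul_def _ _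
      exact Fintype.linearIndependent_iff.1 b'.linearIndependent v hv' i

end Crest.Agent.R183.Lat.Split
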