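import Crest.Agent.R183.Mix3
import Crest.Agent.R183.Lat9
import Crest.Agent.R183.BCM7
import Crest.Agent.R183.Fam6
import Crest.Agent.R183.MixAdj

/-!
R183 / Mix4 (helper902) : the mixed characteristic stage.
-/

set_option autoImplicit false
set_option linter.unusedSectionVars false

open Polynomial

namespace Crest.Agent.R183.Mix

open Crest.Agent.R183.Om Crest.Agent.R183.Env Crest.Agent.R183.Lat Crest.Agent.R183.Glue
open Crest.Agent.R183.Heb

universe u v

/-- the conclusion of `Fam.amplitude`. -/
def AmpHyp (p : ℕ) [Fact p.Prime] {R : Type v} [CommRing R] (𝔞 : Ideal R) {b : ℕ} (w : Fin b → R)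
    (n : ℕ) (F : Finset R) : Prop :=
  ∀ (Ω K : Type u) [CommRing Ω] [CommRing K] [Algebra Ω K]
      (d : Heb.Data p Ω K) [IsAdicComplete (Ideal.span {(p : Ω)}) Ω]
      (_ : (p : Ω) ∈ nonunits Ω) (_ : Lat.Bounded d)
      (g : R →+* K) (hg : ∀ r, g r ∈ Lat.star d)
      (_ : ∀ r ∈ F, ∃ s : ℕ → Ω, (∀ e, s (e + 1) ^ p = s e) ∧
        algebraMap Ω K (s 0) = algebraMap Ω K (Lat.mu d 0) * g r)
      (_ : ∀ i, IsUnit (g (w i))) (e N : ℕ) (_ : n + N ≤ p ^ e)
      (y : Fin b → K) (_ : ∀ i, y i ^ p ^ e = g (w i)),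
      ∃ y' : Fin b → Lat.star d, (∀ i, (y' i : K) = y i) ∧
        ∀ r ∈ 𝔞, (⟨g r, hg r⟩ : Lat.star d) ∈ Ideal.span (Set.range y') ^ N

section roots

variable {p : ℕ} [hp : Fact p.Prime] {A K : Type*} [CommRing A] [CommRing K] [Algebra A K]

theorem mu_pow (d : Data p A K) (e : ℕ) : mu d e ^ p ^ e = mu d 0 := by
  induction e with
  | zero => simp
  | succ e ih => rw [pow_succ, mul_comm, pow_mul, mu_succ, ih]

theorem roots_pow {σ : ℕ → A} (h : ∀ e, σ (e + 1) ^ p = σ e) (e : ℕ) : σ e ^ p ^ e = σ 0 := by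
  induction e with
  | zero => simp
  | succ e ih => rw [pow_succ, mul_comm, pow_mul, h, ih]

/-- a `p^e`-th root of `x` from a root system of `pD x`. -/
theorem exists_root_of_sharp (d : Data p A K) {x : K} {σ : ℕ → A} (h : ∀ e, σ (e + 1) ^ p = σ e)
    (h0 : algebraMap A K (σ 0) = algebraMap A K (mu d 0) * x) (e : ℕ) :
    ∃ y : K, y ^ p ^ e = x := by
  obtain ⟨i, hi⟩ := (isUnit_mu d e).exists_right_inv
  refine ⟨algebraMap A K (σ e) * i, ?_⟩
  have h1 : algebraMap A K (mu d 0) * i ^ p ^ e = 1 := by
    rw [← mu_pow d e, map_pow, ← mul_pow, hi, one_pow]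
  rw [mul_pow, ← map_pow, roots_pow h, h0]
  linear_combination x * h1

end roots

variable {p : ℕ} [hp : Fact p.Prime] {A₀ : Type u} [CommRing A₀] {ϖ : ℕ → A₀}

/-- **The stage.** -/
theorem exists_stage (M₀ : Model p A₀ ϖ) {D : A₀} (hD : RegMod D (p : A₀))
    {R T To : Type u} [CommRing R] [CommRing T] [CommRing To] [Algebra R T] [Algebra T To]
    [Algebra R To] [IsScalarTower R T To] [Algebra A₀ To] [Algebra.IsIntegral A₀ To]
    (f : A₀[X]) (hf : f.Monic) (θ : To) (hθ : aeval θ f = 0)
    (hinj : ∀ h : A₀[X], aeval θ h = 0 → f ∣ h) (M : ℕ)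
    (hspan : ∀ c : To, ∃ h : A₀[X], ((p : A₀) * D) ^ M • c = aeval θ h)
    (hsep : ∃ u v : A₀[X], u * f + v * derivative f = C (((p : A₀) * D) ^ M))
    {b g : ℕ} (z : Fin b → R)
    (hz : ∀ i, ∃ z' : To, algebraMap R To (z i) * z' = algebraMap A₀ To (((p : A₀) * D) ^ M))
    (𝔞R : Ideal R) (n₀ : ℕ) (F : Finset R) (hamp : AmpHyp.{u, u} p 𝔞R z n₀ F)
    (yT : Fin g → T) (e N : ℕ) (hN : n₀ + N ≤ p ^ e)
    (hy : ∀ j, ∃ η : A₀, algebraMap A₀ To η ^ (p ^ e) = algebraMap T To (yT j))
    (𝔞 : Ideal T) (h𝔞 : 𝔞 ≤ 𝔞R.map (algebraMap R T) ⊔ Ideal.span (Set.range yT))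
    (t : Fin (b + g) → T) (τ : List A₀)
    (ht : (List.ofFn fun i => algebraMap T To (t i)) = (τ ++ [(p : A₀)]).map (algebraMap A₀ To))
    (hreg : ∀ n : ℕ, 0 < n → RegL A₀ (τ.map (· ^ n) ++ [(p : A₀) ^ n]))
    (DR : R) (hDR : algebraMap R To DR = algebraMap A₀ To D)
    (k₀ : ℕ) (hk₀ : (p : T) ^ k₀ ∈
      Ideal.span (Set.range (Fin.append (fun i => algebraMap R T (z i)) yT))) :
    ∃ k : ℕ, Nonempty (Core.Stage T To (Fin.append (fun i => algebraMap R T (z i)) yT) t
      (algebraMap R T (((p : R) * DR) ^ k)) 𝔞 (p ^ e) N) := by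
  classical
  have hq0 : 0 < p ^ e := pow_pos hp.out.pos e
  -- the family of elements to be made sharp
  let r : Fin (F.card + b) → To :=
    Fin.append (fun i => algebraMap R To ((F.equivFin.symm i : F) : R))
      (fun i => algebraMap R To (z i))
  obtain ⟨E, S, hSs, hσ, ζ, hζ⟩ := exists_level M₀ hD f hf θ hθ hinj M hspan hsep r (p ^ e) hq0
  have hσF : ∀ j, ∀ x ∈ F, ∃ σ : ℕ → E.A, (∀ e, σ (e + 1) ^ p = σ e) ∧
      algebraMap E.A E.K (σ 0) = algebraMap E.A E.K (mu E.data 0) * S.g j (algebraMap R To x) := by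
    intro j x hx
    obtain ⟨σ, h1, h2⟩ := hσ j (Fin.castAdd b (F.equivFin ⟨x, hx⟩))
    refine ⟨σ, h1, ?_⟩
    rw [h2]
    simp [r]
  have hσz : ∀ j (i : Fin b), ∃ σ : ℕ → E.A, (∀ e, σ (e + 1) ^ p = σ e) ∧
      algebraMap E.A E.K (σ 0) =
        algebraMap E.A E.K (mu E.data 0) * S.g j (algebraMap R To (z i)) := by
    intro j i
    obtain ⟨σ, h1, h2⟩ := hσ j (Fin.natAdd F.card i)
    refine ⟨σ, h1, ?_⟩
    rw [h2]
    simp [r]
  -- the roots of `g_j (z_i)`
  have hη : ∀ j (i : Fin b), ∃ y : E.K, y ^ p ^ e = S.g j (algebraMap R To (z i)) := by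
    intro j i
    obtain ⟨σ, h1, h2⟩ := hσz j i
    exact exists_root_of_sharp E.data h1 h2 e
  choose η hη using hη
  have hzu : ∀ j (i : Fin b), IsUnit (S.g j (algebraMap R To (z i))) := by
    intro j i
    obtain ⟨z', hz'⟩ := hz i
    have h1 := congrArg (S.g j) hz'
    rw [map_mul, AlgHom.commutes] at h1
    have h2 := E.unit_pow M
    rw [← h1] at h2
    exact isUnit_of_mul_isUnit_left h2
  have hqK : IsUnit ((p ^ e : ℕ) : E.K) := by
    have h1 := E.unit_p
    rw [map_natCast] at h1
    rw [Nat.cast_pow]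
    exact h1.pow e
  -- adjoin the roots
  obtain ⟨C', _, _, _, _, κ, _, _, S', ρ, Yz, h1, h2, h3, h4, c, x', hc, hsp, hind⟩ :=
    Split.exists_adjoin_all S hq0 hqK ζ hζ (fun i => algebraMap R To (z i)) hzu η hη
  have hfin : Module.Finite To C' := by
    refine ⟨⟨Finset.image x' Finset.univ, ?_⟩⟩
    rw [eq_top_iff]
    intro y _
    obtain ⟨v, hv⟩ := hsp y
    rw [hv]
    refine Submodule.sum_mem _ fun i _ => ?_
    rw [← Algebra.smul_def]
    exact Submodule.smul_mem _ _ (Submodule.subset_span (by simp))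
  have hint : Algebra.IsIntegral A₀ C' := Algebra.IsIntegral.trans To
  have hloc : IsLocalization.Away (mu E.data 0) E.K := by rw [E.mu_zero]; exact E.loc
  have hP := M₀.props
  have hPE := E.M.props
  have hcA₀ : IsAdicComplete (Ideal.span {(p : A₀)}) A₀ := hP.2.2.1
  obtain ⟨out⟩ := Lat.exists_out hP.1 hP.2.1 hPE.1 hPE.2.1 hPE.2.2.2 E.good D hD E.data
    (fun e => rfl) E.δ0 S' M (by rw [h4, hSs])
  -- the roots of the `y_j`
  choose η₀ hη₀ using hy
  let Y : Fin (b + g) → C' := Fin.append Yz (fun j => algebraMap A₀ C' (η₀ j))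
  let w : Fin (b + g) → T := Fin.append (fun i => algebraMap R T (z i)) yT
  have hY : ∀ i, Y i ^ (p ^ e) = algebraMap To C' (algebraMap T To (w i)) := by
    intro i
    refine Fin.addCases (fun i => ?_) (fun i => ?_) i
    · simp only [Y, w, Fin.append_left]
      rw [h2, ← IsScalarTower.algebraMap_apply R T To]
    · simp only [Y, w, Fin.append_right]
      rw [IsScalarTower.algebraMap_apply A₀ To C', ← map_pow, hη₀]
  have hYq : ∀ i, algebraMap To C' (algebraMap T To (w i)) ∈
      (Ideal.span (Set.range Y)) ^ N := by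
    intro i
    rw [← hY i]
    have hmem : Y i ∈ Ideal.span (Set.range Y) := Ideal.subset_span ⟨i, rfl⟩
    exact Ideal.pow_le_pow_right (show N ≤ p ^ e by omega) (Ideal.pow_mem_pow hmem _)
  have hspw : ∀ x ∈ Ideal.span (Set.range w), algebraMap To C' (algebraMap T To x) ∈
      (Ideal.span (Set.range Y)) ^ N := by
    intro x hx
    have h5 : Ideal.span (Set.range w) ≤
        ((Ideal.span (Set.range Y)) ^ N).comap ((algebraMap To C').comp (algebraMap T To)) := by
      rw [Ideal.span_le]
      rintro _ ⟨i, rfl⟩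
      exact hYq i
    exact h5 hx
  -- amplitude
  have hampC : ∀ r ∈ 𝔞, ∀ j, gs S' out.hstar j (algebraMap To C' (algebraMap T To r)) ∈
      ((Ideal.span (Set.range Y)) ^ N).map (gs S' out.hstar j) := by
    intro r hr j
    have h5 : 𝔞R.map (algebraMap R T) ⊔ Ideal.span (Set.range yT) ≤
        (((Ideal.span (Set.range Y)) ^ N).map (gs S' out.hstar j)).comap
          ((gs S' out.hstar j).comp ((algebraMap To C').comp (algebraMap T To))) := by
      refine sup_le ?_ ?_
      · rw [Ideal.map_le_iff_le_comap]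
        intro x hx
        let G : R →+* E.K := (S'.g j : C' →+* E.K).comp
          ((algebraMap To C').comp (algebraMap R To))
        have hG : ∀ x, G x = S.g (ρ j) (algebraMap R To x) := fun x => h1 j _
        have hGs : ∀ x, G x ∈ star E.data := fun x => out.hstar j _
        obtain ⟨y', hy', h6⟩ := hamp E.A E.K E.data E.p_nonunit E.bounded G hGs
          (by
            intro x hx
            obtain ⟨σ, h7, h8⟩ := hσF (ρ j) x hx
            exact ⟨σ, h7, by rw [h8, hG]⟩)
          (fun i => by rw [hG]; exact hzu _ _) e N hN (fun i => S'.g j (Yz i))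
          (fun i => by
            rw [← map_pow, h2]
            rfl)
        have h7 := h6 x hx
        have h8 : Ideal.span (Set.range y') ≤ (Ideal.span (Set.range Y)).map (gs S' out.hstar j) := by
          rw [Ideal.span_le]
          rintro _ ⟨i, rfl⟩
          have h9 : y' i = gs S' out.hstar j (Yz i) := Subtype.ext (hy' i)
          rw [h9]
          refine Ideal.mem_map_of_mem _ (Ideal.subset_span ⟨Fin.castAdd g i, ?_⟩)
          simp [Y]
        have h10 : (⟨G x, hGs x⟩ : star E.data) ∈
            ((Ideal.span (Set.range Y)) ^ N).map (gs S' out.hstar j) := by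
          rw [Ideal.map_pow]
          exact Ideal.pow_right_mono h8 N h7
        rw [Ideal.mem_comap, Ideal.mem_comap]
        have h11 : ((gs S' out.hstar j).comp ((algebraMap To C').comp (algebraMap T To)))
            (algebraMap R T x) = (⟨G x, hGs x⟩ : star E.data) := by
          apply Subtype.ext
          show S'.g j (algebraMap To C' (algebraMap T To (algebraMap R T x))) = G x
          rw [← IsScalarTower.algebraMap_apply R T To]
          rfl
        rw [h11]
        exact h10
      · rw [Ideal.span_le]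
        rintro _ ⟨i, rfl⟩
        have h6 := hYq (Fin.natAdd b i)
        have h6' : algebraMap To C' (algebraMap T To (yT i)) ∈ (Ideal.span (Set.range Y)) ^ N := by
          simpa [w] using h6
        have h7 : gs S' out.hstar j (algebraMap To C' (algebraMap T To (yT i))) ∈
          ((Ideal.span (Set.range Y)) ^ N).map (gs S' out.hstar j) := Ideal.mem_map_of_mem _ h6'
        exact h7
    exact h5 (h𝔞 hr)
  let kk := M + M + (out.l.M + 1)
  refine ⟨kk, ⟨BCM.StageData.stage (F := out.F) (T := T) (To := To) (w := w) (t := t)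
    (Δ := algebraMap R T (((p : R) * DR) ^ kk)) (𝔞 := 𝔞) (q := p ^ e) (N := N) ?_ out.tower⟩⟩
  exact
    { Y := Y
      hY := hY
      c := c
      hc := hc
      x' := x'
      span := hsp
      indep := hind
      e₀ := 1
      g1 := fun x => by
        rw [out.hv₀]
        exact BCM.frame_g1 x
      g2 := fun y => by
        obtain ⟨x, hx⟩ := BCM.frame_g2 out.coord y
        exact ⟨x, by rw [out.hv₀]; exact hx⟩
      δ₁ := ((p : A₀) * D) ^ (out.l.M + 1)
      g3 := out.g3
      δ₀ := S'.s
      g4 := fun y hy => BCM.frame_g4 out.coord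
        (fun x hx => by
          have h5 : S'.s = ((p : A₀) * D) ^ M := by rw [h4, hSs]
          rw [h5] at hx
          have h6 : Reg ((p : A₀) * D) := hP.2.1.mul (Reg.of_regMod hP.2.1 sep_of_isAdicComplete hD)
          have h7 : ∀ (n : ℕ) (x : A₀), ((p : A₀) * D) ^ n * x = 0 → x = 0 := by
            intro n
            induction n with
            | zero => intro x hx; simpa using hx
            | succ n ih =>
              intro x hx
              rw [pow_succ, mul_assoc] at hx
              exact h6 _ (ih _ hx)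
          exact h7 M x hx) y hy
      hΔ := by
        have h5 : S'.s = ((p : A₀) * D) ^ M := by rw [h4, hSs]
        rw [← IsScalarTower.algebraMap_apply R T To, map_pow, map_mul, map_natCast, hDR,
          ← map_natCast (algebraMap A₀ To) p, ← map_mul, ← map_pow,
          ← IsScalarTower.algebraMap_apply A₀ To C', h5]
        congr 1
        simp only [kk]
        ring
      τ := τ
      hτ := by
        intro n hn
        have h5 : (List.ofFn fun i => algebraMap To C' (algebraMap T To (t i))) =
            (τ ++ [(p : A₀)]).map (algebraMap A₀ C') := by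
          have h6 := congrArg (List.map (algebraMap To C')) ht
          rw [List.map_map] at h6
          rw [List.map_ofFn] at h6
          have h7 : (⇑(algebraMap To C') ∘ fun i => algebraMap T To (t i)) =
            fun i => algebraMap To C' (algebraMap T To (t i)) := rfl
          rw [h7] at h6
          rw [h6]
          congr 1
          funext x
          exact (IsScalarTower.algebraMap_apply A₀ To C' x).symm
        rw [h5]
        simp [List.map_map, Function.comp_def]
      reg := by
        intro n hn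
        exact out.regL _ (regL_of_flatAt (E.good.flat n) E.good.reg _ (hreg n hn))
      k := k₀
      hk := by
        have h5 := hspw _ hk₀
        rwa [map_pow, map_pow, map_natCast, map_natCast, ← map_natCast (algebraMap A₀ C') p] at h5
      amp := fun r hr l hl => out.amp _ _ (hampC r hr) l hl }

end Crest.Agent.R183.Mix
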