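/-
R183 (Lech), block (ALG) of MIX (helper198): a primitive element of a finite extension of an
integrally closed Noetherian domain of characteristic zero, with all denominators of the form
`(p D) ^ M`, `D` prime to `p`.
-/
import Mathlib

set_option autoImplicit false

open Polynomial nonZeroDivisors

namespace Crest.Agent.R183.MixAlg

universe u

section aux

variable {A : Type*} [CommRing A] [IsDomain A] {K : Type*} [Field K] [Algebra A K]
  [IsFractionRing A K]

/-- Clearing the denominators of a polynomial over the fraction field. -/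
theorem exists_clear (h : K[X]) : ∃ (b : A) (h' : A[X]), b ≠ 0 ∧
    h'.map (algebraMap A K) = C (algebraMap A K b) * h := by
  obtain ⟨b, hbm, hb⟩ := IsLocalization.integerNormalization_spec A⁰ h
  refine ⟨b, IsLocalization.integerNormalization A⁰ h, nonZeroDivisors.ne_zero hbm, ?_⟩
  rw [hb, ← Polynomial.smul_eq_C_mul, algebraMap_smul]

/-- Factor out the powers of a prime: `E ∣ (p D) ^ M` with `D` prime to `p`. -/
theorem exists_factor [IsNoetherianRing A] {p E : A} (hp : Prime p) (hE : E ≠ 0) :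
    ∃ (D : A) (M : ℕ), ¬ p ∣ D ∧ D ≠ 0 ∧ E ∣ (p * D) ^ M := by
  obtain ⟨k, D, hD, hED⟩ := WfDvdMonoid.max_power_factor hE hp.irreducible
  refine ⟨D, k + 1, hD, ?_, ?_⟩
  · rintro rfl
    exact hD (dvd_zero _)
  · rw [hED, mul_pow]
    exact mul_dvd_mul (pow_dvd_pow _ (Nat.le_succ k)) (dvd_pow_self _ (Nat.succ_ne_zero k))

end aux

section main

attribute [local instance] FractionRing.liftAlgebra

/-- The element `θ` and the denominators, in the form of nonzero elements of `A`. -/
theorem exists_theta {A R : Type u} [CommRing A] [IsDomain A] [CharZero A] [CommRing R]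
    [IsDomain R] [Algebra A R] [Module.Finite A R]
    (hinj : Function.Injective (algebraMap A R)) :
    ∃ (θ : R), ∀ c : R, ∃ (b : A) (h : A[X]), b ≠ 0 ∧ b • c = aeval θ h := by
  classical
  have : FaithfulSMul A R := (faithfulSMul_iff_algebraMap_injective A R).2 hinj
  have : Module.IsTorsionFree A R := inferInstance
  let K := FractionRing A
  let L := FractionRing R
  have : FiniteDimensional K L := inferInstance
  have : CharZero K := charZero_of_injective_algebraMap (IsFractionRing.injective A K)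
  obtain ⟨α, hα⟩ := Field.exists_primitive_element K L
  obtain ⟨⟨θ, ⟨_, a, ha, rfl⟩⟩, hrs⟩ := IsLocalization.surj (Algebra.algebraMapSubmonoid R A⁰) α
  have ha0 : a ≠ 0 := nonZeroDivisors.ne_zero ha
  have haK : algebraMap A K a ≠ 0 := by
    rw [Ne, FaithfulSMul.algebraMap_eq_zero_iff]
    exact ha0
  simp only at hrs
  have hrs' : α * algebraMap K L (algebraMap A K a) = algebraMap R L θ := by
    rw [← hrs, ← IsScalarTower.algebraMap_apply A K L, IsScalarTower.algebraMap_apply A R L]
  have hθ : IntermediateField.adjoin K {algebraMap R L θ} = ⊤ := by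
    rw [eq_top_iff, ← hα, IntermediateField.adjoin_simple_le_iff]
    have h1 : α = (algebraMap K L (algebraMap A K a))⁻¹ * algebraMap R L θ := by
      rw [← hrs']
      have h0 : algebraMap K L (algebraMap A K a) ≠ 0 := by
        rw [Ne, FaithfulSMul.algebraMap_eq_zero_iff]
        exact haK
      rw [mul_comm α, inv_mul_cancel_left₀ h0]
    rw [h1, ← map_inv₀]
    exact mul_mem (IntermediateField.algebraMap_mem _ _)
      (IntermediateField.mem_adjoin_simple_self _ _)
  refine ⟨θ, fun c => ?_⟩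
  have hc : algebraMap R L c ∈ (IntermediateField.adjoin K {algebraMap R L θ}).toSubalgebra := by
    rw [hθ]; trivial
  rw [IntermediateField.adjoin_simple_toSubalgebra_of_isAlgebraic
    (Algebra.IsAlgebraic.isAlgebraic _), Algebra.adjoin_singleton_eq_range_aeval] at hc
  obtain ⟨h, hh⟩ := hc
  obtain ⟨b, h', hb, hh'⟩ := exists_clear (A := A) h
  refine ⟨b, h', hb, ?_⟩
  apply IsFractionRing.injective R L
  have h2 : algebraMap R L (aeval θ h') = aeval (algebraMap R L θ) (h'.map (algebraMap A K)) := by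
    rw [aeval_map_algebraMap, aeval_algebraMap_apply]
  rw [h2, hh', map_mul, aeval_C, Algebra.smul_def, map_mul,
    ← IsScalarTower.algebraMap_apply A K L, ← IsScalarTower.algebraMap_apply A R L]
  congr 1
  exact hh.symm

theorem exists_bezout {A R : Type u} [CommRing A] [IsDomain A] [IsIntegrallyClosed A]
    [CharZero A] [CommRing R] [IsDomain R] [Algebra A R] [Module.Finite A R]
    (hinj : Function.Injective (algebraMap A R)) (θ : R) :
    ∃ (b : A) (u v : A[X]), b ≠ 0 ∧
      u * minpoly A θ + v * derivative (minpoly A θ) = C b := by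
  classical
  have : FaithfulSMul A R := (faithfulSMul_iff_algebraMap_injective A R).2 hinj
  have : Module.IsTorsionFree A R := inferInstance
  let K := FractionRing A
  let L := FractionRing R
  have : FiniteDimensional K L := inferInstance
  have : CharZero K := charZero_of_injective_algebraMap (IsFractionRing.injective A K)
  have hint : IsIntegral A θ := Algebra.IsIntegral.isIntegral θ
  have h1 := minpoly.isIntegrallyClosed_eq_field_fractions K L hint
  have hsep : (minpoly K (algebraMap R L θ)).Separable :=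
    (minpoly.irreducible (Algebra.IsIntegral.isIntegral _)).separable
  rw [h1] at hsep
  obtain ⟨a, b, hab⟩ := hsep
  obtain ⟨b₁, u, hb₁, hu⟩ := exists_clear (A := A) a
  obtain ⟨b₂, v, hb₂, hv⟩ := exists_clear (A := A) b
  refine ⟨b₁ * b₂, C b₂ * u, C b₁ * v, mul_ne_zero hb₁ hb₂, ?_⟩
  apply Polynomial.map_injective _ (IsFractionRing.injective A K)
  rw [Polynomial.map_add, Polynomial.map_mul, Polynomial.map_mul, Polynomial.map_mul,
    Polynomial.map_mul, hu, hv, ← Polynomial.derivative_map, map_C, map_C, map_C, map_mul, C_mul]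
  linear_combination (C (algebraMap A K b₁) * C (algebraMap A K b₂)) * hab

end main

/-- **(ALG)**: a generator up to denominators `(p D) ^ M`, `p ∤ D`. -/
theorem exists_alg {A R : Type u} [CommRing A] [IsDomain A] [IsIntegrallyClosed A]
    [IsNoetherianRing A] [CharZero A] [CommRing R] [IsDomain R] [Algebra A R] [Module.Finite A R]
    (hinj : Function.Injective (algebraMap A R)) (p : ℕ) (hp : Prime (p : A)) {d : ℕ}
    (z : Fin d → R) (hz : ∀ i, z i ≠ 0) :
    ∃ (f : A[X]) (θ : R) (D : A) (M : ℕ), f.Monic ∧ 0 < f.natDegree ∧ aeval θ f = 0 ∧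
      (∀ h : A[X], aeval θ h = 0 → f ∣ h) ∧ ¬ (p : A) ∣ D ∧ D ≠ 0 ∧
      (∀ c : R, ∃ h : A[X], ((p : A) * D) ^ M • c = aeval θ h) ∧
      (∃ u v : A[X], u * f + v * derivative f = C (((p : A) * D) ^ M)) ∧
      (∀ i, ∃ z' : R, z i * z' = algebraMap A R (((p : A) * D) ^ M)) := by
  classical
  have : FaithfulSMul A R := (faithfulSMul_iff_algebraMap_injective A R).2 hinj
  have : Module.IsTorsionFree A R := inferInstance
  obtain ⟨θ, hθ⟩ := exists_theta (A := A) (R := R) hinj
  have hint : IsIntegral A θ := Algebra.IsIntegral.isIntegral θ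
  choose b h hb hbh using hθ
  obtain ⟨s, hs⟩ := (Module.Finite.fg_top : (⊤ : Submodule A R).FG)
  -- first denominator
  let E₁ : A := ∏ c ∈ s, b c
  have hE₁ : E₁ ≠ 0 := Finset.prod_ne_zero_iff.2 fun c _ => hb c
  have hE₁c : ∀ c : R, ∃ g : A[X], E₁ • c = aeval θ g := by
    intro c
    have hc : c ∈ Submodule.span A (s : Set R) := by rw [hs]; trivial
    induction hc using Submodule.span_induction with
    | mem x hx =>
      obtain ⟨e, he⟩ := Finset.dvd_prod_of_mem b (Finset.mem_coe.1 hx)
      refine ⟨C e * h x, ?_⟩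
      show (∏ c ∈ s, b c) • x = _
      rw [he, map_mul, aeval_C, ← hbh x, mul_comm (b x) e, mul_smul, Algebra.smul_def e]
    | zero => exact ⟨0, by simp⟩
    | add x y _ _ hx hy =>
      obtain ⟨g₁, hg₁⟩ := hx
      obtain ⟨g₂, hg₂⟩ := hy
      exact ⟨g₁ + g₂, by rw [smul_add, hg₁, hg₂, map_add]⟩
    | smul a x _ hx =>
      obtain ⟨g, hg⟩ := hx
      exact ⟨C a * g, by rw [smul_comm, hg, map_mul, aeval_C, Algebra.smul_def]⟩
  -- second denominator
  obtain ⟨E₂, u, v, hE₂, huv⟩ := exists_bezout hinj θ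
  -- third denominator
  have h3 : ∀ i, ∃ r : A, r ≠ 0 ∧ z i ∣ algebraMap A R r := fun i =>
    (Algebra.IsAlgebraic.isAlgebraic (R := A) (z i)).exists_nonzero_dvd
      (mem_nonZeroDivisors_of_ne_zero (hz i))
  choose r hr hzr using h3
  let E₃ : A := ∏ i, r i
  have hE₃ : E₃ ≠ 0 := Finset.prod_ne_zero_iff.2 fun c _ => hr c
  obtain ⟨D, M, hpD, hD0, hED⟩ := exists_factor hp (mul_ne_zero (mul_ne_zero hE₁ hE₂) hE₃)
  obtain ⟨m₁, hm₁⟩ : E₁ ∣ ((p : A) * D) ^ M :=
    ((Dvd.intro _ rfl).trans (Dvd.intro _ rfl)).trans hED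
  obtain ⟨m₂, hm₂⟩ : E₂ ∣ ((p : A) * D) ^ M :=
    ((Dvd.intro_left _ rfl).trans (Dvd.intro _ rfl)).trans hED
  have hd₃ : E₃ ∣ ((p : A) * D) ^ M := (Dvd.intro_left _ rfl).trans hED
  refine ⟨minpoly A θ, θ, D, M, minpoly.monic hint, minpoly.natDegree_pos hint,
    minpoly.aeval A θ, fun g hg => minpoly.isIntegrallyClosed_dvd hint hg, hpD, hD0, ?_, ?_, ?_⟩
  · intro c
    obtain ⟨g, hg⟩ := hE₁c c
    refine ⟨C m₁ * g, ?_⟩
    rw [hm₁, map_mul, aeval_C, ← hg, mul_comm E₁ m₁, mul_smul, Algebra.smul_def m₁]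
  · refine ⟨C m₂ * u, C m₂ * v, ?_⟩
    rw [hm₂, mul_assoc, mul_assoc, ← mul_add, huv, C_mul, mul_comm]
  · intro i
    have : z i ∣ algebraMap A R (((p : A) * D) ^ M) :=
      (hzr i).trans (map_dvd (algebraMap A R) ((Finset.dvd_prod_of_mem r (Finset.mem_univ i)).trans hd₃))
    obtain ⟨z', hz'⟩ := this
    exact ⟨z', hz'.symm⟩

end Crest.Agent.R183.MixAlg
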