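import Mathlib

/-!
R183 / MixBC (helper778) : block (BC) of helper902's list: base change of the order `A[θ] ⊆ R`
along an ARBITRARY `A → Om` on which `s` is a nonzerodivisor.
-/

set_option autoImplicit false
set_option linter.unusedSectionVars false

open Polynomial

namespace Crest.Agent.R183.MixBC

universe u

section

variable {A R : Type u} [CommRing A] [CommRing R] [Algebra A R]

theorem modByMonic_eq_of_aeval {f : A[X]} (hf : f.Monic) {θ : R}
    (hinj : ∀ h : A[X], aeval θ h = 0 → f ∣ h) {g h : A[X]} (e : aeval θ g = aeval θ h) :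
    g %ₘ f = h %ₘ f := by
  have h1 : f ∣ g - h := hinj _ (by rw [map_sub, e, sub_self])
  have h2 : (g - h) %ₘ f = 0 := (modByMonic_eq_zero_iff_dvd hf).2 h1
  rw [sub_modByMonic] at h2
  exact sub_eq_zero.1 h2

theorem aeval_modByMonic {f : A[X]} {θ : R} (hθ : aeval θ f = 0) (g : A[X]) :
    aeval θ (g %ₘ f) = aeval θ g := by
  conv_rhs => rw [← modByMonic_add_div g f]
  rw [map_add, map_mul, hθ, zero_mul, add_zero]

/-- the `A`-linear coordinate map `R → A[X]`, `aeval θ (φ c) = s • c`. -/
theorem exists_coord {f : A[X]} (hf : f.Monic) {θ : R} (hθ : aeval θ f = 0)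
    (hinj : ∀ h : A[X], aeval θ h = 0 → f ∣ h) (s : A)
    (hspan : ∀ c : R, ∃ h : A[X], s • c = aeval θ h) :
    ∃ φ : R →ₗ[A] A[X], ∀ c, aeval θ (φ c) = s • c := by
  choose h hh using hspan
  refine ⟨{ toFun := fun c => h c %ₘ f, map_add' := ?_, map_smul' := ?_ }, ?_⟩
  · intro c d
    rw [← add_modByMonic]
    refine modByMonic_eq_of_aeval hf hinj ?_
    rw [map_add, ← hh, ← hh, ← hh, smul_add]
  · intro a c
    rw [RingHom.id_apply, ← smul_modByMonic]
    refine modByMonic_eq_of_aeval hf hinj ?_
    rw [map_smul, ← hh, ← hh, smul_comm]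
  · intro c
    show aeval θ (h c %ₘ f) = s • c
    rw [aeval_modByMonic hθ, ← hh]

end

theorem bc {A R Om To : Type u} [CommRing A] [CommRing R] [CommRing Om] [CommRing To]
    [Algebra A R] [Algebra A Om] [Algebra A To] [Algebra R To] [Algebra Om To]
    [IsScalarTower A R To] [IsScalarTower A Om To] [hP : Algebra.IsPushout A R Om To]
    (f : A[X]) (hf : f.Monic) (θ : R) (hθ : aeval θ f = 0)
    (hinj : ∀ h : A[X], aeval θ h = 0 → f ∣ h) (s : A)
    (hspan : ∀ c : R, ∃ h : A[X], s • c = aeval θ h)
    (hs : ∀ x : Om, algebraMap A Om s * x = 0 → x = 0) :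
    (∀ h : Om[X], aeval (algebraMap R To θ) h = 0 → f.map (algebraMap A Om) ∣ h) ∧
      (∀ c : To, ∃ h : Om[X], algebraMap A Om s • c = aeval (algebraMap R To θ) h) := by
  obtain ⟨φ, hφ⟩ := exists_coord hf hθ hinj s hspan
  have hb : IsBaseChange Om (IsScalarTower.toAlgHom A R To).toLinearMap := hP.symm.out
  -- the extended coordinate map
  let ψ₀ : R →ₗ[A] Om[X] := (Polynomial.mapAlgHom (Algebra.ofId A Om)).toLinearMap ∘ₗ φ
  let ψ : To →ₗ[Om] Om[X] := hb.lift ψ₀
  have hψ : ∀ c : R, ψ (algebraMap R To c) = (φ c).map (algebraMap A Om) := by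
    intro c
    exact hb.lift_eq ψ₀ c
  have haev : ∀ g : A[X], aeval (algebraMap R To θ) (g.map (algebraMap A Om)) =
      algebraMap R To (aeval θ g) := by
    intro g
    rw [aeval_map_algebraMap, aeval_algebraMap_apply]
  have h1 : ∀ c : To, aeval (algebraMap R To θ) (ψ c) = algebraMap A Om s • c := by
    intro c
    induction c using hb.inductionOn with
    | zero => rw [map_zero, map_zero, smul_zero]
    | tmul c =>
      show aeval _ (ψ (algebraMap R To c)) = _ • algebraMap R To c
      rw [hψ, haev, hφ, algebraMap_smul, Algebra.smul_def, map_mul,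
        ← IsScalarTower.algebraMap_apply, Algebra.smul_def]
    | smul a c hc => rw [map_smul, map_smul, hc, smul_comm]
    | add c d hc hd => rw [map_add, map_add, hc, hd, smul_add]
  refine ⟨?_, fun c => ⟨ψ c, (h1 c).symm⟩⟩
  have h2 : ∀ h : Om[X], f.map (algebraMap A Om) ∣
      ψ (aeval (algebraMap R To θ) h) - algebraMap A Om s • h := by
    intro h
    induction h using Polynomial.induction_on' with
    | add g h hg hh =>
      have := dvd_add hg hh
      rw [map_add, map_add, smul_add]
      convert this using 1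
      ring
    | monomial n a =>
      have e1 : aeval (algebraMap R To θ) (monomial n a) = a • algebraMap R To (θ ^ n) := by
        rw [aeval_monomial, map_pow, Algebra.smul_def]
      have e2 : f ∣ φ (θ ^ n) - s • X ^ n := by
        refine hinj _ ?_
        rw [map_sub, hφ, map_smul, map_pow, aeval_X, sub_self]
      have e3 : f.map (algebraMap A Om) ∣
          (φ (θ ^ n)).map (algebraMap A Om) - algebraMap A Om s • X ^ n := by
        have := Polynomial.map_dvd (algebraMap A Om) e2
        rw [Polynomial.map_sub] at this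
        convert this using 2
        rw [smul_eq_C_mul, smul_eq_C_mul, Polynomial.map_mul, map_C, Polynomial.map_pow, map_X]
      have e4 : ψ (aeval (algebraMap R To θ) (monomial n a)) - algebraMap A Om s • monomial n a =
          C a * ((φ (θ ^ n)).map (algebraMap A Om) - algebraMap A Om s • X ^ n) := by
        rw [e1, map_smul, hψ, ← C_mul_X_pow_eq_monomial, mul_sub, smul_eq_C_mul, smul_eq_C_mul,
          smul_eq_C_mul]
        ring
      rw [e4]
      exact e3.mul_left _
  intro h hh
  have h3 := h2 h
  rw [hh, map_zero, zero_sub, dvd_neg] at h3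
  have hf' : (f.map (algebraMap A Om)).Monic := hf.map _
  rw [← modByMonic_eq_zero_iff_dvd hf'] at h3 ⊢
  rw [smul_modByMonic] at h3
  ext i
  have h4 : (algebraMap A Om s • (h %ₘ f.map (algebraMap A Om))).coeff i = 0 := by
    rw [h3, coeff_zero]
  rw [coeff_smul, smul_eq_mul] at h4
  rw [hs _ h4, coeff_zero]

/-- pasting of pushouts, in the order of `CoreM.MixStage`. -/
theorem isPushout_paste (A R A' T Om To : Type u) [CommRing A] [CommRing R] [CommRing A']
    [CommRing T] [CommRing Om] [CommRing To]
    [Algebra A R] [Algebra A A'] [Algebra A T] [Algebra R T] [Algebra A' T]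
    [IsScalarTower A R T] [IsScalarTower A A' T] [Algebra.IsPushout A R A' T]
    [Algebra A' Om] [Algebra A' To] [Algebra T To] [Algebra Om To]
    [IsScalarTower A' T To] [IsScalarTower A' Om To] [Algebra.IsPushout A' Om T To]
    [Algebra A Om] [Algebra A To] [Algebra R To]
    [IsScalarTower A A' Om] [IsScalarTower A T To] [IsScalarTower A A' To] [IsScalarTower A Om To]
    [IsScalarTower R T To] [IsScalarTower A R To] : Algebra.IsPushout A R Om To := by
  have : Algebra.IsPushout A A' R T := Algebra.IsPushout.symm inferInstance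
  exact Algebra.IsPushout.symm ((Algebra.IsPushout.comp_iff A A' R (S' := T) (T := Om) (T' := To)).2 inferInstance)

end Crest.Agent.R183.MixBC
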