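/-
R183 (Lech), (P9) of MIX: power series over Cohen rings (for `MixAlg.exists_alg`), regularity
modulo `p` and flat base change.   helper389
-/
import Mathlib
import Crest.Agent.R183.CohenNoether
import Crest.Agent.R183.CohenRingLift
import Crest.Agent.R183.Cic
import Crest.Agent.R183.Om1

set_option autoImplicit false

namespace Crest.Agent.R183.MixCoh

open IsLocalRing Cohen Om

section coh

variable {p : ℕ} {C : Type*} [CommRing C] [IsLocalRing C] (hC : IsCohen p C) (d : ℕ)

include hC

theorem isDomain_mv : IsDomain (MvPowerSeries (Fin d) C) := by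
  have := hC.isDVR_dom
  exact NoZeroDivisors.to_isDomain _

theorem isNoetherianRing_mv : IsNoetherianRing (MvPowerSeries (Fin d) C) := by
  have := hC.isNoetherianRing
  infer_instance

theorem isIntegrallyClosed_mv [IsDomain (MvPowerSeries (Fin d) C)] :
    IsIntegrallyClosed (MvPowerSeries (Fin d) C) := by
  have := hC.isDVR_dom
  have := hC.isDVR
  exact Cic.isIntegrallyClosed_mvPowerSeries_dvr C d

theorem charZero_mv [Fact p.Prime] : CharZero (MvPowerSeries (Fin d) C) := by
  have := hC.charZero
  exact charZero_of_injective_algebraMap (R := C) (MvPowerSeries.C_injective)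

theorem natCast_dvd_iff (f : MvPowerSeries (Fin d) C) : (p : MvPowerSeries (Fin d) C) ∣ f ↔
    MvPowerSeries.map (residue C) f = 0 := by
  have hk : ∀ x, residue C x = 0 ↔ (p : C) ∣ x := by
    intro x
    rw [residue_eq_zero_iff, hC.maximalIdeal_eq, Ideal.mem_span_singleton]
  have hco : ∀ (g : MvPowerSeries (Fin d) C) m, MvPowerSeries.coeff m ((p : MvPowerSeries (Fin d) C) * g)
      = p * MvPowerSeries.coeff m g := by
    intro g m
    rw [← nsmul_eq_mul, map_nsmul, nsmul_eq_mul]
  constructor
  · rintro ⟨g, rfl⟩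
    ext m
    rw [MvPowerSeries.coeff_map, hco, map_zero, (hk _).2 (Dvd.intro _ rfl)]
  · intro h
    have h1 : ∀ m, (p : C) ∣ MvPowerSeries.coeff m f := by
      intro m
      rw [← hk, ← MvPowerSeries.coeff_map, h, map_zero]
    choose c hc using h1
    let g : MvPowerSeries (Fin d) C := fun m => c m
    have hg : ∀ m, MvPowerSeries.coeff m g = c m := fun m => rfl
    refine ⟨g, ?_⟩
    ext m
    rw [hco, hc m, hg]

theorem prime_mv [Fact p.Prime] : Prime (p : MvPowerSeries (Fin d) C) := by
  have := charZero_mv hC d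
  refine ⟨Nat.cast_ne_zero.2 (Fact.out : p.Prime).ne_zero, ?_, ?_⟩
  · intro h
    have h1 := h.map (MvPowerSeries.map (σ := Fin d) (residue C))
    rw [(natCast_dvd_iff hC d _).1 dvd_rfl] at h1
    exact not_isUnit_zero h1
  · intro a b hab
    rw [natCast_dvd_iff hC d, map_mul] at hab
    rw [natCast_dvd_iff hC d, natCast_dvd_iff hC d]
    exact mul_eq_zero.1 hab

end coh

/-- an element prime to a prime is regular modulo it. -/
theorem regMod_of_prime {A : Type*} [CommRing A] {p D : A} (hp : Prime p) (hD : ¬ p ∣ D) :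
    RegMod D p := fun _ hx => (hp.dvd_or_dvd hx).resolve_left hD

/-- flat base change of `RegMod`. -/
theorem regMod_of_flat {A A' : Type*} [CommRing A] [CommRing A'] [Algebra A A'] [Module.Flat A A']
    {p D : A} (h : RegMod D p) : RegMod (algebraMap A A' D) (algebraMap A A' p) := by
  rintro x ⟨y, hxy⟩
  have h1 : ∑ i : Fin 2, (![D, -p] : Fin 2 → A) i • (![x, y] : Fin 2 → A') i = 0 := by
    rw [Fin.sum_univ_two]
    simp only [Matrix.cons_val_zero, Matrix.cons_val_one, Algebra.smul_def, map_neg]
    rw [hxy]; ring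
  obtain ⟨k, a, z, h2, h3⟩ := Module.Flat.isTrivialRelation_of_sum_smul_eq_zero (R := A) (M := A') h1
  have h4 : ∀ j, p ∣ a 0 j := by
    intro j
    have := h3 j
    rw [Fin.sum_univ_two] at this
    simp only [Matrix.cons_val_zero, Matrix.cons_val_one] at this
    refine h _ ⟨a 1 j, ?_⟩
    linear_combination this
  choose b hb using h4
  have h5 := h2 0
  simp only [Matrix.cons_val_zero] at h5
  rw [h5]
  refine Finset.dvd_sum fun j _ => ?_
  rw [hb j, Algebra.smul_def, map_mul, mul_assoc]
  exact Dvd.intro _ rfl

/-- flat base change of `RegMod` modulo a natural number. -/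
theorem regMod_of_flat_natCast {A A' : Type*} [CommRing A] [CommRing A'] [Algebra A A']
    [Module.Flat A A'] {p : ℕ} {D : A} (h : RegMod D (p : A)) :
    RegMod (algebraMap A A' D) (p : A') := by
  have := regMod_of_flat (A' := A') h
  rwa [map_natCast] at this

end Crest.Agent.R183.MixCoh
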