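import Crest.Agent.R183.RegPS
import Crest.Agent.R183.Om1

/-!
R183 / MixReg2 : regular sequences `(X_i^n, .., p^n)` (last entry first) on `W(K)[[X]]`.
-/

set_option autoImplicit false
set_option linter.unusedSectionVars false

namespace Crest.Agent.R183.MixReg2

open Crest.Agent.R183.Glue

section

variable {n : ℕ} {R : Type*} [CommRing R]

local notation "PS" => MvPowerSeries (Fin n) R

theorem mem_span_iff (k : ℕ) (a : R) (l : List (Fin n)) (f : PS) :
    f ∈ Ideal.span {y : PS | y ∈ l.map (fun i => (MvPowerSeries.X i : PS) ^ k) ++
        [MvPowerSeries.C a]} ↔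
      ∀ m : Fin n →₀ ℕ, (∀ i ∈ l, m i < k) → a ∣ MvPowerSeries.coeff m f := by
  classical
  constructor
  · intro hf
    induction hf using Submodule.span_induction with
    | mem x hx =>
      intro m hm
      rcases List.mem_append.1 hx with hx | hx
      · obtain ⟨i, hi, rfl⟩ := List.mem_map.1 hx
        have := (MvPowerSeries.X_pow_dvd_iff.1 (dvd_refl ((MvPowerSeries.X i : PS) ^ k))) m
          (hm i hi)
        rw [this]
        exact dvd_zero _
      · rw [List.mem_singleton] at hx
        rw [hx, MvPowerSeries.coeff_C]
        split_ifs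
        · exact dvd_rfl
        · exact dvd_zero _
    | zero => intro m _; rw [map_zero]; exact dvd_zero _
    | add x y _ _ h1 h2 => intro m hm; rw [map_add]; exact dvd_add (h1 m hm) (h2 m hm)
    | smul b x _ h1 =>
      intro m hm
      rw [smul_eq_mul, MvPowerSeries.coeff_mul]
      refine Finset.dvd_sum fun q hq => ?_
      rw [Finset.HasAntidiagonal.mem_antidiagonal] at hq
      refine Dvd.dvd.mul_left (h1 q.2 (fun i hi => lt_of_le_of_lt ?_ (hm i hi))) _
      rw [← hq, Finsupp.add_apply]
      exact Nat.le_add_left _ _
  · revert f
    induction l with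
    | nil =>
      intro f hf
      have hf' : ∀ m, ∃ c, MvPowerSeries.coeff m f = a * c := fun m => hf m (by simp)
      choose c hc using hf'
      let c' : PS := fun m => c m
      have : f = MvPowerSeries.C a * c' := by
        ext m
        rw [MvPowerSeries.coeff_C_mul, hc m]
        rfl
      rw [this]
      exact Ideal.mul_mem_right _ _ (Ideal.subset_span (by simp))
    | cons i l ih =>
      intro f hf
      let f1 : PS := fun m => if m i < k then 0 else MvPowerSeries.coeff m f
      let f2 : PS := fun m => if m i < k then MvPowerSeries.coeff m f else 0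
      have h1 : ∀ m, MvPowerSeries.coeff m f1 = if m i < k then 0 else MvPowerSeries.coeff m f :=
        fun m => rfl
      have h2 : ∀ m, MvPowerSeries.coeff m f2 = if m i < k then MvPowerSeries.coeff m f else 0 :=
        fun m => rfl
      have e : f = f1 + f2 := by
        ext m
        rw [map_add, h1, h2]
        split_ifs <;> simp
      rw [e]
      refine Ideal.add_mem _ ?_ ?_
      · have h3 : (MvPowerSeries.X i : PS) ^ k ∣ f1 := by
          rw [MvPowerSeries.X_pow_dvd_iff]
          intro m hm
          rw [h1, if_pos hm]
        obtain ⟨g, hg⟩ := h3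
        rw [hg]
        exact Ideal.mul_mem_right _ _ (Ideal.subset_span (by simp))
      · have h3 := ih f2 (fun m hm => by
          rw [h2]
          split_ifs with h
          · apply hf m
            intro j hj
            rcases List.mem_cons.1 hj with rfl | hj
            · exact h
            · exact hm j hj
          · exact dvd_zero _)
        refine Ideal.span_mono ?_ h3
        intro y hy
        exact List.mem_cons_of_mem _ hy

theorem regL_aux (k : ℕ) (a : R) (ha : ∀ x : R, a * x = 0 → x = 0) (l : List (Fin n))
    (hl : l.Nodup) :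
    RegL PS (l.map (fun i => (MvPowerSeries.X i : PS) ^ k) ++ [MvPowerSeries.C a]) := by
  classical
  induction l with
  | nil =>
    refine ⟨trivial, fun f hf => ?_⟩
    have h1 : Ideal.span {y : PS | y ∈ ([] : List PS)} = ⊥ := by simp
    rw [h1, Submodule.bot_smul, Submodule.mem_bot] at hf ⊢
    ext m
    rw [map_zero]
    apply ha
    have h2 := congrArg (MvPowerSeries.coeff m) hf
    rwa [smul_eq_mul, MvPowerSeries.coeff_C_mul, map_zero] at h2
  | cons i l ih =>
    rw [List.nodup_cons] at hl
    refine ⟨ih hl.2, ?_⟩
    intro f hf
    have hf' : (MvPowerSeries.X i : PS) ^ k * f ∈ Ideal.span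
        {y : PS | y ∈ l.map (fun i => (MvPowerSeries.X i : PS) ^ k) ++ [MvPowerSeries.C a]} := by
      have h3 := hf
      rw [smul_eq_mul, smul_eq_mul, Ideal.mul_top] at h3
      exact h3
    rw [smul_eq_mul, Ideal.mul_top]
    refine (mem_span_iff k a l f).2 ?_
    rw [mem_span_iff] at hf'
    intro m hm
    have h1 := hf' (m + Finsupp.single i k) (by
      intro j hj
      rw [Finsupp.add_apply, Finsupp.single_apply, if_neg, add_zero]
      · exact hm j hj
      · rintro rfl; exact hl.1 hj)
    rw [MvPowerSeries.X_pow_eq, add_comm, MvPowerSeries.coeff_add_monomial_mul, one_mul] at h1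
    exact h1

end

theorem regL_witt (p : ℕ) [Fact p.Prime] (K : Type*) [Field K] [CharP K p] [PerfectRing K p]
    (m n : ℕ) :
    RegL (MvPowerSeries (Fin m) (WittVector p K))
      (((List.ofFn fun i : Fin m => (MvPowerSeries.X i : MvPowerSeries (Fin m) (WittVector p K))).map
        (· ^ n)) ++ [(p : MvPowerSeries (Fin m) (WittVector p K)) ^ n]) := by
  have hreg : ∀ x : WittVector p K, (p : WittVector p K) ^ n * x = 0 → x = 0 := by
    induction n with
    | zero => intro x hx; simpa using hx
    | succ n ih =>
      intro x hx
      rw [pow_succ, mul_assoc] at hx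
      have h1 := ih _ hx
      exact (mul_eq_zero.1 h1).resolve_left (WittVector.p_nonzero p K)
  have h := regL_aux (n := m) n ((p : WittVector p K) ^ n) hreg (List.finRange m)
    (List.nodup_finRange m)
  rw [List.map_ofFn]
  rw [← List.ofFn_eq_map] at h
  rw [map_pow, map_natCast] at h
  exact h

end Crest.Agent.R183.MixReg2
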