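import Crest.Agent.R183.Mix4
import Crest.Agent.R183.CoreM
import Crest.Agent.R183.BInf7
import Crest.Agent.R183.MixCoh
import Crest.Agent.R183.MixAlg
import Crest.Agent.R183.MixBC
import Crest.Agent.R183.MixReg2

/-!
R183 / Mix5 (helper902) : `CoreM.MixStage p`.
-/

set_option autoImplicit false
set_option linter.unusedSectionVars false

open Polynomial

namespace Crest.Agent.R183.Mix

open Crest.Agent.R183.Om Crest.Agent.R183.Env Crest.Agent.R183.Lat Crest.Agent.R183.Glue
open Crest.Agent.R183.Heb Crest.Agent.R183.CoreM Crest.Agent.R183.RD Crest.Agent.R183.Cohen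
open IsLocalRing Crest.Agent.R183.M
open scoped nonZeroDivisors

universe u v

/-- regular sequences on `Ω₀`. -/
theorem regL_omega (p : ℕ) [hp : Fact p.Prime] (K : Type u) [Field K] [CharP K p] [PerfectRing K p]
    (m : ℕ) (Ω₀ : Type u) [CommRing Ω₀] [Algebra (Boo p K m) Ω₀] [Algebra (AW p K m) Ω₀]
    [IsScalarTower (AW p K m) (Boo p K m) Ω₀]
    (hc : IsCompl (p : Boo p K m) (algebraMap (Boo p K m) Ω₀)) (hr : Reg (p : Ω₀))
    (n : ℕ) (hn : 0 < n) :
    RegL Ω₀ ((List.ofFn fun i : Fin m => algebraMap (AW p K m) Ω₀ (MvPowerSeries.X i)).map (· ^ n)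
      ++ [(p : Ω₀) ^ n]) := by
  have h1 := MixReg2.regL_witt p K m n
  have hf : W.FlatAt (algebraMap (AW p K m) Ω₀) ((p : AW p K m) ^ n) := by
    rw [IsScalarTower.algebraMap_eq (AW p K m) (Boo p K m) Ω₀]
    refine W.FlatAt.comp (flatAt_of_flat _) ?_
    rw [map_pow, map_natCast]
    exact flatAt_of_isCompl hc n
  have hra : W.RegAt (algebraMap (AW p K m) Ω₀) (p : AW p K m) := by
    intro b hb
    rw [map_natCast] at hb
    exact hr b hb
  have h2 := regL_of_flatAt hf hra _ h1
  rw [List.map_append, List.map_map] at h2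
  rw [List.map_ofFn] at h2 ⊢
  simp only [List.map_cons, List.map_nil, map_pow, map_natCast] at h2
  convert h2 using 3
  funext i
  simp

theorem reg_pow_eq {Ω : Type*} [CommRing Ω] {P : Ω} (h : Reg P) (n : ℕ) :
    ∀ x : Ω, P ^ n * x = 0 → x = 0 := by
  induction n with
  | zero => intro x hx; simpa using hx
  | succ n ih =>
    intro x hx
    rw [pow_succ, mul_assoc] at hx
    exact h _ (ih _ hx)

/-- **The stages over an abstract Cohen factorisation.** -/
theorem stages_aux (p : ℕ) [hp : Fact p.Prime] {A R A' T Ω To : Type u} [CommRing A] [IsDomain A]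
    [IsIntegrallyClosed A] [IsNoetherianRing A] [CharZero A] [CommRing R] [IsDomain R]
    [CommRing A'] [CommRing T] [CommRing Ω] [CommRing To]
    [Algebra A R] [Module.Finite A R] [Algebra A A'] [Module.Flat A A'] [Algebra A T]
    [Algebra R T] [Algebra A' T] [IsScalarTower A R T] [IsScalarTower A A' T]
    [Algebra.IsPushout A R A' T] [Algebra A' Ω] [Algebra T To] [Algebra A' To] [Algebra Ω To]
    [IsScalarTower A' T To] [IsScalarTower A' Ω To] [Algebra.IsPushout A' Ω T To]
    (hinj : Function.Injective (algebraMap A R)) (hpA : Prime (p : A)) {ϖ : ℕ → Ω}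
    (M₀ : Model p Ω ϖ)
    (hRM : ∀ D : A', RegMod D (p : A') → RegMod (algebraMap A' Ω D) (p : Ω))
    (𝔪 : Ideal R) (h𝔪 : 𝔪.FG) (hp𝔪 : (p : R) ∈ 𝔪) {b g : ℕ} (z : Fin b → R)
    (hz0 : ∀ i, z i ≠ 0) (c : ℕ) (hred : 𝔪 ^ (c + 1) ≤ Ideal.span (Set.range z) * 𝔪 ^ c)
    (yT : Fin g → T)
    (hy : ∀ e j, ∃ η : Ω, algebraMap Ω To η ^ (p ^ e) = algebraMap T To (yT j))
    (𝔞 : Ideal T) (h𝔞 : 𝔞 ≤ 𝔪.map (algebraMap R T) ⊔ Ideal.span (Set.range yT))
    (t : Fin (b + g) → T) (τ : List Ω)
    (ht : (List.ofFn fun i => algebraMap T To (t i)) = (τ ++ [(p : Ω)]).map (algebraMap Ω To))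
    (hreg : ∀ n : ℕ, 0 < n → RegL Ω (τ.map (· ^ n) ++ [(p : Ω) ^ n]))
    (k₀ : ℕ) (hk₀ : (p : T) ^ k₀ ∈
      Ideal.span (Set.range (Fin.append (fun i => algebraMap R T (z i)) yT))) :
    ∃ c' : ℕ, ∀ e : ℕ, c' < p ^ e → ∃ Δ : R, Δ ∈ R⁰ ∧ Nonempty (Core.Stage T To
      (Fin.append (fun i => algebraMap R T (z i)) yT) t (algebraMap R T Δ) 𝔞 (p ^ e)
      (p ^ e - c')) := by
  obtain ⟨f, θ, D, M, hf, hfd, hθ, hinjθ, hpD, hD0, hspan, hsep, hz'⟩ :=
    MixAlg.exists_alg hinj p hpA z hz0
  obtain ⟨n₀, F, hamp⟩ := Fam.amplitude.{u, u} p 𝔪 h𝔪 hp𝔪 z c hred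
  -- the algebra structures
  let _ : Algebra A Ω := ((algebraMap A' Ω).comp (algebraMap A A')).toAlgebra
  have _ : IsScalarTower A A' Ω := .of_algebraMap_eq fun _ => rfl
  let _ : Algebra R To := ((algebraMap T To).comp (algebraMap R T)).toAlgebra
  have _ : IsScalarTower R T To := .of_algebraMap_eq fun _ => rfl
  let _ : Algebra A To := ((algebraMap A' To).comp (algebraMap A A')).toAlgebra
  have _ : IsScalarTower A A' To := .of_algebraMap_eq fun _ => rfl
  have _ : IsScalarTower A T To := .of_algebraMap_eq fun x => by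
    rw [IsScalarTower.algebraMap_apply A A' T, ← IsScalarTower.algebraMap_apply A' T To]
    rfl
  have _ : IsScalarTower A R To := .of_algebraMap_eq fun x => by
    rw [IsScalarTower.algebraMap_apply R T To, ← IsScalarTower.algebraMap_apply A R T,
      ← IsScalarTower.algebraMap_apply A T To]
  have _ : IsScalarTower A Ω To := .of_algebraMap_eq fun x => by
    rw [IsScalarTower.algebraMap_apply A A' Ω, ← IsScalarTower.algebraMap_apply A' Ω To]
    rfl
  have hPsym : Algebra.IsPushout A' T Ω To := Algebra.IsPushout.symm inferInstance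
  have hP1 : Algebra.IsPushout A A' R T := Algebra.IsPushout.symm inferInstance
  -- the big rectangle
  have hP2 : Algebra.IsPushout A Ω R To :=
    (Algebra.IsPushout.comp_iff A A' R T (T := Ω) (T' := To)).2 inferInstance
  have hP3 : Algebra.IsPushout A R Ω To := hP2.symm
  have hfinT : Module.Finite A' T := pushout_finite A R A' T
  have hfinTo : Module.Finite Ω To := pushout_finite A' T Ω To
  have hint : Algebra.IsIntegral Ω To := inferInstance
  -- `D` in `Ω`
  have hRA : RegMod D (p : A) := MixCoh.regMod_of_prime hpA hpD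
  have hRA' : RegMod (algebraMap A A' D) (p : A') := MixCoh.regMod_of_flat_natCast hRA
  have hRΩ : RegMod (algebraMap A Ω D) (p : Ω) := hRM _ hRA'
  have hP := M₀.props
  have hcA₀ : IsAdicComplete (Ideal.span {(p : Ω)}) Ω := hP.2.2.1
  have hpow : algebraMap A Ω (((p : A) * D) ^ M) = ((p : Ω) * algebraMap A Ω D) ^ M := by
    rw [map_pow, map_mul, map_natCast]
  have hregpow : ∀ x : Ω, algebraMap A Ω (((p : A) * D) ^ M) * x = 0 → x = 0 := by
    rw [hpow]
    exact reg_pow_eq (hP.2.1.mul (Reg.of_regMod hP.2.1 sep_of_isAdicComplete hRΩ)) M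
  obtain ⟨hb1, hb2⟩ := MixBC.bc (To := To) f hf θ hθ hinjθ (((p : A) * D) ^ M) hspan hregpow
  rw [hpow] at hb2
  refine ⟨n₀, fun e he => ?_⟩
  obtain ⟨k, hk⟩ := exists_stage M₀ hRΩ (R := R) (T := T) (To := To) (f.map (algebraMap A Ω))
    (hf.map _) (algebraMap R To θ) (by
      rw [aeval_map_algebraMap, aeval_algebraMap_apply, hθ, map_zero]) hb1 M hb2 (by
      obtain ⟨u, v, huv⟩ := hsep
      refine ⟨u.map (algebraMap A Ω), v.map (algebraMap A Ω), ?_⟩
      rw [derivative_map, ← Polynomial.map_mul, ← Polynomial.map_mul, ← Polynomial.map_add, huv,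
        Polynomial.map_C, hpow]) z (by
      intro i
      obtain ⟨z', hz'⟩ := hz' i
      refine ⟨algebraMap R To z', ?_⟩
      rw [← map_mul, hz', ← hpow, ← IsScalarTower.algebraMap_apply A R To,
        ← IsScalarTower.algebraMap_apply A Ω To]) 𝔪 n₀ F hamp yT e (p ^ e - n₀) (by omega)
      (hy e) 𝔞 h𝔞 t τ ht hreg (algebraMap A R D) (by
        rw [← IsScalarTower.algebraMap_apply A R To, ← IsScalarTower.algebraMap_apply A Ω To])
      k₀ hk₀
  refine ⟨((p : R) * algebraMap A R D) ^ k, ?_, hk⟩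
  refine pow_mem (mul_mem ?_ ?_) k
  · rw [mem_nonZeroDivisors_iff_ne_zero]
    intro h
    apply hpA.ne_zero
    apply hinj
    rw [map_natCast, h, map_zero]
  · rw [mem_nonZeroDivisors_iff_ne_zero]
    intro h
    apply hD0
    apply hinj
    rw [h, map_zero]

theorem rt_pow_pow {B : Type u} [CommRing B] (p : ℕ) (hp : 0 < p) {d : ℕ} (t : Fin d → B)
    (e : ℕ) (i : Fin d) :
    BInf.rt p t hp e i ^ (p ^ e) = algebraMap B (BInf.BInf p t) (t i) := by
  induction e with
  | zero => rw [pow_zero, pow_one, BInf.rt_zero]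
  | succ e ih => rw [pow_succ, mul_comm, pow_mul, BInf.rt_succ_pow, ih]

/-- **The mixed characteristic stages exist.** -/
theorem mixStage (p : ℕ) [hp : Fact p.Prime] : MixStage.{u} p := by
  intro d g C₀ K R T S Ω₀ To _ _ _ _ _ _ _ _ _ _ _ _ _ _ _ _ _ _ _ _ _ _ _ _ _ _ _ _ _ _ _ _ _ _
    π hC h hinj hX z c hzm hz0 hred M₀ hcompl htrans
  have hAd : IsDomain (AA C₀ d) := MixCoh.isDomain_mv hC d
  have hAn : IsNoetherianRing (AA C₀ d) := MixCoh.isNoetherianRing_mv hC d
  have hAi : IsIntegrallyClosed (AA C₀ d) := MixCoh.isIntegrallyClosed_mv hC d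
  have hAc : CharZero (AA C₀ d) := MixCoh.charZero_mv hC d
  have hAp : Prime (p : AA C₀ d) := MixCoh.prime_mv hC d
  have hfR := h.finite_R
  have hflat := h.flat_A'
  have hlA' := h.local_A'
  have hlR := h.local_R
  have hlT := h.local_T
  have hlA'T := h.local_A'T
  have hpR : (p : R) ∈ maximalIdeal R := by
    rw [mem_maximalIdeal, mem_nonunits_iff]
    intro hu
    have h1 : IsUnit (algebraMap (AA C₀ d) R (p : AA C₀ d)) := by rwa [map_natCast]
    exact hAp.not_isUnit (isUnit_of_map_unit _ _ h1)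
  have hpT : (p : T) ∈ maximalIdeal T := by
    rw [mem_maximalIdeal, mem_nonunits_iff]
    intro hu
    have h1 : IsUnit (algebraMap R T (p : R)) := by rwa [map_natCast]
    have h2 := isUnit_of_map_unit _ _ h1
    exact (mem_nonunits_iff.1 ((mem_maximalIdeal _).1 hpR)) h2
  -- `t`
  let x : Fin (d + g) → AW p K (d + g) := fun i => MvPowerSeries.X i
  have hlen : d + 1 + g = (d + g) + 1 := by omega
  let t' : Fin ((d + g) + 1) → T := Fin.snoc (fun i => algebraMap (AW p K (d + g)) T (x i)) (p : T)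
  let t : Fin (d + 1 + g) → T := fun i => t' (Fin.cast hlen i)
  have htm : ∀ i, t i ∈ maximalIdeal T := by
    intro i
    have : ∀ j, t' j ∈ maximalIdeal T := by
      intro j
      refine Fin.lastCases ?_ (fun j => ?_) j
      · simp only [t', Fin.snoc_last]
        exact hpT
      · simp only [t', Fin.snoc_castSucc]
        rw [mem_maximalIdeal, mem_nonunits_iff]
        intro hu
        have h2 : IsUnit (x j) := isUnit_of_map_unit _ _ hu
        have h3 : IsUnit (MvPowerSeries.constantCoeff (x j)) := h2.map _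
        rw [MvPowerSeries.constantCoeff_X] at h3
        exact not_isUnit_zero h3
    exact this _
  refine ⟨t, htm, ?_⟩
  refine stages_aux p (A := AA C₀ d) (R := R) (A' := AW p K (d + g)) (T := T) (Ω := Ω₀) (To := To)
    hinj hAp M₀ ?_ (maximalIdeal R) (IsNoetherian.noetherian _) hpR z hz0 c hred.le
    (fun j : Fin g => YT p K d g T j) ?_ (maximalIdeal T) ?_ t
    (List.ofFn fun i => algebraMap (AW p K (d + g)) Ω₀ (x i)) ?_
    (fun n hn => regL_omega p K (d + g) Ω₀ hcompl M₀.props.2.1 n hn) (c + 1) ?_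
  · -- regularity modulo `p`
    intro D hD
    rw [IsScalarTower.algebraMap_apply (AW p K (d + g)) (Boo p K (d + g)) Ω₀]
    exact htrans _ (BInf.regMod_algebraMap hD)
  · -- roots of the `y_j`
    intro e j
    refine ⟨algebraMap (Boo p K (d + g)) Ω₀
      (BInf.rt p (BInf.tb (d + g) p (WittVector p K)) hp.out.pos e (Fin.natAdd d j).succ), ?_⟩
    rw [← map_pow, ← map_pow, rt_pow_pow]
    have h1 : BInf.tb (d + g) p (WittVector p K) (Fin.natAdd d j).succ =
      MvPowerSeries.X (Fin.natAdd d j) := rfl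
    rw [h1, ← IsScalarTower.algebraMap_apply (AW p K (d + g)) (Boo p K (d + g)) Ω₀,
      ← IsScalarTower.algebraMap_apply (AW p K (d + g)) Ω₀ To]
    rw [YT, yvar_apply, ← IsScalarTower.algebraMap_apply (AW p K (d + g)) T To]
  · -- the maximal ideal of `T`
    rw [← h.max]
    refine sup_le le_sup_left (le_trans ?_ le_sup_right)
    rw [Ideal.span_le]
    rintro _ ⟨j, hj, rfl⟩
    exact Ideal.subset_span ⟨⟨j, hj⟩, rfl⟩
  · -- the list
    have h1 : (List.ofFn fun i => algebraMap T To (t i)) =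
        List.ofFn fun i => algebraMap T To (t' i) := by
      rw [List.ofFn_congr hlen]
      rfl
    rw [h1, List.ofFn_succ']
    simp only [t', Fin.snoc_last, Fin.snoc_castSucc, map_natCast, List.concat_eq_append,
      List.map_append, List.map_ofFn, List.map_cons, List.map_nil]
    congr 2
    funext i
    show _ = algebraMap Ω₀ To (algebraMap (AW p K (d + g)) Ω₀ (x i))
    rw [← IsScalarTower.algebraMap_apply (AW p K (d + g)) T To,
      ← IsScalarTower.algebraMap_apply (AW p K (d + g)) Ω₀ To]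
  · -- `p ^ (c + 1) ∈ (w)`
    have h1 := h.reduction z c hred.le
    have h2 : (p : T) ^ (c + 1) ∈ maximalIdeal T ^ (c + 1) := Ideal.pow_mem_pow hpT (c + 1)
    exact Ideal.mul_le_left (h1 h2)

end Crest.Agent.R183.Mix
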