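import Crest.Agent.R183.Mix5
import Crest.Agent.R183.KT6

/-!
R183 / Mix6 (helper902) : `CoreMixed`.
-/

set_option autoImplicit false

namespace Crest.Agent.R183.Mix

universe u

/-- **The mixed characteristic core theorem.** -/
theorem coreMixed (p : ℕ) (hp : p.Prime) : Top.CoreMixed.{u, u} p := by
  have : Fact p.Prime := ⟨hp⟩
  exact CoreM.coreMixed_of_stage p (fun D β hD => KT.kHyp D β hD) (mixStage p)

end Crest.Agent.R183.Mix
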