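import Crest.Agent.R183.BCM8

/-!
# R183 (Lech), block Mix, request (P2): rescaled coordinates.
(helper523)
-/

set_option autoImplicit false

namespace Crest.Agent.R183.BCM

universe u

variable {A C : Type u} [CommRing A] [CommRing C] [Algebra A C]
variable {ι : Type} [Fintype ι] [DecidableEq ι]
variable {Δ : A} {b : ι → C} {β : C →ₗ[A] (ι → A)}

/-- Coordinates for a multiple of the denominator. -/
theorem Coord.smul (h : Coord Δ b β) (r : A) : Coord (Δ * r) b (r • β) := by
  constructor
  · intro c
    rw [mul_comm, mul_smul, h.sum, Finset.smul_sum]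
    exact Finset.sum_congr rfl (fun i _ => by
      rw [LinearMap.smul_apply, Pi.smul_apply, smul_assoc])
  · intro i
    rw [LinearMap.smul_apply, h.dual]
    ext j
    simp [Pi.single_apply, mul_comm]

/-- Coordinates for a power of the denominator. -/
theorem Coord.pow (h : Coord Δ b β) (n : ℕ) : Coord (Δ ^ (n + 1)) b (Δ ^ n • β) := by
  rw [pow_succ']
  exact h.smul _

/-- Coordinates for any element divisible by the denominator. -/
theorem Coord.of_dvd (h : Coord Δ b β) {Δ' : A} (hd : Δ ∣ Δ') :
    ∃ β' : C →ₗ[A] (ι → A), Coord Δ' b β' := by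
  obtain ⟨r, rfl⟩ := hd
  exact ⟨_, h.smul r⟩

end Crest.Agent.R183.BCM
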