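/-
R183 (Lech) / MixReg, block (P8) of helper902: `X_1^n, …, X_m^n, p^n` is a regular sequence
(read from the last entry) on `Λ[[X]]`, on `B_∞` and on its `p`-completion.
Author: helper685.
-/
import Crest.Agent.R183.Mix1
import Crest.Agent.R183.RegPS
import Crest.Agent.R183.BInf7
import Crest.Agent.R183.CoreM

set_option autoImplicit false
set_option linter.unusedSectionVars false

namespace Crest.Agent.R183.MixReg

open Crest.Agent.R183.Glue Crest.Agent.R183.W Crest.Agent.R183.Om Crest.Agent.R183.CoreM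

section

variable {n : ℕ} {R : Type*} [CommRing R]

local notation "PS" => MvPowerSeries (Fin n) R

/-- membership in the ideal generated by `X_i^k`, `i ∈ l`, and a constant `a`. -/
theorem mem_span_X_pow_append_iff (k : ℕ) (l : List (Fin n)) (a : R) (f : PS) :
    f ∈ Ideal.span {y : PS | y ∈ l.map (fun i => (MvPowerSeries.X i : PS) ^ k) ++
        [MvPowerSeries.C a]} ↔
      ∀ m : Fin n →₀ ℕ, (∀ i ∈ l, m i < k) → a ∣ MvPowerSeries.coeff m f := by
  classical
  have hset : {y : PS | y ∈ l.map (fun i => (MvPowerSeries.X i : PS) ^ k) ++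
      [MvPowerSeries.C a]} = {y : PS | y ∈ l.map (fun i => (MvPowerSeries.X i : PS) ^ k)} ∪
        {MvPowerSeries.C a} := by
    ext y
    simp only [List.mem_append, List.mem_singleton, Set.mem_ofPred_eq, Set.mem_union,
      Set.mem_singleton_iff]
  rw [hset, Ideal.span_union, Submodule.mem_sup]
  constructor
  · rintro ⟨f1, h1, f2, h2, rfl⟩ m hm
    rw [PC.mem_span_X_pow_iff] at h1
    rw [Ideal.mem_span_singleton'] at h2
    obtain ⟨c, rfl⟩ := h2
    rw [map_add, h1 m hm, zero_add, mul_comm, MvPowerSeries.coeff_C_mul]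
    exact dvd_mul_right _ _
  · intro h
    let g : PS := fun m => if hm : (∀ i ∈ l, m i < k) then (h m hm).choose else 0
    have hg : ∀ m (hm : ∀ i ∈ l, m i < k), MvPowerSeries.coeff m f =
        a * MvPowerSeries.coeff m g := by
      intro m hm
      have e : MvPowerSeries.coeff m g = (h m hm).choose := by
        show (if hm : (∀ i ∈ l, m i < k) then (h m hm).choose else 0) = _
        rw [dif_pos hm]
      rw [e]
      exact (h m hm).choose_spec
    refine ⟨f - MvPowerSeries.C a * g, ?_, MvPowerSeries.C a * g, ?_, by ring⟩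
    · rw [PC.mem_span_X_pow_iff]
      intro m hm
      rw [map_sub, MvPowerSeries.coeff_C_mul, hg m hm, sub_self]
    · exact Ideal.mul_mem_right _ _ (Ideal.mem_span_singleton_self _)

/-- the variables followed by a nonzerodivisor `a` of the coefficient ring: a regular sequence
(`a` is tested first). -/
theorem regL_X_pow_append (k : ℕ) (a : R) (ha : ∀ x : R, a * x = 0 → x = 0) (l : List (Fin n))
    (hl : l.Nodup) :
    RegL PS (l.map (fun i => (MvPowerSeries.X i : PS) ^ k) ++ [MvPowerSeries.C a]) := by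
  classical
  induction l with
  | nil =>
    refine ⟨trivial, fun f hf => ?_⟩
    have h0 : (Ideal.span {y : PS | y ∈ ([] : List PS)} • (⊤ : Submodule PS PS)) = ⊥ := by simp
    rw [h0, Submodule.mem_bot] at hf ⊢
    ext m
    rw [map_zero]
    apply ha
    rw [← MvPowerSeries.coeff_C_mul, ← smul_eq_mul (MvPowerSeries.C a), hf, map_zero]
  | cons i l ih =>
    rw [List.nodup_cons] at hl
    refine ⟨ih hl.2, ?_⟩
    intro f hf
    have hs : ∀ I : Ideal PS, (I • (⊤ : Submodule PS PS)) = I := fun I => by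
      rw [smul_eq_mul, Ideal.mul_top]
    rw [hs] at hf ⊢
    have hf' := (mem_span_X_pow_append_iff k l a _).1 hf
    refine (mem_span_X_pow_append_iff k l a _).2 ?_
    intro m hm
    have h1 := hf' (m + Finsupp.single i k) (by
      intro j hj
      rw [Finsupp.add_apply, Finsupp.single_apply, if_neg, add_zero]
      · exact hm j hj
      · rintro rfl; exact hl.1 hj)
    beta_reduce at h1
    rw [smul_eq_mul, MvPowerSeries.X_pow_eq, add_comm,
      MvPowerSeries.coeff_add_monomial_mul, one_mul] at h1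
    exact h1

/-- `X_1^k, …, X_n^k, a^j` -/
theorem regL_append (k : ℕ) (a : R) (ha : ∀ x : R, a * x = 0 → x = 0) (j : ℕ) :
    RegL PS (((List.ofFn fun i : Fin n => (MvPowerSeries.X i : PS)).map (· ^ k)) ++
      [(MvPowerSeries.C a) ^ j]) := by
  have haj : ∀ (j : ℕ) (x : R), a ^ j * x = 0 → x = 0 := by
    intro j
    induction j with
    | zero => intro x hx; simpa using hx
    | succ j ih => intro x hx; exact ih x (ha _ (by rw [← mul_assoc, ← pow_succ']; exact hx))
  have h := regL_X_pow_append (R := R) k (a ^ j) (haj j) (List.finRange n)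
    (List.nodup_finRange n)
  rw [List.map_ofFn, ← map_pow]
  rw [← List.ofFn_eq_map] at h
  exact h

/-- `X_1^k, …, X_n^k, p^j` on `Λ[[X]]`, for `p` regular on `Λ`. -/
theorem regL_natCast (p : ℕ) (hp : ∀ x : R, (p : R) * x = 0 → x = 0) (k j : ℕ) :
    RegL PS (((List.ofFn fun i : Fin n => (MvPowerSeries.X i : PS)).map (· ^ k)) ++
      [(p : PS) ^ j]) := by
  have h := regL_append (n := n) k (p : R) hp j
  rwa [map_natCast] at h

end

section Witt

variable (p : ℕ) [hp : Fact p.Prime] (K : Type*) [Field K] [CharP K p] [PerfectRing K p] (m : ℕ)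

/-- on `W(K)[[X]]` -/
theorem regL_witt (k j : ℕ) :
    RegL (AW p K m) (((List.ofFn fun i : Fin m => (MvPowerSeries.X i : AW p K m)).map (· ^ k)) ++
      [(p : AW p K m) ^ j]) := by
  refine regL_natCast p (fun x hx => ?_) k j
  have h0 : (p : WittVector p K) ≠ 0 := WittVector.p_nonzero p K
  exact (mul_eq_zero.1 hx).resolve_left h0

end Witt

section Boo

variable (p : ℕ) [hp : Fact p.Prime] (K : Type*) [Field K] [CharP K p] [PerfectRing K p] (m : ℕ)

/-- on `B_∞` -/
theorem regL_boo (k j : ℕ) :
    RegL (Boo p K m) (((List.ofFn fun i : Fin m =>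
      algebraMap (AW p K m) (Boo p K m) (MvPowerSeries.X i)).map (· ^ k)) ++
      [(p : Boo p K m) ^ j]) := by
  have h1 : RegL (Boo p K m) (((List.ofFn fun i : Fin m =>
      (MvPowerSeries.X i : AW p K m)).map (· ^ k)) ++ [(p : AW p K m) ^ j]) :=
    Mix.regL_of_flat _ (regL_witt p K m k j)
  have h2 := (BCM.RegL_map_iff (M := Boo p K m) (C := Boo p K m) _).2 h1
  rw [List.map_append, List.map_map, List.map_ofFn] at h2
  rw [List.map_ofFn]
  have e1 : ((algebraMap (AW p K m) (Boo p K m) : AW p K m → Boo p K m) ∘ fun x => x ^ k) ∘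
      (fun i : Fin m => (MvPowerSeries.X i : AW p K m)) =
      ((fun x => x ^ k) ∘ fun i : Fin m =>
        algebraMap (AW p K m) (Boo p K m) (MvPowerSeries.X i)) := by
    funext i
    simp
  have e2 : [(p : AW p K m) ^ j].map (algebraMap (AW p K m) (Boo p K m)) =
      [(p : Boo p K m) ^ j] := by simp
  rw [e1, e2] at h2
  exact h2

/-- `X_1^k, …, X_m^k, p^n` on the `p`-completion `Ω` of `B_∞`. -/
theorem regL_completion {Ω : Type*} [CommRing Ω] [Algebra (Boo p K m) Ω] [Algebra (AW p K m) Ω]
    [IsScalarTower (AW p K m) (Boo p K m) Ω]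
    (hc : IsCompl (p : Boo p K m) (algebraMap (Boo p K m) Ω)) (hr : Reg (p : Ω)) (k n : ℕ) :
    RegL Ω (((List.ofFn fun i : Fin m =>
      algebraMap (AW p K m) Ω (MvPowerSeries.X i)).map (· ^ k)) ++ [(p : Ω) ^ n]) := by
  have h1 := Mix.regL_of_flatAt (Mix.flatAt_of_isCompl hc n)
    (fun b hb => hr b (by rwa [map_natCast] at hb)) _ (regL_boo p K m k n)
  rw [List.map_append, List.map_map, List.map_ofFn] at h1
  rw [List.map_ofFn]
  have e1 : ((algebraMap (Boo p K m) Ω : Boo p K m → Ω) ∘ fun x => x ^ k) ∘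
      (fun i : Fin m => algebraMap (AW p K m) (Boo p K m) (MvPowerSeries.X i)) =
      ((fun x => x ^ k) ∘ fun i : Fin m =>
        algebraMap (AW p K m) Ω (MvPowerSeries.X i)) := by
    funext i
    simp only [Function.comp_apply, map_pow]
    rw [← IsScalarTower.algebraMap_apply]
  have e2 : [(p : Boo p K m) ^ n].map (algebraMap (Boo p K m) Ω) = [(p : Ω) ^ n] := by simp
  rw [e1, e2] at h1
  exact h1

end Boo

end Crest.Agent.R183.MixReg
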