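import Crest.Agent.R183.Om5

/-!
R183 / Om6 : block (T): the completed tensor product `Ω'' = (A ⊗ B)^` of integral perfectoid rings,
and `Heb.Data` for localisations.
-/

set_option autoImplicit false
set_option linter.unusedSectionVars false

namespace Crest.Agent.R183.Om

open WittVector Crest.Agent.R183.Amp TensorProduct

universe u

section Loc

variable {R : Type*} [CommRing R]

lemma Reg.of_regMod {p D : R} (hp : Reg p) (hsep : ∀ x : R, (∀ n : ℕ, p ^ n ∣ x) → x = 0)
    (hD : RegMod D p) : Reg D := by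
  have key : ∀ (n : ℕ) (x : R), D * x = 0 → p ^ n ∣ x := by
    intro n
    induction n with
    | zero => intro x _; simp
    | succ n ih =>
      intro x hx
      obtain ⟨y, rfl⟩ := hD x (by rw [hx]; exact dvd_zero _)
      have h1 : D * y = 0 := hp _ (by linear_combination hx)
      obtain ⟨z, rfl⟩ := ih y h1
      exact ⟨z, by rw [pow_succ']; ring⟩
  intro x hx
  exact hsep x fun n => key n x hx

lemma sep_of_isAdicComplete {p : R} [IsAdicComplete (Ideal.span {p}) R] (x : R)
    (h : ∀ n : ℕ, p ^ n ∣ x) : x = 0 := by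
  refine IsHausdorff.haus (I := Ideal.span {p}) inferInstance x fun n => ?_
  rw [SModEq.zero, smul_eq_mul, Ideal.mul_top, Ideal.span_singleton_pow,
    Ideal.mem_span_singleton]
  exact h n

lemma Reg.mul {a b : R} (ha : Reg a) (hb : Reg b) : Reg (a * b) := by
  intro x hx
  exact hb _ (ha _ (by rw [← mul_assoc]; exact hx))

lemma Reg.injective_away {a : R} (ha : Reg a) :
    Function.Injective (algebraMap R (Localization.Away a)) := by
  apply IsLocalization.injective (Localization.Away a) (M := Submonoid.powers a)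
  rintro _ ⟨n, rfl⟩
  have h : Reg (a ^ n) := by
    induction n with
    | zero => intro x hx; simpa using hx
    | succ n ih => rw [pow_succ]; exact ih.mul ha
  rw [mem_nonZeroDivisors_iff_right]
  intro x hx
  exact h x (by rw [mul_comm]; exact hx)

/-- `Heb.Data` for `K = R[1/(pD)]`. -/
noncomputable def PData.hebAway {p : ℕ} [Fact p.Prime] {ϖ : ℕ → R}
    (d : PData p R ϖ) (hr : Reg (p : R)) [IsAdicComplete (Ideal.span {(p : R)}) R]
    (δ : ℕ → R) (hδ : ∀ e, δ (e + 1) ^ p = δ e) (hD : RegMod (δ 0) (p : R)) :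
    Heb.Data p R (Localization.Away ((p : R) * δ 0)) :=
  d.heb hr (hr.mul (Reg.of_regMod hr sep_of_isAdicComplete hD)).injective_away
    (isUnit_of_mul_isUnit_left (y := algebraMap R _ (δ 0)) (by
      rw [← map_mul]; exact IsLocalization.Away.algebraMap_isUnit _)) δ hδ
    (isUnit_of_mul_isUnit_right (x := algebraMap R _ (p : R)) (by
      rw [← map_mul]; exact IsLocalization.Away.algebraMap_isUnit _)) hD

end Loc

/-- **Block (T)**: the completed tensor product of two integral perfectoid `A₀`-algebras, flat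
modulo `p^n` over `A₀`. -/
theorem exists_tensor_completion {p : ℕ} [hp : Fact p.Prime]
    {A₀ A B : Type u} [CommRing A₀] [CommRing A] [CommRing B] [Algebra A₀ A] [Algebra A₀ B]
    {ϖ : ℕ → A₀} (d0 : PData p A₀ ϖ) (dA : PData p A (fun e => algebraMap A₀ A (ϖ e)))
    (dB : PData p B (fun e => algebraMap A₀ B (ϖ e)))
    (hA : ∀ n : ℕ, FlatQ A₀ (B := A) (Ideal.span {(p : A₀) ^ n}))
    (hB : ∀ n : ℕ, FlatQ A₀ (B := B) (Ideal.span {(p : A₀) ^ n})) :
    ∃ (C : Type u) (_ : CommRing C) (ι : A ⊗[A₀] B →+* C),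
      IsCompl (p : A ⊗[A₀] B) ι ∧
      PData p C (fun e => ι (algebraMap A₀ (A ⊗[A₀] B) (ϖ e))) ∧
      Reg (p : C) ∧ IsAdicComplete (Ideal.span {(p : C)}) C ∧
      (∀ (n : ℕ) (t : A ⊗[A₀] B), (p : C) ^ n ∣ ι t ↔ (p : A ⊗[A₀] B) ^ n ∣ t) ∧
      (∀ (n : ℕ) (c : C), ∃ t : A ⊗[A₀] B, (p : C) ^ n ∣ c - ι t) ∧
      (∀ D : A, RegMod D (p : A) → RegMod (ι (D ⊗ₜ 1)) (p : C)) ∧
      (∀ D : B, RegMod D (p : B) → RegMod (ι (1 ⊗ₜ D)) (p : C)) := by
  obtain ⟨C, _, ι, h⟩ := exists_isCompl (p : A ⊗[A₀] B)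
  have hp0 : ι (p : A ⊗[A₀] B) = (p : C) := map_natCast ι p
  obtain ⟨hd, hr⟩ := (tensor_pdata d0 dA dB hB).completion h
  refine ⟨C, inferInstance, ι, h, hd, hr, ?_, ?_, ?_, ?_, ?_⟩
  · have := h.complete
    rwa [hp0] at this
  · intro n t
    rw [← hp0]; exact h.dvd_iff n t
  · intro n c
    rw [← hp0]; exact h.dense n c
  · intro D hD
    rw [← hp0]; exact h.regMod (tensor_regMod_left (hB 1) hD)
  · intro D hD
    rw [← hp0]; exact h.regMod (tensor_regMod_right (hA 1) hD)

end Crest.Agent.R183.Om
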