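/-
R183 (Lech): quasi-regularity for an additive length, null-tolerant.   helper685
-/
import Mathlib
import Crest.Agent.R183.AddLen

set_option autoImplicit false

namespace Crest.Agent.R183.QReg

open scoped ENNReal

universe u v

variable {A : Type u} [CommRing A] {W : Type v} [AddCommGroup W] [Module A W] {d : ℕ}

/-- the monomial attached to a multiset of size `n`. -/
def mon (y : Fin d → A) {n : ℕ} (s : Sym (Fin d) n) : A := ((s : Multiset (Fin d)).map y).prod

lemma mon_cons (y : Fin d → A) {n : ℕ} (i : Fin d) (s : Sym (Fin d) n) :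
    mon y (i ::ₛ s) = y i * mon y s := by
  simp [mon, Sym.coe_cons]

/-- evaluation of the relations of degree `n`. -/
noncomputable def ev (W : Type v) [AddCommGroup W] [Module A W] (y : Fin d → A) (n : ℕ) :
    (Sym (Fin d) n → W) →ₗ[A] W :=
  ∑ s : Sym (Fin d) n, mon y s • LinearMap.proj s

lemma ev_apply (y : Fin d → A) (n : ℕ) (w : Sym (Fin d) n → W) :
    ev W y n w = ∑ s, mon y s • w s := by
  simp [ev]

/-- `w ↦ (s ↦ ∑_i y_i w(s,i))`. -/
noncomputable def vv (W : Type v) [AddCommGroup W] [Module A W] (y : Fin d → A) (n : ℕ) :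
    (Sym (Fin d) n × Fin d → W) →ₗ[A] (Sym (Fin d) n → W) :=
  LinearMap.pi fun s => ∑ i : Fin d, y i • LinearMap.proj (s, i)

lemma vv_apply (y : Fin d → A) (n : ℕ) (w : Sym (Fin d) n × Fin d → W) (s : Sym (Fin d) n) :
    vv W y n w s = ∑ i, y i • w (s, i) := by
  simp [vv]

/-- `w ↦ ∑ single (i ::ₛ s) (w (s,i))`. -/
noncomputable def sg (A : Type u) [CommRing A] (W : Type v) [AddCommGroup W] [Module A W]
    (d n : ℕ) :
    (Sym (Fin d) n × Fin d → W) →ₗ[A] (Sym (Fin d) (n + 1) → W) := by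
  classical
  exact ∑ p : Sym (Fin d) n × Fin d,
    (LinearMap.single A (fun _ => W) (p.2 ::ₛ p.1)) ∘ₗ LinearMap.proj p

lemma sg_single {n : ℕ} (p : Sym (Fin d) n × Fin d) (m : W) :
    sg A W d n (Pi.single p m) = Pi.single (p.2 ::ₛ p.1) m := by
  classical
  simp only [sg, LinearMap.coe_sum, Finset.sum_apply, LinearMap.comp_apply, LinearMap.proj_apply,
    LinearMap.single_apply]
  rw [Finset.sum_eq_single p]
  · simp
  · intro q _ hq
    rw [Pi.single_eq_of_ne hq]; simp
  · simp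

lemma sg_surjective (n : ℕ) : Function.Surjective (sg A W d n) := by
  classical
  rw [← LinearMap.range_eq_top, eq_top_iff]
  intro w _
  have : w = ∑ t, Pi.single t (w t) := (Finset.univ_sum_single w).symm
  rw [this]
  refine Submodule.sum_mem _ fun t _ => ?_
  obtain ⟨i, s, rfl⟩ := t.exists_eq_cons_of_succ
  exact ⟨Pi.single (s, i) _, by rw [sg_single]⟩

lemma ev_single (y : Fin d → A) (n : ℕ) (s : Sym (Fin d) n) (m : W) :
    ev W y n (Pi.single s m) = mon y s • m := by
  rw [ev_apply, Finset.sum_eq_single s]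
  · simp
  · intro t _ ht; rw [Pi.single_eq_of_ne ht, smul_zero]
  · simp

lemma vv_single (y : Fin d → A) (n : ℕ) (s : Sym (Fin d) n) (i : Fin d) (m : W) :
    vv W y n (Pi.single (s, i) m) = Pi.single s (y i • m) := by
  funext t
  rw [vv_apply]
  by_cases h : t = s
  · subst h
    rw [Finset.sum_eq_single i]
    · simp
    · intro j _ hj
      rw [Pi.single_eq_of_ne (by simpa using hj), smul_zero]
    · simp
  · rw [Pi.single_eq_of_ne h]
    refine Finset.sum_eq_zero fun j _ => ?_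
    rw [Pi.single_eq_of_ne (by simp [h]), smul_zero]

lemma ev_comp_sg (y : Fin d → A) (n : ℕ) :
    (ev W y (n + 1)) ∘ₗ (sg A W d n) = (ev W y n) ∘ₗ (vv W y n) := by
  refine LinearMap.pi_ext fun p m => ?_
  obtain ⟨s, i⟩ := p
  rw [LinearMap.comp_apply, LinearMap.comp_apply, vv_single, sg_single, ev_single, ev_single,
    mon_cons, smul_smul, mul_comm]

/-- all relations. -/
noncomputable def Rel (W : Type v) [AddCommGroup W] [Module A W] (y : Fin d → A) (n : ℕ) :
    Submodule A (Sym (Fin d) n → W) := LinearMap.ker (ev W y n)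

/-- trivial relations `y_i m e_s - y_j m e_t`, `i ::ₛ s = j ::ₛ t`. -/
def Triv (W : Type v) [AddCommGroup W] [Module A W] (y : Fin d → A) (n : ℕ) :
    Submodule A (Sym (Fin d) n → W) :=
  Submodule.span A {w | ∃ (s t : Sym (Fin d) n) (i j : Fin d) (m : W), i ::ₛ s = j ::ₛ t ∧
    w = Pi.single s (y i • m) - Pi.single t (y j • m)}

/-- `e_{(s,i)} m - e_{(t,j)} m`. -/
def Q (A : Type u) [CommRing A] (W : Type v) [AddCommGroup W] [Module A W] (d n : ℕ) :
    Submodule A (Sym (Fin d) n × Fin d → W) :=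
  Submodule.span A {w | ∃ (s t : Sym (Fin d) n) (i j : Fin d) (m : W), i ::ₛ s = j ::ₛ t ∧
    w = Pi.single (s, i) m - Pi.single (t, j) m}

lemma map_Q_sg (n : ℕ) : (Q A W d n).map (sg A W d n) = ⊥ := by
  rw [Q, Submodule.map_span, Submodule.span_eq_bot]
  rintro _ ⟨_, ⟨s, t, i, j, m, h, rfl⟩, rfl⟩
  rw [map_sub, sg_single, sg_single]
  simp only [h, sub_self]

lemma map_Q_vv (y : Fin d → A) (n : ℕ) : (Q A W d n).map (vv W y n) = Triv W y n := by
  rw [Q, Submodule.map_span, Triv]
  congr 1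
  ext w
  constructor
  · rintro ⟨_, ⟨s, t, i, j, m, h, rfl⟩, rfl⟩
    exact ⟨s, t, i, j, m, h, by rw [map_sub, vv_single, vv_single]⟩
  · rintro ⟨s, t, i, j, m, h, rfl⟩
    exact ⟨_, ⟨s, t, i, j, m, h, rfl⟩, by rw [map_sub, vv_single, vv_single]⟩

/-- first syzygies: `{w | ∑ y_i w_i = 0}`. -/
noncomputable def R1 (W : Type v) [AddCommGroup W] [Module A W] (y : Fin d → A) :
    Submodule A (Fin d → W) := LinearMap.ker (∑ i : Fin d, y i • (LinearMap.proj i : (Fin d → W) →ₗ[A] W))

lemma mem_R1 {y : Fin d → A} {w : Fin d → W} : w ∈ R1 W y ↔ ∑ i, y i • w i = 0 := by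
  simp [R1, LinearMap.mem_ker]

/-- Koszul boundaries. -/
def B1 (W : Type v) [AddCommGroup W] [Module A W] (y : Fin d → A) : Submodule A (Fin d → W) :=
  Submodule.span A {w | ∃ (i j : Fin d) (m : W), w = Pi.single i (y j • m) - Pi.single j (y i • m)}

/-- inclusion of the `s`-th block. -/
noncomputable def blk (A : Type u) [CommRing A] (W : Type v) [AddCommGroup W] [Module A W]
    {d n : ℕ} (s : Sym (Fin d) n) : (Fin d → W) →ₗ[A] (Sym (Fin d) n × Fin d → W) := by
  classical
  exact ∑ i : Fin d, (LinearMap.single A (fun _ => W) (s, i)) ∘ₗ LinearMap.proj i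

lemma blk_single {n : ℕ} (s : Sym (Fin d) n) (i : Fin d) (m : W) :
    blk A W s (Pi.single i m) = Pi.single (s, i) m := by
  classical
  simp only [blk, LinearMap.coe_sum, Finset.sum_apply, LinearMap.comp_apply, LinearMap.proj_apply,
    LinearMap.single_apply]
  rw [Finset.sum_eq_single i]
  · simp
  · intro q _ hq
    rw [Pi.single_eq_of_ne hq]; simp
  · simp

lemma blk_apply {n : ℕ} (s : Sym (Fin d) n) (w : Fin d → W) :
    blk A W s w = ∑ i, Pi.single (s, i) (w i) := by
  classical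
  simp [blk]

lemma ker_vv_le (y : Fin d → A) (n : ℕ) :
    LinearMap.ker (vv W y n) ≤ ⨆ s, (R1 W y).map (blk A W s) := by
  classical
  intro w hw
  have h1 : w = ∑ s, blk A W s (fun i => w (s, i)) := by
    conv_lhs => rw [← Finset.univ_sum_single w]
    rw [Fintype.sum_prod_type]
    refine Finset.sum_congr rfl fun s _ => ?_
    rw [blk_apply]
  rw [h1]
  refine Submodule.sum_mem _ fun s _ => ?_
  refine Submodule.mem_iSup_of_mem s ⟨_, ?_, rfl⟩
  rw [SetLike.mem_coe, mem_R1]
  have := congrFun (LinearMap.mem_ker.1 hw) s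
  rwa [vv_apply] at this

lemma map_blk_B1_le (y : Fin d → A) {n : ℕ} (s : Sym (Fin d) n) :
    ((B1 W y).map (blk A W s)).map (sg A W d n) ≤ Triv W y (n + 1) := by
  rw [B1, Submodule.map_span, Submodule.map_span, Submodule.span_le]
  rintro _ ⟨_, ⟨_, ⟨i, j, m, rfl⟩, rfl⟩, rfl⟩
  rw [map_sub, blk_single, blk_single, map_sub, sg_single, sg_single]
  refine Submodule.subset_span ⟨i ::ₛ s, j ::ₛ s, j, i, m, Sym.cons_swap j i s, rfl⟩

variable (Λ : AddLen.{u, v} A)

theorem rel_le0_triv (y : Fin d → A) (h1 : Λ.le0 (R1 W y) (B1 W y)) (n : ℕ) :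
    Λ.le0 (Rel W y n) (Triv W y n) := by
  induction n with
  | zero =>
    refine Λ.le0_of_le ?_
    intro w hw
    have hw' : ev W y 0 w = 0 := hw
    rw [ev_apply] at hw'
    have h2 : w = 0 := by
      funext s
      have hs : s = Sym.nil := Subsingleton.elim _ _
      rw [Fintype.sum_eq_single Sym.nil (fun t ht => absurd (Subsingleton.elim _ _) ht)] at hw'
      rw [hs]
      simpa [mon] using hw'
    rw [h2]; exact Submodule.zero_mem _
  | succ n ih =>
    have e1 : Rel W y (n + 1) = ((Rel W y n).comap (vv W y n)).map (sg A W d n) := by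
      have : (Rel W y n).comap (vv W y n) = (Rel W y (n + 1)).comap (sg A W d n) := by
        rw [Rel, Rel, ← LinearMap.ker_comp, ← LinearMap.ker_comp, ev_comp_sg]
      rw [this, Submodule.map_comap_eq_of_surjective (sg_surjective n)]
    rw [e1]
    refine Λ.le0_trans (Λ.le0_map _ (Λ.le0_comap _ ih)) ?_
    -- `comap v B ≤ ker v ⊔ Q`
    have e2 : (Triv W y n).comap (vv W y n) ≤ LinearMap.ker (vv W y n) ⊔ Q A W d n := by
      rw [← map_Q_vv, Submodule.comap_map_eq, sup_comm]
    have e3 : ((Triv W y n).comap (vv W y n)).map (sg A W d n) ≤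
        (LinearMap.ker (vv W y n)).map (sg A W d n) := by
      refine (Submodule.map_mono e2).trans ?_
      rw [Submodule.map_sup, map_Q_sg, sup_bot_eq]
    refine Λ.le0_mono (T := Triv W y (n + 1)) (S := (⨆ s, (R1 W y).map (blk A W s)).map (sg A W d n))
      ?_ (e3.trans (Submodule.map_mono (ker_vv_le y n))) le_rfl
    rw [Submodule.map_iSup]
    refine Λ.le0_iSup _ fun s => ?_
    exact Λ.le0_trans (Λ.le0_map _ (Λ.le0_map _ h1)) (Λ.le0_of_le (map_blk_B1_le y s))

/-! ### lengths -/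

/-- the ideal `(y)`. -/
abbrev idl (y : Fin d → A) : Ideal A := Ideal.span (Set.range y)

lemma smul_top_pi (ι : Type*) [Finite ι] (I : Ideal A) :
    (I • ⊤ : Submodule A (ι → W)) = Submodule.pi Set.univ (fun _ : ι => (I • ⊤ : Submodule A W)) := by
  classical
  have := Fintype.ofFinite ι
  apply le_antisymm
  · rw [Submodule.smul_le]
    intro r hr w _
    rw [Submodule.mem_pi]
    intro i _
    exact Submodule.smul_mem_smul hr Submodule.mem_top
  · intro w hw
    rw [← Finset.univ_sum_single w]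
    refine Submodule.sum_mem _ fun i _ => ?_
    have h1 : (I • ⊤ : Submodule A W).map (LinearMap.single A (fun _ : ι => W) i) ≤ I • ⊤ := by
      rw [Submodule.map_smul'']
      exact Submodule.smul_mono le_rfl le_top
    exact h1 ⟨w i, hw i (Set.mem_univ i), rfl⟩

lemma L_pi_quot (ι : Type) [Fintype ι] (I : Ideal A) :
    Λ.L ((ι → W) ⧸ (I • ⊤ : Submodule A (ι → W))) =
      Fintype.card ι * Λ.L (W ⧸ (I • ⊤ : Submodule A W)) := by
  classical
  rw [smul_top_pi, Λ.L_congr (Submodule.quotientPi _), Λ.L_pi_const]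

lemma range_vv (y : Fin d → A) (n : ℕ) :
    LinearMap.range (vv W y n) = (idl y • ⊤ : Submodule A (Sym (Fin d) n → W)) := by
  classical
  apply le_antisymm
  · rintro _ ⟨w, rfl⟩
    have : vv W y n w = ∑ i, y i • (fun s => w (s, i)) := by
      funext s; rw [vv_apply]; simp
    rw [this]
    exact Submodule.sum_mem _ fun i _ => Submodule.smul_mem_smul
      (Ideal.subset_span ⟨i, rfl⟩) Submodule.mem_top
  · rw [Submodule.smul_le]
    intro r hr w _
    induction hr using Submodule.span_induction with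
    | mem x hx =>
      obtain ⟨i, rfl⟩ := hx
      refine ⟨∑ s, Pi.single (s, i) (w s), ?_⟩
      rw [map_sum]
      simp only [vv_single]
      rw [← Finset.univ_sum_single (y i • w)]
      rfl
    | zero => rw [zero_smul]; exact Submodule.zero_mem _
    | add x z _ _ hx hz => rw [add_smul]; exact Submodule.add_mem _ hx hz
    | smul a x _ hx => rw [smul_eq_mul, mul_smul]; exact Submodule.smul_mem _ a hx

lemma range_ev (y : Fin d → A) (n : ℕ) :
    LinearMap.range (ev W y n) = ((idl y) ^ n • ⊤ : Submodule A W) := by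
  induction n with
  | zero =>
    rw [pow_zero, Ideal.one_eq_top, Submodule.top_smul, LinearMap.range_eq_top]
    intro m
    refine ⟨fun _ => m, ?_⟩
    rw [ev_apply, Fintype.sum_eq_single Sym.nil (fun t ht => absurd (Subsingleton.elim _ _) ht)]
    simp [mon]
  | succ n ih =>
    have h1 : LinearMap.range (ev W y (n + 1)) = LinearMap.range ((ev W y n) ∘ₗ (vv W y n)) := by
      rw [← ev_comp_sg, LinearMap.range_comp_of_range_eq_top _
        (LinearMap.range_eq_top.2 (sg_surjective n))]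
    rw [h1, LinearMap.range_comp, range_vv, Submodule.map_smul'', Submodule.map_top, ih, pow_succ',
      Submodule.mul_smul]

lemma triv_le (y : Fin d → A) (n : ℕ) :
    Triv W y n ≤ (idl y • ⊤ : Submodule A (Sym (Fin d) n → W)) := by
  rw [← range_vv, ← map_Q_vv]
  exact LinearMap.map_le_range

lemma map_mkQ_equiv (y : Fin d → A) (n : ℕ) :
    Λ.L ((((idl y) ^ n • ⊤ : Submodule A W)).map ((idl y) ^ (n + 1) • ⊤ : Submodule A W).mkQ) =
      Λ.L ((Sym (Fin d) n → W) ⧸
        ((idl y • ⊤ : Submodule A (Sym (Fin d) n → W)) ⊔ Rel W y n)) := by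
  set T := ((idl y) ^ (n + 1) • ⊤ : Submodule A W) with hT
  have h1 : (((idl y) ^ n • ⊤ : Submodule A W)).map T.mkQ = LinearMap.range (T.mkQ ∘ₗ ev W y n) := by
    rw [LinearMap.range_comp, range_ev]
  have h2 : LinearMap.ker (T.mkQ ∘ₗ ev W y n) =
      ((idl y • ⊤ : Submodule A (Sym (Fin d) n → W)) ⊔ Rel W y n) := by
    rw [LinearMap.ker_comp, Submodule.ker_mkQ]
    have : T = (idl y • ⊤ : Submodule A (Sym (Fin d) n → W)).map (ev W y n) := by
      rw [Submodule.map_smul'', Submodule.map_top, range_ev, ← Submodule.mul_smul, ← pow_succ', hT]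
    rw [this, Submodule.comap_map_eq, Rel]
  rw [h1, ← h2]
  exact (Λ.L_congr (LinearMap.quotKerEquivRange _)).symm

lemma L_gr_le (y : Fin d → A) (n : ℕ) :
    Λ.L ((((idl y) ^ n • ⊤ : Submodule A W)).map ((idl y) ^ (n + 1) • ⊤ : Submodule A W).mkQ) ≤
      (Nat.multichoose d n : ℕ) * Λ.L (W ⧸ (idl y • ⊤ : Submodule A W)) := by
  classical
  rw [map_mkQ_equiv, ← Sym.card_sym_fin_eq_multichoose, ← L_pi_quot]
  exact Λ.L_le_of_surjective (Submodule.factor le_sup_left) (Submodule.factor_surjective _)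

lemma L_gr_eq (y : Fin d → A) (h1 : Λ.le0 (R1 W y) (B1 W y)) (n : ℕ) :
    Λ.L ((((idl y) ^ n • ⊤ : Submodule A W)).map ((idl y) ^ (n + 1) • ⊤ : Submodule A W).mkQ) =
      (Nat.multichoose d n : ℕ) * Λ.L (W ⧸ (idl y • ⊤ : Submodule A W)) := by
  classical
  rw [map_mkQ_equiv, ← Sym.card_sym_fin_eq_multichoose, ← L_pi_quot]
  refine Λ.L_quotient_eq_of_le0 le_sup_left ?_
  exact Λ.le0_sup (Λ.le0_refl _)
    (Λ.le0_mono (rel_le0_triv Λ y h1 n) le_rfl (triv_le y n))

lemma L_succ (y : Fin d → A) (n : ℕ) :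
    Λ.L (W ⧸ ((idl y) ^ (n + 1) • ⊤ : Submodule A W)) =
      Λ.L ((((idl y) ^ n • ⊤ : Submodule A W)).map ((idl y) ^ (n + 1) • ⊤ : Submodule A W).mkQ) +
      Λ.L (W ⧸ ((idl y) ^ n • ⊤ : Submodule A W)) := by
  refine Λ.L_quotient_add _ _ (Submodule.smul_mono_left (Ideal.pow_le_pow_right (Nat.le_succ n)))

lemma sum_multichoose (d n : ℕ) : ∑ k ∈ Finset.range (n + 1), Nat.multichoose d k =
    (n + d).choose d := by
  have h : ∀ n, ∑ k ∈ Finset.range (n + 1), Nat.multichoose d k = Nat.multichoose (d + 1) n := by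
    intro n
    induction n with
    | zero => simp
    | succ n ih => rw [Finset.sum_range_succ, ih, Nat.multichoose_succ_succ, add_comm]
  rw [h, Nat.multichoose_eq]
  rw [show d + 1 + n - 1 = n + d by omega]
  exact Nat.choose_symm_add

/-- `L(W/(y)^(n+1)W) ≤ choose (n+d) d * L(W/(y)W)`, no hypothesis. -/
theorem L_pow_le (y : Fin d → A) (n : ℕ) :
    Λ.L (W ⧸ ((idl y) ^ (n + 1) • ⊤ : Submodule A W)) ≤
      ((n + d).choose d : ℕ) * Λ.L (W ⧸ (idl y • ⊤ : Submodule A W)) := by
  have h : ∀ n, Λ.L (W ⧸ ((idl y) ^ n • ⊤ : Submodule A W)) ≤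
      ((∑ k ∈ Finset.range n, Nat.multichoose d k : ℕ) : ℝ≥0∞) *
        Λ.L (W ⧸ (idl y • ⊤ : Submodule A W)) := by
    intro n
    induction n with
    | zero =>
      have : Subsingleton (W ⧸ ((idl y) ^ 0 • ⊤ : Submodule A W)) := by
        rw [pow_zero, Ideal.one_eq_top, Submodule.top_smul]
        exact Submodule.Quotient.subsingleton_iff.2 rfl
      rw [Λ.L_subsingleton]; exact zero_le
    | succ n ih =>
      rw [L_succ, Finset.sum_range_succ, Nat.cast_add, add_mul, add_comm]
      exact add_le_add ih (L_gr_le Λ y n)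
  rw [← sum_multichoose]
  exact h (n + 1)

/-- **Quasi-regularity**: if `H_1(y;W)` is null, `L(W/(y)^(n+1)W) = choose (n+d) d * L(W/(y)W)`. -/
theorem L_pow_eq (y : Fin d → A) (h1 : Λ.le0 (R1 W y) (B1 W y)) (n : ℕ) :
    Λ.L (W ⧸ ((idl y) ^ (n + 1) • ⊤ : Submodule A W)) =
      ((n + d).choose d : ℕ) * Λ.L (W ⧸ (idl y • ⊤ : Submodule A W)) := by
  have h : ∀ n, Λ.L (W ⧸ ((idl y) ^ n • ⊤ : Submodule A W)) =
      ((∑ k ∈ Finset.range n, Nat.multichoose d k : ℕ) : ℝ≥0∞) *
        Λ.L (W ⧸ (idl y • ⊤ : Submodule A W)) := by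
    intro n
    induction n with
    | zero =>
      have : Subsingleton (W ⧸ ((idl y) ^ 0 • ⊤ : Submodule A W)) := by
        rw [pow_zero, Ideal.one_eq_top, Submodule.top_smul]
        exact Submodule.Quotient.subsingleton_iff.2 rfl
      rw [Λ.L_subsingleton]; simp
    | succ n ih =>
      rw [L_succ, Finset.sum_range_succ, Nat.cast_add, add_mul, add_comm, ih, L_gr_eq Λ y h1 n]
  rw [← sum_multichoose]
  exact h (n + 1)

end Crest.Agent.R183.QReg
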