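import Mathlib

/-!
# R183, block RD (helper680), part 1: flatness, equational local criterion

* `EqF I M`: equational form of "`M / I M` is flat over `A / I`".
* `EqF.mul` : devissage.
* `flat_of_forall_eqF` : local criterion.
* `flat_of_quotient_flat`: `A → B` Noetherian rings, `x ∈ A` with `x B` in the Jacobson radical of
  `B` and `x` a nonzerodivisor on `B`.  If `B / xB` is flat over `A / xA` then `B` is flat over `A`.
* `flat_of_fibers` : fibre criterion (`R → A → B`, `R` local, `B` flat over `R`,
  `B / m_R B` flat over `A / m_R A`, `m_R B` in the Jacobson radical ⟹ `B` flat over `A`).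
-/

set_option autoImplicit false

namespace Crest.Agent.R183.RD

open TensorProduct

universe u v w

section EqFlat

variable {A : Type u} [CommRing A] {M : Type v} [AddCommGroup M] [Module A M]

/-- Equational form of "`M / I M` is flat over `A / I`". -/
def EqF (I : Ideal A) (M : Type v) [AddCommGroup M] [Module A M] : Prop :=
  ∀ (n : ℕ) (r : Fin n → A) (m : Fin n → M), ∑ i, r i • m i ∈ (I • ⊤ : Submodule A M) →
    ∃ (k : ℕ) (c : Fin n → Fin k → A) (y : Fin k → M),
      (∀ i, m i - ∑ j, c i j • y j ∈ (I • ⊤ : Submodule A M)) ∧ ∀ j, ∑ i, r i * c i j ∈ I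

/-- the same for arbitrary finite index types and a finite system of relations -/
theorem EqF.system {I : Ideal A} (h : EqF I M) (s : ℕ) :
    ∀ {ι : Type} [Fintype ι] (r : Fin s → ι → A) (m : ι → M),
      (∀ l, ∑ i, r l i • m i ∈ (I • ⊤ : Submodule A M)) →
    ∃ (k : ℕ) (c : ι → Fin k → A) (y : Fin k → M),
      (∀ i, m i - ∑ j, c i j • y j ∈ (I • ⊤ : Submodule A M)) ∧
        ∀ l j, ∑ i, r l i * c i j ∈ I := by
  induction s with
  | zero =>
    intro ι _ r m _
    refine ⟨Fintype.card ι, fun i j => if Fintype.equivFin ι i = j then 1 else 0,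
      fun j => m ((Fintype.equivFin ι).symm j), ?_, fun l => l.elim0⟩
    intro i
    simp
  | succ s ih =>
    intro ι _ r m hm
    obtain ⟨k, c, y, h1, h2⟩ := ih (fun l => r l.castSucc) m (fun l => hm l.castSucc)
    -- the last relation, on the `y`
    have h3 : ∑ j, (∑ i, r (Fin.last s) i * c i j) • y j ∈ (I • ⊤ : Submodule A M) := by
      have h4 : ∑ i, r (Fin.last s) i • m i - ∑ i, r (Fin.last s) i • (m i - ∑ j, c i j • y j)
          = ∑ j, (∑ i, r (Fin.last s) i * c i j) • y j := by
        simp only [smul_sub, Finset.sum_sub_distrib, sub_sub_cancel, Finset.smul_sum, smul_smul,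
          Finset.sum_smul]
        exact Finset.sum_comm
      rw [← h4]
      exact sub_mem (hm _) (Submodule.sum_mem _ fun i _ => Submodule.smul_mem _ _ (h1 i))
    obtain ⟨k', d, z, h5, h6⟩ := h k _ y h3
    refine ⟨k', fun i l => ∑ j, c i j * d j l, z, ?_, ?_⟩
    · intro i
      have h7 : m i - ∑ l, (∑ j, c i j * d j l) • z l
          = (m i - ∑ j, c i j • y j) + ∑ j, c i j • (y j - ∑ l, d j l • z l) := by
        simp only [smul_sub, Finset.sum_sub_distrib, Finset.smul_sum, smul_smul, Finset.sum_smul]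
        rw [Finset.sum_comm]
        abel
      rw [h7]
      exact add_mem (h1 i) (Submodule.sum_mem _ fun j _ => Submodule.smul_mem _ _ (h5 j))
    · intro l j
      have h8 : ∀ r' : ι → A, ∑ i, r' i * (∑ j', c i j' * d j' j)
          = ∑ j', (∑ i, r' i * c i j') * d j' j := by
        intro r'
        simp only [Finset.mul_sum, Finset.sum_mul, mul_assoc]
        exact Finset.sum_comm
      rw [h8]
      refine Fin.lastCases ?_ (fun l => ?_) l
      · exact h6 j
      · exact Ideal.sum_mem _ fun j' _ => Ideal.mul_mem_right _ _ (h2 l j')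

theorem EqF.of_fintype {I : Ideal A} (h : EqF I M) {ι : Type} [Fintype ι] (r : ι → A) (m : ι → M)
    (hm : ∑ i, r i • m i ∈ (I • ⊤ : Submodule A M)) :
    ∃ (k : ℕ) (c : ι → Fin k → A) (y : Fin k → M),
      (∀ i, m i - ∑ j, c i j • y j ∈ (I • ⊤ : Submodule A M)) ∧
        ∀ j, ∑ i, r i * c i j ∈ I := by
  obtain ⟨k, c, y, h1, h2⟩ := h.system 1 (fun _ => r) m (fun _ => hm)
  exact ⟨k, c, y, h1, h2 0⟩

theorem mem_smul_top_of_span {I : Ideal A} {s : ℕ} {a : Fin s → A}
    (ha : Ideal.span (Set.range a) = I) {x : M} (hx : x ∈ (I • ⊤ : Submodule A M)) :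
    ∃ u : Fin s → M, x = ∑ l, a l • u l := by
  subst ha
  refine Submodule.smul_induction_on hx ?_ ?_
  · intro r hr n _
    obtain ⟨c, rfl⟩ := (Ideal.mem_span_range_iff_exists_fun).1 hr
    refine ⟨fun l => c l • n, ?_⟩
    rw [Finset.sum_smul]
    exact Finset.sum_congr rfl fun l _ => by rw [smul_smul, mul_comm]
  · rintro x y ⟨u, rfl⟩ ⟨v, rfl⟩
    exact ⟨u + v, by simp [smul_add, Finset.sum_add_distrib]⟩

/-- DEVISSAGE. -/
theorem EqF.mul {I J : Ideal A} {s : ℕ} (a : Fin s → A) (ha : Ideal.span (Set.range a) = J)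
    {t : ℕ} (b : Fin t → A) (hb : Ideal.span (Set.range b) = I)
    (H : ∀ u : Fin s → M, ∑ l, a l • u l ∈ ((I * J) • ⊤ : Submodule A M) →
      ∀ l, u l ∈ (I • ⊤ : Submodule A M))
    (hI : EqF I M) (hJ : EqF J M) : EqF (I * J) M := by
  intro n r m hm
  have hIJ : ((I * J) • ⊤ : Submodule A M) ≤ J • ⊤ :=
    Submodule.smul_mono_left Ideal.mul_le_right
  have haJ : ∀ l, a l ∈ J := fun l => ha ▸ Ideal.subset_span ⟨l, rfl⟩
  have hbI : ∀ l, b l ∈ I := fun l => hb ▸ Ideal.subset_span ⟨l, rfl⟩
  obtain ⟨k, c, y, h1, h2⟩ := hJ n r m (hIJ hm)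
  choose m' hm' using fun i => mem_smul_top_of_span ha (h1 i)
  have h3 : ∀ j, ∃ e : Fin s → A, ∑ l, e l * a l = ∑ i, r i * c i j := fun j =>
    (Ideal.mem_span_range_iff_exists_fun).1 (ha ▸ h2 j)
  choose e he using h3
  -- the relations
  have h4 : ∑ l, a l • (∑ j, e j l • y j + ∑ i, r i • m' i l) = ∑ i, r i • m i := by
    have h5 : ∀ i, m i = ∑ j, c i j • y j + ∑ l, a l • m' i l := by
      intro i
      rw [← hm' i]; abel
    have h6 : ∑ i, r i • m i = ∑ i, r i • (∑ j, c i j • y j + ∑ l, a l • m' i l) :=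
      Finset.sum_congr rfl fun i _ => by rw [← h5 i]
    rw [h6]
    simp only [smul_add, Finset.sum_add_distrib, Finset.smul_sum, smul_smul]
    congr 1
    · rw [Finset.sum_comm]
      have h7 : ∑ i, ∑ j, (r i * c i j) • y j = ∑ j, (∑ i, r i * c i j) • y j := by
        rw [Finset.sum_comm]; simp only [Finset.sum_smul]
      rw [h7]
      refine Finset.sum_congr rfl fun j _ => ?_
      rw [← he j, Finset.sum_smul]
      exact Finset.sum_congr rfl fun l _ => by rw [mul_comm]
    · rw [Finset.sum_comm]
      exact Finset.sum_congr rfl fun i _ => Finset.sum_congr rfl fun l _ => by rw [mul_comm]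
  have h5 := H _ (h4 ▸ hm)
  -- solve the system
  let ι := Fin k ⊕ (Fin n × Fin s)
  have h6 : ∀ l : Fin s, ∑ x : ι, (Sum.elim (fun j => e j l)
      (fun p : Fin n × Fin s => if p.2 = l then r p.1 else 0) x) •
      (Sum.elim y (fun p : Fin n × Fin s => m' p.1 p.2) x) ∈ (I • ⊤ : Submodule A M) := by
    intro l
    have h7 := h5 l
    rw [Fintype.sum_sum_type, Fintype.sum_prod_type]
    simpa only [Sum.elim_inl, Sum.elim_inr, ite_smul, zero_smul, Finset.sum_ite_eq',
      Finset.mem_univ, if_true] using h7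
  obtain ⟨K, d, z, h7, h8⟩ := hI.system s (ι := ι) (fun l x => Sum.elim (fun j => e j l)
      (fun p : Fin n × Fin s => if p.2 = l then r p.1 else 0) x)
      (Sum.elim y (fun p : Fin n × Fin s => m' p.1 p.2)) h6
  have h9 : ∀ l w, ∑ j, e j l * d (Sum.inl j) w + ∑ i, r i * d (Sum.inr (i, l)) w ∈ I := by
    intro l w
    have h10 := h8 l w
    rw [Fintype.sum_sum_type, Fintype.sum_prod_type] at h10
    simpa only [Sum.elim_inl, Sum.elim_inr, ite_mul, zero_mul, Finset.sum_ite_eq',
      Finset.mem_univ, if_true] using h10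
  -- leftovers of the `y`
  choose y' hy' using fun j => mem_smul_top_of_span hb (h7 (Sum.inl j))
  let κ := Fin K ⊕ (Fin k × Fin t)
  let C : Fin n → κ → A := fun i => Sum.elim
    (fun w => ∑ j, c i j * d (Sum.inl j) w + ∑ l, a l * d (Sum.inr (i, l)) w)
    (fun p => c i p.1 * b p.2)
  let Z : κ → M := Sum.elim z (fun p => y' p.1 p.2)
  let ε : κ ≃ Fin (Fintype.card κ) := Fintype.equivFin κ
  refine ⟨Fintype.card κ, fun i x => C i (ε.symm x), fun x => Z (ε.symm x), ?_, ?_⟩
  · intro i
    have h10 : ∑ x, C i (ε.symm x) • Z (ε.symm x) = ∑ x, C i x • Z x :=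
      Equiv.sum_comp ε.symm (fun x => C i x • Z x)
    rw [h10, Fintype.sum_sum_type, Fintype.sum_prod_type]
    simp only [C, Z, Sum.elim_inl, Sum.elim_inr]
    have h11 : m i - (∑ w, (∑ j, c i j * d (Sum.inl j) w + ∑ l, a l * d (Sum.inr (i, l)) w) • z w
        + ∑ j, ∑ g, (c i j * b g) • y' j g) = ∑ l, a l • (m' i l - ∑ w, d (Sum.inr (i, l)) w • z w)
        := by
      have e1 : ∀ j, ∑ g, (c i j * b g) • y' j g = c i j • (y j - ∑ w, d (Sum.inl j) w • z w) := by
        intro j
        have := hy' j
        simp only [Sum.elim_inl] at this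
        rw [this, Finset.smul_sum]
        exact Finset.sum_congr rfl fun g _ => by rw [smul_smul]
      simp only [e1]
      have e2 : m i = ∑ j, c i j • y j + ∑ l, a l • m' i l := by
        rw [← hm' i]; abel
      rw [e2]
      simp only [smul_sub, Finset.sum_sub_distrib, add_smul, Finset.sum_add_distrib,
        Finset.smul_sum, smul_smul, Finset.sum_smul]
      rw [Finset.sum_comm (f := fun w j => (c i j * d (Sum.inl j) w) • z w),
        Finset.sum_comm (f := fun w l => (a l * d (Sum.inr (i, l)) w) • z w)]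
      abel
    rw [h11]
    refine Submodule.sum_mem _ fun l _ => ?_
    have h12 := h7 (Sum.inr (i, l))
    simp only [Sum.elim_inr] at h12
    rw [mul_comm I J, ← smul_eq_mul, Submodule.smul_assoc]
    exact Submodule.smul_mem_smul (haJ l) h12
  · intro x
    set x' := ε.symm x with hx'
    show ∑ i, r i * C i x' ∈ I * J
    rcases x' with w | ⟨j, g⟩
    · simp only [C, Sum.elim_inl]
      have h10 : ∑ i, r i * (∑ j, c i j * d (Sum.inl j) w + ∑ l, a l * d (Sum.inr (i, l)) w)
          = ∑ l, (∑ j, e j l * d (Sum.inl j) w + ∑ i, r i * d (Sum.inr (i, l)) w) * a l := by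
        simp only [mul_add, Finset.sum_add_distrib, Finset.mul_sum, add_mul, Finset.sum_mul]
        congr 1
        · rw [Finset.sum_comm]
          have e1 : ∀ j, ∑ i, r i * (c i j * d (Sum.inl j) w)
              = ∑ l, e j l * d (Sum.inl j) w * a l := by
            intro j
            have := he j
            calc ∑ i, r i * (c i j * d (Sum.inl j) w) = (∑ i, r i * c i j) * d (Sum.inl j) w := by
                  rw [Finset.sum_mul]
                  exact Finset.sum_congr rfl fun i _ => by ring
              _ = _ := by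
                  rw [← this, Finset.sum_mul]
                  exact Finset.sum_congr rfl fun l _ => by ring
          simp only [e1]
          exact Finset.sum_comm
        · rw [Finset.sum_comm]
          exact Finset.sum_congr rfl fun l _ => Finset.sum_congr rfl fun i _ => by ring
      rw [h10]
      exact Ideal.sum_mem _ fun l _ => Ideal.mul_mem_mul (h9 l w) (haJ l)
    · simp only [C, Sum.elim_inr]
      have h10 : ∑ i, r i * (c i j * b g) = b g * ∑ i, r i * c i j := by
        rw [Finset.mul_sum]
        exact Finset.sum_congr rfl fun i _ => by ring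
      rw [h10]
      exact Ideal.mul_mem_mul (hbI g) (h2 j)

/-- `M / I M` flat over `A / I` implies `EqF I M`. -/
theorem EqF.of_flat {I : Ideal A} (h : Module.Flat (A ⧸ I) (M ⧸ (I • ⊤ : Submodule A M))) :
    EqF I M := by
  intro n r m hm
  have h1 : ∑ i, (Ideal.Quotient.mk I (r i)) • (Submodule.mkQ (I • ⊤ : Submodule A M) (m i)) = 0 := by
    have h2 : ∀ i, (Ideal.Quotient.mk I (r i)) • (Submodule.mkQ (I • ⊤ : Submodule A M) (m i))
        = Submodule.mkQ (I • ⊤ : Submodule A M) (r i • m i) := fun i => rfl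
    simp only [h2]
    rw [← map_sum]
    exact (Submodule.Quotient.mk_eq_zero _).2 hm
  obtain ⟨k, c, y, h2, h3⟩ := Module.Flat.isTrivialRelation_of_sum_smul_eq_zero h1
  choose c' hc' using fun i j => Ideal.Quotient.mk_surjective (c i j)
  choose y' hy' using fun j => Submodule.mkQ_surjective (I • ⊤ : Submodule A M) (y j)
  refine ⟨k, c', y', ?_, ?_⟩
  · intro i
    have h4 : Submodule.mkQ (I • ⊤ : Submodule A M) (m i) = ∑ j, c i j • y j := h2 i
    rw [← Submodule.Quotient.mk_eq_zero, ← Submodule.mkQ_apply, map_sub, h4, map_sum, sub_eq_zero]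
    refine Finset.sum_congr rfl fun j _ => ?_
    rw [← hc' i j, ← hy' j]
    rfl
  · intro j
    rw [← Ideal.Quotient.eq_zero_iff_mem, map_sum, ← h3 j]
    refine Finset.sum_congr rfl fun i _ => ?_
    rw [map_mul, hc']

theorem EqF.flat {I : Ideal A} (h : EqF I M) :
    Module.Flat (A ⧸ I) (M ⧸ (I • ⊤ : Submodule A M)) := by
  refine Module.Flat.of_forall_isTrivialRelation fun {n r m} hm => ?_
  choose r' hr' using fun i => Ideal.Quotient.mk_surjective (r i)
  choose m' hm' using fun i => Submodule.mkQ_surjective (I • ⊤ : Submodule A M) (m i)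
  have h1 : ∑ i, r' i • m' i ∈ (I • ⊤ : Submodule A M) := by
    rw [← Submodule.Quotient.mk_eq_zero, ← Submodule.mkQ_apply, map_sum, ← hm]
    refine Finset.sum_congr rfl fun i _ => ?_
    rw [← hr' i, ← hm' i]
    rfl
  obtain ⟨k, c, y, h2, h3⟩ := h n r' m' h1
  refine ⟨k, fun i j => Ideal.Quotient.mk I (c i j), fun j => Submodule.mkQ _ (y j), ?_, ?_⟩
  · intro i
    have h4 := h2 i
    rw [← Submodule.Quotient.mk_eq_zero, ← Submodule.mkQ_apply, map_sub, sub_eq_zero, hm' i,
      map_sum] at h4
    rw [h4]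
    rfl
  · intro j
    have h4 := h3 j
    rw [← Ideal.Quotient.eq_zero_iff_mem, map_sum] at h4
    rw [← h4]
    refine Finset.sum_congr rfl fun i _ => ?_
    rw [map_mul, hr']

/-- `EqF ⊥` is flatness. -/
theorem eqF_bot_iff : EqF (⊥ : Ideal A) M ↔ Module.Flat A M := by
  have hbot : ((⊥ : Ideal A) • ⊤ : Submodule A M) = ⊥ := by simp
  constructor
  · intro h
    refine Module.Flat.of_forall_isTrivialRelation fun {n r m} hm => ?_
    obtain ⟨k, c, y, h1, h2⟩ := h n r m (by rw [hbot, Submodule.mem_bot]; exact hm)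
    refine ⟨k, c, y, fun i => ?_, fun j => by simpa using h2 j⟩
    have := h1 i
    rwa [hbot, Submodule.mem_bot, sub_eq_zero] at this
  · intro h n r m hm
    rw [hbot, Submodule.mem_bot] at hm
    obtain ⟨k, c, y, h1, h2⟩ := Module.Flat.isTrivialRelation_of_sum_smul_eq_zero hm
    refine ⟨k, c, y, fun i => ?_, fun j => by simpa using h2 j⟩
    rw [hbot, Submodule.mem_bot, sub_eq_zero]
    exact h1 i

/-- a flat module satisfies `EqF I` for all `I`. -/
theorem EqF.of_flat_self [Module.Flat A M] (I : Ideal A) : EqF I M := by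
  intro n r m hm
  -- write the element of `I M` with finitely many elements of `I`
  have h0 : ∃ (s : ℕ) (a : Fin s → A) (u : Fin s → M), (∀ l, a l ∈ I) ∧
      ∑ i, r i • m i = ∑ l, a l • u l := by
    refine Submodule.smul_induction_on hm ?_ ?_
    · intro a ha u _
      exact ⟨1, fun _ => a, fun _ => u, fun _ => ha, by simp⟩
    · rintro x y ⟨s, a, u, ha, hx⟩ ⟨s', a', u', ha', hy⟩
      refine ⟨s + s', Fin.append a a', Fin.append u u', ?_, ?_⟩
      · intro l
        refine Fin.addCases (fun l => ?_) (fun l => ?_) l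
        · rw [Fin.append_left]; exact ha l
        · rw [Fin.append_right]; exact ha' l
      · rw [hx, hy, Fin.sum_univ_add]
        simp
  obtain ⟨s, a, u, ha, hs⟩ := h0
  have h1 : ∑ x : Fin n ⊕ Fin s, (Sum.elim r (fun l => - a l) x) • (Sum.elim m u x) = 0 := by
    rw [Fintype.sum_sum_type]
    simp only [Sum.elim_inl, Sum.elim_inr, neg_smul, Finset.sum_neg_distrib]
    rw [hs]
    exact add_neg_cancel _
  obtain ⟨k, c, y, h2, h3⟩ := Module.Flat.isTrivialRelation_of_sum_smul_eq_zero h1
  refine ⟨k, fun i => c (Sum.inl i), y, fun i => ?_, fun j => ?_⟩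
  · have := h2 (Sum.inl i)
    simp only [Sum.elim_inl] at this
    rw [this, sub_self]
    exact zero_mem _
  · have := h3 j
    rw [Fintype.sum_sum_type] at this
    simp only [Sum.elim_inl, Sum.elim_inr, neg_mul, Finset.sum_neg_distrib] at this
    rw [add_neg_eq_zero] at this
    rw [this]
    exact Ideal.sum_mem _ fun l _ => Ideal.mul_mem_right _ _ (ha l)

end EqFlat

section LocalCriterion

variable {A : Type u} {B : Type v} [CommRing A] [CommRing B] [Algebra A B]

/-- LOCAL CRITERION in equational form. -/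
theorem flat_of_forall_eqF [IsNoetherianRing A] [IsNoetherianRing B] (I : Ideal A)
    (hI : I.map (algebraMap A B) ≤ Ideal.jacobson ⊥) (h : ∀ n, EqF (I ^ n) B) :
    Module.Flat A B := by
  rw [Module.Flat.iff_rTensor_injective]
  intro J hJ
  rw [injective_iff_map_eq_zero]
  intro x hx
  obtain ⟨n₀, r, m, rfl⟩ : ∃ (n₀ : ℕ) (r : Fin n₀ → J) (m : Fin n₀ → B), x = ∑ i, r i ⊗ₜ[A] m i := by
    induction x using TensorProduct.induction_on with
    | zero => exact ⟨0, fun i => i.elim0, fun i => i.elim0, by simp⟩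
    | tmul a b => exact ⟨1, fun _ => a, fun _ => b, by simp⟩
    | add x y hx' hy' =>
      clear hx
      have hx'' : ∀ x : J ⊗[A] B, ∃ (n₀ : ℕ) (r : Fin n₀ → J) (m : Fin n₀ → B),
          x = ∑ i, r i ⊗ₜ[A] m i := by
        intro x
        induction x using TensorProduct.induction_on with
        | zero => exact ⟨0, fun i => i.elim0, fun i => i.elim0, by simp⟩
        | tmul a b => exact ⟨1, fun _ => a, fun _ => b, by simp⟩
        | add x y hx hy =>
          obtain ⟨n, r, m, rfl⟩ := hx
          obtain ⟨n', r', m', rfl⟩ := hy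
          refine ⟨n + n', Fin.append r r', Fin.append m m', ?_⟩
          rw [Fin.sum_univ_add]
          simp
      exact hx'' _
  have hrel : ∑ i, (r i : A) • m i = 0 := by
    have h1 := congrArg (TensorProduct.lid A B) hx
    rw [map_sum, map_sum, map_zero] at h1
    simpa using h1
  have key : ∀ n : ℕ, (∑ i, r i ⊗ₜ[A] m i) ∈ (I ^ n • ⊤ : Submodule A (J ⊗[A] B)) := by
    intro n
    obtain ⟨k, hk⟩ := I.exists_pow_inf_eq_pow_smul (M := A) J
    set q := n + k with hq
    have hAR : (I ^ q ⊓ J : Ideal A) ≤ I ^ n * J := by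
      have := hk q (by omega)
      rw [show q - k = n by omega] at this
      have h2 : (I ^ q • ⊤ : Submodule A A) = I ^ q := by simp
      rw [h2] at this
      rw [this]
      exact Submodule.smul_mono le_rfl inf_le_right
    have hJn : ∀ z : J, (z : A) ∈ I ^ q → z ∈ (I ^ n • ⊤ : Submodule A J) := by
      intro z hz
      have h5 : (z : A) ∈ I ^ n * J := hAR ⟨hz, z.2⟩
      have h6 : (I ^ n • ⊤ : Submodule A J).map J.subtype = I ^ n • J := by
        rw [Submodule.map_smul'', Submodule.map_top, Submodule.range_subtype]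
      have h7 : (z : A) ∈ (I ^ n • ⊤ : Submodule A J).map J.subtype := by
        rw [h6]; exact h5
      obtain ⟨w, hw, hwz⟩ := h7
      have : w = z := Subtype.ext hwz
      rwa [← this]
    have hmem : ∀ (w : J) (b : B), w ∈ (I ^ n • ⊤ : Submodule A J) → w ⊗ₜ[A] b ∈
        (I ^ n • ⊤ : Submodule A (J ⊗[A] B)) := by
      intro w b hw
      refine Submodule.smul_induction_on hw ?_ ?_
      · intro r hr t _
        rw [← TensorProduct.smul_tmul']
        exact Submodule.smul_mem_smul hr trivial
      · intro u v hu hv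
        rw [TensorProduct.add_tmul]
        exact add_mem hu hv
    obtain ⟨k', c, y, h1, h2⟩ := h q n₀ (fun i => (r i : A)) m (by rw [hrel]; exact zero_mem _)
    have h3 : ∑ i, r i ⊗ₜ[A] m i = ∑ i, r i ⊗ₜ[A] (m i - ∑ j, c i j • y j)
        + ∑ j, (∑ i, c i j • r i) ⊗ₜ[A] y j := by
      simp only [TensorProduct.tmul_sub, Finset.sum_sub_distrib, TensorProduct.tmul_sum,
        TensorProduct.sum_tmul]
      rw [Finset.sum_comm (f := fun j i => (c i j • r i) ⊗ₜ[A] y j)]
      simp only [TensorProduct.smul_tmul]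
      abel
    rw [h3]
    refine add_mem (Submodule.sum_mem _ fun i _ => ?_) (Submodule.sum_mem _ fun j _ => ?_)
    · have h4 : ∀ b ∈ (I ^ q • ⊤ : Submodule A B), r i ⊗ₜ[A] b ∈
          (I ^ n • ⊤ : Submodule A (J ⊗[A] B)) := by
        intro b hb
        refine Submodule.smul_induction_on hb ?_ ?_
        · intro a ha b _
          rw [TensorProduct.tmul_smul]
          exact Submodule.smul_mem_smul (Ideal.pow_le_pow_right (by omega) ha) trivial
        · intro u v hu hv
          rw [TensorProduct.tmul_add]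
          exact add_mem hu hv
      exact h4 _ (h1 i)
    · refine hmem _ _ (hJn _ ?_)
      have := h2 j
      rw [AddSubmonoidClass.coe_finsetSum]
      convert this using 2 with i
      simp [mul_comm]
  have hKrull : (⨅ i : ℕ, (I.map (algebraMap A B)) ^ i • ⊤ : Submodule B (B ⊗[A] J)) = ⊥ := by
    have : Module.Finite A J := Module.Finite.iff_fg.2 hJ
    exact Ideal.iInf_pow_smul_eq_bot_of_le_jacobson _ hI
  have hx2 : TensorProduct.comm A J B (∑ i, r i ⊗ₜ[A] m i) = 0 := by
    rw [← Submodule.mem_bot B, ← hKrull, Submodule.mem_iInf]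
    intro n
    have h9 : ∀ w ∈ (I ^ n • ⊤ : Submodule A (J ⊗[A] B)), TensorProduct.comm A J B w ∈
        ((I.map (algebraMap A B)) ^ n • ⊤ : Submodule B (B ⊗[A] J)) := by
      intro w hw
      refine Submodule.smul_induction_on hw ?_ ?_
      · intro r hr t _
        rw [map_smul, ← algebraMap_smul B r]
        refine Submodule.smul_mem_smul ?_ trivial
        rw [← Ideal.map_pow]
        exact Ideal.mem_map_of_mem _ hr
      · intro u v hu hv
        rw [map_add]
        exact add_mem hu hv
    exact h9 _ (key n)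
  rwa [LinearEquiv.map_eq_zero_iff] at hx2

/-- flatness from a nonzerodivisor -/
theorem flat_of_quotient_flat [IsNoetherianRing A] [IsNoetherianRing B] (x : A)
    (hx : algebraMap A B x ∈ Ideal.jacobson (⊥ : Ideal B)) (hreg : IsSMulRegular B x)
    (h : EqF (Ideal.span {x}) B) : Module.Flat A B := by
  refine flat_of_forall_eqF (Ideal.span {x}) ?_ ?_
  · rw [Ideal.map_span, Set.image_singleton, Ideal.span_singleton_le_iff_mem]
    exact hx
  · intro n
    induction n with
    | zero =>
      intro n r m _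
      refine ⟨0, fun _ j => j.elim0, fun j => j.elim0, fun i => ?_, fun j => j.elim0⟩
      rw [pow_zero, Ideal.one_eq_top, Submodule.top_smul]
      trivial
    | succ n ih =>
      rw [pow_succ']
      refine EqF.mul (s := 1) (fun _ => x ^ n) ?_ (t := 1) (fun _ => x) ?_ ?_ h ih
      · rw [Set.range_const, Ideal.span_singleton_pow]
      · rw [Set.range_const]
      · intro u hu l
        rw [← pow_succ', Ideal.span_singleton_pow] at hu
        obtain ⟨v, hv⟩ := mem_smul_top_of_span (s := 1) (a := fun _ => x ^ (n + 1))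
          (by rw [Set.range_const]) hu
        simp only [Finset.univ_unique, Finset.sum_singleton] at hv
        have hreg' : IsSMulRegular B (x ^ n) := hreg.pow n
        have h1 : u default = x • v default := by
          apply hreg'
          show x ^ n • u default = x ^ n • x • v default
          rw [hv, smul_smul, pow_succ]
        have : l = default := Subsingleton.elim _ _
        rw [this, h1]
        exact Submodule.smul_mem_smul (Ideal.mem_span_singleton_self x) trivial

end LocalCriterion

end Crest.Agent.R183.RD
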