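import Crest.Agent.R183.RD1

/-!
# R183, block RD (helper680), part 2: flatness of maps of power series rings
-/

set_option autoImplicit false

namespace Crest.Agent.R183.RD

open TensorProduct

universe u v w

theorem flat_powerSeries_map {C : Type u} {Q : Type v} [CommRing C] [CommRing Q]
    [IsNoetherianRing C] [IsNoetherianRing Q] (f : C →+* Q) (hf : f.Flat) :
    (PowerSeries.map f).Flat := by
  let _ : Algebra C Q := f.toAlgebra
  have hfl : Module.Flat C Q := hf
  let _ : Algebra (PowerSeries C) (PowerSeries Q) := (PowerSeries.map f).toAlgebra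
  show Module.Flat (PowerSeries C) (PowerSeries Q)
  have hsm : ∀ (r : PowerSeries C) (m : PowerSeries Q), r • m = PowerSeries.map f r * m :=
    fun r m => rfl
  have halg : ∀ r : PowerSeries C, algebraMap (PowerSeries C) (PowerSeries Q) r =
    PowerSeries.map f r := fun r => rfl
  refine flat_of_quotient_flat (PowerSeries.X : PowerSeries C) ?_ ?_ ?_
  · rw [halg, PowerSeries.map_X, Ideal.mem_jacobson_bot]
    intro y
    rw [PowerSeries.isUnit_iff_constantCoeff]
    simp
  · intro x y hxy
    simp only [hsm, PowerSeries.map_X] at hxy
    exact PowerSeries.X_mul_cancel hxy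
  · have hmem : ∀ b : PowerSeries Q, b ∈ (Ideal.span {(PowerSeries.X : PowerSeries C)} • ⊤ :
        Submodule (PowerSeries C) (PowerSeries Q)) ↔ PowerSeries.constantCoeff b = 0 := by
      intro b
      constructor
      · intro hb
        obtain ⟨u, hu⟩ := mem_smul_top_of_span (s := 1) (a := fun _ => PowerSeries.X)
          (by rw [Set.range_const]) hb
        rw [hu]
        simp [hsm]
      · intro hb
        rw [← PowerSeries.X_dvd_iff] at hb
        obtain ⟨c, rfl⟩ := hb
        have : (PowerSeries.X : PowerSeries Q) * c = (PowerSeries.X : PowerSeries C) • c := by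
          rw [hsm, PowerSeries.map_X]
        rw [this]
        exact Submodule.smul_mem_smul (Ideal.mem_span_singleton_self _) trivial
    intro n r m hm
    rw [hmem] at hm
    have hcc : ∀ r : PowerSeries C, PowerSeries.constantCoeff (PowerSeries.map f r) =
        f (PowerSeries.constantCoeff r) := by
      intro r
      rw [← PowerSeries.coeff_zero_eq_constantCoeff_apply, PowerSeries.coeff_map,
        PowerSeries.coeff_zero_eq_constantCoeff_apply]
    have h1 : ∑ i, (PowerSeries.constantCoeff (r i)) • (PowerSeries.constantCoeff (m i)) = 0 := by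
      rw [map_sum] at hm
      rw [← hm]
      refine Finset.sum_congr rfl fun i _ => ?_
      rw [hsm, map_mul, hcc]
      rfl
    obtain ⟨k, c, y, h2, h3⟩ := Module.Flat.isTrivialRelation_of_sum_smul_eq_zero (R := C)
      (M := Q) (f := fun i => PowerSeries.constantCoeff (r i))
      (x := fun i => PowerSeries.constantCoeff (m i)) h1
    refine ⟨k, fun i j => PowerSeries.C (c i j), fun j => PowerSeries.C (y j), ?_, ?_⟩
    · intro i
      have h4 : PowerSeries.constantCoeff (m i) = ∑ j, c i j • y j := h2 i
      rw [hmem, map_sub, map_sum, h4, sub_eq_zero]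
      refine Finset.sum_congr rfl fun j _ => ?_
      rw [hsm, map_mul, hcc, PowerSeries.constantCoeff_C, PowerSeries.constantCoeff_C]
      rfl
    · intro j
      have h4 : ∑ i, PowerSeries.constantCoeff (r i) * c i j = 0 := h3 j
      rw [Ideal.mem_span_singleton, PowerSeries.X_dvd_iff, map_sum, ← h4]
      refine Finset.sum_congr rfl fun i _ => ?_
      rw [map_mul, PowerSeries.constantCoeff_C]

theorem flat_mvPowerSeries_map (n : ℕ) : ∀ {C : Type u} {Q : Type v} [CommRing C] [CommRing Q]
    [IsNoetherianRing C] [IsNoetherianRing Q] (f : C →+* Q) (_ : f.Flat),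
    (MvPowerSeries.map (σ := Fin n) f).Flat := by
  induction n with
  | zero =>
    intro C Q _ _ _ _ f hf
    have h1 : (MvPowerSeries.map (σ := Fin 0) f) =
        (MvPowerSeries.C (σ := Fin 0)).comp (f.comp MvPowerSeries.constantCoeff) := by
      ext x
      have hx : x = MvPowerSeries.C (MvPowerSeries.constantCoeff x) := by
        ext m
        have : m = 0 := Subsingleton.elim _ _
        subst this
        simp
      rw [hx]
      simp
    have hbij : ∀ (D : Type u) [CommRing D], Function.Bijective
        (MvPowerSeries.constantCoeff (σ := Fin 0) (R := D)) := by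
      intro D _
      constructor
      · intro x y hxy
        ext m
        have : m = 0 := Subsingleton.elim _ _
        subst this
        exact hxy
      · intro d
        exact ⟨MvPowerSeries.C d, by simp⟩
    have hbij' : Function.Bijective (MvPowerSeries.C (σ := Fin 0) (R := Q)) := by
      constructor
      · exact MvPowerSeries.C_injective
      · intro x
        refine ⟨MvPowerSeries.constantCoeff x, ?_⟩
        ext m
        have : m = 0 := Subsingleton.elim _ _
        subst this
        simp
    rw [h1]
    exact RingHom.Flat.comp (RingHom.Flat.comp (RingHom.Flat.of_bijective (hbij C)) hf)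
      (RingHom.Flat.of_bijective hbij')
  | succ n ih =>
    intro C Q _ _ _ _ f hf
    have h1 : MvPowerSeries.map (σ := Fin (n + 1)) f =
        ((MvPowerSeries.finSuccEquiv Q n).symm.toRingEquiv.toRingHom).comp
          ((PowerSeries.map (MvPowerSeries.map (σ := Fin n) f)).comp
            (MvPowerSeries.finSuccEquiv C n).toRingEquiv.toRingHom) := by
      refine RingHom.ext fun x => ?_
      have h2 : MvPowerSeries.finSuccEquiv Q n (MvPowerSeries.map f x) =
          PowerSeries.map (MvPowerSeries.map (σ := Fin n) f) (MvPowerSeries.finSuccEquiv C n x) := by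
        ext k m
        rw [MvPowerSeries.coeff_coeff_finSuccEquiv, MvPowerSeries.coeff_map, PowerSeries.coeff_map,
          MvPowerSeries.coeff_map, MvPowerSeries.coeff_coeff_finSuccEquiv]
      have h3 := congrArg (MvPowerSeries.finSuccEquiv Q n).symm h2
      rw [AlgEquiv.symm_apply_apply] at h3
      exact h3
    rw [h1]
    exact RingHom.Flat.comp (RingHom.Flat.comp
      (RingHom.Flat.of_bijective (MvPowerSeries.finSuccEquiv C n).bijective)
      (flat_powerSeries_map _ (ih f hf)))
      (RingHom.Flat.of_bijective (MvPowerSeries.finSuccEquiv Q n).symm.bijective)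

end Crest.Agent.R183.RD
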