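import Crest.Agent.R183.RD6
import Crest.Agent.R183.CohenNoether

/-!
# R183, block RD (helper680), part 7: construction of `T = R ⊗_A A'` from coefficient rings
-/

set_option autoImplicit false

namespace Crest.Agent.R183.RD

open TensorProduct IsLocalRing MvPowerSeries Crest.Agent.R183.M Crest.Agent.R183.Cohen

universe u v w

section Coeff

variable {C₀ Λ : Type*} [CommRing C₀] [CommRing Λ] [IsLocalRing C₀] [IsLocalRing Λ] {r g : ℕ}
  (γ : C₀ →+* MvPowerSeries (Fin g) Λ)

/-- the augmentation `Λ[[y]][[t]] → κ[[y]]` -/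
noncomputable def eps (Λ : Type*) [CommRing Λ] [IsLocalRing Λ] (r g : ℕ) :
    MvPowerSeries (Fin r) (MvPowerSeries (Fin g) Λ) →+*
    MvPowerSeries (Fin g) (ResidueField Λ) :=
  (MvPowerSeries.map (residue Λ)).comp constantCoeff

theorem eps_C_C (x : Λ) : eps Λ r g (C (C x)) = C (residue Λ x) := by
  simp [eps]

theorem eps_X (i : Fin r) : eps Λ r g (X i) = 0 := by
  simp [eps]

theorem eps_C (q : MvPowerSeries (Fin g) Λ) : eps Λ r g (C q) = MvPowerSeries.map (residue Λ) q := by
  simp [eps]

theorem eps_surjective : Function.Surjective (eps Λ r g) := by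
  intro f
  have h : ∀ m, ∃ x : Λ, residue Λ x = coeff m f := fun m => residue_surjective _
  choose x hx using h
  let q : MvPowerSeries (Fin g) Λ := fun m => x m
  have hq : ∀ m, coeff m q = x m := fun m => rfl
  refine ⟨C q, ?_⟩
  rw [eps_C]
  ext m
  rw [coeff_map, hq]
  exact hx m

theorem exists_eq_C_mul {x0 : Λ} (hx0 : maximalIdeal Λ = Ideal.span {x0})
    (q : MvPowerSeries (Fin g) Λ) (hq : MvPowerSeries.map (residue Λ) q = 0) :
    ∃ q', q = C x0 * q' := by
  have h : ∀ m, ∃ y : Λ, coeff m q = x0 * y := by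
    intro m
    have h1 : residue Λ (coeff m q) = 0 := by
      rw [← coeff_map, hq, map_zero]
    rw [residue_eq_zero_iff, hx0, Ideal.mem_span_singleton] at h1
    exact h1
  choose y hy using h
  let q' : MvPowerSeries (Fin g) Λ := fun m => y m
  have hq' : ∀ m, coeff m q' = y m := fun m => rfl
  refine ⟨q', ?_⟩
  ext m
  rw [coeff_C_mul, hy m, hq']

theorem ker_eps {x0 : Λ} (hx0 : maximalIdeal Λ = Ideal.span {x0}) {c0 : C₀}
    (hc0 : maximalIdeal C₀ = Ideal.span {c0}) (hγ : γ c0 = C x0) :
    RingHom.ker (eps Λ r g) =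
      (maximalIdeal (MvPowerSeries (Fin r) C₀)).map (MvPowerSeries.map γ) := by
  have hm : maximalIdeal (MvPowerSeries (Fin r) C₀) =
      (maximalIdeal C₀).map (C : C₀ →+* MvPowerSeries (Fin r) C₀) ⊔
        Ideal.span (Set.range (X : Fin r → MvPowerSeries (Fin r) C₀)) :=
    maximalIdeal_mvPowerSeries
  have hCm : (C c0 : MvPowerSeries (Fin r) C₀) ∈ maximalIdeal (MvPowerSeries (Fin r) C₀) := by
    rw [hm]
    have h0 : c0 ∈ maximalIdeal C₀ := by
      rw [hc0]
      exact Ideal.mem_span_singleton_self _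
    exact Ideal.mem_sup_left (Ideal.mem_map_of_mem _ h0)
  have hXm : ∀ i, (X i : MvPowerSeries (Fin r) C₀) ∈ maximalIdeal (MvPowerSeries (Fin r) C₀) := by
    intro i
    rw [hm]
    exact Ideal.mem_sup_right (Ideal.subset_span ⟨i, rfl⟩)
  apply le_antisymm
  · intro f hf
    rw [RingHom.mem_ker] at hf
    obtain ⟨q', hq'⟩ := exists_eq_C_mul hx0 (constantCoeff f) hf
    have h1 : f - C (constantCoeff f) ∈ Ideal.span
        (X '' (Set.univ : Set (Fin r)) :
          Set (MvPowerSeries (Fin r) (MvPowerSeries (Fin g) Λ))) := by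
      rw [mem_span_X_iff]
      intro m hm
      have : m = 0 := by
        ext j
        exact hm j trivial
      rw [this, map_sub, coeff_zero_C, coeff_zero_eq_constantCoeff_apply, sub_self]
    have h2 : f = (f - C (constantCoeff f)) + C (constantCoeff f) := by ring
    rw [h2]
    refine add_mem ?_ ?_
    · refine (Ideal.span_le.2 ?_) h1
      rintro _ ⟨i, _, rfl⟩
      have : (X i : MvPowerSeries (Fin r) (MvPowerSeries (Fin g) Λ)) =
          MvPowerSeries.map γ (X i) := by rw [map_X]
      rw [this]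
      exact Ideal.mem_map_of_mem _ (hXm i)
    · rw [hq', map_mul]
      have : (C (C x0) : MvPowerSeries (Fin r) (MvPowerSeries (Fin g) Λ)) =
          MvPowerSeries.map γ (C c0) := by rw [map_C, hγ]
      rw [this]
      exact Ideal.mul_mem_right _ _ (Ideal.mem_map_of_mem _ hCm)
  · rw [hm, Ideal.map_sup, sup_le_iff, Ideal.map_map, hc0, Ideal.map_span, Ideal.map_span,
      Set.image_singleton, Ideal.span_singleton_le_iff_mem, Ideal.span_le]
    constructor
    · rw [RingHom.mem_ker, RingHom.comp_apply, map_C, hγ, eps_C_C]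
      have : residue Λ x0 = 0 := by
        rw [residue_eq_zero_iff, hx0]; exact Ideal.mem_span_singleton_self _
      rw [this, map_zero]
    · rintro _ ⟨_, ⟨i, rfl⟩, rfl⟩
      show MvPowerSeries.map γ (X i) ∈ RingHom.ker (eps Λ r g)
      rw [map_X, RingHom.mem_ker, eps_X]

theorem isLocalHom_map {x0 : Λ} (hx0 : maximalIdeal Λ = Ideal.span {x0}) {c0 : C₀}
    (hc0 : maximalIdeal C₀ = Ideal.span {c0}) (hγ : γ c0 = C x0) :
    IsLocalHom (MvPowerSeries.map (σ := Fin r) γ) := by
  refine ((local_hom_TFAE (MvPowerSeries.map (σ := Fin r) γ)).out 0 2).2 ?_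
  rw [← ker_eps γ hx0 hc0 hγ]
  exact IsLocalRing.le_maximalIdeal (RingHom.ker_ne_top _)

end Coeff

/-- All the properties of the Cohen factorisation `R → T → S`, `T = R ⊗_A A'`. -/
structure IsCohenFact (A R A' T S : Type*) [CommRing A] [CommRing R] [CommRing A'] [CommRing T]
    [CommRing S] [Algebra A R] [Algebra A A'] [Algebra A T] [Algebra R T] [Algebra A' T]
    [Algebra R S]
    [IsLocalRing A] [IsLocalRing R] [IsLocalRing A'] [IsLocalRing T] [IsLocalRing S]
    (g : ℕ) (π : T →+* S) (Y : ℕ → T) : Prop where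
  /-- `R` is finite over `A` -/
  finite_R : Module.Finite A R
  /-- same residue field -/
  res_R : ∀ r : R, ∃ a : A, r - algebraMap A R a ∈ maximalIdeal R
  /-- `A'` is flat over `A` -/
  flat_A' : Module.Flat A A'
  /-- local -/
  local_A' : IsLocalHom (algebraMap A A')
  /-- local -/
  local_R : IsLocalHom (algebraMap A R)
  /-- `T` is flat over `R` -/
  flat_T : Module.Flat R T
  /-- `T` is finite over `A'` -/
  finite_T : Module.Finite A' T
  /-- local -/
  local_T : IsLocalHom (algebraMap R T)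
  /-- local -/
  local_A'T : IsLocalHom (algebraMap A' T)
  /-- `T → S` is surjective -/
  surjective : Function.Surjective π
  /-- already `A' → S` is surjective -/
  surjective' : Function.Surjective (π.comp (algebraMap A' T))
  /-- compatibility -/
  comp : π.comp (algebraMap R T) = algebraMap R S
  /-- same residue field -/
  res_T : ∀ x : T, ∃ a : A', x - algebraMap A' T a ∈ maximalIdeal T
  /-- the closed fibre -/
  prime : ∀ i ≤ g, (pr R T Y i).IsPrime
  /-- the closed fibre -/
  notMem : ∀ i < g, Y i ∉ pr R T Y i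
  /-- the closed fibre -/
  max : pr R T Y g = maximalIdeal T

section Main

theorem mem_maximalIdeal_of_local {A B : Type*} [CommRing A] [CommRing B] [IsLocalRing A]
    [IsLocalRing B] (f : A →+* B) (hf : IsLocalHom f) {x : A} (hx : x ∈ maximalIdeal A) :
    f x ∈ maximalIdeal B := by
  rw [mem_maximalIdeal] at hx ⊢
  intro h
  exact hx (hf.map_nonunit x h)

/-- The construction of `T` (given instances). -/
theorem exists_T_aux {C₀ Λ R S A' T : Type*} [CommRing C₀] [CommRing Λ] [CommRing R] [CommRing S]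
    [CommRing A'] [CommRing T] [IsLocalRing C₀] [IsNoetherianRing C₀] [IsLocalRing Λ]
    [IsNoetherianRing Λ]
    [IsLocalRing R] [IsNoetherianRing R] [IsAdicComplete (maximalIdeal R) R]
    [IsLocalRing S] [IsNoetherianRing S] [IsAdicComplete (maximalIdeal S) S]
    [Algebra R S] [IsLocalHom (algebraMap R S)] {r g : ℕ}
    {x0 : Λ} (hx0 : maximalIdeal Λ = Ideal.span {x0})
    {c0 : C₀} (hc0 : maximalIdeal C₀ = Ideal.span {c0})
    (γ : C₀ →+* MvPowerSeries (Fin g) Λ) (hγ : γ c0 = C x0) (hγflat : γ.Flat)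
    (φ : C₀ →+* R) (hφ : IsLocalHom φ) (hφres : ∀ x : R, ∃ c : C₀, x - φ c ∈ maximalIdeal R)
    (t : Fin r → R) (ht : ∀ i, t i ∈ maximalIdeal R)
    (hfin : (psEval (maximalIdeal R) φ t ht).Finite)
    (ψ : MvPowerSeries (Fin g) Λ →+* S) (hψ : Function.Surjective ψ)
    (hcomp : ψ.comp γ = (algebraMap R S).comp φ)
    (e : A' ≃+* MvPowerSeries (Fin r) (MvPowerSeries (Fin g) Λ))
    [instAR : Algebra (MvPowerSeries (Fin r) C₀) R]
    [instAA' : Algebra (MvPowerSeries (Fin r) C₀) A']
    (hAR : algebraMap (MvPowerSeries (Fin r) C₀) R = psEval (maximalIdeal R) φ t ht)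
    (hAA' : algebraMap (MvPowerSeries (Fin r) C₀) A' =
      (e.symm : MvPowerSeries (Fin r) (MvPowerSeries (Fin g) Λ) →+* A').comp
          (MvPowerSeries.map γ))
    [Algebra (MvPowerSeries (Fin r) C₀) T] [Algebra R T]
    [Algebra A' T] [IsScalarTower (MvPowerSeries (Fin r) C₀) R T]
    [IsScalarTower (MvPowerSeries (Fin r) C₀) A' T]
    [Algebra.IsPushout (MvPowerSeries (Fin r) C₀) R A' T] [IsLocalRing A'] :
    ∃ (_ : IsLocalRing T) (π : T →+* S),
      IsCohenFact (MvPowerSeries (Fin r) C₀) R A' T S g π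
        (fun j => algebraMap A' T (e.symm (C (varSeq Λ g j)))) ∧
      (∀ q : MvPowerSeries (Fin g) Λ, π (algebraMap A' T (e.symm (C q))) = ψ q) ∧
      (∀ i : Fin r, π (algebraMap A' T (e.symm (X i))) = algebraMap R S (t i)) := by
  have hfinR : Module.Finite (MvPowerSeries (Fin r) C₀) R := by
    have h1 : (algebraMap (MvPowerSeries (Fin r) C₀) R).Finite := by rw [hAR]; exact hfin
    exact (RingHom.finite_algebraMap).1 h1
  have hfinT : Module.Finite A' T := pushout_finite (MvPowerSeries (Fin r) C₀) R A' T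
  have hflA' : Module.Flat (MvPowerSeries (Fin r) C₀) A' := by
    have h1 : (MvPowerSeries.map (σ := Fin r) γ).Flat := flat_mvPowerSeries_map r γ hγflat
    have h2 : ((e.symm : MvPowerSeries (Fin r) (MvPowerSeries (Fin g) Λ) →+* A').comp
          (MvPowerSeries.map γ)).Flat :=
      RingHom.Flat.comp h1 (RingHom.Flat.of_bijective e.symm.bijective)
    rw [← hAA'] at h2
    exact (RingHom.flat_algebraMap_iff).1 h2
  have hflT : Module.Flat R T := pushout_flat (MvPowerSeries (Fin r) C₀) R A' T
  have hlocAA' : IsLocalHom (algebraMap (MvPowerSeries (Fin r) C₀) A') := by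
    have h1 : IsLocalHom (MvPowerSeries.map (σ := Fin r) γ) := isLocalHom_map γ hx0 hc0 hγ
    rw [hAA']
    have h2 : IsLocalHom (e.symm : MvPowerSeries (Fin r) (MvPowerSeries (Fin g) Λ) →+* A') :=
      ⟨fun a ha => by
        have : IsUnit (e.symm a) := ha
        exact (MulEquiv.isUnit_map e.symm).1 this⟩
    exact RingHom.isLocalHom_comp _ _
  -- `A → R` is local
  have hmA : maximalIdeal (MvPowerSeries (Fin r) C₀) =
      (maximalIdeal C₀).map (C : C₀ →+* MvPowerSeries (Fin r) C₀) ⊔
        Ideal.span (Set.range (X : Fin r → MvPowerSeries (Fin r) C₀)) :=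
    maximalIdeal_mvPowerSeries
  have hlocAR : IsLocalHom (algebraMap (MvPowerSeries (Fin r) C₀) R) := by
    refine ((local_hom_TFAE (algebraMap (MvPowerSeries (Fin r) C₀) R)).out 0 2).2 ?_
    rw [hmA, Ideal.map_sup, Ideal.map_map, sup_le_iff, hAR]
    constructor
    · have h1 : (psEval (maximalIdeal R) φ t ht).comp (C : C₀ →+* MvPowerSeries (Fin r) C₀) = φ := by
        ext c
        exact psEval_C _ _ _ ht c
      rw [h1]
      exact ((local_hom_TFAE φ).out 0 2).1 hφ
    · rw [Ideal.map_span, Ideal.span_le]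
      rintro _ ⟨_, ⟨i, rfl⟩, rfl⟩
      show psEval (maximalIdeal R) φ t ht (X i) ∈ maximalIdeal R
      rw [psEval_X]
      exact ht i
  have hres : ∀ x : R, ∃ a : MvPowerSeries (Fin r) C₀,
      x - algebraMap (MvPowerSeries (Fin r) C₀) R a ∈ maximalIdeal R := by
    intro x
    obtain ⟨c, hc⟩ := hφres x
    refine ⟨C c, ?_⟩
    rw [hAR, psEval_C]
    exact hc
  -- the map `A' → S`
  have htS : ∀ i, algebraMap R S (t i) ∈ maximalIdeal S := fun i =>
    mem_maximalIdeal_of_local _ ‹IsLocalHom (algebraMap R S)› (ht i)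
  let η : A' →+* S := (psEval (maximalIdeal S) ψ (fun i => algebraMap R S (t i)) htS).comp
    (e : A' →+* MvPowerSeries (Fin r) (MvPowerSeries (Fin g) Λ))
  have hηC : ∀ q : MvPowerSeries (Fin g) Λ, η (e.symm (C q)) = ψ q := by
    intro q
    show psEval (maximalIdeal S) ψ _ htS (e (e.symm (C q))) = ψ q
    rw [RingEquiv.apply_symm_apply, psEval_C]
  have hηX : ∀ i : Fin r, η (e.symm (X i)) = algebraMap R S (t i) := by
    intro i
    show psEval (maximalIdeal S) ψ _ htS (e (e.symm (X i))) = _
    rw [RingEquiv.apply_symm_apply, psEval_X]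
  have hcompat : (algebraMap R S).comp (algebraMap (MvPowerSeries (Fin r) C₀) R) =
      η.comp (algebraMap (MvPowerSeries (Fin r) C₀) A') := by
    have h1 : (algebraMap R S).comp (algebraMap (MvPowerSeries (Fin r) C₀) R) =
        psEval (maximalIdeal S) ((algebraMap R S).comp φ) (fun i => algebraMap R S (t i)) htS := by
      refine eq_psEval _ _ _ htS _ ?_ ?_
      · intro c
        rw [RingHom.comp_apply, hAR, psEval_C]
        rfl
      · intro i
        rw [RingHom.comp_apply, hAR, psEval_X]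
    have h2 : η.comp (algebraMap (MvPowerSeries (Fin r) C₀) A') =
        psEval (maximalIdeal S) ((algebraMap R S).comp φ) (fun i => algebraMap R S (t i)) htS := by
      refine eq_psEval _ _ _ htS _ ?_ ?_
      · intro c
        rw [RingHom.comp_apply, hAA']
        show η (e.symm (MvPowerSeries.map γ (C c))) = _
        rw [map_C, hηC, ← hcomp]
        rfl
      · intro i
        rw [RingHom.comp_apply, hAA']
        show η (e.symm (MvPowerSeries.map γ (X i))) = _
        rw [map_X, hηX]
    rw [h1, h2]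
  obtain ⟨π, hπR, hπA⟩ := exists_desc (MvPowerSeries (Fin r) C₀) R A' T (algebraMap R S) η hcompat
  have hπR' : ∀ x, π (algebraMap R T x) = algebraMap R S x := fun x =>
    congrArg (fun k : R →+* S => k x) hπR
  have hπA' : ∀ x, π (algebraMap A' T x) = η x := fun x =>
    congrArg (fun k : A' →+* S => k x) hπA
  have hηsurj : Function.Surjective η := by
    intro s
    obtain ⟨q, rfl⟩ := hψ s
    exact ⟨_, hηC q⟩
  have hηloc : IsLocalHom η := IsLocalHom.of_surjective η hηsurj
  obtain ⟨hTloc, hTmax⟩ := isLocalRing_pushout (A := MvPowerSeries (Fin r) C₀) (R := R) (A' := A')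
    (T := T) hres π
    (fun x hx => by
      rw [hπR']
      exact mem_maximalIdeal_of_local _ ‹IsLocalHom (algebraMap R S)› hx)
    (fun x hx => by
      rw [hπA']
      exact mem_maximalIdeal_of_local _ hηloc hx)
  -- closed fibre
  obtain ⟨ε, hε⟩ : ∃ ε : A' →+* MvPowerSeries (Fin g) (ResidueField Λ),
      ∀ x, ε x = eps Λ r g (e x) :=
    ⟨(eps Λ r g).comp (e : A' →+* MvPowerSeries (Fin r) (MvPowerSeries (Fin g) Λ)), fun x => rfl⟩
  have hker : RingHom.ker ε =
      (maximalIdeal (MvPowerSeries (Fin r) C₀)).map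
        (algebraMap (MvPowerSeries (Fin r) C₀) A') := by
    have h1 := ker_eps (r := r) γ hx0 hc0 hγ
    rw [hAA', ← Ideal.map_map, ← h1]
    ext x
    rw [RingHom.mem_ker, hε]
    constructor
    · intro hx
      have : x = (e.symm : MvPowerSeries (Fin r) (MvPowerSeries (Fin g) Λ) →+* A') (e x) := by
        show x = e.symm (e x)
        rw [RingEquiv.symm_apply_apply]
      rw [this]
      exact Ideal.mem_map_of_mem _ hx
    · intro hx
      have h2 := Ideal.mem_map_of_mem (e : A' →+* MvPowerSeries (Fin r)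
        (MvPowerSeries (Fin g) Λ)) hx
      rw [Ideal.map_map] at h2
      have h3 : (e : A' →+* MvPowerSeries (Fin r) (MvPowerSeries (Fin g) Λ)).comp
        (e.symm : MvPowerSeries (Fin r) (MvPowerSeries (Fin g) Λ) →+* A') = RingHom.id _ := by
        ext x
        simp
      rw [h3, Ideal.map_id] at h2
      exact h2
  obtain ⟨χ, hχ1, hχ2⟩ := exists_fibre_hom (A := MvPowerSeries (Fin r) C₀) (R := R) (A' := A')
    (T := T) hres ε hker.ge
  have hχker : RingHom.ker χ = (maximalIdeal R).map (algebraMap R T) :=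
    ker_fibre_hom (A := MvPowerSeries (Fin r) C₀) (R := R) (A' := A')
    (T := T) hres ε hker χ hχ1 hχ2
  have hχA : ∀ x, χ (algebraMap A' T x) = eps Λ r g (e x) := fun x => by
    rw [← hε, ← hχ1]
    rfl
  clear hχ1 hχ2 hker
  have hχsurj : Function.Surjective χ := by
    intro f
    obtain ⟨x, hx⟩ := eps_surjective (Λ := Λ) (r := r) (g := g) f
    refine ⟨algebraMap A' T (e.symm x), ?_⟩
    rw [hχA, RingEquiv.apply_symm_apply, hx]
  have hvar : ∀ j, MvPowerSeries.map (residue Λ) (varSeq Λ g j) = varSeq (ResidueField Λ) g j := by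
    intro j
    unfold varSeq
    split_ifs with h
    · rw [map_X]
    · rw [map_zero]
  have hY : ∀ j, χ (algebraMap A' T (e.symm (C (varSeq Λ g j)))) = varSeq (ResidueField Λ) g j := by
    intro j
    rw [hχA, RingEquiv.apply_symm_apply, eps_C, hvar]
  have hmaxT : maximalIdeal T = (maximalIdeal R).map (algebraMap R T) ⊔
      (maximalIdeal A').map (algebraMap A' T) := hTmax
  have hlocRT : IsLocalHom (algebraMap R T) := by
    refine ((local_hom_TFAE (algebraMap R T)).out 0 2).2 ?_
    rw [hmaxT]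
    exact le_sup_left
  have hlocA'T : IsLocalHom (algebraMap A' T) := by
    refine ((local_hom_TFAE (algebraMap A' T)).out 0 2).2 ?_
    rw [hmaxT]
    exact le_sup_right
  refine ⟨hTloc, π, ?_, ?_, ?_⟩
  · exact
    { finite_R := hfinR
      res_R := hres
      flat_A' := hflA'
      local_A' := hlocAA'
      local_R := hlocAR
      flat_T := hflT
      finite_T := hfinT
      local_T := hlocRT
      local_A'T := hlocA'T
      surjective := by
        intro s
        obtain ⟨x, rfl⟩ := hηsurj s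
        exact ⟨_, hπA' x⟩
      surjective' := by
        intro s
        obtain ⟨x, rfl⟩ := hηsurj s
        exact ⟨_, hπA' x⟩
      comp := hπR
      res_T := by
        intro x
        obtain ⟨a, ha⟩ := exists_sub_mem (A := MvPowerSeries (Fin r) C₀) (R := R) (A' := A') hres x
        refine ⟨a, ?_⟩
        rw [hmaxT]
        exact Ideal.mem_sup_left ha
      prime := fun i hi => pr_isPrime χ hχsurj hχker _ hY i hi
      notMem := fun i hi => Y_notMem_pr χ hχsurj hχker _ hY i hi
      max := pr_eq_maximalIdeal χ hχsurj hχker _ hY }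
  · intro q
    rw [hπA', hηC]
  · intro i
    rw [hπA', hηX]

/-- The construction of `T`. `C₀`, `Λ` = coefficient rings (fields or Cohen rings), `γ` = a lift of
`C₀ → R → S` through `ψ : Λ[[y]] → S`; `e` identifies `A'` with `Λ[[y]][[t]]`. -/
theorem exists_T {C₀ Λ R S A' : Type u} [CommRing C₀] [CommRing Λ] [CommRing R] [CommRing S]
    [CommRing A'] [IsLocalRing C₀] [IsNoetherianRing C₀] [IsLocalRing Λ] [IsNoetherianRing Λ]
    [IsLocalRing R] [IsNoetherianRing R] [IsAdicComplete (maximalIdeal R) R]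
    [IsLocalRing S] [IsNoetherianRing S] [IsAdicComplete (maximalIdeal S) S]
    [Algebra R S] [IsLocalHom (algebraMap R S)] {r g : ℕ}
    {x0 : Λ} (hx0 : maximalIdeal Λ = Ideal.span {x0})
    {c0 : C₀} (hc0 : maximalIdeal C₀ = Ideal.span {c0})
    (γ : C₀ →+* MvPowerSeries (Fin g) Λ) (hγ : γ c0 = C x0) (hγflat : γ.Flat)
    (φ : C₀ →+* R) (hφ : IsLocalHom φ) (hφres : ∀ x : R, ∃ c : C₀, x - φ c ∈ maximalIdeal R)
    (t : Fin r → R) (ht : ∀ i, t i ∈ maximalIdeal R)
    (hfin : (psEval (maximalIdeal R) φ t ht).Finite)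
    (ψ : MvPowerSeries (Fin g) Λ →+* S) (hψ : Function.Surjective ψ)
    (hcomp : ψ.comp γ = (algebraMap R S).comp φ)
    (e : A' ≃+* MvPowerSeries (Fin r) (MvPowerSeries (Fin g) Λ)) :
    ∃ (_ : Algebra (MvPowerSeries (Fin r) C₀) R) (_ : Algebra (MvPowerSeries (Fin r) C₀) A')
      (T : Type u) (_ : CommRing T) (_ : Algebra (MvPowerSeries (Fin r) C₀) T) (_ : Algebra R T)
      (_ : Algebra A' T) (_ : IsScalarTower (MvPowerSeries (Fin r) C₀) R T)
      (_ : IsScalarTower (MvPowerSeries (Fin r) C₀) A' T)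
      (_ : Algebra.IsPushout (MvPowerSeries (Fin r) C₀) R A' T)
      (_ : IsLocalRing A') (_ : IsNoetherianRing A') (_ : IsLocalRing T) (_ : IsNoetherianRing T)
      (π : T →+* S),
      IsCohenFact (MvPowerSeries (Fin r) C₀) R A' T S g π
        (fun j => algebraMap A' T (e.symm (C (varSeq Λ g j)))) ∧
      algebraMap (MvPowerSeries (Fin r) C₀) R = psEval (maximalIdeal R) φ t ht ∧
      algebraMap (MvPowerSeries (Fin r) C₀) A' =
        (e.symm : MvPowerSeries (Fin r) (MvPowerSeries (Fin g) Λ) →+* A').comp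
          (MvPowerSeries.map γ) ∧
      (∀ q : MvPowerSeries (Fin g) Λ, π (algebraMap A' T (e.symm (C q))) = ψ q) ∧
      (∀ i : Fin r, π (algebraMap A' T (e.symm (X i))) = algebraMap R S (t i)) := by
  let instAR : Algebra (MvPowerSeries (Fin r) C₀) R := (psEval (maximalIdeal R) φ t ht).toAlgebra
  let instAA' : Algebra (MvPowerSeries (Fin r) C₀) A' :=
    ((e.symm : MvPowerSeries (Fin r) (MvPowerSeries (Fin g) Λ) →+* A').comp
          (MvPowerSeries.map γ)).toAlgebra
  have hlocN : IsLocalRing (MvPowerSeries (Fin r) (MvPowerSeries (Fin g) Λ)) := inferInstance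
  have hlocA' : IsLocalRing A' := e.symm.isLocalRing
  have hnoeA' : IsNoetherianRing A' := isNoetherianRing_of_ringEquiv _ e.symm
  let instA'T : Algebra A' (TensorProduct (MvPowerSeries (Fin r) C₀) R A') :=
    Algebra.TensorProduct.rightAlgebra
  have hpush : Algebra.IsPushout (MvPowerSeries (Fin r) C₀) R A'
    (TensorProduct (MvPowerSeries (Fin r) C₀) R A') := TensorProduct.isPushout
  have hst : IsScalarTower (MvPowerSeries (Fin r) C₀) A'
    (TensorProduct (MvPowerSeries (Fin r) C₀) R A') :=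
    Algebra.TensorProduct.right_isScalarTower
  have hfinR : Module.Finite (MvPowerSeries (Fin r) C₀) R := hfin
  have hfinT : Module.Finite A' (TensorProduct (MvPowerSeries (Fin r) C₀) R A') :=
    pushout_finite (MvPowerSeries (Fin r) C₀) R A' _
  have hnoeT : IsNoetherianRing (TensorProduct (MvPowerSeries (Fin r) C₀) R A') :=
    IsNoetherianRing.of_finite A' _
  obtain ⟨hTloc, π, h1, h2, h3⟩ := exists_T_aux (T := TensorProduct (MvPowerSeries (Fin r) C₀) R A')
    hx0 hc0 γ hγ hγflat φ hφ hφres t ht hfin ψ hψ hcomp e rfl rfl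
  exact ⟨instAR, instAA', TensorProduct (MvPowerSeries (Fin r) C₀) R A', inferInstance,
    inferInstance, inferInstance, instA'T, inferInstance, hst, hpush, hlocA', hnoeA', hTloc, hnoeT,
    π, h1, rfl, rfl, h2, h3⟩

end Main

end Crest.Agent.R183.RD
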