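import Crest.Agent.R183.RD7
import Crest.Agent.R183.CohenWitt

/-!
# R183, block RD (helper680), part 8: a power series ring over a complete Noetherian local ring is
complete; surjectivity of `Λ[[y]] → S`.
-/

set_option autoImplicit false
set_option linter.unusedSectionVars false

namespace Crest.Agent.R183.RD

open TensorProduct IsLocalRing MvPowerSeries Crest.Agent.R183.M Crest.Agent.R183.Cohen

universe u v w

section Complete

variable {Λ : Type*} [CommRing Λ] [IsLocalRing Λ] {σ : Type*} [Finite σ]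

omit [Finite σ] in
theorem mem_maximalIdeal_mv_iff (f : MvPowerSeries σ Λ) :
    f ∈ maximalIdeal (MvPowerSeries σ Λ) ↔ constantCoeff f ∈ maximalIdeal Λ := by
  rw [mem_maximalIdeal, mem_nonunits_iff, MvPowerSeries.isUnit_iff_constantCoeff,
    mem_maximalIdeal, mem_nonunits_iff]

theorem C_mem_pow {c : Λ} {n : ℕ} (hc : c ∈ maximalIdeal Λ ^ n) :
    (C c : MvPowerSeries σ Λ) ∈ maximalIdeal (MvPowerSeries σ Λ) ^ n := by
  have h1 : (C c : MvPowerSeries σ Λ) ∈ (maximalIdeal Λ ^ n).map (C : Λ →+* MvPowerSeries σ Λ) :=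
    Ideal.mem_map_of_mem _ hc
  rw [Ideal.map_pow] at h1
  refine Ideal.pow_right_mono ?_ n h1
  rw [Ideal.map_le_iff_le_comap]
  intro x hx
  rw [Ideal.mem_comap, mem_maximalIdeal_mv_iff, constantCoeff_C]
  exact hx

theorem span_X_le : Ideal.span (Set.range (X : σ → MvPowerSeries σ Λ)) ≤
    maximalIdeal (MvPowerSeries σ Λ) := by
  rw [Ideal.span_le]
  rintro _ ⟨i, rfl⟩
  show (X i : MvPowerSeries σ Λ) ∈ maximalIdeal (MvPowerSeries σ Λ)
  rw [mem_maximalIdeal_mv_iff, constantCoeff_X]
  exact zero_mem _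

theorem monomial_mem_pow {x : σ →₀ ℕ} {c : Λ} {n : ℕ}
    (hc : c ∈ maximalIdeal Λ ^ (n - Finsupp.degree x)) :
    monomial x c ∈ maximalIdeal (MvPowerSeries σ Λ) ^ n := by
  classical
  have h1 : monomial x c = C c * monomial x (1 : Λ) := by
    ext y
    rw [coeff_C_mul, coeff_monomial, coeff_monomial]
    split_ifs <;> simp
  have h2 : monomial x (1 : Λ) ∈ maximalIdeal (MvPowerSeries σ Λ) ^ (Finsupp.degree x) := by
    refine Ideal.pow_right_mono span_X_le _ (mem_span_X_pow ?_)
    intro y hy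
    rw [coeff_monomial, if_neg]
    rintro rfl
    exact lt_irrefl _ hy
  have h3 := Ideal.mul_mem_mul (C_mem_pow (σ := σ) hc) h2
  rw [h1]
  rw [← pow_add] at h3
  exact Ideal.pow_le_pow_right (by omega) h3

theorem mem_pow_of_coeff {n : ℕ} {f : MvPowerSeries σ Λ}
    (hf : ∀ x : σ →₀ ℕ, coeff x f ∈ maximalIdeal Λ ^ (n - Finsupp.degree x)) :
    f ∈ maximalIdeal (MvPowerSeries σ Λ) ^ n := by
  classical
  have h1 : f = (f - ((truncTotal n f : MvPolynomial σ Λ) : MvPowerSeries σ Λ)) +
      ((truncTotal n f : MvPolynomial σ Λ) : MvPowerSeries σ Λ) := by ring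
  rw [h1]
  refine add_mem ?_ ?_
  · refine Ideal.pow_right_mono span_X_le _ (mem_span_X_pow ?_)
    intro x hx
    rw [map_sub, MvPolynomial.coeff_coe, coeff_truncTotal _ hx, sub_self]
  · have h2 : ((truncTotal n f : MvPolynomial σ Λ) : MvPowerSeries σ Λ) =
        ∑ x ∈ (truncTotal n f).support, monomial x ((truncTotal n f).coeff x) := by
      conv_lhs => rw [(truncTotal n f).as_sum]
      rw [← MvPolynomial.coeToMvPowerSeries.ringHom_apply, map_sum]
      exact Finset.sum_congr rfl fun x _ => MvPolynomial.coe_monomial _ _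
    rw [h2]
    refine Ideal.sum_mem _ fun x _ => monomial_mem_pow ?_
    rw [coeff_truncTotal_eq_ite]
    split_ifs
    · exact hf x
    · exact zero_mem _

theorem coeff_mem_of_mem_pow (n : ℕ) : ∀ {f : MvPowerSeries σ Λ}
    (_ : f ∈ maximalIdeal (MvPowerSeries σ Λ) ^ n) (x : σ →₀ ℕ),
    coeff x f ∈ maximalIdeal Λ ^ (n - Finsupp.degree x) := by
  classical
  have h1 : ∀ {f : MvPowerSeries σ Λ} (_ : f ∈ maximalIdeal (MvPowerSeries σ Λ)) (x : σ →₀ ℕ),
      coeff x f ∈ maximalIdeal Λ ^ (1 - Finsupp.degree x) := by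
    intro f hf x
    by_cases hx : x = 0
    · subst hx
      rw [coeff_zero_eq_constantCoeff_apply, map_zero, Nat.sub_zero, pow_one]
      exact (mem_maximalIdeal_mv_iff f).1 hf
    · have : Finsupp.degree x ≠ 0 := by
        rwa [Ne, Finsupp.degree_eq_zero_iff]
      have h2 : 1 - Finsupp.degree x = 0 := by omega
      rw [h2, pow_zero, Ideal.one_eq_top]
      trivial
  induction n with
  | zero =>
    intro f _ x
    rw [Nat.zero_sub, pow_zero, Ideal.one_eq_top]
    trivial
  | succ n ih =>
    intro f hf x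
    rw [pow_succ] at hf
    refine Submodule.mul_induction_on hf ?_ ?_
    · intro a ha b hb
      rw [coeff_mul]
      refine Ideal.sum_mem _ ?_
      rintro ⟨u, v⟩ huv
      rw [Finset.HasAntidiagonal.mem_antidiagonal] at huv
      have h2 := Ideal.mul_mem_mul (ih ha u) (h1 hb v)
      rw [← pow_add] at h2
      refine Ideal.pow_le_pow_right ?_ h2
      have h3 : Finsupp.degree x = Finsupp.degree u + Finsupp.degree v := by
        rw [← huv, map_add]
      omega
    · intro a b ha hb
      rw [map_add]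
      exact add_mem ha hb

theorem isAdicComplete_mv [IsNoetherianRing Λ] [IsAdicComplete (maximalIdeal Λ) Λ] :
    IsAdicComplete (maximalIdeal (MvPowerSeries σ Λ)) (MvPowerSeries σ Λ) := by
  have hH : IsHausdorff (maximalIdeal (MvPowerSeries σ Λ)) (MvPowerSeries σ Λ) :=
    IsHausdorff.of_isLocalRing _ _ (maximalIdeal.isMaximal _).ne_top
  refine { hH with prec' := ?_ }
  intro f hf
  have hf' : ∀ {m n : ℕ}, m ≤ n → f m - f n ∈ maximalIdeal (MvPowerSeries σ Λ) ^ m := by
    intro m n hmn
    have := hf hmn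
    rw [SModEq.sub_mem, smul_eq_mul, Ideal.mul_top] at this
    exact this
  have hlim : ∀ x : σ →₀ ℕ, ∃ L : Λ, ∀ n,
      coeff x (f (n + Finsupp.degree x)) - L ∈ maximalIdeal Λ ^ n := by
    intro x
    have h1 := IsPrecomplete.prec (I := maximalIdeal Λ) (M := Λ) inferInstance
      (f := fun n => coeff x (f (n + Finsupp.degree x))) (by
        intro m n hmn
        rw [SModEq.sub_mem, smul_eq_mul, Ideal.mul_top, ← map_sub]
        have h2 := coeff_mem_of_mem_pow _ (hf' (show m + Finsupp.degree x ≤ n + Finsupp.degree x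
          by omega)) x
        rwa [Nat.add_sub_cancel] at h2)
    obtain ⟨L, hL⟩ := h1
    refine ⟨L, fun n => ?_⟩
    have := hL n
    rwa [SModEq.sub_mem, smul_eq_mul, Ideal.mul_top] at this
  choose L hL using hlim
  let g : MvPowerSeries σ Λ := fun x => L x
  have hg : ∀ x, coeff x g = L x := fun x => rfl
  refine ⟨g, fun n => ?_⟩
  rw [SModEq.sub_mem, smul_eq_mul, Ideal.mul_top]
  refine mem_pow_of_coeff fun x => ?_
  rw [map_sub, hg]
  by_cases hx : Finsupp.degree x ≤ n
  · have := hL x (n - Finsupp.degree x)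
    rwa [Nat.sub_add_cancel hx] at this
  · have h2 : n - Finsupp.degree x = 0 := by omega
    rw [h2, pow_zero, Ideal.one_eq_top]
    trivial

end Complete

section Surj

variable {Λ S : Type*} [CommRing Λ] [IsLocalRing Λ] [IsNoetherianRing Λ]
  [CommRing S] [IsLocalRing S] [IsNoetherianRing S] [IsAdicComplete (maximalIdeal S) S]
  {σ : Type*} [Finite σ]

theorem psEval_surjective [IsPrecomplete (maximalIdeal Λ) Λ] (w : Λ →+* S) (hw : IsLocalHom w)
    (hres : Function.Surjective ((residue S).comp w)) (s : σ → S)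
    (hs : ∀ i, s i ∈ maximalIdeal S) (hgen : maximalIdeal S ≤ Ideal.span (Set.range s)) :
    Function.Surjective (psEval (maximalIdeal S) w s hs) := by
  have hfin : (psEval (maximalIdeal S) w s hs).Finite := by
    refine psEval_finite w s hw (RingHom.Finite.of_surjective _ hres) hs 1 ?_
    rw [pow_one]
    exact hgen.trans le_sup_right
  let _ : Algebra (MvPowerSeries σ Λ) S := (psEval (maximalIdeal S) w s hs).toAlgebra
  have hfin' : Module.Finite (MvPowerSeries σ Λ) S := hfin
  have hsm : ∀ (q : MvPowerSeries σ Λ) (x : S), q • x = psEval (maximalIdeal S) w s hs q * x :=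
    fun _ _ => rfl
  have hN : (⊤ : Submodule (MvPowerSeries σ Λ) S) ≤
      LinearMap.range (Algebra.linearMap (MvPowerSeries σ Λ) S) := by
    refine Submodule.le_of_le_smul_of_le_jacobson_bot (I := maximalIdeal (MvPowerSeries σ Λ))
      hfin'.fg_top (IsLocalRing.maximalIdeal_le_jacobson ⊥) ?_
    intro x _
    obtain ⟨l, hl⟩ := hres (residue S x)
    have h1 : x - w l ∈ maximalIdeal S := by
      rw [← residue_eq_zero_iff, map_sub, sub_eq_zero]
      exact hl.symm
    have h2 : x = w l + (x - w l) := by ring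
    rw [h2]
    refine Submodule.add_mem_sup ⟨C l, ?_⟩ ?_
    · show psEval (maximalIdeal S) w s hs (C l) = w l
      rw [psEval_C]
    · have h3 := hgen h1
      refine Submodule.span_induction (p := fun y _ => y ∈
        (maximalIdeal (MvPowerSeries σ Λ) • ⊤ : Submodule (MvPowerSeries σ Λ) S)) ?_ ?_ ?_ ?_ h3
      · rintro _ ⟨i, rfl⟩
        have h4 : s i = (X i : MvPowerSeries σ Λ) • (1 : S) := by
          rw [hsm, psEval_X, mul_one]
        rw [h4]
        refine Submodule.smul_mem_smul ?_ trivial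
        rw [mem_maximalIdeal_mv_iff, constantCoeff_X]
        exact zero_mem _
      · exact zero_mem _
      · intro x y _ _ hx hy
        exact add_mem hx hy
      · intro a y _ hy
        refine Submodule.smul_induction_on hy ?_ ?_
        · intro q hq z _
          rw [smul_eq_mul, hsm, ← mul_assoc, mul_comm a, mul_assoc, ← hsm]
          exact Submodule.smul_mem_smul hq trivial
        · intro u v hu hv
          rw [smul_add]
          exact add_mem hu hv
  intro x
  obtain ⟨q, hq⟩ := hN (x := x) trivial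
  exact ⟨q, hq⟩

/-- A Noetherian local ring has a finite set of generators of its maximal ideal. -/
theorem exists_gens (S : Type*) [CommRing S] [IsLocalRing S] [IsNoetherianRing S] :
    ∃ (g : ℕ) (s : Fin g → S), (∀ i, s i ∈ maximalIdeal S) ∧
      maximalIdeal S ≤ Ideal.span (Set.range s) := by
  obtain ⟨g, s, hs, _⟩ := exists_min_gens (maximalIdeal S) (IsNoetherian.noetherian _)
  exact ⟨g, s, fun i => hs ▸ Ideal.subset_span ⟨i, rfl⟩, hs.ge⟩

end Surj

section Reduction

/-- `(I + J)^{n+1} ⊆ I^{n+1} + J (I + J)^n` -/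
theorem sup_pow_succ_le {A : Type*} [CommRing A] (I J : Ideal A) (n : ℕ) :
    (I ⊔ J) ^ (n + 1) ≤ I ^ (n + 1) ⊔ J * (I ⊔ J) ^ n := by
  induction n with
  | zero => simp
  | succ n ih =>
    calc (I ⊔ J) ^ (n + 1 + 1) = (I ⊔ J) * (I ⊔ J) ^ (n + 1) := pow_succ' _ _
      _ ≤ (I ⊔ J) * (I ^ (n + 1) ⊔ J * (I ⊔ J) ^ n) := Ideal.mul_mono_right ih
      _ = I * I ^ (n + 1) ⊔ J * I ^ (n + 1) ⊔ (I ⊔ J) * (J * (I ⊔ J) ^ n) := by
          rw [Ideal.mul_sup, Ideal.sup_mul]
      _ ≤ I ^ (n + 1 + 1) ⊔ J * (I ⊔ J) ^ (n + 1) := by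
          refine sup_le (sup_le ?_ ?_) ?_
          · rw [← pow_succ']
            exact le_sup_left
          · exact (Ideal.mul_mono_right (Ideal.pow_right_mono le_sup_left _)).trans le_sup_right
          · rw [mul_left_comm, ← pow_succ']
            exact le_sup_right

/-- If `z` reduces `m_R` and `m_T = m_R T + (Y)` then `(z, Y)` reduces `m_T`. -/
theorem reduction_T {R T : Type*} [CommRing R] [IsLocalRing R] [CommRing T] [IsLocalRing T]
    [Algebra R T] {d g : ℕ} (z : Fin d → R) (Y : Fin g → T) (c : ℕ)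
    (hz : maximalIdeal R ^ (c + 1) ≤ Ideal.span (Set.range z) * maximalIdeal R ^ c)
    (hT : maximalIdeal T = (maximalIdeal R).map (algebraMap R T) ⊔ Ideal.span (Set.range Y)) :
    maximalIdeal T ^ (c + 1) ≤
      Ideal.span (Set.range (Fin.append (fun i => algebraMap R T (z i)) Y)) *
        maximalIdeal T ^ c := by
  have hr : Ideal.span (Set.range (Fin.append (fun i => algebraMap R T (z i)) Y)) =
      (Ideal.span (Set.range z)).map (algebraMap R T) ⊔ Ideal.span (Set.range Y) := by
    rw [Ideal.map_span, ← Ideal.span_union]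
    congr 1
    ext x
    constructor
    · rintro ⟨i, rfl⟩
      refine Fin.addCases (fun i => ?_) (fun i => ?_) i
      · left
        rw [Fin.append_left]
        exact ⟨_, ⟨i, rfl⟩, rfl⟩
      · right
        rw [Fin.append_right]
        exact ⟨i, rfl⟩
    · rintro (⟨_, ⟨i, rfl⟩, rfl⟩ | ⟨i, rfl⟩)
      · exact ⟨Fin.castAdd g i, by rw [Fin.append_left]⟩
      · exact ⟨Fin.natAdd d i, by rw [Fin.append_right]⟩
  rw [hr, Ideal.sup_mul]
  conv_lhs => rw [hT]
  refine (sup_pow_succ_le _ _ c).trans (sup_le ?_ ?_)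
  · rw [← Ideal.map_pow]
    refine (Ideal.map_mono hz).trans ?_
    rw [Ideal.map_mul, Ideal.map_pow]
    refine le_trans (Ideal.mul_mono_right (Ideal.pow_right_mono ?_ c)) le_sup_left
    rw [hT]
    exact le_sup_left
  · rw [← hT]
    exact le_sup_right

end Reduction

end Crest.Agent.R183.RD
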