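import Crest.Agent.R183.RD8
import Crest.Agent.R183.HSRed

/-!
# R183, block RD (helper680), part 9: existence of the Cohen factorisation in mixed characteristic
-/

set_option autoImplicit false
set_option linter.unusedSectionVars false

namespace Crest.Agent.R183.RD

open TensorProduct IsLocalRing MvPowerSeries Crest.Agent.R183.M Crest.Agent.R183.Cohen

universe u v w

section PsEquiv

variable (r g : ℕ) (Λ : Type*) [CommRing Λ]

/-- `Λ[[t_1..t_r, y_1..y_g]] ≃ Λ[[y]][[t]]` -/
noncomputable def psEquiv : MvPowerSeries (Fin (r + g)) Λ ≃+*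
    MvPowerSeries (Fin r) (MvPowerSeries (Fin g) Λ) :=
  (renameEquiv Λ finSumFinEquiv.symm).toRingEquiv.trans (sumEquiv (Fin r) (Fin g) Λ)

variable {r g Λ}

theorem psEquiv_C (x : Λ) : psEquiv r g Λ (C x) = C (C x) := by
  show sumEquiv (Fin r) (Fin g) Λ (rename finSumFinEquiv.symm (C x)) = _
  rw [rename_C, sumEquiv_C]

theorem psEquiv_X_castAdd (i : Fin r) : psEquiv r g Λ (X (Fin.castAdd g i)) = X i := by
  show sumEquiv (Fin r) (Fin g) Λ (rename finSumFinEquiv.symm (X (Fin.castAdd g i))) = _
  rw [rename_X, finSumFinEquiv_symm_apply_castAdd, sumEquiv_X_inl]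

theorem psEquiv_X_natAdd (j : Fin g) : psEquiv r g Λ (X (Fin.natAdd r j)) = C (X j) := by
  show sumEquiv (Fin r) (Fin g) Λ (rename finSumFinEquiv.symm (X (Fin.natAdd r j))) = _
  rw [rename_X, finSumFinEquiv_symm_apply_natAdd, sumEquiv_X_inr]

theorem psEquiv_symm_X (i : Fin r) : (psEquiv r g Λ).symm (X i) = X (Fin.castAdd g i) := by
  rw [RingEquiv.symm_apply_eq, psEquiv_X_castAdd]

theorem psEquiv_symm_C_C (x : Λ) : (psEquiv r g Λ).symm (C (C x)) = C x := by
  rw [RingEquiv.symm_apply_eq, psEquiv_C]

/-- the variables `y_j` of `A' = Λ[[t, y]]` -/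
noncomputable def yvar (r g : ℕ) (Λ : Type*) [CommRing Λ] (j : ℕ) :
    MvPowerSeries (Fin (r + g)) Λ :=
  if h : j < g then X (Fin.natAdd r ⟨j, h⟩) else 0

theorem psEquiv_symm_varSeq (j : ℕ) : (psEquiv r g Λ).symm (C (varSeq Λ g j)) = yvar r g Λ j := by
  rw [RingEquiv.symm_apply_eq, varSeq, yvar]
  split_ifs with h
  · rw [psEquiv_X_natAdd]
  · rw [map_zero, map_zero]

theorem yvar_apply (j : Fin g) : yvar r g Λ j = X (Fin.natAdd r j) := by
  rw [yvar, dif_pos j.2]

end PsEquiv

section Red

/-- the reduction `(z, y)` of `m_T` -/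
theorem IsCohenFact.reduction {A R A' T S : Type*} [CommRing A] [CommRing R] [CommRing A']
    [CommRing T] [CommRing S] [Algebra A R] [Algebra A A'] [Algebra A T] [Algebra R T]
    [Algebra A' T] [Algebra R S]
    [IsLocalRing A] [IsLocalRing R] [IsLocalRing A'] [IsLocalRing T] [IsLocalRing S]
    {g : ℕ} {π : T →+* S} {Y : ℕ → T} (h : IsCohenFact A R A' T S g π Y)
    {d : ℕ} (z : Fin d → R) (c : ℕ)
    (hz : maximalIdeal R ^ (c + 1) ≤ Ideal.span (Set.range z) * maximalIdeal R ^ c) :
    maximalIdeal T ^ (c + 1) ≤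
      Ideal.span (Set.range (Fin.append (fun i => algebraMap R T (z i))
        (fun j : Fin g => Y j))) * maximalIdeal T ^ c := by
  refine reduction_T z (fun j : Fin g => Y j) c hz ?_
  rw [← h.max, pr]
  congr 1
  congr 1
  ext x
  simp only [Set.mem_image, Set.mem_Iio, Set.mem_range]
  constructor
  · rintro ⟨j, hj, rfl⟩
    exact ⟨⟨j, hj⟩, rfl⟩
  · rintro ⟨j, rfl⟩
    exact ⟨j, j.2, rfl⟩

end Red

/-- **Cohen factorisation, mixed characteristic.** -/
theorem exists_mixed (p : ℕ) [Fact p.Prime] (d : ℕ) (R S : Type u) [CommRing R] [IsLocalRing R]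
    [IsNoetherianRing R] [IsDomain R] [IsAdicComplete (maximalIdeal R) R]
    [CommRing S] [IsLocalRing S] [IsNoetherianRing S] [IsAdicComplete (maximalIdeal S) S]
    [Algebra R S] [IsLocalHom (algebraMap R S)]
    [CharP (ResidueField S) p] [PerfectRing (ResidueField S) p]
    (hp0 : (p : R) ≠ 0) (hp : (p : R) ∈ maximalIdeal R)
    (hd : ringKrullDim R = ((d + 1 : ℕ) : WithBot ℕ∞)) :
    ∃ (C₀ : Type u) (_ : CommRing C₀) (_ : IsLocalRing C₀) (_ : IsCohen p C₀) (g : ℕ)
      (_ : Algebra (MvPowerSeries (Fin d) C₀) R)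
      (_ : Algebra (MvPowerSeries (Fin d) C₀)
        (MvPowerSeries (Fin (d + g)) (WittVector p (ResidueField S))))
      (T : Type u) (_ : CommRing T) (_ : Algebra (MvPowerSeries (Fin d) C₀) T) (_ : Algebra R T)
      (_ : Algebra (MvPowerSeries (Fin (d + g)) (WittVector p (ResidueField S))) T)
      (_ : IsScalarTower (MvPowerSeries (Fin d) C₀) R T)
      (_ : IsScalarTower (MvPowerSeries (Fin d) C₀)
        (MvPowerSeries (Fin (d + g)) (WittVector p (ResidueField S))) T)
      (_ : Algebra.IsPushout (MvPowerSeries (Fin d) C₀) R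
        (MvPowerSeries (Fin (d + g)) (WittVector p (ResidueField S))) T)
      (_ : IsLocalRing T) (_ : IsNoetherianRing T) (π : T →+* S),
      IsCohenFact (MvPowerSeries (Fin d) C₀) R
        (MvPowerSeries (Fin (d + g)) (WittVector p (ResidueField S))) T S g π
        (fun j => algebraMap (MvPowerSeries (Fin (d + g)) (WittVector p (ResidueField S))) T
          (yvar d g (WittVector p (ResidueField S)) j)) ∧
      Function.Injective (algebraMap (MvPowerSeries (Fin d) C₀) R) ∧
      (∀ i, algebraMap (MvPowerSeries (Fin d) C₀)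
        (MvPowerSeries (Fin (d + g)) (WittVector p (ResidueField S))) (X i) =
          X (Fin.castAdd g i)) := by
  obtain ⟨C₀, _, _, hC, φ, hφ, t, ht, hbij, _, hinj, hfin⟩ := exists_noether_mixed p R hp hp0 d hd
  have hpS : (p : S) ∈ maximalIdeal S := by
    have := mem_maximalIdeal_of_local (algebraMap R S) ‹_› hp
    rwa [map_natCast] at this
  have hW : IsCohen p (WittVector p (ResidueField S)) := isCohen_witt p (ResidueField S)
  obtain ⟨w, hw⟩ := hW.exists_lift_residue hpS
    ((residueWitt p (ResidueField S)).toRingHom.comp (residue _))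
  have hwsurj : Function.Surjective ((residue S).comp w) := by
    rw [hw]
    exact (residueWitt p (ResidueField S)).surjective.comp residue_surjective
  have hwloc : IsLocalHom w := by
    refine ⟨fun a ha => ?_⟩
    have h1 : IsUnit (residue S (w a)) := ha.map _
    have h2 : residue S (w a) = residueWitt p (ResidueField S) (residue _ a) :=
      RingHom.congr_fun hw a
    rw [h2] at h1
    have h3 : residue (WittVector p (ResidueField S)) a ≠ 0 := by
      intro h
      rw [h, map_zero] at h1
      exact not_isUnit_zero h1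
    rwa [Ne, residue_eq_zero_iff, mem_maximalIdeal, mem_nonunits_iff, not_not] at h3
  obtain ⟨g, s, hs, hsgen⟩ := exists_gens S
  have hWc : IsAdicComplete (maximalIdeal (WittVector p (ResidueField S)))
    (WittVector p (ResidueField S)) := hW.complete
  have hWn : IsNoetherianRing (WittVector p (ResidueField S)) := hW.isNoetherianRing
  have hWd : IsDomain (WittVector p (ResidueField S)) := hW.isDVR_dom
  have hC₀n : IsNoetherianRing C₀ := hC.isNoetherianRing
  have hC₀d := hC.isDVR_dom
  have hC₀v := hC.isDVR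
  let ψ : MvPowerSeries (Fin g) (WittVector p (ResidueField S)) →+* S :=
    psEval (maximalIdeal S) w s hs
  have hψ : Function.Surjective ψ := psEval_surjective w hwloc hwsurj s hs hsgen
  have hQc : IsAdicComplete (maximalIdeal (MvPowerSeries (Fin g) (WittVector p (ResidueField S))))
    (MvPowerSeries (Fin g) (WittVector p (ResidueField S))) := isAdicComplete_mv
  have hpQ : (p : MvPowerSeries (Fin g) (WittVector p (ResidueField S))) ∈
      maximalIdeal (MvPowerSeries (Fin g) (WittVector p (ResidueField S))) := by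
    rw [mem_maximalIdeal_mv_iff, map_natCast, hW.maximalIdeal_eq]
    exact Ideal.mem_span_singleton_self _
  obtain ⟨γ, hγ⟩ := hC.exists_lift_of_surjective hpQ ψ hψ ((algebraMap R S).comp φ)
  have hγp : γ (p : C₀) = C (p : WittVector p (ResidueField S)) := by
    rw [map_natCast, map_natCast]
  have hγflat : γ.Flat := by
    let _ : Algebra C₀ (MvPowerSeries (Fin g) (WittVector p (ResidueField S))) := γ.toAlgebra
    have hinjγ : Function.Injective γ := by
      rw [injective_iff_map_eq_zero]
      intro x hx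
      by_contra hx0
      obtain ⟨n, u, rfl⟩ := exists_unit_mul_pow hC.maximalIdeal_eq hx0
      rw [map_mul, map_pow, hγp] at hx
      rcases mul_eq_zero.1 hx with h | h
      · have h2 := eq_zero_of_pow_eq_zero h
        rw [← map_zero C] at h2
        exact hW.natCast_ne_zero (C_injective h2)
      · exact (u.isUnit.map γ).ne_zero h
    have hQd : IsDomain (MvPowerSeries (Fin g) (WittVector p (ResidueField S))) :=
      NoZeroDivisors.to_isDomain _
    have htf : Module.IsTorsionFree C₀ (MvPowerSeries (Fin g) (WittVector p (ResidueField S))) :=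
      Module.isTorsionFree_iff_algebraMap_injective.2 hinjγ
    show Module.Flat C₀ (MvPowerSeries (Fin g) (WittVector p (ResidueField S)))
    infer_instance
  have hφres : ∀ x : R, ∃ c : C₀, x - φ c ∈ maximalIdeal R := by
    intro x
    obtain ⟨y, hy⟩ := hbij.2 (residue R x)
    obtain ⟨c, rfl⟩ := residue_surjective y
    refine ⟨c, ?_⟩
    rw [← residue_eq_zero_iff, map_sub, ← hy, sub_eq_zero]
    rfl
  obtain ⟨i1, i2, T, i3, i4, i5, i6, i7, i8, i9, i10, i11, i12, i13, π, h1, h2, h3, h4, h5⟩ :=
    exists_T (R := R) (S := S) hW.maximalIdeal_eq hC.maximalIdeal_eq γ hγp hγflat φ hφ hφres t ht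
      hfin ψ hψ hγ (psEquiv d g (WittVector p (ResidueField S)))
  have hYf : (fun j => algebraMap (MvPowerSeries (Fin (d + g)) (WittVector p (ResidueField S))) T
      ((psEquiv d g (WittVector p (ResidueField S))).symm
        (C (varSeq (WittVector p (ResidueField S)) g j)))) =
      (fun j => algebraMap (MvPowerSeries (Fin (d + g)) (WittVector p (ResidueField S))) T
          (yvar d g (WittVector p (ResidueField S)) j)) := by
    funext j
    rw [psEquiv_symm_varSeq]
  rw [hYf] at h1
  refine ⟨C₀, inferInstance, inferInstance, hC, g, i1, i2, T, i3, i4, i5, i6, i7, i8, i9, i12, i13,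
    π, h1, ?_, ?_⟩
  · rw [h2]
    exact hinj
  · intro i
    rw [h3]
    show (psEquiv d g (WittVector p (ResidueField S))).symm (MvPowerSeries.map γ (X i)) = _
    rw [map_X, psEquiv_symm_X]

end Crest.Agent.R183.RD
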