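import Mathlib

/-!
# R183, block RD0, part 1: base change `R ⊗[A] A'` of a finite local extension along a local map
-/

set_option autoImplicit false

namespace Crest.Agent.R183.RDZ

open IsLocalRing TensorProduct

universe u v w

section Base

variable (A : Type u) (R : Type v) (A' : Type w) [CommRing A] [CommRing R] [CommRing A']
  [IsLocalRing A] [IsLocalRing R] [IsLocalRing A'] [Algebra A R] [Algebra A A']

/-- `A' → R ⊗ A'` -/
noncomputable def incl : A' →+* R ⊗[A] A' :=
  (Algebra.TensorProduct.includeRight : A' →ₐ[A] R ⊗[A] A').toRingHom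

omit [IsLocalRing A] [IsLocalRing R] [IsLocalRing A'] in
theorem incl_apply (a : A') : incl A R A' a = (1 : R) ⊗ₜ[A] a := rfl

omit [IsLocalRing A] [IsLocalRing R] [IsLocalRing A'] in
theorem incl_finite [Module.Finite A R] : (incl A R A').Finite := by
  have h1 : (algebraMap A' (A' ⊗[A] R)).Finite := by
    rw [RingHom.finite_algebraMap]
    infer_instance
  have h2 : incl A R A' =
      (Algebra.TensorProduct.comm A A' R).toAlgHom.toRingHom.comp (algebraMap A' (A' ⊗[A] R)) := by
    ext a
    rfl
  rw [h2]
  exact RingHom.Finite.comp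
    (RingHom.Finite.of_surjective _ (Algebra.TensorProduct.comm A A' R).surjective) h1

omit [IsLocalRing A] [IsLocalRing R] [IsLocalRing A'] in
theorem incl_isIntegral [Module.Finite A R] : (incl A R A').IsIntegral :=
  (incl_finite A R A').to_isIntegral

omit [IsLocalRing A] [IsLocalRing R] [IsLocalRing A'] in
theorem incl_algebraMap (a : A) : incl A R A' (algebraMap A A' a) =
    algebraMap R (R ⊗[A] A') (algebraMap A R a) := by
  rw [incl_apply, Algebra.TensorProduct.algebraMap_apply,
    Algebra.algebraMap_self_apply, Algebra.algebraMap_eq_smul_one, Algebra.algebraMap_eq_smul_one,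
    TensorProduct.tmul_smul, TensorProduct.smul_tmul']

omit [IsLocalRing A] [IsLocalRing A'] in
/-- `A' → R'/m_R R'` is surjective if the residue field extension of `R/A` is trivial. -/
theorem mk_incl_surjective (hres : Function.Surjective ((residue R).comp (algebraMap A R))) :
    Function.Surjective ((Ideal.Quotient.mk ((maximalIdeal R).map
      (algebraMap R (R ⊗[A] A')))).comp (incl A R A')) := by
  intro x
  obtain ⟨x, rfl⟩ := Ideal.Quotient.mk_surjective x
  induction x using TensorProduct.induction_on with
  | zero => exact ⟨0, by simp⟩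
  | tmul r a =>
    obtain ⟨c, hc⟩ := hres (residue R r)
    refine ⟨c • a, ?_⟩
    rw [RingHom.comp_apply, incl_apply, Ideal.Quotient.eq]
    have h1 : (1 : R) ⊗ₜ[A] (c • a) - r ⊗ₜ[A] a =
        algebraMap R (R ⊗[A] A') (algebraMap A R c - r) * (1 ⊗ₜ[A] a) := by
      rw [Algebra.TensorProduct.algebraMap_apply, Algebra.TensorProduct.tmul_mul_tmul,
        Algebra.algebraMap_self_apply, mul_one, one_mul, TensorProduct.sub_tmul,
        TensorProduct.tmul_smul, TensorProduct.smul_tmul', Algebra.algebraMap_eq_smul_one]
    rw [h1]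
    refine Ideal.mul_mem_right _ _ (Ideal.mem_map_of_mem _ ?_)
    rw [← residue_eq_zero_iff, map_sub, sub_eq_zero]
    exact hc
  | add x y hx hy =>
    obtain ⟨a, ha⟩ := hx
    obtain ⟨b, hb⟩ := hy
    exact ⟨a + b, by rw [map_add, map_add, ha, hb]⟩

variable [Module.Finite A R] [IsLocalHom (algebraMap A R)] [IsLocalHom (algebraMap A A')]

/-- every maximal ideal of `R ⊗ A'` contracts to the maximal ideals -/
theorem comap_of_isMaximal (M : Ideal (R ⊗[A] A')) [M.IsMaximal] :
    M.comap (incl A R A') = maximalIdeal A' ∧
      M.comap (algebraMap R (R ⊗[A] A')) = maximalIdeal R := by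
  have h1 : M.comap (incl A R A') = maximalIdeal A' := by
    have : (M.comap (incl A R A')).IsMaximal :=
      Ideal.isMaximal_comap_of_isIntegral_of_isMaximal' _ (incl_isIntegral A R A') M
    exact eq_maximalIdeal this
  refine ⟨h1, ?_⟩
  set p := M.comap (algebraMap R (R ⊗[A] A')) with hp
  have hpp : p.IsPrime := Ideal.comap_isPrime _ _
  have h2 : p.comap (algebraMap A R) = maximalIdeal A := by
    have h3 : p.comap (algebraMap A R) = (M.comap (incl A R A')).comap (algebraMap A A') := by
      ext a
      simp only [hp, Ideal.mem_comap, incl_algebraMap]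
    rw [h3, h1]
    exact maximalIdeal_comap (algebraMap A A')
  have h3 : p.IsMaximal := by
    refine Ideal.isMaximal_of_isIntegral_of_isMaximal_comap (R := A) p ?_
    rw [h2]
    exact maximalIdeal.isMaximal A
  exact eq_maximalIdeal h3

/-- `R ⊗[A] A'` is local. -/
theorem isLocalRing_tensor (hres : Function.Surjective ((residue R).comp (algebraMap A R)))
    (hne : Nontrivial (R ⊗[A] A')) : IsLocalRing (R ⊗[A] A') := by
  have huniq : ∀ M N : Ideal (R ⊗[A] A'), M.IsMaximal → N.IsMaximal → M = N := by
    intro M N hM hN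
    have hMR := (comap_of_isMaximal A R A' M).2
    have hNR := (comap_of_isMaximal A R A' N).2
    have hMA := (comap_of_isMaximal A R A' M).1
    have hNA := (comap_of_isMaximal A R A' N).1
    have hMle : (maximalIdeal R).map (algebraMap R (R ⊗[A] A')) ≤ M := by
      rw [Ideal.map_le_iff_le_comap, hMR]
    have hNle : (maximalIdeal R).map (algebraMap R (R ⊗[A] A')) ≤ N := by
      rw [Ideal.map_le_iff_le_comap, hNR]
    have key : M ≤ N := by
      intro x hx
      obtain ⟨a, ha⟩ := mk_incl_surjective A R A' hres (Ideal.Quotient.mk _ x)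
      rw [RingHom.comp_apply, Ideal.Quotient.eq] at ha
      have h1 : incl A R A' a ∈ M := by
        have : incl A R A' a = (incl A R A' a - x) + x := by ring
        rw [this]
        exact M.add_mem (hMle ha) hx
      have h2 : a ∈ maximalIdeal A' := by rw [← hMA]; exact h1
      have h3 : incl A R A' a ∈ N := by rw [← hNA] at h2; exact h2
      have : x = incl A R A' a - (incl A R A' a - x) := by ring
      rw [this]
      exact N.sub_mem h3 (hNle ha)
    exact hM.eq_of_le hN.ne_top key
  obtain ⟨M, hM⟩ := Ideal.exists_maximal (R ⊗[A] A')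
  exact IsLocalRing.of_unique_max_ideal ⟨M, hM, fun N hN => huniq N M hN hM⟩

/-- local hom -/
theorem isLocalHom_left [IsLocalRing (R ⊗[A] A')] :
    IsLocalHom (algebraMap R (R ⊗[A] A')) := by
  constructor
  intro a ha
  by_contra hna
  have h1 : a ∈ (maximalIdeal (R ⊗[A] A')).comap (algebraMap R (R ⊗[A] A')) := by
    rw [(comap_of_isMaximal A R A' (maximalIdeal (R ⊗[A] A'))).2]
    exact (mem_maximalIdeal _).2 hna
  exact (mem_maximalIdeal _).1 h1 ha

theorem isLocalHom_incl [IsLocalRing (R ⊗[A] A')] : IsLocalHom (incl A R A') := by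
  constructor
  intro a ha
  by_contra hna
  have h1 : a ∈ (maximalIdeal (R ⊗[A] A')).comap (incl A R A') := by
    rw [(comap_of_isMaximal A R A' (maximalIdeal (R ⊗[A] A'))).1]
    exact (mem_maximalIdeal _).2 hna
  exact (mem_maximalIdeal _).1 h1 ha

/-- If `m_A A' = m_{A'}` then `m_R R' = m_{R'}`. -/
theorem map_maximalIdeal_left [IsLocalRing (R ⊗[A] A')]
    (hres : Function.Surjective ((residue R).comp (algebraMap A R)))
    (hm : (maximalIdeal A).map (algebraMap A A') = maximalIdeal A') :
    (maximalIdeal R).map (algebraMap R (R ⊗[A] A')) = maximalIdeal (R ⊗[A] A') := by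
  have hloc := isLocalHom_left A R A'
  have hloc' := isLocalHom_incl A R A'
  apply le_antisymm
  · rw [Ideal.map_le_iff_le_comap, (comap_of_isMaximal A R A' (maximalIdeal (R ⊗[A] A'))).2]
  · intro x hx
    obtain ⟨a, ha⟩ := mk_incl_surjective A R A' hres (Ideal.Quotient.mk _ x)
    rw [RingHom.comp_apply, Ideal.Quotient.eq] at ha
    have hle : (maximalIdeal R).map (algebraMap R (R ⊗[A] A')) ≤ maximalIdeal (R ⊗[A] A') := by
      rw [Ideal.map_le_iff_le_comap, (comap_of_isMaximal A R A' (maximalIdeal (R ⊗[A] A'))).2]
    have h1 : incl A R A' a ∈ maximalIdeal (R ⊗[A] A') := by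
      have : incl A R A' a = (incl A R A' a - x) + x := by ring
      rw [this]
      exact Ideal.add_mem _ (hle ha) hx
    have h2 : a ∈ maximalIdeal A' := by
      rw [← (comap_of_isMaximal A R A' (maximalIdeal (R ⊗[A] A'))).1]
      exact h1
    have h3 : incl A R A' a ∈ (maximalIdeal R).map (algebraMap R (R ⊗[A] A')) := by
      rw [← hm] at h2
      have h4 : (maximalIdeal A).map (algebraMap A A') ≤
          ((maximalIdeal R).map (algebraMap R (R ⊗[A] A'))).comap (incl A R A') := by
        rw [Ideal.map_le_iff_le_comap]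
        intro c hc
        rw [Ideal.mem_comap, Ideal.mem_comap, incl_algebraMap]
        refine Ideal.mem_map_of_mem _ ?_
        rw [mem_maximalIdeal] at hc ⊢
        exact fun hu => hc (isUnit_of_map_unit (algebraMap A R) c hu)
      exact h4 h2
    have : x = incl A R A' a - (incl A R A' a - x) := by ring
    rw [this]
    exact Ideal.sub_mem _ h3 ha

end Base

section Free

variable (R : Type u) (R' : Type v) (S : Type w) [CommRing R] [CommRing R'] [CommRing S]
  [IsLocalRing R] [IsLocalRing R'] [IsNoetherianRing R'] [Algebra R R'] [Algebra R' S]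
  [Algebra R S] [IsScalarTower R R' S]

/-- If `S` is flat over `R`, finite over `R'` and `m_R R' = m_{R'}`, then `S` is free over `R'`. -/
theorem free_of_map_maximalIdeal [Module.Flat R S] [Module.Finite R' S]
    (hm : (maximalIdeal R).map (algebraMap R R') = maximalIdeal R') : Module.Free R' S := by
  have : Module.FinitePresentation R' S := Module.finitePresentation_of_finite R' S
  apply Module.free_of_maximalIdeal_rTensor_injective
  have hmem : ∀ m : maximalIdeal R, algebraMap R R' m ∈ maximalIdeal R' := fun m => by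
    rw [← hm]
    exact Ideal.mem_map_of_mem _ m.2
  -- surjection `m_R ⊗_R S → m' ⊗_{R'} S`
  let θ : (maximalIdeal R) ⊗[R] S →ₗ[R] (maximalIdeal R') ⊗[R'] S :=
    TensorProduct.lift (LinearMap.mk₂ R
      (fun m s => (⟨algebraMap R R' m, hmem m⟩ : maximalIdeal R') ⊗ₜ[R'] s)
      (fun m₁ m₂ s => by
        rw [← TensorProduct.add_tmul]
        congr 1
        ext
        simp)
      (fun c m s => by
        rw [TensorProduct.smul_tmul']
        congr 1
        ext
        simp [Algebra.smul_def])
      (fun m s₁ s₂ => TensorProduct.tmul_add _ _ _)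
      (fun c m s => by
        rw [← algebraMap_smul R' c s, TensorProduct.tmul_smul, algebraMap_smul]))
  have hθ : ∀ (m : maximalIdeal R) (s : S), θ (m ⊗ₜ s) =
      (⟨algebraMap R R' m, hmem m⟩ : maximalIdeal R') ⊗ₜ[R'] s := fun m s => rfl
  have hsurj : Function.Surjective θ := by
    intro x
    induction x using TensorProduct.induction_on with
    | zero => exact ⟨0, map_zero _⟩
    | add x y hx hy =>
      obtain ⟨a, rfl⟩ := hx
      obtain ⟨b, rfl⟩ := hy
      exact ⟨a + b, map_add _ _ _⟩
    | tmul x s =>
      obtain ⟨x, hx⟩ := x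
      have hx' : x ∈ (maximalIdeal R).map (algebraMap R R') := by rw [hm]; exact hx
      have key : ∀ y ∈ (maximalIdeal R).map (algebraMap R R'), ∀ (hy : y ∈ maximalIdeal R') (s : S),
          ∃ a, θ a = (⟨y, hy⟩ : maximalIdeal R') ⊗ₜ[R'] s := by
        intro y hy0
        refine Submodule.span_induction ?_ ?_ ?_ ?_ hy0
        · rintro _ ⟨m, hm1, rfl⟩ hy s
          exact ⟨(⟨m, hm1⟩ : maximalIdeal R) ⊗ₜ s, rfl⟩
        · intro hy s
          refine ⟨0, ?_⟩
          rw [map_zero]
          have : (⟨0, hy⟩ : maximalIdeal R') = 0 := rfl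
          rw [this, TensorProduct.zero_tmul]
        · intro a b ha hb iha ihb hy s
          have ha' : a ∈ maximalIdeal R' := by rw [← hm]; exact ha
          have hb' : b ∈ maximalIdeal R' := by rw [← hm]; exact hb
          obtain ⟨u, hu⟩ := iha ha' s
          obtain ⟨v, hv⟩ := ihb hb' s
          refine ⟨u + v, ?_⟩
          rw [map_add, hu, hv, ← TensorProduct.add_tmul]
          rfl
        · intro c a ha iha hy s
          have ha' : a ∈ maximalIdeal R' := by rw [← hm]; exact ha
          obtain ⟨u, hu⟩ := iha ha' (c • s)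
          refine ⟨u, ?_⟩
          rw [hu, TensorProduct.tmul_smul, TensorProduct.smul_tmul']
          rfl
      exact key x hx' hx s
  have hinj : Function.Injective ((maximalIdeal R).subtype.rTensor S) :=
    Module.Flat.rTensor_preserves_injective_linearMap _ Subtype.val_injective
  rw [injective_iff_map_eq_zero]
  intro x hx
  obtain ⟨y, rfl⟩ := hsurj x
  have h1 : ∀ y : (maximalIdeal R) ⊗[R] S,
      TensorProduct.lid R' S ((maximalIdeal R').subtype.rTensor S (θ y)) =
        TensorProduct.lid R S ((maximalIdeal R).subtype.rTensor S y) := by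
    intro y
    induction y using TensorProduct.induction_on with
    | zero => simp
    | add a b ha hb => rw [map_add, map_add, map_add, map_add, map_add, ha, hb]
    | tmul m s =>
      rw [hθ, LinearMap.rTensor_tmul, LinearMap.rTensor_tmul, TensorProduct.lid_tmul,
        TensorProduct.lid_tmul]
      exact algebraMap_smul R' (m : R) s
  have h2 : TensorProduct.lid R S ((maximalIdeal R).subtype.rTensor S y) = 0 := by
    rw [← h1, hx, map_zero]
  have h3 : (maximalIdeal R).subtype.rTensor S y = 0 := by
    rwa [LinearEquiv.map_eq_zero_iff] at h2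
  have h4 : y = 0 := hinj (by rw [h3, map_zero])
  rw [h4, map_zero]

end Free

end Crest.Agent.R183.RDZ
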