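import Mathlib
import Crest.Agent.R183.CohenFinite

/-!
# R183, block RD0, part 2: finite local algebras over complete local rings are complete
-/

set_option autoImplicit false

namespace Crest.Agent.R183.RDZ

open IsLocalRing TensorProduct

universe u v w

/-- quotients of precomplete modules are precomplete -/
theorem isPrecomplete_of_surjective {A M N : Type*} [CommRing A] [AddCommGroup M] [Module A M]
    [AddCommGroup N] [Module A N] (I : Ideal A) [hM : IsPrecomplete I M] (f : M →ₗ[A] N)
    (hf : Function.Surjective f) : IsPrecomplete I N := by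
  refine ⟨fun g hg => ?_⟩
  have hstep : ∀ m : ℕ, ∀ a : M, f a = g m →
      ∃ a' : M, f a' = g (m + 1) ∧ a' - a ∈ (I ^ m • ⊤ : Submodule A M) := by
    intro m a ha
    have h1 : g m ≡ g (m + 1) [SMOD (I ^ m • ⊤ : Submodule A N)] := hg (Nat.le_succ m)
    rw [SModEq.sub_mem] at h1
    have h2 : (I ^ m • ⊤ : Submodule A N) = (I ^ m • ⊤ : Submodule A M).map f := by
      rw [Submodule.map_smul'', Submodule.map_top, LinearMap.range_eq_top.2 hf]
    rw [h2] at h1
    obtain ⟨δ, hδ, hδ2⟩ := Submodule.mem_map.1 h1
    refine ⟨a - δ, ?_, ?_⟩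
    · rw [map_sub, ha, hδ2]
      abel
    · have : a - δ - a = -δ := by abel
      rw [this]
      exact Submodule.neg_mem _ hδ
  choose! nxt hn1 hn2 using hstep
  obtain ⟨a0, ha0⟩ := hf (g 0)
  let a : ℕ → M := fun m => Nat.rec a0 (fun m x => nxt m x) m
  have ha : ∀ m, f (a m) = g m := by
    intro m
    induction m with
    | zero => exact ha0
    | succ m ih => exact hn1 m (a m) ih
  have hc : ∀ m k, a m ≡ a (m + k) [SMOD (I ^ m • ⊤ : Submodule A M)] := by
    intro m k
    induction k with
    | zero => rfl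
    | succ k ih =>
      refine ih.trans ?_
      rw [SModEq.sub_mem]
      have h3 := hn2 (m + k) (a (m + k)) (ha (m + k))
      have h4 : a (m + k) - a (m + (k + 1)) = -(nxt (m + k) (a (m + k)) - a (m + k)) := by
        have : a (m + (k + 1)) = nxt (m + k) (a (m + k)) := rfl
        rw [this]
        abel
      rw [h4]
      exact Submodule.neg_mem _
        (Submodule.smul_mono_left (Ideal.pow_le_pow_right (Nat.le_add_right m k)) h3)
  obtain ⟨L, hL⟩ := hM.prec' a (fun {m n} hmn => by
    obtain ⟨k, rfl⟩ := Nat.exists_eq_add_of_le hmn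
    exact hc m k)
  refine ⟨f L, fun n => ?_⟩
  have h5 := hL n
  rw [SModEq.sub_mem] at h5 ⊢
  rw [← ha n, ← map_sub]
  have h6 : (I ^ n • ⊤ : Submodule A M).map f ≤ (I ^ n • ⊤ : Submodule A N) := by
    rw [Submodule.map_smul'']
    exact Submodule.smul_mono le_rfl le_top
  exact h6 (Submodule.mem_map_of_mem h5)

/-- precompleteness for a larger ideal with a power in the smaller one -/
theorem isPrecomplete_of_pow_le {B : Type*} [CommRing B] {J K : Ideal B} (hJK : J ≤ K) {c : ℕ}
    (hc : K ^ c ≤ J) [hJ : IsPrecomplete J B] : IsPrecomplete K B := by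
  have hc' : K ^ (c + 1) ≤ J := (Ideal.pow_le_pow_right (Nat.le_succ c)).trans hc
  refine ⟨fun g hg => ?_⟩
  obtain ⟨L, hL⟩ := hJ.prec' (fun m => g ((c + 1) * m)) (fun {m n} hmn => by
    have h1 := hg (Nat.mul_le_mul_left (c + 1) hmn)
    refine h1.mono ?_
    refine Submodule.smul_mono_left ?_
    rw [pow_mul]
    exact Ideal.pow_right_mono hc' m)
  refine ⟨L, fun n => ?_⟩
  have h2 : g n ≡ g ((c + 1) * n) [SMOD (K ^ n • ⊤ : Submodule B B)] :=
    hg (Nat.le_mul_of_pos_left n (Nat.succ_pos c))
  have h3 : g ((c + 1) * n) ≡ L [SMOD (K ^ n • ⊤ : Submodule B B)] :=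
    (hL n).mono (Submodule.smul_mono_left (Ideal.pow_right_mono hJK n))
  exact h2.trans h3

/-- A finite local algebra over a complete local ring is complete. -/
theorem isAdicComplete_of_finite (A : Type u) (B : Type v) [CommRing A] [IsLocalRing A]
    [hA : IsAdicComplete (maximalIdeal A) A] [CommRing B] [IsLocalRing B] [IsNoetherianRing B]
    [Algebra A B] [Module.Finite A B] [IsLocalHom (algebraMap A B)] :
    IsAdicComplete (maximalIdeal B) B := by
  have hle : (maximalIdeal A).map (algebraMap A B) ≤ maximalIdeal B :=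
    IsLocalRing.map_maximalIdeal_le (algebraMap A B)
  -- a power of `m_B` lies in `m_A B`
  have hpow : ∃ c, maximalIdeal B ^ c ≤ (maximalIdeal A).map (algebraMap A B) := by
    have hrad : maximalIdeal B ≤ ((maximalIdeal A).map (algebraMap A B)).radical := by
      rw [Ideal.radical_eq_sInf]
      refine le_sInf fun p hp => ?_
      obtain ⟨hp1, hp2⟩ := hp
      have h1 : (maximalIdeal A) ≤ p.comap (algebraMap A B) := Ideal.map_le_iff_le_comap.1 hp1
      have h2 : p.comap (algebraMap A B) ≠ ⊤ := Ideal.comap_ne_top _ hp2.ne_top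
      have h3 : p.comap (algebraMap A B) = maximalIdeal A :=
        ((maximalIdeal.isMaximal A).eq_of_le h2 h1).symm
      have h4 : p.IsMaximal := by
        refine Ideal.isMaximal_of_isIntegral_of_isMaximal_comap (R := A) p ?_
        change (p.comap (algebraMap A B)).IsMaximal
        rw [h3]
        exact maximalIdeal.isMaximal A
      rw [eq_maximalIdeal h4]
    exact Ideal.exists_pow_le_of_le_radical_of_fg hrad (maximalIdeal B).fg_of_isNoetherianRing
  obtain ⟨c, hc⟩ := hpow
  have h1 : IsPrecomplete (maximalIdeal A) B := by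
    obtain ⟨n, f, hf⟩ := Module.Finite.exists_fin' A B
    have h2 : IsPrecomplete (maximalIdeal A) (Fin n → A) := by
      have := hA.toIsPrecomplete
      exact Cohen.isPrecomplete_pi (maximalIdeal A) n
    exact isPrecomplete_of_surjective (maximalIdeal A) f hf
  have h3 : IsPrecomplete ((maximalIdeal A).map (algebraMap A B)) B :=
    IsPrecomplete.map_algebraMap_iff.2 h1
  have h4 : IsPrecomplete (maximalIdeal B) B := isPrecomplete_of_pow_le hle hc
  have h5 : IsHausdorff (maximalIdeal B) B :=
    IsHausdorff.of_isLocalRing _ _ (maximalIdeal.isMaximal B).ne_top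
  exact { h4, h5 with }

end Crest.Agent.R183.RDZ
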