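import Mathlib
import Crest.Agent.R183.CohenNoether
import Crest.Agent.R183.RD2
import Crest.Agent.R183.G5
import Crest.Agent.R183.RDZ1
import Crest.Agent.R183.RDZ2
import Crest.Agent.R183.M7
import Crest.Agent.R183.EZ2

/-!
# R183, block RD0, part 3: equal characteristic zero, making the residue fields equal
-/

set_option autoImplicit false

namespace Crest.Agent.R183.RDZ

open IsLocalRing TensorProduct M

universe u


/-- a ring map between fields is flat -/
theorem flat_of_field {k K : Type*} [Field k] [Field K] (ι : k →+* K) : ι.Flat := by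
  let _ : Algebra k K := ι.toAlgebra
  exact RingHom.flat_algebraMap_iff.2 (inferInstance : Module.Flat k K)

/-- the tensor product step, over abstract rings -/
theorem tensor_step (A A' R S K : Type u) [CommRing A] [CommRing A'] [CommRing R] [CommRing S]
    [Field K] [IsLocalRing A] [IsLocalRing A'] [IsLocalRing R] [IsLocalRing S]
    [IsNoetherianRing A] [IsNoetherianRing A'] [IsNoetherianRing R] [IsNoetherianRing S]
    [IsAdicComplete (maximalIdeal A') A']
    [Algebra A R] [Algebra A A'] [Algebra R S] [Module.Flat R S]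
    [IsLocalHom (algebraMap R S)] [IsLocalHom (algebraMap A R)]
    (hfinR : Module.Finite A R) (hflat' : (algebraMap A A').Flat)
    (hmAA' : (maximalIdeal A).map (algebraMap A A') = maximalIdeal A')
    (hres : Function.Surjective ((residue R).comp (algebraMap A R)))
    (ΦS : A' →+* S) (hΦS : ΦS.Finite)
    (hcompat : ∀ a : A, ΦS (algebraMap A A' a) = algebraMap R S (algebraMap A R a))
    (g0 : K →+* A') (hg0 : ∀ a : A', ∃ b : K, a - g0 b ∈ maximalIdeal A')
    (hg1 : Function.Surjective ((residue S).comp (ΦS.comp g0)))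
    {d : ℕ} (hdR : ringKrullDim R = d) :
    ∃ (R' : Type u) (_ : CommRing R')
      (_ : IsLocalRing R') (_ : IsNoetherianRing R') (_ : IsAdicComplete (maximalIdeal R') R')
      (_ : Algebra R' S) (_ : IsLocalHom (algebraMap R' S)) (_ : Module.Finite R' S)
      (_ : Module.Free R' S) (g : K →+* R'),
      Function.Surjective ((residue R').comp g) ∧
      Function.Surjective ((residue S).comp ((algebraMap R' S).comp g)) ∧
      ringKrullDim R' = d ∧ hs R R = hs R' R' := by
  have hflat : Module.Flat A A' := RingHom.flat_algebraMap_iff.1 hflat'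
  have hlocAA' : IsLocalHom (algebraMap A A') := G.isLocalHom_of_map_maximalIdeal hmAA'
  let _ : Algebra A S := ((algebraMap R S).comp (algebraMap A R)).toAlgebra
  -- the map to `S`
  let fR : R →ₐ[A] S := { algebraMap R S with commutes' := fun a => rfl }
  let fA' : A' →ₐ[A] S :=
    { ΦS with commutes' := fun a => hcompat a }
  let F : R ⊗[A] A' →ₐ[A] S := Algebra.TensorProduct.productMap fR fA'
  have hFl : ∀ r : R, F (algebraMap R (R ⊗[A] A') r) = algebraMap R S r := by
    intro r
    rw [Algebra.TensorProduct.algebraMap_apply, Algebra.algebraMap_self_apply]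
    change Algebra.TensorProduct.productMap fR fA' (r ⊗ₜ 1) = _
    rw [Algebra.TensorProduct.productMap_apply_tmul, map_one, mul_one]
    rfl
  have hFr : ∀ a : A', F (incl A R A' a) = ΦS a := by
    intro a
    rw [incl_apply]
    change Algebra.TensorProduct.productMap fR fA' (1 ⊗ₜ a) = _
    rw [Algebra.TensorProduct.productMap_apply_tmul, map_one, one_mul]
    rfl
  have hnt : Nontrivial (R ⊗[A] A') := F.toRingHom.domain_nontrivial
  have hloc : IsLocalRing (R ⊗[A] A') := isLocalRing_tensor A R A' hres hnt
  have hmR' : (maximalIdeal R).map (algebraMap R (R ⊗[A] A')) = maximalIdeal (R ⊗[A] A') :=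
    map_maximalIdeal_left A R A' hres hmAA'
  have hnoeth : IsNoetherianRing (R ⊗[A] A') := by
    let _ : Algebra A' (R ⊗[A] A') := (incl A R A').toAlgebra
    have : Module.Finite A' (R ⊗[A] A') := incl_finite A R A'
    exact IsNoetherianRing.of_finite A' (R ⊗[A] A')
  let _ : Algebra (R ⊗[A] A') S := F.toRingHom.toAlgebra
  have htower : IsScalarTower R (R ⊗[A] A') S := IsScalarTower.of_algebraMap_eq fun r => (hFl r).symm
  have hfinS : Module.Finite (R ⊗[A] A') S := by
    have h1 : (F.toRingHom.comp (incl A R A')).Finite := by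
      have h2 : F.toRingHom.comp (incl A R A') = ΦS := RingHom.ext hFr
      rw [h2]
      exact hΦS
    exact RingHom.Finite.of_comp_finite h1
  have hfree : Module.Free (R ⊗[A] A') S := free_of_map_maximalIdeal R (R ⊗[A] A') S hmR'
  have hlocF : IsLocalHom (algebraMap (R ⊗[A] A') S) := by
    apply ((IsLocalRing.local_hom_TFAE (algebraMap (R ⊗[A] A') S)).out 0 2).mpr
    rw [← hmR', Ideal.map_map, ← IsScalarTower.algebraMap_eq]
    exact IsLocalRing.map_maximalIdeal_le (algebraMap R S)
  have hcompl : IsAdicComplete (maximalIdeal (R ⊗[A] A')) (R ⊗[A] A') := by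
    let _ : Algebra A' (R ⊗[A] A') := (incl A R A').toAlgebra
    have h1 : Module.Finite A' (R ⊗[A] A') := incl_finite A R A'
    have h2 : IsLocalHom (algebraMap A' (R ⊗[A] A')) := isLocalHom_incl A R A'
    exact isAdicComplete_of_finite A' (R ⊗[A] A')
  have hlocR : IsLocalHom (algebraMap R (R ⊗[A] A')) := G.isLocalHom_of_map_maximalIdeal hmR'
  refine ⟨R ⊗[A] A', inferInstance, hloc, hnoeth, hcompl, inferInstance,
    hlocF, hfinS, hfree, (incl A R A').comp g0, ?_, ?_, ?_, ?_⟩
  · intro y
    obtain ⟨y, rfl⟩ := residue_surjective y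
    obtain ⟨a, ha⟩ := mk_incl_surjective A R A' hres (Ideal.Quotient.mk _ y)
    obtain ⟨b, hb⟩ := hg0 a
    refine ⟨b, ?_⟩
    have h1 : incl A R A' a - y ∈ maximalIdeal (R ⊗[A] A') := by
      rw [RingHom.comp_apply, Ideal.Quotient.eq] at ha
      rw [← hmR']
      exact ha
    have h3 : incl A R A' (a - g0 b) ∈ maximalIdeal (R ⊗[A] A') := by
      have h4 := isLocalHom_incl A R A'
      exact (IsLocalRing.map_maximalIdeal_le (incl A R A')) (Ideal.mem_map_of_mem _ hb)
    rw [← residue_eq_zero_iff, map_sub, sub_eq_zero] at h1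
    rw [← residue_eq_zero_iff, map_sub, map_sub, sub_eq_zero] at h3
    rw [RingHom.comp_apply, RingHom.comp_apply, ← h3, h1]
  · have h1 : (algebraMap (R ⊗[A] A') S).comp ((incl A R A').comp g0) = ΦS.comp g0 := by
      ext y
      exact hFr (g0 y)
    rw [h1]
    exact hg1
  · rw [G.ringKrullDim_eq_of_map_maximalIdeal hmR', hdR]
  · exact hs_eq_of_flat R (R ⊗[A] A') hmR'

theorem step (R S : Type u) [CommRing R] [CommRing S] [IsLocalRing R] [IsLocalRing S]
    [IsNoetherianRing R] [IsNoetherianRing S] [IsAdicComplete (maximalIdeal R) R]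
    [IsAdicComplete (maximalIdeal S) S] [Algebra R S] [Module.Flat R S]
    [IsLocalHom (algebraMap R S)] (hchar : CharZero (ResidueField S)) {d : ℕ}
    (hdR : ringKrullDim R = d) (hdS : ringKrullDim S = d) :
    ∃ (K : Type u) (_ : Field K) (_ : CharZero K) (R' : Type u) (_ : CommRing R')
      (_ : IsLocalRing R') (_ : IsNoetherianRing R') (_ : IsAdicComplete (maximalIdeal R') R')
      (_ : Algebra R' S) (_ : IsLocalHom (algebraMap R' S)) (_ : Module.Finite R' S)
      (_ : Module.Free R' S) (g : K →+* R'),
      Function.Surjective ((residue R').comp g) ∧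
      Function.Surjective ((residue S).comp ((algebraMap R' S).comp g)) ∧
      ringKrullDim R' = d ∧ hs R R = hs R' R' := by
  -- residue fields and coefficient fields
  let k := ResidueField R
  let K := ResidueField S
  have hchark : CharZero k := by
    constructor
    intro a b hab
    have h1 : (ResidueField.map (algebraMap R S)) (a : k) =
        (ResidueField.map (algebraMap R S)) (b : k) := by rw [hab]
    rw [map_natCast, map_natCast] at h1
    exact hchar.cast_injective h1
  obtain ⟨σ, hσ⟩ := Cohen.exists_coefficientField_charZero' R hchark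
  let _ : Algebra k S := ((algebraMap R S).comp σ).toAlgebra
  obtain ⟨τ, hτ, hτ2⟩ := Cohen.exists_coefficientField_charZero (k := k) S
  let ι : k →+* K := (residue S).comp ((algebraMap R S).comp σ)
  have hτι : ∀ a : k, τ (ι a) = algebraMap R S (σ a) := hτ2
  -- system of parameters
  obtain ⟨x, hx, t, ht⟩ := HS.exists_sop (R := R) d hdR
  have hfx : ∀ i, algebraMap R S (x i) ∈ maximalIdeal S := fun i =>
    (IsLocalRing.map_maximalIdeal_le (algebraMap R S)) (Ideal.mem_map_of_mem _ (hx i))
  -- a power of `m_S` is contained in `(x) S`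
  have hpowS : ∃ c, maximalIdeal S ^ c ≤ Ideal.span (Set.range fun i => algebraMap R S (x i)) := by
    have h1 : ringKrullDim (S ⧸ (maximalIdeal R).map (algebraMap R S)) = 0 := by
      have h2 := ringKrullDim_eq_add_of_flat R S
      rw [hdR, hdS] at h2
      have hne : (maximalIdeal R).map (algebraMap R S) ≠ ⊤ :=
        (IsLocalRing.map_maximalIdeal_lt_top (algebraMap R S)).ne
      have : Nontrivial (S ⧸ (maximalIdeal R).map (algebraMap R S)) :=
        Ideal.Quotient.nontrivial_iff.2 hne
      have : IsLocalRing (S ⧸ (maximalIdeal R).map (algebraMap R S)) :=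
        IsLocalRing.of_surjective' _ Ideal.Quotient.mk_surjective
      obtain ⟨n, hn⟩ := exists_nat_ringKrullDim (S ⧸ (maximalIdeal R).map (algebraMap R S))
      rw [hn] at h2 ⊢
      have h3 : d = d + n := by exact_mod_cast h2
      have h4 : n = 0 := by omega
      rw [h4]
      rfl
    have h2 : maximalIdeal S ≤ ((maximalIdeal R).map (algebraMap R S)).radical := by
      rw [Ideal.radical_eq_sInf]
      refine le_sInf fun p hp => ?_
      obtain ⟨hp1, hp2⟩ := hp
      have hne : Nontrivial (S ⧸ p) := Ideal.Quotient.nontrivial_iff.2 hp2.ne_top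
      have h3 : ringKrullDim (S ⧸ p) ≤ 0 := by
        rw [← h1]
        exact ringKrullDim_le_of_surjective (Ideal.Quotient.factor hp1)
          (Ideal.Quotient.factor_surjective hp1)
      have h4 : Ring.KrullDimLE 0 (S ⧸ p) := by
        rw [Ring.krullDimLE_iff]
        exact_mod_cast h3
      have h5 : p.IsMaximal := by
        have : IsDomain (S ⧸ p) := Ideal.Quotient.isDomain p
        have h6 : (⊥ : Ideal (S ⧸ p)).IsMaximal := Ring.krullDimLE_zero_iff.1 h4 ⊥ Ideal.isPrime_bot
        exact Ideal.Quotient.maximal_of_isField p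
          (Ring.isField_iff_maximal_bot.2 h6)
      rw [eq_maximalIdeal h5]
    obtain ⟨c1, hc1⟩ := Ideal.exists_pow_le_of_le_radical_of_fg h2
      (maximalIdeal S).fg_of_isNoetherianRing
    refine ⟨c1 * t, ?_⟩
    rw [pow_mul]
    refine (Ideal.pow_right_mono hc1 t).trans ?_
    rw [← Ideal.map_pow]
    refine (Ideal.map_mono ht).trans ?_
    rw [Ideal.map_span, ← Set.range_comp]
    rfl
  obtain ⟨c, hc⟩ := hpowS
  -- power series rings
  let A := MvPowerSeries (Fin d) k
  let A' := MvPowerSeries (Fin d) K
  let ΦR : A →+* R := Cohen.psEval (maximalIdeal R) σ x hx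
  let ΦS : A' →+* S := Cohen.psEval (maximalIdeal S) τ (fun i => algebraMap R S (x i)) hfx
  let α : A →+* A' := MvPowerSeries.map ι
  have hcompat : ΦS.comp α = (algebraMap R S).comp ΦR := by
    have h1 : ΦS.comp α = Cohen.psEval (maximalIdeal S) ((algebraMap R S).comp σ)
        (fun i => algebraMap R S (x i)) hfx := by
      refine Cohen.eq_psEval _ _ _ hfx _ (fun a => ?_) (fun i => ?_)
      · change ΦS (MvPowerSeries.map ι (MvPowerSeries.C a)) = _
        rw [MvPowerSeries.map_C, Cohen.psEval_C]
        exact hτι a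
      · change ΦS (MvPowerSeries.map ι (MvPowerSeries.X i)) = _
        rw [MvPowerSeries.map_X, Cohen.psEval_X]
    have h2 : (algebraMap R S).comp ΦR = Cohen.psEval (maximalIdeal S) ((algebraMap R S).comp σ)
        (fun i => algebraMap R S (x i)) hfx := by
      refine Cohen.eq_psEval _ _ _ hfx _ (fun a => ?_) (fun i => ?_)
      · change algebraMap R S (ΦR (MvPowerSeries.C a)) = _
        rw [Cohen.psEval_C]
        rfl
      · change algebraMap R S (ΦR (MvPowerSeries.X i)) = _
        rw [Cohen.psEval_X]
    rw [h1, h2]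
  have hresR : ((residue R).comp σ) = RingHom.id k := by
    ext a
    exact hσ a
  have hresS : ((residue S).comp τ) = RingHom.id K := by
    ext a
    exact hτ a
  have hΦR := Cohen.noether_equal (k := k) σ (by rw [hresR]; exact RingHom.Finite.id k) hdR x hx ht
  have hΦS := Cohen.noether_equal (k := K) τ (by rw [hresS]; exact RingHom.Finite.id K) hdS
    (fun i => algebraMap R S (x i)) hfx hc
  let _ : Algebra A R := ΦR.toAlgebra
  let _ : Algebra A A' := α.toAlgebra
  let _ : Algebra A S := ((algebraMap R S).comp ΦR).toAlgebra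
  have hfinR : Module.Finite A R := hΦR.2
  have hflat : (algebraMap A A').Flat := by
    refine RD.flat_mvPowerSeries_map d ι ?_
    exact flat_of_field ι
  -- maximal ideals
  have hmA : maximalIdeal A = Ideal.span (Set.range MvPowerSeries.X) := EZ.maximalIdeal_eq_span d k
  have hmA' : maximalIdeal A' = Ideal.span (Set.range MvPowerSeries.X) :=
    EZ.maximalIdeal_eq_span d K
  have hmAA' : (maximalIdeal A).map (algebraMap A A') = maximalIdeal A' := by
    rw [hmA, hmA', Ideal.map_span, ← Set.range_comp]
    congr 2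
    funext i
    exact MvPowerSeries.map_X ι i
  have hlocAR : IsLocalHom (algebraMap A R) := by
    apply ((IsLocalRing.local_hom_TFAE (algebraMap A R)).out 0 2).mpr
    rw [hmA, Ideal.map_span, Ideal.span_le]
    rintro _ ⟨_, ⟨i, rfl⟩, rfl⟩
    have : algebraMap A R (MvPowerSeries.X i) = x i := Cohen.psEval_X _ _ _ hx i
    rw [this]
    exact hx i
  have hres : Function.Surjective ((residue R).comp (algebraMap A R)) := by
    intro a
    refine ⟨MvPowerSeries.C a, ?_⟩
    have : algebraMap A R (MvPowerSeries.C a) = σ a := Cohen.psEval_C _ _ _ hx a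
    rw [RingHom.comp_apply, this]
    exact hσ a
  refine ⟨K, inferInstance, hchar, ?_⟩
  refine tensor_step A A' R S K hfinR hflat hmAA' hres ΦS hΦS.2
    (fun a => RingHom.congr_fun hcompat a) MvPowerSeries.C (fun a => ?_) (fun y => ?_) hdR
  · refine ⟨MvPowerSeries.constantCoeff a, ?_⟩
    rw [EZ.maximalIdeal_eq_ker, RingHom.mem_ker, map_sub, MvPowerSeries.constantCoeff_C, sub_self]
  · refine ⟨y, ?_⟩
    have h1 : ΦS (MvPowerSeries.C y) = τ y := Cohen.psEval_C _ _ _ hfx y
    rw [RingHom.comp_apply, RingHom.comp_apply, h1]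
    exact hτ y

end Crest.Agent.R183.RDZ
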