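import Mathlib
import Crest.Agent.R183.RDZ3
import Crest.Agent.R183.HSRed

/-!
# R183, block RD0, part 4: the equal characteristic zero reduction
-/

set_option autoImplicit false

namespace Crest.Agent.R183.RDZ

open IsLocalRing TensorProduct M

universe u

/-- The situation to which equal characteristic zero is reduced: `R` a local domain, finite and
injective over `K[[x_1, ..., x_d]]`, with `x` a minimal reduction of the maximal ideal, `S` a
finite free local `R`-algebra, and `K` maps onto both residue fields. -/
def CoreZero (d : ℕ) : Prop :=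
  ∀ (K : Type u) [Field K] [CharZero K] (R S : Type u) [CommRing R] [CommRing S] [IsDomain R]
    [IsLocalRing R] [IsLocalRing S] [IsNoetherianRing R] [IsNoetherianRing S]
    [Algebra (MvPowerSeries (Fin d) K) R] [Algebra R S]
    [Module.Finite (MvPowerSeries (Fin d) K) R] [Module.Free R S] [Module.Finite R S]
    [IsLocalHom (algebraMap R S)],
    Function.Injective (algebraMap (MvPowerSeries (Fin d) K) R) →
    Function.Surjective ((residue R).comp
      ((algebraMap (MvPowerSeries (Fin d) K) R).comp MvPowerSeries.C)) →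
    Function.Surjective ((residue S).comp ((algebraMap R S).comp
      ((algebraMap (MvPowerSeries (Fin d) K) R).comp MvPowerSeries.C))) →
    (∀ i, algebraMap (MvPowerSeries (Fin d) K) R (MvPowerSeries.X i) ∈ maximalIdeal R) →
    (∃ t : ℕ, maximalIdeal R ^ (t + 1) ≤
      Ideal.span (Set.range fun i => algebraMap (MvPowerSeries (Fin d) K) R (MvPowerSeries.X i)) *
        maximalIdeal R ^ t) →
    ringKrullDim R = d → ringKrullDim S = d → LechC R S d d

theorem of_coeff {K : Type u} [Field K] [CharZero K] (R S : Type u) [CommRing R] [IsLocalRing R]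
    [IsDomain R] [IsNoetherianRing R] [IsAdicComplete (maximalIdeal R) R] [CommRing S]
    [IsLocalRing S] [Algebra R S] [IsLocalHom (algebraMap R S)] [Module.Finite R S]
    [Module.Free R S] (g : K →+* R) (hg : Function.Surjective ((residue R).comp g))
    (hg' : Function.Surjective ((residue S).comp ((algebraMap R S).comp g))) {d : ℕ}
    (hd : ringKrullDim R = d) (hd' : ringKrullDim S = d) (H : CoreZero.{u} d) :
    LechC R S d d := by
  have hinf : Infinite (ResidueField R) :=
    Infinite.of_injective _ ((residue R).comp g).injective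
  obtain ⟨x, hx, t, ht⟩ := HS.exists_minimal_reduction (R := R) hd le_rfl (t := 1)
    (pow_one _).le
  have ht' : maximalIdeal R ^ (t + 1) ≤ Ideal.span (Set.range x) := by
    rw [ht]
    exact Ideal.mul_le_left
  have hΦ := Cohen.noether_equal g (RingHom.Finite.of_surjective _ hg) hd x hx ht'
  let Φ : MvPowerSeries (Fin d) K →+* R := Cohen.psEval (maximalIdeal R) g x hx
  let _ : Algebra (MvPowerSeries (Fin d) K) R := Φ.toAlgebra
  have hfin : Module.Finite (MvPowerSeries (Fin d) K) R := hΦ.2
  have hC : (algebraMap (MvPowerSeries (Fin d) K) R).comp MvPowerSeries.C = g := by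
    ext a
    exact Cohen.psEval_C _ _ _ hx a
  have hX : ∀ i, algebraMap (MvPowerSeries (Fin d) K) R (MvPowerSeries.X i) = x i := fun i =>
    Cohen.psEval_X _ _ _ hx i
  have hnS : IsNoetherianRing S := IsNoetherianRing.of_finite R S
  refine H K R S hΦ.1 ?_ ?_ ?_ ⟨t, ?_⟩ hd hd'
  · rw [hC]
    exact hg
  · rw [hC]
    exact hg'
  · intro i
    rw [hX]
    exact hx i
  · have : (fun i => algebraMap (MvPowerSeries (Fin d) K) R (MvPowerSeries.X i)) = x :=
      funext hX
    rw [this, ht]

theorem reduction (R S : Type u) [CommRing R] [CommRing S] [IsLocalRing R] [IsLocalRing S]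
    [IsNoetherianRing R] [IsNoetherianRing S] [IsAdicComplete (maximalIdeal R) R]
    [IsAdicComplete (maximalIdeal S) S] [Algebra R S] [Module.Flat R S]
    [IsLocalHom (algebraMap R S)] (hchar : CharZero (ResidueField S)) {d : ℕ}
    (hdR : ringKrullDim R = d) (hdS : ringKrullDim S = d) (H : CoreZero.{u} d) :
    LechC R S d d := by
  obtain ⟨K, _, _, R', _, _, _, _, _, _, _, _, g, hg, hg', hdR', hhs⟩ := step R S hchar hdR hdS
  refine LechC.of_flat_left hhs ?_
  refine domain_reduction R' S d d hdR' hdS ?_
  intro P hP hlR hlS hflat hlocal hdP hdP'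
  have hdom : IsDomain (R' ⧸ P) := Ideal.Quotient.isDomain P
  have hcomp : IsAdicComplete (maximalIdeal (R' ⧸ P)) (R' ⧸ P) := by
    have hloc : IsLocalHom (algebraMap R' (R' ⧸ P)) :=
      IsLocalHom.of_surjective _ Ideal.Quotient.mk_surjective
    exact isAdicComplete_of_finite R' (R' ⧸ P)
  have hfin : Module.Finite (R' ⧸ P) (S ⧸ P.map (algebraMap R' S)) := by
    have h1 : Module.Finite R' (S ⧸ P.map (algebraMap R' S)) :=
      Module.Finite.of_surjective
        ((Ideal.Quotient.mkₐ R' (P.map (algebraMap R' S))).toLinearMap) Ideal.Quotient.mk_surjective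
    have h2 : IsScalarTower R' (R' ⧸ P) (S ⧸ P.map (algebraMap R' S)) :=
      IsScalarTower.of_algebraMap_eq fun r => rfl
    exact Module.Finite.of_restrictScalars_finite R' (R' ⧸ P) (S ⧸ P.map (algebraMap R' S))
  have hfree : Module.Free (R' ⧸ P) (S ⧸ P.map (algebraMap R' S)) :=
    Module.free_of_flat_of_isLocalRing
  refine of_coeff (R' ⧸ P) (S ⧸ P.map (algebraMap R' S)) ((Ideal.Quotient.mk P).comp g) ?_ ?_
    hdP hdP' H
  · have hlocP : IsLocalHom (Ideal.Quotient.mk P) :=
      IsLocalHom.of_surjective _ Ideal.Quotient.mk_surjective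
    intro y
    obtain ⟨y, rfl⟩ := residue_surjective y
    obtain ⟨y, rfl⟩ := Ideal.Quotient.mk_surjective y
    obtain ⟨b, hb⟩ := hg (residue R' y)
    refine ⟨b, ?_⟩
    rw [RingHom.comp_apply] at hb
    have h1 := congrArg (ResidueField.map (Ideal.Quotient.mk P)) hb
    rw [ResidueField.map_residue, ResidueField.map_residue] at h1
    exact h1
  · have hlocP : IsLocalHom (Ideal.Quotient.mk (P.map (algebraMap R' S))) :=
      IsLocalHom.of_surjective _ Ideal.Quotient.mk_surjective
    intro y
    obtain ⟨y, rfl⟩ := residue_surjective y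
    obtain ⟨y, rfl⟩ := Ideal.Quotient.mk_surjective y
    obtain ⟨b, hb⟩ := hg' (residue S y)
    refine ⟨b, ?_⟩
    rw [RingHom.comp_apply] at hb
    have h1 := congrArg (ResidueField.map (Ideal.Quotient.mk (P.map (algebraMap R' S)))) hb
    rw [ResidueField.map_residue, ResidueField.map_residue] at h1
    exact h1

end Crest.Agent.R183.RDZ
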