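import Mathlib

/-!
# R183 (Lech), block [4]: null filters, matrix complexes, null-tolerant homological algebra
-/

set_option autoImplicit false

namespace Crest.Agent.R183.Res

universe u v w

/-- The ideal `(B : m)`. -/
def col {A : Type u} [CommRing A] {M : Type v} [AddCommGroup M] [Module A M]
    (B : Submodule A M) (m : M) : Ideal A :=
  B.comap (LinearMap.toSpanSingleton A M m)

@[simp] theorem mem_col {A : Type u} [CommRing A] {M : Type v} [AddCommGroup M] [Module A M]
    (B : Submodule A M) (m : M) (a : A) : a ∈ col B m ↔ a • m ∈ B := Iff.rfl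

/-- A null filter (Gabriel topology) on the ideals of `A`. -/
structure NullF (A : Type u) [CommRing A] where
  F : Ideal A → Prop
  top : F ⊤
  mono : ∀ {I J : Ideal A}, I ≤ J → F I → F J
  inf : ∀ {I J : Ideal A}, F I → F J → F (I ⊓ J)
  colon : ∀ {I : Ideal A} (x : A), F I → F (col I x)
  trans : ∀ {I J : Ideal A}, F J → (∀ x ∈ J, F (col I x)) → F I

namespace NullF

variable {A : Type u} [CommRing A] (N : NullF A)
variable {M : Type v} [AddCommGroup M] [Module A M]
variable {M' : Type w} [AddCommGroup M'] [Module A M']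

/-- The trivial null filter: only `⊤`. -/
def triv (A : Type u) [CommRing A] : NullF A where
  F I := I = ⊤
  top := rfl
  mono := by
    intro I J h hI
    rw [hI] at h
    exact top_le_iff.mp h
  inf := by
    intro I J hI hJ
    rw [hI, hJ]; simp
  colon := by
    intro I x hI
    rw [hI]
    rw [Ideal.eq_top_iff_one]
    simp
  trans := by
    intro I J hJ h
    have := h 1 (by rw [hJ]; trivial)
    rw [Ideal.eq_top_iff_one, mem_col] at this
    rw [Ideal.eq_top_iff_one]
    simpa using this

theorem mul {I J : Ideal A} (hI : N.F I) (hJ : N.F J) : N.F (I * J) := by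
  refine N.trans hI ?_
  intro x hx
  refine N.mono ?_ hJ
  intro a ha
  rw [mem_col, smul_eq_mul, mul_comm a x]
  exact Ideal.mul_mem_mul hx ha

/-- Null saturation of a submodule. -/
def sat (B : Submodule A M) : Submodule A M where
  carrier := {m | N.F (col B m)}
  zero_mem' := by
    refine N.mono ?_ N.top
    intro a _
    simp
  add_mem' := by
    intro m m' hm hm'
    refine N.mono ?_ (N.inf hm hm')
    intro a ha
    rw [mem_col, smul_add]
    exact B.add_mem ha.1 ha.2
  smul_mem' := by
    intro r m hm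
    refine N.mono ?_ (N.colon r hm)
    intro a ha
    rw [mem_col, smul_smul]
    rw [mem_col, mem_col, smul_eq_mul] at ha
    exact ha

theorem mem_sat {B : Submodule A M} {m : M} : m ∈ N.sat B ↔ N.F (col B m) := Iff.rfl

theorem le_sat (B : Submodule A M) : B ≤ N.sat B := by
  intro m hm
  refine N.mono ?_ N.top
  intro a _
  exact B.smul_mem a hm

theorem sat_mono {B C : Submodule A M} (h : B ≤ C) : N.sat B ≤ N.sat C := by
  intro m hm
  refine N.mono ?_ hm
  intro a ha
  exact h ha

/-- Key step: if `F J` and `J • m ⊆ sat B` then `m ∈ sat B`. -/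
theorem mem_sat_of {B : Submodule A M} {m : M} {J : Ideal A} (hJ : N.F J)
    (h : ∀ a ∈ J, a • m ∈ N.sat B) : m ∈ N.sat B := by
  refine N.trans hJ ?_
  intro x hx
  refine N.mono ?_ (h x hx)
  intro a ha
  rw [mem_col, mem_col, smul_eq_mul, mul_smul]
  exact ha

theorem sat_sat (B : Submodule A M) : N.sat (N.sat B) = N.sat B := by
  refine le_antisymm ?_ (N.le_sat _)
  intro m hm
  exact N.mem_sat_of hm (fun a ha => ha)

theorem sat_le_iff {B C : Submodule A M} : N.sat B ≤ N.sat C ↔ B ≤ N.sat C := by
  constructor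
  · intro h
    exact (N.le_sat B).trans h
  · intro h
    have := N.sat_mono h
    rwa [N.sat_sat] at this

theorem map_sat (f : M →ₗ[A] M') {B : Submodule A M} {B' : Submodule A M'}
    (h : ∀ x ∈ B, f x ∈ B') {m : M} (hm : m ∈ N.sat B) : f m ∈ N.sat B' := by
  refine N.mono ?_ hm
  intro a ha
  rw [mem_col, ← map_smul]
  exact h _ ha

theorem comap_sat (f : M →ₗ[A] M') {B : Submodule A M} {B' : Submodule A M'}
    (h : ∀ x, f x ∈ B' → x ∈ B) {m : M} (hm : f m ∈ N.sat B') : m ∈ N.sat B := by
  refine N.mono ?_ hm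
  intro a ha
  rw [mem_col, ← map_smul] at ha
  exact h _ ha

theorem pi_mem {ι : Type*} [Finite ι] {v : ι → M} (h : ∀ i, v i ∈ N.sat (⊥ : Submodule A M)) :
    v ∈ N.sat (⊥ : Submodule A (ι → M)) := by
  have key : ∀ (s : Set ι), s.Finite → N.F (⨅ i ∈ s, col (⊥ : Submodule A M) (v i)) := by
    intro s hs
    induction s, hs using Set.Finite.induction_on with
    | empty => simpa using N.top
    | insert _ _ ih =>
      rw [iInf_insert]
      exact N.inf (h _) ih
  have h1 := key Set.univ Set.finite_univ
  refine N.mono ?_ h1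
  intro a ha
  rw [mem_col, Submodule.mem_bot]
  funext i
  simp only [Submodule.mem_iInf] at ha
  have := ha i (Set.mem_univ i)
  rw [mem_col, Submodule.mem_bot] at this
  simpa using this

end NullF

/-! ## Matrices acting on `ι → M` -/

section Act

variable {A : Type u} [CommRing A]
variable {M : Type v} [AddCommGroup M] [Module A M]
variable {M' : Type w} [AddCommGroup M'] [Module A M']
variable {ι κ μ : Type} [Fintype κ] [Fintype μ]

/-- A matrix acts on vectors with entries in any module. -/
def act (M : Type v) [AddCommGroup M] [Module A M] (D : Matrix ι κ A) :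
    (κ → M) →ₗ[A] (ι → M) where
  toFun v := fun a => ∑ b, D a b • v b
  map_add' := by
    intro v w
    funext a
    simp [Finset.sum_add_distrib, smul_add]
  map_smul' := by
    intro r v
    funext a
    simp [Finset.smul_sum, smul_smul, mul_comm]

theorem act_apply (D : Matrix ι κ A) (v : κ → M) (a : ι) : act M D v a = ∑ b, D a b • v b := rfl

theorem act_mul (D : Matrix ι κ A) (E : Matrix κ μ A) (v : μ → M) :
    act M (D * E) v = act M D (act M E v) := by
  funext a
  simp only [act_apply, Matrix.mul_apply, Finset.sum_smul, Finset.smul_sum, smul_smul]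
  rw [Finset.sum_comm]

theorem act_zero (v : κ → M) : act M (0 : Matrix ι κ A) v = 0 := by
  funext a
  simp [act_apply]

theorem act_add (D E : Matrix ι κ A) (v : κ → M) : act M (D + E) v = act M D v + act M E v := by
  funext a
  simp [act_apply, add_smul, Finset.sum_add_distrib]

theorem act_neg (D : Matrix ι κ A) (v : κ → M) : act M (-D) v = - act M D v := by
  funext a
  simp [act_apply, neg_smul]

theorem act_smul_one [Fintype ι] [DecidableEq ι] (x : A) (v : ι → M) : act M (x • (1 : Matrix ι ι A)) v = x • v := by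
  funext a
  simp [act_apply, Matrix.one_apply, ite_smul]

/-- Post-composition with a linear map. -/
def post (κ : Type) (f : M →ₗ[A] M') : (κ → M) →ₗ[A] (κ → M') where
  toFun v := fun a => f (v a)
  map_add' := by intro v w; funext a; simp
  map_smul' := by intro r v; funext a; simp

@[simp] theorem post_apply (κ : Type) (f : M →ₗ[A] M') (v : κ → M) (a : κ) :
    post κ f v a = f (v a) := rfl

theorem act_post (f : M →ₗ[A] M') (D : Matrix ι κ A) (v : κ → M) :
    act M' D (post κ f v) = post ι f (act M D v) := by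
  funext a
  simp [act_apply]

theorem post_injective (κ : Type) {f : M →ₗ[A] M'} (hf : Function.Injective f) :
    Function.Injective (post κ f) := by
  intro v w h
  funext a
  exact hf (congrFun h a)

theorem post_surjective (κ : Type) {f : M →ₗ[A] M'} (hf : Function.Surjective f) :
    Function.Surjective (post κ f) := by
  intro v
  choose g hg using hf
  exact ⟨fun a => g (v a), funext fun a => by simp [hg]⟩

end Act

/-! ## Complexes -/

section Cplx

variable {A : Type u} [CommRing A]

/-- Cycles in degree `n`. -/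
def cyc {X : ℕ → Type v} [∀ n, AddCommGroup (X n)] [∀ n, Module A (X n)]
    (d : ∀ n, X (n + 1) →ₗ[A] X n) : ∀ n, Submodule A (X n)
  | 0 => ⊤
  | (n + 1) => LinearMap.ker (d n)

/-- Boundaries in degree `n`. -/
def bdy {X : ℕ → Type v} [∀ n, AddCommGroup (X n)] [∀ n, Module A (X n)]
    (d : ∀ n, X (n + 1) →ₗ[A] X n) (n : ℕ) : Submodule A (X n) := LinearMap.range (d n)

/-- The homology in degree `n` is null. -/
def NullAt (N : NullF A) {X : ℕ → Type v} [∀ n, AddCommGroup (X n)] [∀ n, Module A (X n)]
    (d : ∀ n, X (n + 1) →ₗ[A] X n) (n : ℕ) : Prop :=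
  cyc d n ≤ N.sat (bdy d n)

/-- A complex of finite free modules given by matrices. -/
structure MCx (A : Type u) [CommRing A] where
  ι : ℕ → Type
  fin : ∀ n, Fintype (ι n)
  dec : ∀ n, DecidableEq (ι n)
  d : ∀ n, Matrix (ι n) (ι (n + 1)) A
  dd : ∀ n, d n * d (n + 1) = 0

attribute [instance] MCx.fin MCx.dec

/-- The differential of `C ⊗ M`. -/
def MCx.dM (C : MCx A) (M : Type v) [AddCommGroup M] [Module A M] (n : ℕ) :
    (C.ι (n + 1) → M) →ₗ[A] (C.ι n → M) := act M (C.d n)

/-- Cycles of `C ⊗ M`. -/
def MCx.cycM (C : MCx A) (M : Type v) [AddCommGroup M] [Module A M] (n : ℕ) :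
    Submodule A (C.ι n → M) := cyc (X := fun n => C.ι n → M) (C.dM M) n

/-- Boundaries of `C ⊗ M`. -/
def MCx.bdyM (C : MCx A) (M : Type v) [AddCommGroup M] [Module A M] (n : ℕ) :
    Submodule A (C.ι n → M) := bdy (X := fun n => C.ι n → M) (C.dM M) n

/-- `H_n(C ⊗ M)` is null. -/
def MCx.NullM (N : NullF A) (C : MCx A) (M : Type v) [AddCommGroup M] [Module A M] (n : ℕ) :
    Prop := C.cycM M n ≤ N.sat (C.bdyM M n)

variable (N : NullF A) (C : MCx A)
variable {M : Type v} [AddCommGroup M] [Module A M]
variable {M' : Type w} [AddCommGroup M'] [Module A M']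
variable {M'' : Type*} [AddCommGroup M''] [Module A M'']

theorem MCx.dM_dM (n : ℕ) (v : C.ι (n + 2) → M) : C.dM M n (C.dM M (n + 1) v) = 0 := by
  show act M (C.d n) (act M (C.d (n + 1)) v) = 0
  rw [← act_mul, C.dd, act_zero]

theorem MCx.dM_post (f : M →ₗ[A] M') (n : ℕ) (v : C.ι (n + 1) → M) :
    C.dM M' n (post _ f v) = post _ f (C.dM M n v) := act_post f _ v

theorem MCx.post_cyc (f : M →ₗ[A] M') (n : ℕ) {v : C.ι n → M} (hv : v ∈ C.cycM M n) :
    post _ f v ∈ C.cycM M' n := by
  cases n with
  | zero => trivial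
  | succ k =>
    show C.dM M' k _ = 0
    rw [MCx.dM_post]
    have : C.dM M k v = 0 := hv
    rw [this, map_zero]

theorem MCx.post_bdy (f : M →ₗ[A] M') (n : ℕ) {v : C.ι n → M} (hv : v ∈ C.bdyM M n) :
    post _ f v ∈ C.bdyM M' n := by
  obtain ⟨w, rfl⟩ := hv
  exact ⟨post _ f w, MCx.dM_post C f n w⟩

/-- `H_{i+1}(M'')` is null if `H_{i+1}(M)` is null and `H_i(M') → H_i(M)` is injective up to null. -/
theorem MCx.null_of_quot' {f : M' →ₗ[A] M} {g : M →ₗ[A] M''} (hf : Function.Injective f)
    (hg : Function.Surjective g) (hfg : Function.Exact f g) (i : ℕ)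
    (hM : C.NullM N M (i + 1))
    (hM' : ∀ w ∈ C.cycM M' i, post _ f w ∈ C.bdyM M i → w ∈ N.sat (C.bdyM M' i)) :
    C.NullM N M'' (i + 1) := by
  intro v hv
  obtain ⟨u, rfl⟩ := post_surjective _ hg v
  have hv' : C.dM M'' i (post _ g u) = 0 := hv
  rw [MCx.dM_post] at hv'
  -- `d u` lies in the image of `M'`
  have h1 : ∀ a, ∃ w, f w = C.dM M i u a := by
    intro a
    have := congrFun hv' a
    rw [post_apply] at this
    exact (hfg _).mp this
  choose w hw using h1
  have hw' : post _ f w = C.dM M i u := funext hw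
  have hwc : w ∈ C.cycM M' i := by
    cases i with
    | zero => trivial
    | succ k =>
      show C.dM M' k w = 0
      apply post_injective _ hf
      rw [← MCx.dM_post, hw', MCx.dM_dM, map_zero]
  have hws := hM' w hwc ⟨u, hw'.symm⟩
  refine N.mem_sat_of hws ?_
  intro a ha
  obtain ⟨w1, hw1⟩ := ha
  have hw1' : C.dM M' i w1 = a • w := hw1
  have hc : a • u - post _ f w1 ∈ C.cycM M (i + 1) := by
    show C.dM M i _ = 0
    rw [map_sub, map_smul, MCx.dM_post, hw1', map_smul, hw', sub_self]
  have h2 := hM hc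
  have h3 := N.map_sat (post _ g) (fun x hx => MCx.post_bdy C g (i + 1) hx) h2
  rw [map_sub, map_smul] at h3
  have h4 : post _ g (post _ f w1) = 0 := by
    funext b
    simp only [post_apply]
    exact (hfg _).mpr ⟨_, rfl⟩
  rw [h4, sub_zero] at h3
  exact h3

/-- `H_{i+1}(M'')` is null if `H_{i+1}(M)` and `H_i(M')` are null. -/
theorem MCx.null_of_quot {f : M' →ₗ[A] M} {g : M →ₗ[A] M''} (hf : Function.Injective f)
    (hg : Function.Surjective g) (hfg : Function.Exact f g) (i : ℕ)
    (hM : C.NullM N M (i + 1)) (hM' : C.NullM N M' i) :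
    C.NullM N M'' (i + 1) :=
  MCx.null_of_quot' N C hf hg hfg i hM (fun _ hw _ => hM' hw)

/-- Half exactness. -/
theorem MCx.null_of_ext {f : M' →ₗ[A] M} {g : M →ₗ[A] M''} (hf : Function.Injective f)
    (hg : Function.Surjective g) (hfg : Function.Exact f g) (i : ℕ)
    (hM' : C.NullM N M' i) (hM'' : C.NullM N M'' i) :
    C.NullM N M i := by
  intro v hv
  have h1 := hM'' (MCx.post_cyc C g i hv)
  refine N.mem_sat_of h1 ?_
  intro a ha
  obtain ⟨w'', hw''⟩ := ha
  obtain ⟨w, rfl⟩ := post_surjective _ hg w''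
  rw [MCx.dM_post] at hw''
  have h2 : ∀ b, ∃ z, f z = (a • v - C.dM M i w) b := by
    intro b
    apply (hfg _).mp
    have := congrFun hw'' b
    rw [post_apply] at this
    rw [Pi.sub_apply, map_sub, this]
    show g ((a • v) b) - (a • post _ g v) b = 0
    simp
  choose z hz using h2
  have hz' : post _ f z = a • v - C.dM M i w := funext hz
  have hzc : z ∈ C.cycM M' i := by
    cases i with
    | zero => trivial
    | succ k =>
      show C.dM M' k z = 0
      apply post_injective _ hf
      rw [← MCx.dM_post, hz', map_sub, map_smul, MCx.dM_dM, map_zero]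
      have : C.dM M k v = 0 := hv
      rw [this]; simp
  have h3 := N.map_sat (post _ f) (fun x hx => MCx.post_bdy C f i hx) (hM' hzc)
  rw [hz'] at h3
  have h4 : C.dM M i w ∈ N.sat (C.bdyM M i) := N.le_sat _ ⟨w, rfl⟩
  have := Submodule.add_mem _ h3 h4
  rwa [sub_add_cancel] at this

/-- Left exactness in the top degree. -/
theorem MCx.null_top {f : M' →ₗ[A] M} (hf : Function.Injective f) (i : ℕ)
    (hemp : IsEmpty (C.ι (i + 1))) (hM : C.NullM N M i) : C.NullM N M' i := by
  intro v hv
  have h1 := hM (MCx.post_cyc C f i hv)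
  refine N.comap_sat (post _ f) ?_ h1
  intro x hx
  obtain ⟨w, hw⟩ := hx
  have h0 : w = 0 := funext fun a => (hemp.false a).elim
  rw [h0, map_zero] at hw
  have : x = 0 := post_injective _ hf (by rw [← hw, map_zero])
  rw [this]
  exact Submodule.zero_mem _

theorem MCx.null_of_null (h : ∀ m : M, m ∈ N.sat (⊥ : Submodule A M)) (i : ℕ) :
    C.NullM N M i := by
  intro v _
  refine N.sat_mono bot_le (N.pi_mem (fun i => h _))

end Cplx

end Crest.Agent.R183.Res
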