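import Crest.Agent.R183.Res3
import Crest.Agent.R183.Lam2

/-!
# R183 (Lech), block [4]: the null filter of a tower, lengths
-/

set_option autoImplicit false

namespace Crest.Agent.R183.Res

open scoped ENNReal
open Crest.Agent.R183.Lam

universe u v w

section Tower

variable {A : Type u} [CommRing A] (T : Tower A)

/-- `A/(0:m)` is the cyclic module generated by `m`. -/
theorem lam_span_singleton {M : Type v} [AddCommGroup M] [Module A M] (m : M) :
    T.lam (Submodule.span A {m}) = T.lam (A ⧸ col (⊥ : Submodule A M) m) := by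
  have e1 := (LinearMap.toSpanSingleton A M m).quotKerEquivRange
  have e2 := LinearEquiv.ofEq _ _ (LinearMap.range_toSpanSingleton (R := A) m)
  have h3 : LinearMap.ker (LinearMap.toSpanSingleton A M m) = col (⊥ : Submodule A M) m := rfl
  rw [← h3]
  exact (T.lam_congr (e1.trans e2)).symm

/-- The null filter of a tower. -/
def nullT : NullF A where
  F I := T.lam (A ⧸ I) = 0
  top := by
    have : Subsingleton (A ⧸ (⊤ : Ideal A)) := Ideal.Quotient.subsingleton_iff.mpr rfl
    exact T.lam_of_subsingleton
  mono := by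
    intro I J hIJ hI
    have := T.lam_le_of_surjective (Submodule.mapQ I J LinearMap.id hIJ)
      (by
        intro y
        obtain ⟨y, rfl⟩ := Submodule.Quotient.mk_surjective J y
        exact ⟨Submodule.Quotient.mk y, rfl⟩)
    rw [hI] at this
    exact le_antisymm this (zero_le)
  inf := by
    intro I J hI hJ
    have h1 : T.lam ((A ⧸ I) × (A ⧸ J)) = 0 := by rw [T.lam_prod, hI, hJ, add_zero]
    have hk : I ⊓ J ≤ LinearMap.ker ((I.mkQ).prod J.mkQ) := by
      intro x hx
      rw [LinearMap.mem_ker]
      ext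
      · exact (Submodule.Quotient.mk_eq_zero I).mpr hx.1
      · exact (Submodule.Quotient.mk_eq_zero J).mpr hx.2
    have := T.lam_le_of_injective ((I ⊓ J).liftQ ((I.mkQ).prod J.mkQ) hk) (by
      rw [← LinearMap.ker_eq_bot, Submodule.ker_liftQ_eq_bot']
      refine le_antisymm hk ?_
      intro x hx
      rw [LinearMap.mem_ker] at hx
      exact ⟨(Submodule.Quotient.mk_eq_zero I).mp (congrArg Prod.fst hx),
        (Submodule.Quotient.mk_eq_zero J).mp (congrArg Prod.snd hx)⟩)
    rw [h1] at this
    exact le_antisymm this (zero_le)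
  colon := by
    intro I x hI
    have h := (T.lam_eq_zero_iff.mp hI) (I.mkQ x)
    rw [lam_span_singleton] at h
    have : col (⊥ : Submodule A (A ⧸ I)) (I.mkQ x) = col I x := by
      ext a
      rw [mem_col, mem_col, Submodule.mem_bot, ← map_smul]
      exact Submodule.Quotient.mk_eq_zero I
    rwa [this] at h
  trans := by
    intro I J hJ h
    -- the image of `J` in `A/I`
    set K : Submodule A (A ⧸ I) := Submodule.map I.mkQ J with hK
    have h1 : T.lam K = 0 := by
      rw [T.lam_eq_zero_iff]
      rintro ⟨y, hy⟩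
      obtain ⟨x, hx, rfl⟩ := hy
      rw [lam_span_singleton]
      have : col (⊥ : Submodule A K) ⟨I.mkQ x, ⟨x, hx, rfl⟩⟩ = col I x := by
        ext a
        rw [mem_col, mem_col, Submodule.mem_bot, ← Submodule.Quotient.mk_eq_zero I]
        constructor
        · intro h
          exact congrArg Subtype.val h
        · intro h
          exact Subtype.ext h
      rw [this]
      exact h x hx
    have h2 : T.lam ((A ⧸ I) ⧸ K) = 0 := by
      have hs := T.lam_le_of_surjective (J.liftQ ((K.mkQ).comp I.mkQ) (by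
        intro x hx
        rw [LinearMap.mem_ker]
        exact (Submodule.Quotient.mk_eq_zero K).mpr ⟨x, hx, rfl⟩)) (by
        intro y
        obtain ⟨y, rfl⟩ := Submodule.mkQ_surjective K y
        obtain ⟨y, rfl⟩ := Submodule.mkQ_surjective I y
        exact ⟨J.mkQ y, rfl⟩)
      rw [hJ] at hs
      exact le_antisymm hs (zero_le)
    rw [T.lam_eq_add_quotient K, h1, h2, add_zero]

theorem nullT_F (I : Ideal A) : (nullT T).F I ↔ T.lam (A ⧸ I) = 0 := Iff.rfl

theorem lam_eq_zero_iff_sat {M : Type v} [AddCommGroup M] [Module A M] :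
    T.lam M = 0 ↔ ∀ m : M, m ∈ (nullT T).sat (⊥ : Submodule A M) := by
  rw [T.lam_eq_zero_iff]
  constructor
  · intro h m
    have := h m
    rwa [lam_span_singleton] at this
  · intro h m
    rw [lam_span_singleton]
    exact h m

/-- `Z ≤ sat B` iff `λ(image of Z in Q/B) = 0`. -/
theorem lam_map_mkQ_eq_zero_iff {Q : Type v} [AddCommGroup Q] [Module A Q] (B Z : Submodule A Q) :
    T.lam (Z.map B.mkQ) = 0 ↔ Z ≤ (nullT T).sat B := by
  rw [lam_eq_zero_iff_sat]
  have key : ∀ z (hz : z ∈ Z), col (⊥ : Submodule A (Z.map B.mkQ)) ⟨B.mkQ z, ⟨z, hz, rfl⟩⟩ =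
      col B z := by
    intro z hz
    ext a
    rw [mem_col, mem_col, Submodule.mem_bot, ← Submodule.Quotient.mk_eq_zero B]
    constructor
    · intro h
      exact congrArg Subtype.val h
    · intro h
      exact Subtype.ext h
  constructor
  · intro h z hz
    have := h ⟨B.mkQ z, ⟨z, hz, rfl⟩⟩
    rw [NullF.mem_sat, key z hz] at this
    exact this
  · rintro h ⟨_, z, hz, rfl⟩
    rw [NullF.mem_sat, key z hz]
    exact h hz

/-- `Z ≤ sat B` iff `λ(Z/(B ∩ Z)) = 0`. -/
theorem lam_quot_eq_zero_iff {Q : Type v} [AddCommGroup Q] [Module A Q] (B Z : Submodule A Q) :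
    T.lam (Z ⧸ B.submoduleOf Z) = 0 ↔ Z ≤ (nullT T).sat B := by
  rw [lam_eq_zero_iff_sat]
  have key : ∀ z : Z, col (⊥ : Submodule A (Z ⧸ B.submoduleOf Z)) ((B.submoduleOf Z).mkQ z) =
      col B (z : Q) := by
    intro z
    ext a
    rw [mem_col, mem_col, Submodule.mem_bot, ← map_smul]
    exact Submodule.Quotient.mk_eq_zero _
  constructor
  · intro h z hz
    have := h ((B.submoduleOf Z).mkQ ⟨z, hz⟩)
    rw [NullF.mem_sat, key] at this
    exact this
  · intro h m
    obtain ⟨z, rfl⟩ := Submodule.mkQ_surjective _ m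
    rw [NullF.mem_sat, key]
    exact h z.2

end Tower

end Crest.Agent.R183.Res
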