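import Mathlib

set_option autoImplicit false

/-!
R183, block [8a], T2 (b),(c): integer shears of power series rings, naturality, inverse, order;
a nonzero power series over a field of characteristic zero becomes regular in `X 0`.
-/

namespace Crest.Agent.R183.T0

open MvPowerSeries

universe u v

section shear

variable {d : ℕ}

/-- the substitution vector `X 0 ↦ X 0`, `X j.succ ↦ X j.succ + c j • X 0` -/
noncomputable def shearVec (R : Type u) [CommRing R] (c : Fin d → ℤ) :
    Fin (d + 1) → MvPowerSeries (Fin (d + 1)) R :=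
  Fin.cons (X 0) (fun j => X j.succ + (c j) • X 0)

theorem constantCoeff_shearVec (R : Type u) [CommRing R] (c : Fin d → ℤ) (i : Fin (d + 1)) :
    constantCoeff (shearVec R c i) = 0 := by
  refine Fin.cases ?_ (fun j => ?_) i
  · simp [shearVec]
  · simp [shearVec]

theorem hasSubst_shearVec (R : Type u) [CommRing R] (c : Fin d → ℤ) :
    HasSubst (shearVec R c) :=
  hasSubst_of_constantCoeff_zero (constantCoeff_shearVec R c)

/-- the shear automorphism -/
noncomputable def shear (R : Type u) [CommRing R] (c : Fin d → ℤ) :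
    MvPowerSeries (Fin (d + 1)) R →+* MvPowerSeries (Fin (d + 1)) R :=
  (substAlgHom (R := R) (hasSubst_shearVec R c)).toRingHom

theorem shear_apply {R : Type u} [CommRing R] (c : Fin d → ℤ) (f : MvPowerSeries (Fin (d + 1)) R) :
    shear R c f = subst (shearVec R c) f := by
  change substAlgHom (R := R) (hasSubst_shearVec R c) f = _
  rw [coe_substAlgHom]

theorem shear_C {R : Type u} [CommRing R] (c : Fin d → ℤ) (r : R) :
    shear R c (C r) = C r := by
  exact (substAlgHom (R := R) (hasSubst_shearVec R c)).commutes r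

theorem shear_X_zero {R : Type u} [CommRing R] (c : Fin d → ℤ) :
    shear R c (X 0) = X 0 := by
  rw [shear_apply, subst_X (hasSubst_shearVec R c)]
  rfl

theorem shear_X_succ {R : Type u} [CommRing R] (c : Fin d → ℤ) (j : Fin d) :
    shear R c (X j.succ) = X j.succ + (c j) • X 0 := by
  rw [shear_apply, subst_X (hasSubst_shearVec R c)]
  rfl

theorem shear_neg_shear {R : Type u} [CommRing R] (c : Fin d → ℤ)
    (f : MvPowerSeries (Fin (d + 1)) R) : shear R (-c) (shear R c f) = f := by
  rw [shear_apply, shear_apply, subst_comp_subst_apply (hasSubst_shearVec R c)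
    (hasSubst_shearVec R (-c))]
  have : (fun s => subst (shearVec R (-c)) (shearVec R c s)) = X := by
    funext s
    rw [← shear_apply]
    refine Fin.cases ?_ (fun j => ?_) s
    · exact shear_X_zero _
    · change shear R (-c) (X j.succ + (c j) • X 0) = _
      rw [map_add, map_zsmul, shear_X_succ, shear_X_zero]
      simp
  rw [this]
  exact congrFun subst_self f

theorem shear_shear_neg {R : Type u} [CommRing R] (c : Fin d → ℤ)
    (f : MvPowerSeries (Fin (d + 1)) R) : shear R c (shear R (-c) f) = f := by
  have := shear_neg_shear (-c) f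
  rwa [neg_neg] at this

theorem map_shear {R : Type u} {R' : Type v} [CommRing R] [CommRing R'] (θ : R →+* R')
    (c : Fin d → ℤ) (f : MvPowerSeries (Fin (d + 1)) R) :
    map θ (shear R c f) = shear R' c (map θ f) := by
  rw [shear_apply, map_subst (hasSubst_shearVec R c), shear_apply]
  congr 1
  funext i
  refine Fin.cases ?_ (fun j => ?_) i
  · change map θ (X 0) = X 0
    rw [map_X]
  · change map θ (X j.succ + (c j) • X 0) = X j.succ + (c j) • X 0
    rw [map_add, map_zsmul, map_X, map_X]

theorem one_le_order_shearVec (R : Type u) [CommRing R] (c : Fin d → ℤ) (i : Fin (d + 1)) :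
    (1 : ℕ∞) ≤ (shearVec R c i).order :=
  one_le_order_iff_constCoeff_eq_zero.mpr (constantCoeff_shearVec R c i)

theorem order_le_shear {R : Type u} [CommRing R] (c : Fin d → ℤ)
    (f : MvPowerSeries (Fin (d + 1)) R) : f.order ≤ (shear R c f).order := by
  rw [shear_apply]
  refine le_trans ?_ (le_order_subst (hasSubst_shearVec R c) f)
  calc f.order = 1 * f.order := by rw [one_mul]
    _ ≤ _ := mul_le_mul_left (le_iInf (one_le_order_shearVec R c)) _

/-- restriction to the `X 0`-axis -/
noncomputable def axis (R : Type u) [CommRing R] (d : ℕ) :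
    MvPowerSeries (Fin (d + 1)) R →+* PowerSeries R :=
  (PowerSeries.map (constantCoeff (σ := Fin d) (R := R))).comp
    (MvPowerSeries.finSuccEquiv R d : MvPowerSeries (Fin (d + 1)) R →+* _)

theorem coeff_axis {R : Type u} [CommRing R] (f : MvPowerSeries (Fin (d + 1)) R) (k : ℕ) :
    PowerSeries.coeff k (axis R d f) = coeff (Finsupp.single 0 k) f := by
  change PowerSeries.coeff k (PowerSeries.map (constantCoeff (σ := Fin d) (R := R))
    (MvPowerSeries.finSuccEquiv R d f)) = _
  rw [PowerSeries.coeff_map, ← coeff_zero_eq_constantCoeff_apply, coeff_coeff_finSuccEquiv]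
  have : (Finsupp.cons k (0 : Fin d →₀ ℕ)) = Finsupp.single 0 k := by
    ext i
    refine Fin.cases ?_ (fun j => ?_) i
    · simp
    · simp
  rw [this]

theorem axis_X_zero (R : Type u) [CommRing R] : axis R d (X 0) = PowerSeries.X := by
  change PowerSeries.map (constantCoeff (σ := Fin d) (R := R))
    (MvPowerSeries.finSuccEquiv R d (X 0)) = _
  rw [finSuccEquiv_X_zero, PowerSeries.map_X]

theorem axis_X_succ (R : Type u) [CommRing R] (j : Fin d) : axis R d (X j.succ) = 0 := by
  change PowerSeries.map (constantCoeff (σ := Fin d) (R := R))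
    (MvPowerSeries.finSuccEquiv R d (X j.succ)) = _
  rw [finSuccEquiv_X_succ, PowerSeries.map_C, constantCoeff_X, map_zero]

theorem axis_shearVec {R : Type u} [CommRing R] (c : Fin d → ℤ) (i : Fin (d + 1)) :
    axis R d (shearVec R c i) =
      PowerSeries.C (((Fin.cons 1 c : Fin (d + 1) → ℤ) i : ℤ) : R) * PowerSeries.X := by
  refine Fin.cases ?_ (fun j => ?_) i
  · change axis R d (X 0) = _
    rw [axis_X_zero]; simp
  · change axis R d (X j.succ + (c j) • X 0) = _
    rw [map_add, map_zsmul, axis_X_succ, axis_X_zero]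
    simp

theorem coeff_single_prod {R : Type u} [CommRing R] (c : Fin d → ℤ) (m : Fin (d + 1) →₀ ℕ)
    (n : ℕ) :
    coeff (Finsupp.single 0 n) (m.prod fun s k => (shearVec R c s) ^ k) =
      if m.degree = n then ∏ j : Fin d, ((c j : ℤ) : R) ^ (m j.succ) else 0 := by
  rw [← coeff_axis]
  have h1 : axis R d (m.prod fun s k => (shearVec R c s) ^ k) =
      PowerSeries.C (∏ j : Fin d, ((c j : ℤ) : R) ^ (m j.succ)) * PowerSeries.X ^ m.degree := by
    rw [Finsupp.prod_fintype _ _ (by intro i; rw [pow_zero]), map_prod]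
    simp only [map_pow, axis_shearVec, mul_pow]
    rw [Finset.prod_mul_distrib, Fin.prod_univ_succ]
    congr 1
    · simp only [Fin.cons_zero, Int.cast_one, map_one, one_pow, one_mul, Fin.cons_succ]
      rw [map_prod]
      simp
    · rw [Finset.prod_pow_eq_pow_sum]
      congr 1
      rw [Finsupp.degree_eq_sum]
  rw [h1, PowerSeries.coeff_C_mul, PowerSeries.coeff_X_pow]
  by_cases h : m.degree = n
  · rw [if_pos h.symm, if_pos h, mul_one]
  · rw [if_neg (Ne.symm h), if_neg h, mul_zero]

/-- coefficient of a pure power of `X 0` after a shear -/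
theorem coeff_single_shear {R : Type u} [CommRing R] (c : Fin d → ℤ) (n : ℕ)
    (f : MvPowerSeries (Fin (d + 1)) R) :
    coeff (Finsupp.single 0 n) (shear R c f) =
      ∑ m ∈ (Finset.univ : Finset (Fin (d + 1))).finsuppAntidiag n,
        coeff m f * ∏ j : Fin d, ((c j : ℤ) : R) ^ (m j.succ) := by
  classical
  rw [shear_apply, coeff_subst (hasSubst_shearVec R c)]
  have hmem : ∀ m : Fin (d + 1) →₀ ℕ, m ∈ (Finset.univ : Finset (Fin (d + 1))).finsuppAntidiag n
      ↔ m.degree = n := by
    intro m
    rw [Finset.mem_finsuppAntidiag, Finsupp.degree_eq_sum]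
    simp
  rw [finsum_eq_sum_of_support_subset (s := (Finset.univ : Finset (Fin (d + 1))).finsuppAntidiag n)]
  · apply Finset.sum_congr rfl
    intro m hm
    rw [coeff_single_prod, if_pos ((hmem m).mp hm), smul_eq_mul]
  · intro m hm
    rw [Function.mem_support] at hm
    rw [Finset.mem_coe, hmem]
    by_contra hne
    apply hm
    rw [coeff_single_prod, if_neg hne, smul_zero]

/-- a nonzero power series over a field of characteristic zero becomes regular in `X 0` after an
integer shear -/
theorem exists_shear_regular {K : Type u} [Field K] [CharZero K]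
    (H : MvPowerSeries (Fin (d + 1)) K) (hH : H ≠ 0) :
    ∃ (c : Fin d → ℤ) (r : ℕ), coeff (Finsupp.single 0 r) (shear K c H) ≠ 0 := by
  classical
  obtain ⟨m₀, hm₀⟩ : ∃ m₀, coeff m₀ H ≠ 0 := by
    by_contra h
    push Not at h
    exact hH (MvPowerSeries.ext h)
  set n := m₀.degree with hn
  set S := (Finset.univ : Finset (Fin (d + 1))).finsuppAntidiag n with hS
  have hmem : ∀ m : Fin (d + 1) →₀ ℕ, m ∈ S ↔ m.degree = n := by
    intro m
    rw [hS, Finset.mem_finsuppAntidiag, Finsupp.degree_eq_sum]
    simp
  let p : MvPolynomial (Fin d) K := ∑ m ∈ S, MvPolynomial.monomial (Finsupp.tail m) (coeff m H)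
  have htail : ∀ m ∈ S, ∀ m' ∈ S, Finsupp.tail m = Finsupp.tail m' → m = m' := by
    intro m hm m' hm' h
    have h1 := (hmem m).mp hm
    have h2 := (hmem m').mp hm'
    rw [Finsupp.degree_eq_sum, Fin.sum_univ_succ] at h1 h2
    have h3 : ∀ j : Fin d, m j.succ = m' j.succ := by
      intro j
      have := DFunLike.congr_fun h j
      rwa [Finsupp.tail_apply, Finsupp.tail_apply] at this
    have h4 : ∑ j : Fin d, m j.succ = ∑ j : Fin d, m' j.succ :=
      Finset.sum_congr rfl (fun j _ => h3 j)
    ext i
    refine Fin.cases ?_ (fun j => h3 j) i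
    omega
  have hp : p ≠ 0 := by
    intro h0
    have h1 : MvPolynomial.coeff (Finsupp.tail m₀) p = coeff m₀ H := by
      change MvPolynomial.coeff (Finsupp.tail m₀)
        (∑ m ∈ S, MvPolynomial.monomial (Finsupp.tail m) (coeff m H)) = _
      rw [MvPolynomial.coeff_sum, Finset.sum_eq_single m₀]
      · rw [MvPolynomial.coeff_monomial, if_pos rfl]
      · intro m hm hne
        rw [MvPolynomial.coeff_monomial, if_neg]
        intro h
        exact hne (htail m hm m₀ ((hmem m₀).mpr rfl) h)
      · intro h
        exact absurd ((hmem m₀).mpr rfl) h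
    rw [h0, MvPolynomial.coeff_zero] at h1
    exact hm₀ h1.symm
  have hex : ∃ c : Fin d → ℤ, MvPolynomial.eval (fun j => ((c j : ℤ) : K)) p ≠ 0 := by
    by_contra h
    push Not at h
    apply hp
    refine MvPolynomial.funext_set (fun _ => Set.range (Int.cast : ℤ → K))
      (fun _ => Set.infinite_range_of_injective Int.cast_injective) ?_
    intro x hx
    rw [Set.mem_pi] at hx
    choose c hc using fun j => hx j (Set.mem_univ j)
    have : x = fun j => ((c j : ℤ) : K) := by funext j; exact (hc j).symm
    rw [this, h c, map_zero]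
  obtain ⟨c, hc⟩ := hex
  refine ⟨c, n, ?_⟩
  rw [coeff_single_shear]
  convert hc using 1
  change _ = MvPolynomial.eval (fun j => ((c j : ℤ) : K))
    (∑ m ∈ S, MvPolynomial.monomial (Finsupp.tail m) (coeff m H))
  rw [map_sum]
  apply Finset.sum_congr rfl
  intro m _
  rw [MvPolynomial.eval_monomial, Finsupp.prod_fintype _ _ (by intro i; rw [pow_zero])]
  congr 1

end shear

end Crest.Agent.R183.T0
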