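import Crest.Agent.R183.T0_SP

set_option autoImplicit false

namespace Crest.Agent.R183.T0

open MvPolynomial

universe u v

/-- variables `x` (kept fixed) become coefficients, variables `y` stay variables. -/
noncomputable def splitE (m n : ℕ) :
    MvPolynomial (Fin m ⊕ Fin n) ℤ ≃ₐ[ℤ] MvPolynomial (Fin n) (MvPolynomial (Fin m) ℤ) :=
  (renameEquiv ℤ (Equiv.sumComm (Fin m) (Fin n))).trans (sumAlgEquiv ℤ (Fin n) (Fin m))

theorem ev_splitE {m n : ℕ} {B : Type u} [CommRing B] (x : Fin m → B) (y : Fin n → B)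
    (P : MvPolynomial (Fin m ⊕ Fin n) ℤ) :
    ev (aeval x : MvPolynomial (Fin m) ℤ →ₐ[ℤ] B).toRingHom y (splitE m n P)
      = aeval (Sum.elim x y) P := by
  have : (ev (aeval x : MvPolynomial (Fin m) ℤ →ₐ[ℤ] B).toRingHom y).comp
      (splitE m n).toRingEquiv.toRingHom = (aeval (Sum.elim x y) : _ →ₐ[ℤ] B).toRingHom := by
    apply MvPolynomial.ringHom_ext
    · intro r
      simp
    · rintro (i | i)
      · simp [splitE, ev]
      · simp [splitE, ev]
  exact congrArg (fun f : _ →+* B => f P) this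

/-- CORE of the transfer theorem, in the form asked for by helper198. -/
theorem core {B : Type u} [CommRing B] [IsDomain B] [CharZero B] {m n : ℕ} (x : Fin m → B)
    (hx : AlgebraicIndependent ℤ x) (y : Fin n → B) :
    ∃ (D : MvPolynomial (Fin m ⊕ Fin n) ℤ) (G : Finset (MvPolynomial (Fin m ⊕ Fin n) ℤ)),
      MvPolynomial.aeval (Sum.elim x y) D ≠ 0 ∧
      (∀ g ∈ G, MvPolynomial.aeval (Sum.elim x y) g = 0) ∧
      ∀ (B' : Type v) [CommRing B'] [IsDomain B'] (I : Ideal B') [IsAdicComplete I B']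
        (x' : Fin m → B') (y0 : Fin n → B') (e : B'),
        e ∈ I → MvPolynomial.aeval (Sum.elim x' y0) D ≠ 0 →
        (∀ g ∈ G, (MvPolynomial.aeval (Sum.elim x' y0) D) * e ∣
          MvPolynomial.aeval (Sum.elim x' y0) g) →
        ∃ y' : Fin n → B', (∀ j, e ∣ y' j - y0 j) ∧
          ∀ f : MvPolynomial (Fin m ⊕ Fin n) ℤ, MvPolynomial.aeval (Sum.elim x y) f = 0 →
            MvPolynomial.aeval (Sum.elim x' y') f = 0 := by
  classical
  obtain ⟨δ, M, Λ, hδ, hΛ, h⟩ := SP.{u, v, 0}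
    (aeval x : MvPolynomial (Fin m) ℤ →ₐ[ℤ] B).toRingHom hx n y
  refine ⟨((splitE m n).symm δ) ^ (M + 1), Λ.image (splitE m n).symm, ?_, ?_, ?_⟩
  · rw [map_pow]
    apply pow_ne_zero
    rw [← ev_splitE, AlgEquiv.apply_symm_apply]
    exact hδ
  · intro g hg
    rw [Finset.mem_image] at hg
    obtain ⟨g', hg', rfl⟩ := hg
    rw [← ev_splitE, AlgEquiv.apply_symm_apply]
    exact hΛ _ hg'
  · intro B' _ _ I _ x' y0 e he hD hG
    rw [map_pow, ← ev_splitE, AlgEquiv.apply_symm_apply] at hD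
    have hδ' := (pow_ne_zero_iff (Nat.succ_ne_zero M)).mp hD
    obtain ⟨z, hz, hrel⟩ := h B' I (Ideal.span {e}) ((Ideal.span_singleton_le_iff_mem I).mpr he)
      (aeval x' : MvPolynomial (Fin m) ℤ →ₐ[ℤ] B').toRingHom y0 hδ' (by
        intro g hg
        have h1 := hG _ (Finset.mem_image_of_mem _ hg)
        rw [map_pow, ← ev_splitE, AlgEquiv.apply_symm_apply, ← ev_splitE,
          AlgEquiv.apply_symm_apply] at h1
        obtain ⟨c, hc⟩ := h1
        refine ⟨e * ((ev (aeval x' : MvPolynomial (Fin m) ℤ →ₐ[ℤ] B').toRingHom y0 δ) * c), ?_, ?_⟩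
        · exact Ideal.mul_mem_right _ _ (Ideal.mem_span_singleton_self e)
        · rw [hc, pow_succ]; ring)
    refine ⟨z, fun j => Ideal.mem_span_singleton.mp (hz j), ?_⟩
    intro f hf
    rw [← ev_splitE] at hf ⊢
    exact hrel _ hf

end Crest.Agent.R183.T0
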