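import Mathlib

set_option autoImplicit false

/-!
R183, block [8a]: CORE of the transfer theorem (characteristic 0 -> characteristic p).
Pure algebra: triangular systems, pseudo-division, Newton's lemma in adically complete rings.
-/

namespace Crest.Agent.R183.T0

open MvPolynomial

universe u v w t

section ev

variable {A : Type t} [CommRing A]

/-- evaluation of polynomials over `A` at a tuple of a commutative ring `B` -/
noncomputable def ev {ι : Type w} {B : Type u} [CommRing B] (φ : A →+* B) (y : ι → B) :
    MvPolynomial ι A →+* B :=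
  MvPolynomial.eval₂Hom φ y

theorem ev_X {ι : Type w} {B : Type u} [CommRing B] (φ : A →+* B) (y : ι → B) (i : ι) :
    ev φ y (X i) = y i := by
  simp [ev]

theorem ev_C {ι : Type w} {B : Type u} [CommRing B] (φ : A →+* B) (y : ι → B) (a : A) :
    ev φ y (C a) = φ a := by
  simp [ev]

theorem hom_ev {ι : Type w} {B : Type u} {B' : Type v} [CommRing B] [CommRing B'] (φ : A →+* B)
    (g : B →+* B') (y : ι → B) (P : MvPolynomial ι A) :
    g (ev φ y P) = ev (g.comp φ) (fun i => g (y i)) P := by
  have : g.comp (ev φ y) = ev (g.comp φ) (fun i => g (y i)) := by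
    apply MvPolynomial.ringHom_ext
    · intro r; simp [ev]
    · intro i; simp [ev]
  rw [← this]; rfl

theorem ev_rename {ι κ : Type w} {B : Type u} [CommRing B] (φ : A →+* B) (y : κ → B) (s : ι → κ)
    (P : MvPolynomial ι A) : ev φ y (rename s P) = ev φ (fun i => y (s i)) P := by
  have : (ev φ y).comp (rename s : MvPolynomial ι A →ₐ[A] MvPolynomial κ A).toRingHom
      = ev φ (fun i => y (s i)) := by
    apply MvPolynomial.ringHom_ext
    · intro r; simp [ev]
    · intro i; simp [ev]
  rw [← this]; rfl

theorem ev_sub_mem {ι : Type w} {B : Type u} [CommRing B] (φ : A →+* B) (I : Ideal B)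
    (y z : ι → B) (h : ∀ i, z i - y i ∈ I) (P : MvPolynomial ι A) : ev φ z P - ev φ y P ∈ I := by
  rw [← Ideal.Quotient.eq, hom_ev, hom_ev]
  congr 2
  funext i
  rw [Ideal.Quotient.eq]
  exact h i

/-- evaluation of a polynomial over the polynomial ring -/
theorem ev_succ {N : ℕ} {B : Type u} [CommRing B] (φ : A →+* B) (y : Fin (N + 1) → B)
    (G : MvPolynomial (Fin (N + 1)) A) :
    ev φ y G = Polynomial.eval₂ (ev φ (Fin.tail y)) (y 0) (finSuccEquiv A N G) := by
  have : ev φ y = (Polynomial.eval₂RingHom (ev φ (Fin.tail y)) (y 0)).comp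
      (finSuccEquiv A N : MvPolynomial (Fin (N + 1)) A →+* _) := by
    apply MvPolynomial.ringHom_ext
    · intro r
      rw [ev_C]
      simp only [RingHom.comp_apply, RingHom.coe_coe, Polynomial.coe_eval₂RingHom]
      have : finSuccEquiv A N (C r) = Polynomial.C (C r) := by
        have := (finSuccEquiv A N).commutes r
        rw [MvPolynomial.algebraMap_eq] at this
        rw [this]; rfl
      rw [this, Polynomial.eval₂_C, ev_C]
    · intro i
      refine Fin.cases ?_ (fun j => ?_) i
      · rw [ev_X]
        simp only [RingHom.comp_apply, RingHom.coe_coe, Polynomial.coe_eval₂RingHom]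
        rw [finSuccEquiv_X_zero, Polynomial.eval₂_X]
      · rw [ev_X]
        simp only [RingHom.comp_apply, RingHom.coe_coe, Polynomial.coe_eval₂RingHom]
        rw [finSuccEquiv_X_succ, Polynomial.eval₂_C, ev_X]
        rfl
  rw [this]; rfl

theorem eval₂_sub_mem {N : ℕ} {B : Type u} [CommRing B] (φ : A →+* B) (I : Ideal B)
    (y z : Fin N → B) (a : B)
    (h : ∀ i, z i - y i ∈ I) (P : Polynomial (MvPolynomial (Fin N) A)) :
    Polynomial.eval₂ (ev φ z) a P - Polynomial.eval₂ (ev φ y) a P ∈ I := by
  rw [← Ideal.Quotient.eq, Polynomial.hom_eval₂, Polynomial.hom_eval₂]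
  congr 1
  apply RingHom.ext
  intro Q
  simp only [RingHom.comp_apply]
  rw [Ideal.Quotient.eq]
  exact ev_sub_mem φ I y z h Q

end ev

/-- contraction principle in an adically complete ring -/
theorem fixpt {C : Type v} [CommRing C] (I : Ideal C) [IsAdicComplete I C] (φ : C → C)
    (h0 : φ 0 ∈ I)
    (hc : ∀ a b : C, ∀ n : ℕ, a ∈ I → b ∈ I → a - b ∈ I ^ n → φ a - φ b ∈ I ^ (n + 1)) :
    ∃ w ∈ I, φ w = w := by
  let s : ℕ → C := fun n => φ^[n] 0
  have hs0 : s 0 = 0 := rfl
  have hss : ∀ n, s (n + 1) = φ (s n) := fun n => Function.iterate_succ_apply' φ n 0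
  have hI : ∀ n, s n ∈ I := by
    intro n
    induction n with
    | zero => rw [hs0]; exact zero_mem _
    | succ n ih =>
      rw [hss]
      have h1 := hc (s n) 0 0 ih (zero_mem _) (by simp)
      rw [zero_add, pow_one] at h1
      have h2 := add_mem h1 h0
      rwa [sub_add_cancel] at h2
  have hstep : ∀ n, s (n + 1) - s n ∈ I ^ n := by
    intro n
    induction n with
    | zero => simp
    | succ n ih =>
      rw [hss, hss n]
      have := hc (s (n + 1)) (s n) n (hI _) (hI _) ih
      rwa [hss n] at this
  have hcau : ∀ n k, s (n + k) - s n ∈ I ^ n := by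
    intro n k
    induction k with
    | zero => simp
    | succ k ih =>
      have h1 : s (n + (k + 1)) - s n = (s (n + k + 1) - s (n + k)) + (s (n + k) - s n) := by
        rw [show n + (k + 1) = n + k + 1 by ring]; ring
      rw [h1]
      exact add_mem (Ideal.pow_le_pow_right (Nat.le_add_right n k) (hstep (n + k))) ih
  obtain ⟨L, hL⟩ := IsPrecomplete.prec (inferInstance : IsPrecomplete I C) (f := s) (by
    intro m n hmn
    obtain ⟨k, rfl⟩ := Nat.exists_eq_add_of_le hmn
    rw [SModEq.sub_mem, smul_eq_mul, Ideal.mul_top]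
    have := hcau m k
    rw [← neg_sub]
    exact neg_mem this)
  have hL' : ∀ n, s n - L ∈ I ^ n := by
    intro n
    have := hL n
    rwa [SModEq.sub_mem, smul_eq_mul, Ideal.mul_top] at this
  have hLI : L ∈ I := by
    have h1 := hL' 1
    rw [pow_one] at h1
    have := sub_mem (hI 1) h1
    rwa [sub_sub_cancel] at this
  refine ⟨L, hLI, ?_⟩
  have hz : φ L - L = 0 := by
    apply IsHausdorff.haus (inferInstance : IsHausdorff I C)
    intro n
    rw [SModEq.sub_mem, smul_eq_mul, Ideal.mul_top, sub_zero]
    have h1 := hc (s n) L n (hI n) hLI (hL' n)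
    have h2 := hL' (n + 1)
    have h3 : φ L - L = (s (n + 1) - L) - (φ (s n) - φ L) := by rw [hss]; ring
    rw [h3]
    exact Ideal.pow_le_pow_right (Nat.le_succ n) (sub_mem h2 h1)
  exact sub_eq_zero.mp hz

/-- Newton's lemma: `f(a) = f'(a)^2 c` with `c` in the complete ideal gives a root in `a + f'(a) (c)`. -/
theorem newton {C : Type v} [CommRing C] (I : Ideal C) [IsAdicComplete I C] (f : Polynomial C)
    (a c : C) (hc : c ∈ I)
    (h : f.eval a = (f.derivative.eval a) ^ 2 * c) :
    ∃ w ∈ Ideal.span {c}, f.eval (a + f.derivative.eval a * w) = 0 := by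
  set d := f.derivative.eval a with hd
  set T := Polynomial.taylor a f with hT
  set H := T.divX.divX with hH
  have hT0 : T.coeff 0 = d ^ 2 * c := by rw [hT, Polynomial.taylor_coeff_zero, h]
  have hT1 : T.coeff 1 = d := by rw [hT, Polynomial.taylor_coeff_one]
  have hTe : ∀ Y : C, f.eval (a + Y) = d ^ 2 * c + d * Y + Y ^ 2 * H.eval Y := by
    intro Y
    have h1 : f.eval (a + Y) = T.eval Y := by
      rw [hT, Polynomial.taylor_eval, add_comm]
    rw [h1]
    conv_lhs => rw [← Polynomial.divX_mul_X_add T]
    conv_lhs => rw [← Polynomial.divX_mul_X_add T.divX]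
    simp only [Polynomial.eval_add, Polynomial.eval_mul, Polynomial.eval_X, Polynomial.eval_C,
      Polynomial.coeff_divX, zero_add]
    rw [hT0, hT1]
    ring
  obtain ⟨w, hwI, hw⟩ := fixpt I (fun w => -(c + w ^ 2 * H.eval (d * w))) (by
      simp only [ne_eq, OfNat.ofNat_ne_zero, not_false_eq_true, zero_pow, zero_mul, add_zero]
      exact neg_mem hc) (by
      intro u v n hu hv huv
      obtain ⟨k, hk⟩ := Polynomial.sub_dvd_eval_sub (d * u) (d * v) H
      have h1 : -(c + u ^ 2 * H.eval (d * u)) - -(c + v ^ 2 * H.eval (d * v))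
          = -((u - v) * ((u + v) * H.eval (d * u)) + (u - v) * (v ^ 2 * d * k)) := by
        have : H.eval (d * u) = H.eval (d * v) + (d * u - d * v) * k := by rw [← hk]; ring
        rw [this]; ring
      rw [h1, pow_succ]
      refine neg_mem (add_mem (Ideal.mul_mem_mul huv ?_) (Ideal.mul_mem_mul huv ?_))
      · exact Ideal.mul_mem_right _ _ (add_mem hu hv)
      · have h2 : v ^ 2 * d * k = v * (v * d * k) := by ring
        rw [h2]
        exact Ideal.mul_mem_right _ _ hv)
  refine ⟨w, ?_, ?_⟩
  · -- w (1 + w H) = -c
    have h1 : w * (1 + w * H.eval (d * w)) = -c := by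
      have : w * (1 + w * H.eval (d * w)) = w + w ^ 2 * H.eval (d * w) := by ring
      rw [this]
      nth_rewrite 1 [← hw]
      ring
    have hu : IsUnit (1 + w * H.eval (d * w)) := by
      have hj := (IsAdicComplete.le_jacobson_bot I) (Ideal.mul_mem_right (H.eval (d * w)) I hwI)
      rw [Ideal.mem_jacobson_bot] at hj
      have := hj 1
      rwa [mul_one, add_comm] at this
    obtain ⟨u, hu⟩ := hu
    rw [Ideal.mem_span_singleton]
    refine ⟨-(u⁻¹ : Cˣ), ?_⟩
    have : w = w * (1 + w * H.eval (d * w)) * (u⁻¹ : Cˣ) := by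
      rw [← hu, mul_assoc, Units.mul_inv, mul_one]
    rw [this, h1]; ring
  · rw [hTe]
    have : d ^ 2 * c + d * (d * w) + (d * w) ^ 2 * H.eval (d * w)
        = d ^ 2 * (w - -(c + w ^ 2 * H.eval (d * w))) := by ring
    rw [this, hw]; ring

/-- "solving property": approximate solutions modulo `δ^M I` can be corrected to tuples satisfying
ALL polynomial relations (over the coefficient ring `A`) of `y`. -/
theorem SP {A : Type t} [CommRing A] {B : Type u} [CommRing B] [IsDomain B] [CharZero B]
    (φ : A →+* B) (hφ : Function.Injective φ) : ∀ (N : ℕ) (y : Fin N → B),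
    ∃ (δ : MvPolynomial (Fin N) A) (M : ℕ) (Λ : Finset (MvPolynomial (Fin N) A)),
      ev φ y δ ≠ 0 ∧ (∀ G ∈ Λ, ev φ y G = 0) ∧
      ∀ (C : Type v) [CommRing C] [IsDomain C] (I0 I : Ideal C) [IsAdicComplete I0 C] (_ : I ≤ I0)
        (ψ : A →+* C) (x : Fin N → C), ev ψ x δ ≠ 0 →
        (∀ G ∈ Λ, ∃ i ∈ I, ev ψ x G = (ev ψ x δ) ^ M * i) →
        ∃ z : Fin N → C, (∀ i, z i - x i ∈ I) ∧ ∀ G, ev φ y G = 0 → ev ψ z G = 0 := by
  classical
  intro N
  induction N with
  | zero =>
    intro y
    refine ⟨1, 0, ∅, by simp, by simp, ?_⟩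
    intro C _ _ I0 I _ hI ψ x _ _
    refine ⟨x, fun i => i.elim0, ?_⟩
    intro G hG
    obtain ⟨n, rfl⟩ : ∃ n : A, G = MvPolynomial.C n := ⟨_, MvPolynomial.eq_C_of_isEmpty G⟩
    rw [ev_C] at hG ⊢
    have h2 : n = 0 := by
      apply hφ; rw [hG, map_zero]
    rw [h2, map_zero]
  | succ N ih =>
    intro y
    obtain ⟨δ₀, M₀, Λ₀, hδ₀, hΛ₀, hSP⟩ := ih (Fin.tail y)
    by_cases hcase : ∃ Q : Polynomial (MvPolynomial (Fin N) A),
        Q.map (ev φ (Fin.tail y)) ≠ 0 ∧ Polynomial.eval₂ (ev φ (Fin.tail y)) (y 0) Q = 0
    · -- algebraic case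
      let S : Set (Polynomial (MvPolynomial (Fin N) A)) := {Q | Q.map (ev φ (Fin.tail y)) ≠ 0 ∧
        Polynomial.eval₂ (ev φ (Fin.tail y)) (y 0) Q = 0}
      obtain ⟨P, hPS, hPmin⟩ : ∃ P ∈ S, ∀ Q ∈ S, P.natDegree ≤ Q.natDegree := by
        have hne : (Polynomial.natDegree '' S).Nonempty := by
          obtain ⟨Q, hQ⟩ := hcase
          exact ⟨_, Q, hQ, rfl⟩
        obtain ⟨P, hP, hPe⟩ := Nat.sInf_mem hne
        refine ⟨P, hP, fun Q hQ => ?_⟩
        rw [hPe]
        exact Nat.sInf_le ⟨Q, hQ, rfl⟩
      obtain ⟨hP0, hProot⟩ := hPS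
      set ℓ := P.leadingCoeff with hℓ
      -- the leading coefficient does not vanish
      have hℓ0 : ev φ (Fin.tail y) ℓ ≠ 0 := by
        intro h0
        have hmap : P.eraseLead.map (ev φ (Fin.tail y)) = P.map (ev φ (Fin.tail y)) := by
          conv_rhs => rw [← Polynomial.eraseLead_add_C_mul_X_pow P]
          rw [Polynomial.map_add, Polynomial.map_mul, Polynomial.map_C, ← hℓ, h0]
          simp
        have hev : Polynomial.eval₂ (ev φ (Fin.tail y)) (y 0) P.eraseLead = 0 := by
          rw [← Polynomial.eval_map, hmap, Polynomial.eval_map]; exact hProot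
        have h1 := hPmin P.eraseLead ⟨by rw [hmap]; exact hP0, hev⟩
        have h2 : P.natDegree ≤ P.natDegree - 1 := h1.trans (Polynomial.eraseLead_natDegree_le P)
        have h3 : P.natDegree = 0 := by omega
        rw [Polynomial.eq_C_of_natDegree_eq_zero h3, Polynomial.map_C] at hP0
        rw [Polynomial.eq_C_of_natDegree_eq_zero h3, Polynomial.eval₂_C] at hProot
        exact hP0 (by rw [hProot, Polynomial.C_0])
      have hdeg : 1 ≤ P.natDegree := by
        by_contra hlt
        have h3 : P.natDegree = 0 := by omega
        rw [Polynomial.eq_C_of_natDegree_eq_zero h3, Polynomial.map_C] at hP0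
        rw [Polynomial.eq_C_of_natDegree_eq_zero h3, Polynomial.eval₂_C] at hProot
        exact hP0 (by rw [hProot, Polynomial.C_0])
      -- the derivative does not vanish
      have hder : Polynomial.eval₂ (ev φ (Fin.tail y)) (y 0) P.derivative ≠ 0 := by
        intro h0
        have hne : P.derivative.map (ev φ (Fin.tail y)) ≠ 0 := by
          intro hz
          have := congrArg (fun q => Polynomial.coeff q (P.natDegree - 1)) hz
          simp only [Polynomial.coeff_map, Polynomial.coeff_derivative, Polynomial.coeff_zero] at this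
          rw [show P.natDegree - 1 + 1 = P.natDegree by omega, ← Polynomial.leadingCoeff, ← hℓ,
            map_mul] at this
          rcases mul_eq_zero.mp this with h | h
          · exact hℓ0 h
          · have h4 : ev φ (Fin.tail y) ((((P.natDegree - 1 : ℕ) : MvPolynomial (Fin N) A)) + 1)
                = ((P.natDegree - 1 + 1 : ℕ) : B) := by
              push_cast
              simp
            rw [h4] at h
            have : P.natDegree - 1 + 1 = 0 := by exact_mod_cast h
            omega
        have h1 := hPmin P.derivative ⟨hne, h0⟩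
        have h2 := Polynomial.natDegree_derivative_lt (p := P) (by omega)
        omega
      set Phat := (finSuccEquiv A N).symm P with hPhat
      set Dhat := (finSuccEquiv A N).symm P.derivative with hDhat
      refine ⟨rename Fin.succ δ₀ * rename Fin.succ ℓ * Dhat, M₀ + 2,
        insert Phat (Λ₀.image (rename Fin.succ)), ?_, ?_, ?_⟩
      · rw [map_mul, map_mul, ev_rename, ev_rename, ev_succ, hDhat, AlgEquiv.apply_symm_apply]
        exact mul_ne_zero (mul_ne_zero hδ₀ hℓ0) hder
      · intro G hG
        rw [Finset.mem_insert, Finset.mem_image] at hG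
        rcases hG with rfl | ⟨G', hG', rfl⟩
        · rw [ev_succ, hPhat, AlgEquiv.apply_symm_apply]; exact hProot
        · rw [ev_rename]; exact hΛ₀ G' hG'
      · intro C _ _ I0 I _ hI ψ x hx hΛ
        set D := ev ψ x (rename Fin.succ δ₀ * rename Fin.succ ℓ * Dhat) with hD
        set δv := ev ψ (Fin.tail x) δ₀ with hδv
        set l := ev ψ (Fin.tail x) ℓ with hl
        set d := Polynomial.eval₂ (ev ψ (Fin.tail x)) (x 0) P.derivative with hd
        have hDe : D = δv * l * d := by
          rw [hD, map_mul, map_mul, ev_rename, ev_rename, ev_succ, hDhat,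
            AlgEquiv.apply_symm_apply]
          rfl
        have hδv0 : δv ≠ 0 := by intro h; apply hx; rw [hDe, h]; ring
        have hl0 : l ≠ 0 := by intro h; apply hx; rw [hDe, h]; ring
        have hd0 : d ≠ 0 := by intro h; apply hx; rw [hDe, h]; ring
        set I' : Ideal C := Ideal.span {D ^ 2} * I with hI'
        have hI'mem : ∀ t ∈ I', ∃ i ∈ I, t = D ^ 2 * i := by
          intro t ht
          rw [hI', Ideal.mem_span_singleton_mul] at ht
          obtain ⟨i, hi, rfl⟩ := ht
          exact ⟨i, hi, rfl⟩
        have hI'I : I' ≤ I := Ideal.mul_le_right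
        obtain ⟨z', hz', hz'rel⟩ := hSP C I0 I' (hI'I.trans hI) ψ (Fin.tail x) hδv0 (by
          intro G hG
          obtain ⟨i, hi, hiG⟩ := hΛ (rename Fin.succ G)
            (Finset.mem_insert_of_mem (Finset.mem_image_of_mem _ hG))
          refine ⟨D ^ 2 * ((l * d) ^ M₀ * i), ?_, ?_⟩
          · rw [hI', Ideal.mem_span_singleton_mul]
            exact ⟨_, Ideal.mul_mem_left _ _ hi, rfl⟩
          · rw [ev_rename] at hiG
            have : ev ψ (Fin.tail x) G = D ^ (M₀ + 2) * i := hiG
            rw [this, pow_add, hDe]
            ring)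
        -- units
        have hunit : ∀ i ∈ I, IsUnit (1 + i) := by
          intro i hi
          have hj := (IsAdicComplete.le_jacobson_bot I0) (hI hi)
          rw [Ideal.mem_jacobson_bot] at hj
          have := hj 1
          rwa [mul_one, add_comm] at this
        have hl' : ev ψ z' ℓ ≠ 0 := by
          obtain ⟨i, hi, hie⟩ := hI'mem _ (ev_sub_mem ψ I' _ _ hz' ℓ)
          have h1 : ev ψ z' ℓ = l * (1 + (δv ^ 2 * l * d ^ 2 * i)) := by
            have : ev ψ z' ℓ = l + D ^ 2 * i := by rw [← hie]; ring
            rw [this, hDe]; ring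
          rw [h1]
          exact mul_ne_zero hl0 (hunit _ (Ideal.mul_mem_left _ _ hi)).ne_zero
        set f := P.map (ev ψ z') with hf
        have hfder : f.derivative.eval (x 0) = Polynomial.eval₂ (ev ψ z') (x 0) P.derivative := by
          rw [hf, Polynomial.derivative_map, Polynomial.eval_map]
        obtain ⟨i2, hi2, hi2e⟩ := hI'mem _ (eval₂_sub_mem ψ I' _ _ (x 0) hz' P.derivative)
        have hd' : f.derivative.eval (x 0) = d * (1 + δv ^ 2 * l ^ 2 * d * i2) := by
          rw [hfder]
          have : Polynomial.eval₂ (ev ψ z') (x 0) P.derivative = d + D ^ 2 * i2 := by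
            rw [← hi2e]; ring
          rw [this, hDe]; ring
        obtain ⟨u, hu⟩ := hunit _ (Ideal.mul_mem_left I (δv ^ 2 * l ^ 2 * d) hi2)
        rw [← hu] at hd'
        obtain ⟨i1, hi1, hi1e⟩ := hI'mem _ (eval₂_sub_mem ψ I' _ _ (x 0) hz' P)
        obtain ⟨i0, hi0, hi0e⟩ := hΛ Phat (Finset.mem_insert_self _ _)
        have hf0 : f.eval (x 0) = D ^ 2 * (i1 + D ^ M₀ * i0) := by
          rw [hf, Polynomial.eval_map]
          have h1 : Polynomial.eval₂ (ev ψ z') (x 0) P
              = D ^ 2 * i1 + Polynomial.eval₂ (ev ψ (Fin.tail x)) (x 0) P := by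
            rw [← hi1e]; ring
          have h2 : Polynomial.eval₂ (ev ψ (Fin.tail x)) (x 0) P = D ^ (M₀ + 2) * i0 := by
            rw [← hi0e, ev_succ, hPhat, AlgEquiv.apply_symm_apply]
          rw [h1, h2, pow_add]; ring
        set c := ((u⁻¹ : Cˣ) : C) ^ 2 * (δv * l) ^ 2 * (i1 + D ^ M₀ * i0) with hc
        have hcI : c ∈ I := Ideal.mul_mem_left _ _ (add_mem hi1 (Ideal.mul_mem_left _ _ hi0))
        have hnew : f.eval (x 0) = (f.derivative.eval (x 0)) ^ 2 * c := by
          rw [hd', hf0, hc, hDe]
          have : (u : C) * ((u⁻¹ : Cˣ) : C) = 1 := Units.mul_inv u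
          calc (δv * l * d) ^ 2 * (i1 + (δv * l * d) ^ M₀ * i0)
              = ((u : C) * ((u⁻¹ : Cˣ) : C)) ^ 2 * ((δv * l * d) ^ 2 *
                (i1 + (δv * l * d) ^ M₀ * i0)) := by rw [this]; ring
            _ = _ := by ring
        obtain ⟨w, hw, hroot⟩ := newton I0 f (x 0) c (hI hcI) hnew
        have hwI : w ∈ I := (Ideal.span_singleton_le_iff_mem I).mpr hcI hw
        refine ⟨Fin.cons (x 0 + f.derivative.eval (x 0) * w) z', ?_, ?_⟩
        · intro i
          refine Fin.cases ?_ (fun j => ?_) i
          · rw [Fin.cons_zero, add_sub_cancel_left]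
            exact Ideal.mul_mem_left _ _ hwI
          · rw [Fin.cons_succ]
            exact hI'I (hz' j)
        · -- relations
          set z₀ := x 0 + f.derivative.eval (x 0) * w with hz₀
          have hPz : Polynomial.eval₂ (ev ψ z') z₀ P = 0 := by
            rw [← Polynomial.eval_map]; exact hroot
          have key : ∀ (n : ℕ) (g : Polynomial (MvPolynomial (Fin N) A)), g.natDegree ≤ n →
              Polynomial.eval₂ (ev φ (Fin.tail y)) (y 0) g = 0 →
              Polynomial.eval₂ (ev ψ z') z₀ g = 0 := by
            intro n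
            induction n with
            | zero =>
              intro g hg hge
              rw [Polynomial.eq_C_of_natDegree_le_zero hg, Polynomial.eval₂_C] at hge ⊢
              exact hz'rel _ hge
            | succ n ihn =>
              intro g hg hge
              rcases Nat.lt_or_ge g.natDegree P.natDegree with hlt | hge'
              · -- small degree: all coefficients vanish
                have hmap0 : g.map (ev φ (Fin.tail y)) = 0 := by
                  by_contra hne
                  have := hPmin g ⟨hne, hge⟩
                  omega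
                rw [Polynomial.eval₂_eq_sum_range]
                apply Finset.sum_eq_zero
                intro i _
                have : ev φ (Fin.tail y) (g.coeff i) = 0 := by
                  rw [← Polynomial.coeff_map, hmap0, Polynomial.coeff_zero]
                rw [hz'rel _ this, zero_mul]
              · by_cases hgd : g.natDegree ≤ n
                · exact ihn g hgd hge
                · have hgn : g.natDegree = n + 1 := by omega
                  set g1 := Polynomial.C ℓ * g - Polynomial.C g.leadingCoeff *
                    Polynomial.X ^ (g.natDegree - P.natDegree) * P with hg1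
                  have hg1deg : g1.natDegree ≤ n := by
                    rw [Polynomial.natDegree_le_iff_coeff_eq_zero]
                    intro k hk
                    rw [hg1, Polynomial.coeff_sub, Polynomial.coeff_C_mul, mul_assoc,
                      Polynomial.coeff_C_mul, Polynomial.coeff_X_pow_mul']
                    rcases Nat.lt_or_ge (n + 1) k with hk1 | hk1
                    · rw [Polynomial.coeff_eq_zero_of_natDegree_lt (by omega)]
                      rw [if_pos (by omega), Polynomial.coeff_eq_zero_of_natDegree_lt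
                        (p := P) (by omega)]
                      ring
                    · have hk2 : k = g.natDegree := by omega
                      subst hk2
                      rw [if_pos (by omega), show g.natDegree - (g.natDegree - P.natDegree)
                        = P.natDegree by omega]
                      change ℓ * g.leadingCoeff - g.leadingCoeff * ℓ = 0
                      ring
                  have hg1e : Polynomial.eval₂ (ev φ (Fin.tail y)) (y 0) g1 = 0 := by
                    rw [hg1, Polynomial.eval₂_sub, Polynomial.eval₂_mul, Polynomial.eval₂_mul,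
                      hge, hProot]
                    ring
                  have h2 := ihn g1 hg1deg hg1e
                  rw [hg1, Polynomial.eval₂_sub, Polynomial.eval₂_mul, Polynomial.eval₂_mul,
                      hPz, mul_zero, sub_zero, Polynomial.eval₂_C] at h2
                  rcases mul_eq_zero.mp h2 with h3 | h3
                  · exact absurd h3 hl'
                  · exact h3
          intro G hG
          rw [ev_succ] at hG ⊢
          rw [Fin.tail_cons, Fin.cons_zero]
          exact key _ _ le_rfl hG
    · -- transcendental case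
      push Not at hcase
      refine ⟨rename Fin.succ δ₀, M₀, Λ₀.image (rename Fin.succ), ?_, ?_, ?_⟩
      · rw [ev_rename]; exact hδ₀
      · intro G hG
        rw [Finset.mem_image] at hG
        obtain ⟨G', hG', rfl⟩ := hG
        rw [ev_rename]; exact hΛ₀ G' hG'
      · intro C _ _ I0 I _ hI ψ x hx hΛ
        rw [ev_rename] at hx
        obtain ⟨z', hz', hz'rel⟩ := hSP C I0 I hI ψ (Fin.tail x) hx (by
          intro G hG
          obtain ⟨i, hi, hiG⟩ := hΛ (rename Fin.succ G) (Finset.mem_image_of_mem _ hG)
          rw [ev_rename, ev_rename] at hiG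
          exact ⟨i, hi, hiG⟩)
        refine ⟨Fin.cons (x 0) z', ?_, ?_⟩
        · intro i
          refine Fin.cases ?_ (fun j => ?_) i
          · rw [Fin.cons_zero, sub_self]; exact zero_mem _
          · rw [Fin.cons_succ]; exact hz' j
        · intro G hG
          rw [ev_succ] at hG ⊢
          rw [Fin.tail_cons, Fin.cons_zero]
          have hmap0 : (finSuccEquiv A N G).map (ev φ (Fin.tail y)) = 0 := by
            by_contra hne
            exact hcase _ hne hG
          rw [Polynomial.eval₂_eq_sum_range]
          apply Finset.sum_eq_zero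
          intro i _
          have : ev φ (Fin.tail y) ((finSuccEquiv A N G).coeff i) = 0 := by
            rw [← Polynomial.coeff_map, hmap0, Polynomial.coeff_zero]
          rw [hz'rel _ this, zero_mul]

end Crest.Agent.R183.T0
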