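import Mathlib

/-!
Transfer theorem (Artin approximation from an ultraproduct of fields to its factors), part 1:
evaluation maps, the statement `TR`, the base case and the Weierstrass step.
-/

set_option autoImplicit false

namespace Crest.Agent.R183.TA

open MvPowerSeries

section Ev

variable {L R R' : Type} [CommRing L] [CommRing R] [CommRing R']

/-- Evaluation of a polynomial in `X_0..X_{d-1}` and unknowns `Y_t` with coefficients in `L`,
in a power series ring over an `L`-algebra `R`. -/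
noncomputable def ev {d : ℕ} {τ : Type} (θ : L →+* R) (y : τ → MvPowerSeries (Fin d) R) :
    MvPolynomial (Fin d ⊕ τ) L →+* MvPowerSeries (Fin d) R :=
  MvPolynomial.eval₂Hom ((C (σ := Fin d) (R := R)).comp θ) (Sum.elim X y)

@[simp] lemma ev_C {d : ℕ} {τ : Type} (θ : L →+* R) (y : τ → MvPowerSeries (Fin d) R) (c : L) :
    ev θ y (MvPolynomial.C c) = C (θ c) := by
  simp [ev]

@[simp] lemma ev_X_inl {d : ℕ} {τ : Type} (θ : L →+* R) (y : τ → MvPowerSeries (Fin d) R)
    (j : Fin d) : ev θ y (MvPolynomial.X (Sum.inl j)) = X j := by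
  simp [ev]

@[simp] lemma ev_X_inr {d : ℕ} {τ : Type} (θ : L →+* R) (y : τ → MvPowerSeries (Fin d) R)
    (t : τ) : ev θ y (MvPolynomial.X (Sum.inr t)) = y t := by
  simp [ev]

lemma map_ev {d : ℕ} {τ : Type} (θ : L →+* R) (χ : R →+* R') (y : τ → MvPowerSeries (Fin d) R)
    (f : MvPolynomial (Fin d ⊕ τ) L) :
    map χ (ev θ y f) = ev (χ.comp θ) (fun t => map χ (y t)) f := by
  have h : (map χ).comp (ev θ y) = ev (χ.comp θ) (fun t => map χ (y t)) := by
    apply MvPolynomial.ringHom_ext
    · intro c; simp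
    · rintro (j | t) <;> simp
  exact congrArg (fun g => g f) h

lemma finSuccEquiv_map {d : ℕ} (χ : R →+* R') (f : MvPowerSeries (Fin (d + 1)) R) :
    finSuccEquiv R' d (map χ f) = PowerSeries.map (map χ) (finSuccEquiv R d f) := by
  ext k x
  rw [coeff_coeff_finSuccEquiv, coeff_map, PowerSeries.coeff_map, coeff_map,
    coeff_coeff_finSuccEquiv]

/-- The generic substitution `X_0 ↦ X`, `X_{j+1} ↦ X_j`, `Y_t ↦ ρ_t`. -/
noncomputable def Gam {d : ℕ} {τ τ' : Type} (ρ : τ → Polynomial (MvPolynomial (Fin d ⊕ τ') L)) :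
    MvPolynomial (Fin (d + 1) ⊕ τ) L →+* Polynomial (MvPolynomial (Fin d ⊕ τ') L) :=
  MvPolynomial.eval₂Hom (Polynomial.C.comp MvPolynomial.C)
    (Sum.elim (Fin.cons Polynomial.X (fun j => Polynomial.C (MvPolynomial.X (Sum.inl j)))) ρ)

lemma dvd_ev_sub {d : ℕ} {τ τ' : Type} (θ : L →+* R)
    (ρ : τ → Polynomial (MvPolynomial (Fin d ⊕ τ') L)) (z : τ' → MvPowerSeries (Fin d) R)
    (a : PowerSeries (MvPowerSeries (Fin d) R)) (w : τ → MvPowerSeries (Fin (d + 1)) R)
    (hw : ∀ t, a ∣ finSuccEquiv R d (w t) -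
      (((ρ t).map (ev θ z) : Polynomial (MvPowerSeries (Fin d) R)) : PowerSeries _))
    (f : MvPolynomial (Fin (d + 1) ⊕ τ) L) :
    a ∣ finSuccEquiv R d (ev θ w f) -
      (((Gam ρ f).map (ev θ z) : Polynomial (MvPowerSeries (Fin d) R)) : PowerSeries _) := by
  have h : ((Ideal.Quotient.mk (Ideal.span {a})).comp
      (((finSuccEquiv R d).toRingEquiv.toRingHom).comp (ev θ w))) =
      ((Ideal.Quotient.mk (Ideal.span {a})).comp
      ((Polynomial.coeToPowerSeries.ringHom).comp
        ((Polynomial.mapRingHom (ev θ z)).comp (Gam ρ)))) := by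
    apply MvPolynomial.ringHom_ext
    · intro c
      simp [Gam]
    · rintro (j | t)
      · refine Fin.cases ?_ (fun j => ?_) j
        · simp [Gam]
        · simp [Gam]
      · have := hw t
        rw [← Ideal.mem_span_singleton, ← Ideal.Quotient.eq] at this
        simpa [Gam] using this
  have h2 := congrArg (fun g => g f) h
  rw [← Ideal.mem_span_singleton, ← Ideal.Quotient.eq]
  simpa using h2

end Ev


section Jd

variable {R R' : Type} [CommRing R] [CommRing R']

/-- Power series all of whose coefficients of total degree `< M` vanish. -/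
def Jd (d : ℕ) (R : Type) [CommRing R] (M : ℕ) : Ideal (MvPowerSeries (Fin d) R) where
  carrier := {f | ∀ α : Fin d →₀ ℕ, α.degree < M → coeff α f = 0}
  add_mem' := by
    intro f g hf hg α hα
    rw [map_add, hf α hα, hg α hα, add_zero]
  zero_mem' := by
    intro α _
    simp
  smul_mem' := by
    intro c f hf α hα
    rw [smul_eq_mul, coeff_mul]
    apply Finset.sum_eq_zero
    intro p hp
    have hp' : p.1 + p.2 = α := Finset.HasAntidiagonal.mem_antidiagonal.mp hp
    have : p.2.degree < M := by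
      have h2 : α.degree = p.1.degree + p.2.degree := by
        rw [← hp', map_add]
      omega
    rw [hf _ this, mul_zero]

lemma mem_Jd {d M : ℕ} {f : MvPowerSeries (Fin d) R} :
    f ∈ Jd d R M ↔ ∀ α : Fin d →₀ ℕ, α.degree < M → coeff α f = 0 := Iff.rfl

lemma mem_Jd_iff_order {d M : ℕ} {f : MvPowerSeries (Fin d) R} :
    f ∈ Jd d R M ↔ (M : ℕ∞) ≤ f.order := by
  constructor
  · intro h
    apply MvPowerSeries.le_order
    intro α hα
    exact h α (by exact_mod_cast hα)
  · intro h α hα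
    apply coeff_of_lt_order
    exact lt_of_lt_of_le (by exact_mod_cast hα) h

lemma Jd_mono {d M N : ℕ} (h : M ≤ N) : Jd d R N ≤ Jd d R M :=
  fun _ hf α hα => hf α (lt_of_lt_of_le hα h)

lemma map_mem_Jd {d M : ℕ} (χ : R →+* R') {f : MvPowerSeries (Fin d) R} (hf : f ∈ Jd d R M) :
    map χ f ∈ Jd d R' M := by
  intro α hα
  rw [coeff_map, hf α hα, map_zero]

lemma degree_cons {d : ℕ} (k : ℕ) (x : Fin d →₀ ℕ) : (Finsupp.cons k x).degree = k + x.degree := by
  rw [Finsupp.degree_eq_sum, Finsupp.degree_eq_sum, Fin.sum_univ_succ]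
  simp

lemma symm_mem_Jd {d M : ℕ} (G : PowerSeries (MvPowerSeries (Fin d) R))
    (hG : ∀ k, PowerSeries.coeff k G ∈ Jd d R M) : (finSuccEquiv R d).symm G ∈ Jd (d + 1) R M := by
  intro α hα
  rw [← Finsupp.cons_tail α, ← coeff_coeff_finSuccEquiv, AlgEquiv.apply_symm_apply]
  apply hG
  rw [← Finsupp.cons_tail α, degree_cons] at hα
  omega

variable {L : Type} [CommRing L]

lemma ev_sub_mem_Jd {d M : ℕ} {τ : Type} (θ : L →+* R) (y y' : τ → MvPowerSeries (Fin d) R)
    (h : ∀ t, y t - y' t ∈ Jd d R M) (f : MvPolynomial (Fin d ⊕ τ) L) :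
    ev θ y f - ev θ y' f ∈ Jd d R M := by
  have h1 : (Ideal.Quotient.mk (Jd d R M)).comp (ev θ y) =
      (Ideal.Quotient.mk (Jd d R M)).comp (ev θ y') := by
    apply MvPolynomial.ringHom_ext
    · intro c; simp
    · rintro (j | t)
      · simp
      · simpa using (Ideal.Quotient.eq.mpr (h t))
  have h2 := congrArg (fun g => g f) h1
  exact Ideal.Quotient.eq.mp h2

end Jd

section Lift

variable {R K : Type} [CommRing R] [CommRing K]

lemma exists_map_eq {σ : Type} (π : R →+* K) (hs : Function.Surjective π)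
    (g : MvPowerSeries σ K) : ∃ g' : MvPowerSeries σ R, map π g' = g := by
  choose s hs' using hs
  let g' : MvPowerSeries σ R := fun α => s (coeff α g)
  refine ⟨g', ?_⟩
  ext α
  rw [coeff_map]
  exact hs' _

lemma exists_psmap_eq {d : ℕ} (π : R →+* K) (hs : Function.Surjective π)
    (g : PowerSeries (MvPowerSeries (Fin d) K)) :
    ∃ g' : PowerSeries (MvPowerSeries (Fin d) R), PowerSeries.map (map π) g' = g := by
  choose s hs' using exists_map_eq (σ := Fin d) π hs
  refine ⟨PowerSeries.mk fun k => s (PowerSeries.coeff k g), ?_⟩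
  ext1 k
  rw [PowerSeries.coeff_map, PowerSeries.coeff_mk]
  exact hs' _

end Lift

section Ultra

variable {ι : Type} (U : Ultrafilter ι) (κ : ι → Type) [∀ i, Field (κ i)] {K : Type} [Field K]
  (π : (∀ i, κ i) →+* K)

/-- The transfer property in `d` variables. -/
def TR (d : ℕ) : Prop :=
  ∀ (τ : Type) [Finite τ] (y : τ → MvPowerSeries (Fin d) K) (M : ℕ),
    ∃ y' : τ → MvPowerSeries (Fin d) (∀ i, κ i),
      (∀ f : MvPolynomial (Fin d ⊕ τ) (∀ i, κ i), ev π y f = 0 →
        ∀ᶠ i in (U : Filter ι), map (Pi.evalRingHom κ i) (ev (RingHom.id _) y' f) = 0) ∧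
      ∀ t, map π (y' t) - y t ∈ Jd d K M

variable (hπ : ∀ a : (∀ i, κ i), π a = 0 ↔ ∀ᶠ i in (U : Filter ι), a i = 0)
  (hs : Function.Surjective π)

include hπ hs in
theorem TR_zero : TR U κ π 0 := by
  intro τ _ y M
  choose y' hy' using fun t => exists_map_eq π hs (y t)
  refine ⟨y', ?_, ?_⟩
  · intro f hf
    have h1 : map π (ev (RingHom.id _) y' f) = 0 := by
      rw [map_ev]
      simpa [hy'] using hf
    have h2 : π (coeff 0 (ev (RingHom.id _) y' f)) = 0 := by
      rw [← coeff_map, h1]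
      simp
    filter_upwards [(hπ _).mp h2] with i hi
    ext α
    rw [Subsingleton.elim α 0, coeff_map]
    simpa using hi
  · intro t
    rw [hy', sub_self]
    exact Ideal.zero_mem _

end Ultra

end Crest.Agent.R183.TA
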