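import Mathlib
import Crest.Agent.R183.TA1

/-!
Transfer theorem, part 2: the Weierstrass step.
-/

set_option autoImplicit false

namespace Crest.Agent.R183.TA

open MvPowerSeries

section Local

variable {K : Type} [Field K]

lemma mem_maximalIdeal_iff {d : ℕ} (f : MvPowerSeries (Fin d) K) :
    f ∈ IsLocalRing.maximalIdeal (MvPowerSeries (Fin d) K) ↔ constantCoeff f = 0 := by
  rw [IsLocalRing.mem_maximalIdeal, mem_nonunits_iff, isUnit_iff_constantCoeff, isUnit_iff_ne_zero,
    not_not]

lemma mem_span_X {R : Type} [CommRing R] : ∀ (d : ℕ) (f : MvPowerSeries (Fin d) R),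
    constantCoeff f = 0 → f ∈ Ideal.span (Set.range (X : Fin d → MvPowerSeries (Fin d) R)) := by
  intro d
  induction d with
  | zero =>
    intro f hf
    have : f = 0 := by
      ext α
      rw [Subsingleton.elim α 0, coeff_zero_eq_constantCoeff_apply, hf]
      simp
    rw [this]
    exact Ideal.zero_mem _
  | succ d ih =>
    intro f hf
    have h0 : constantCoeff (PowerSeries.constantCoeff (finSuccEquiv R d f)) = 0 := by
      rw [← PowerSeries.coeff_zero_eq_constantCoeff_apply, ← coeff_zero_eq_constantCoeff_apply,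
        coeff_coeff_finSuccEquiv, Finsupp.cons_zero_zero, coeff_zero_eq_constantCoeff_apply, hf]
    have h1 := ih _ h0
    have h2 : finSuccEquiv R d f = PowerSeries.C (PowerSeries.constantCoeff (finSuccEquiv R d f)) +
        PowerSeries.X * (PowerSeries.mk fun p => PowerSeries.coeff (p + 1) (finSuccEquiv R d f)) := by
      conv_lhs => rw [PowerSeries.eq_X_mul_shift_add_const (finSuccEquiv R d f)]
      rw [add_comm]
    have h3 : f = (finSuccEquiv R d).symm
        (PowerSeries.C (PowerSeries.constantCoeff (finSuccEquiv R d f))) +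
        X 0 * (finSuccEquiv R d).symm
          (PowerSeries.mk fun p => PowerSeries.coeff (p + 1) (finSuccEquiv R d f)) := by
      apply (finSuccEquiv R d).injective
      rw [map_add, map_mul, AlgEquiv.apply_symm_apply, AlgEquiv.apply_symm_apply,
        finSuccEquiv_X_zero]
      exact h2
    rw [h3]
    refine Ideal.add_mem _ ?_ (Ideal.mul_mem_right _ _ (Ideal.subset_span ⟨0, rfl⟩))
    let φ : MvPowerSeries (Fin d) R →+* MvPowerSeries (Fin (d + 1)) R :=
      ((finSuccEquiv R d).symm.toRingEquiv.toRingHom).comp PowerSeries.C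
    have h4 : φ (PowerSeries.constantCoeff (finSuccEquiv R d f)) ∈
        Ideal.map φ (Ideal.span (Set.range X)) := Ideal.mem_map_of_mem _ h1
    rw [Ideal.map_span] at h4
    refine Ideal.span_mono ?_ h4
    rintro _ ⟨_, ⟨j, rfl⟩, rfl⟩
    refine ⟨j.succ, ?_⟩
    apply (finSuccEquiv R d).injective
    simp [φ]

lemma maximalIdeal_eq_span {d : ℕ} :
    IsLocalRing.maximalIdeal (MvPowerSeries (Fin d) K) =
      Ideal.span (Set.range (X : Fin d → MvPowerSeries (Fin d) K)) := by
  apply le_antisymm
  · intro f hf
    exact mem_span_X d f ((mem_maximalIdeal_iff f).mp hf)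
  · rw [Ideal.span_le]
    rintro _ ⟨j, rfl⟩
    exact (mem_maximalIdeal_iff _).mpr (by simp)

instance {d : ℕ} : IsAdicComplete (IsLocalRing.maximalIdeal (MvPowerSeries (Fin d) K))
    (MvPowerSeries (Fin d) K) := by
  rw [maximalIdeal_eq_span]
  infer_instance

/-- A polynomial divisible (as a power series) by a distinguished polynomial is divisible as a
polynomial. -/
lemma modByMonic_eq_zero_of_dvd {A : Type} [CommRing A] [IsLocalRing A]
    [IsAdicComplete (IsLocalRing.maximalIdeal A) A] (a : Polynomial A)
    (ha : a.IsDistinguishedAt (IsLocalRing.maximalIdeal A)) (G : Polynomial A)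
    (h : (a : PowerSeries A) ∣ (G : PowerSeries A)) : G %ₘ a = 0 := by
  obtain ⟨v, hv⟩ := h
  have hD : (a : PowerSeries A).IsWeierstrassDivisorAt (IsLocalRing.maximalIdeal A) :=
    ha.isWeierstrassDivisorAt'
  have hdeg : a.degree = ((((a : PowerSeries A).map
      (Ideal.Quotient.mk (IsLocalRing.maximalIdeal A))).order.toNat : ℕ) : WithBot ℕ) := by
    have h1 := ha.coe_natDegree_eq_order_map (a : PowerSeries A) 1
      (by
        rw [map_one, ← Ideal.ne_top_iff_one]
        exact Ideal.IsPrime.ne_top') (by simp)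
    rw [← h1, Polynomial.degree_eq_natDegree ha.monic.ne_zero]
    simp
  have h1 : (a : PowerSeries A) * ((G /ₘ a : Polynomial A) : PowerSeries A) +
      ((G %ₘ a : Polynomial A) : PowerSeries A) = (a : PowerSeries A) * v +
      ((0 : Polynomial A) : PowerSeries A) := by
    rw [← Polynomial.coe_mul, ← Polynomial.coe_add, add_comm, Polynomial.modByMonic_add_div,
      ← hv]
    simp
  have h2 := hD.eq_of_mul_add_eq_mul_add (r := G %ₘ a) (r' := 0) (q := ((G /ₘ a : Polynomial A) : PowerSeries A)) (q' := v)
    (by rw [← hdeg]; exact Polynomial.degree_modByMonic_lt _ ha.monic)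
    (by
      rw [Polynomial.degree_zero]
      exact WithBot.bot_lt_coe _) h1
  exact h2.2

end Local

end Crest.Agent.R183.TA
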