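import Mathlib
import Crest.Agent.R183.TA2

/-!
Transfer theorem, part 3: the Weierstrass step.
-/

set_option autoImplicit false

namespace Crest.Agent.R183.TA

open MvPowerSeries

section PolyOf

variable {A A' : Type} [CommRing A] [CommRing A']

noncomputable def polyOf {r : ℕ} (c : Fin r → A) : Polynomial A :=
  ∑ j : Fin r, Polynomial.C (c j) * Polynomial.X ^ (j : ℕ)

noncomputable def monicOf {r : ℕ} (c : Fin r → A) : Polynomial A :=
  Polynomial.X ^ r + polyOf c

lemma coeff_polyOf {r : ℕ} (c : Fin r → A) (l : ℕ) :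
    (polyOf c).coeff l = if h : l < r then c ⟨l, h⟩ else 0 := by
  unfold polyOf
  rw [Polynomial.finsetSum_coeff]
  simp only [Polynomial.coeff_C_mul, Polynomial.coeff_X_pow]
  split_ifs with h
  · rw [Finset.sum_eq_single ⟨l, h⟩]
    · simp
    · intro b _ hb
      rw [if_neg, mul_zero]
      intro hl
      apply hb
      ext
      exact hl.symm
    · simp
  · apply Finset.sum_eq_zero
    intro b _
    rw [if_neg, mul_zero]
    intro hl
    exact h (hl ▸ b.2)

lemma coeff_monicOf {r : ℕ} (c : Fin r → A) (l : ℕ) :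
    (monicOf c).coeff l = if h : l < r then c ⟨l, h⟩ else if l = r then 1 else 0 := by
  unfold monicOf
  rw [Polynomial.coeff_add, coeff_polyOf, Polynomial.coeff_X_pow]
  split_ifs with h1 h2 h3
  · omega
  · simp
  · simp
  · simp

lemma map_polyOf {r : ℕ} (φ : A →+* A') (c : Fin r → A) :
    (polyOf c).map φ = polyOf (fun j => φ (c j)) := by
  unfold polyOf
  simp [Polynomial.map_sum]

lemma map_monicOf {r : ℕ} (φ : A →+* A') (c : Fin r → A) :
    (monicOf c).map φ = monicOf (fun j => φ (c j)) := by
  unfold monicOf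
  simp [map_polyOf]

lemma monic_monicOf {r : ℕ} (c : Fin r → A) : (monicOf c).Monic := by
  unfold monicOf
  exact Polynomial.monic_X_pow_add (Polynomial.degree_sum_fin_lt c)

lemma eq_polyOf {r : ℕ} (p : Polynomial A) (hp : p.degree < (r : WithBot ℕ)) :
    p = polyOf (fun j : Fin r => p.coeff j) := by
  ext l
  rw [coeff_polyOf]
  split_ifs with h
  · rfl
  · exact Polynomial.coeff_eq_zero_of_degree_lt (lt_of_lt_of_le hp (by exact_mod_cast not_lt.mp h))

lemma eq_monicOf (p : Polynomial A) (hp : p.Monic) :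
    p = monicOf (fun j : Fin p.natDegree => p.coeff j) := by
  ext l
  rw [coeff_monicOf]
  split_ifs with h1 h2
  · rfl
  · rw [h2]; exact hp
  · exact Polynomial.coeff_eq_zero_of_natDegree_lt (by omega)

end PolyOf

section CC

variable {F : Type} [CommRing F]

lemma cc_coeff_mul {d r : ℕ} (c : Fin r → MvPowerSeries (Fin d) F)
    (hc : ∀ j, constantCoeff (c j) = 0) (v : PowerSeries (MvPowerSeries (Fin d) F)) :
    constantCoeff (PowerSeries.coeff r ((monicOf c : PowerSeries (MvPowerSeries (Fin d) F)) * v)) =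
      constantCoeff (PowerSeries.constantCoeff v) := by
  rw [PowerSeries.coeff_mul, map_sum, Finset.sum_eq_single (r, 0)]
  · rw [Polynomial.coeff_coe, coeff_monicOf]
    simp
  · intro b hb hne
    have hb' := Finset.HasAntidiagonal.mem_antidiagonal.mp hb
    rw [map_mul, Polynomial.coeff_coe, coeff_monicOf]
    have hlt : b.1 < r := by
      rcases Nat.lt_or_ge b.1 r with h | h
      · exact h
      · exfalso
        apply hne
        have h1 : b.1 = r := by omega
        have h2 : b.2 = 0 := by omega
        exact Prod.ext h1 h2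
    rw [dif_pos hlt, hc, zero_mul]
  · intro h
    exfalso
    apply h
    simp

lemma cons_zero_eq_single {d : ℕ} (r : ℕ) :
    (Finsupp.cons r (0 : Fin d →₀ ℕ)) = Finsupp.single 0 r := by
  ext j
  refine Fin.cases ?_ (fun j => ?_) j
  · simp
  · simp

lemma coeff_single_eq {d : ℕ} (r : ℕ) (f : MvPowerSeries (Fin (d + 1)) F) :
    coeff (Finsupp.single 0 r) f =
      constantCoeff (PowerSeries.coeff r (finSuccEquiv F d f)) := by
  rw [← coeff_zero_eq_constantCoeff_apply, coeff_coeff_finSuccEquiv, cons_zero_eq_single]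

end CC

lemma eventually_map_eq_zero {ι : Type} (U : Filter ι) {Z : Type} [CommRing Z] {A : ι → Type}
    [∀ i, CommRing (A i)] (φ : ∀ i, Z →+* A i) (P : Polynomial Z)
    (h : ∀ l, ∀ᶠ i in U, φ i (P.coeff l) = 0) : ∀ᶠ i in U, P.map (φ i) = 0 := by
  have h1 : ∀ᶠ i in U, ∀ l ∈ P.support, φ i (P.coeff l) = 0 :=
    (Filter.eventually_all_finset P.support).mpr (fun l _ => h l)
  filter_upwards [h1] with i hi
  ext l
  rw [Polynomial.coeff_map, Polynomial.coeff_zero]
  by_cases hl : l ∈ P.support
  · exact hi l hl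
  · rw [Polynomial.notMem_support_iff.mp hl, map_zero]

end Crest.Agent.R183.TA
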