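import Mathlib
import Crest.Agent.R183.TA3

/-!
Transfer theorem, part 4: the Weierstrass step.
-/

set_option autoImplicit false

namespace Crest.Agent.R183.TA

open MvPowerSeries

variable {ι : Type} (U : Ultrafilter ι) (κ : ι → Type) [∀ i, Field (κ i)] {K : Type} [Field K]
  (π : (∀ i, κ i) →+* K)
  (hπ : ∀ a : (∀ i, κ i), π a = 0 ↔ ∀ᶠ i in (U : Filter ι), a i = 0)
  (hs : Function.Surjective π)

include hπ hs in
theorem weier {d : ℕ} (hTR : TR U κ π d) {τ : Type} [Finite τ]
    (y : τ → MvPowerSeries (Fin (d + 1)) K) {s : Type} [Finite s]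
    (H : s → MvPolynomial (Fin (d + 1) ⊕ τ) (∀ i, κ i)) (hH : ∀ k, ev π y (H k) = 0)
    (D : MvPolynomial (Fin (d + 1) ⊕ τ) (∀ i, κ i))
    (hD : ∃ r, coeff (Finsupp.single 0 r) (ev π y D) ≠ 0) (M : ℕ) :
    ∃ y0 : τ → MvPowerSeries (Fin (d + 1)) (∀ i, κ i),
      (∀ᶠ i in (U : Filter ι), ∀ k, map (Pi.evalRingHom κ i) (ev (RingHom.id _) y0 D) ∣
        map (Pi.evalRingHom κ i) (ev (RingHom.id _) y0 (H k))) ∧
      ∀ t, map π (y0 t) - y t ∈ Jd (d + 1) K M := by
  classical
  -- Weierstrass preparation over `K`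
  obtain ⟨a, v, hav⟩ : ∃ (a : Polynomial (MvPowerSeries (Fin d) K))
      (v : PowerSeries (MvPowerSeries (Fin d) K)),
      (finSuccEquiv K d (ev π y D)).IsWeierstrassFactorization a v := by
    apply PowerSeries.exists_isWeierstrassFactorization
    obtain ⟨r, hr⟩ := hD
    intro h0
    apply hr
    rw [coeff_single_eq]
    have h1 := congrArg (PowerSeries.coeff r) h0
    rw [PowerSeries.coeff_map, map_zero, IsLocalRing.residue_eq_zero_iff,
      mem_maximalIdeal_iff] at h1
    exact h1
  have ha := hav.isDistinguishedAt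
  have hav' := hav.eq_mul
  have hvu := hav.isUnit
  have hdeg : ((a : PowerSeries (MvPowerSeries (Fin d) K)).map
      (Ideal.Quotient.mk (IsLocalRing.maximalIdeal (MvPowerSeries (Fin d) K)))).order.toNat =
      a.natDegree := by
    have h1 := ha.coe_natDegree_eq_order_map (a : PowerSeries _) 1
      (by
        rw [map_one, ← Ideal.ne_top_iff_one]
        exact Ideal.IsPrime.ne_top') (by simp)
    rw [← h1]
    simp
  -- Weierstrass division
  have hdiv : ∀ t, ∃ (q : PowerSeries (MvPowerSeries (Fin d) K))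
      (ρ : Polynomial (MvPowerSeries (Fin d) K)), ρ.degree < (a.natDegree : WithBot ℕ) ∧
      finSuccEquiv K d (y t) = a * q + ρ := by
    intro t
    have h1 := ha.isWeierstrassDivisorAt'.isWeierstrassDivisionAt_div_mod
      (finSuccEquiv K d (y t))
    refine ⟨_, _, ?_, h1.eq_mul_add⟩
    have h2 := h1.degree_lt
    rw [hdeg] at h2
    exact h2
  choose q ρ hρdeg hq using hdiv
  set r := a.natDegree with hr
  -- the unknowns of level `d`
  let z : Fin r ⊕ (τ × Fin r) → MvPowerSeries (Fin d) K :=
    Sum.elim (fun j => a.coeff j) (fun p => (ρ p.1).coeff p.2)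
  let ag : Polynomial (MvPolynomial (Fin d ⊕ (Fin r ⊕ (τ × Fin r))) (∀ i, κ i)) :=
    monicOf (fun j : Fin r => MvPolynomial.X (Sum.inr (Sum.inl j)))
  let ρg : τ → Polynomial (MvPolynomial (Fin d ⊕ (Fin r ⊕ (τ × Fin r))) (∀ i, κ i)) :=
    fun t => polyOf (fun j : Fin r => MvPolynomial.X (Sum.inr (Sum.inr (t, j))))
  have hagm : ag.Monic := monic_monicOf _
  have hag : ag.map (ev π z) = a := by
    rw [map_monicOf]
    conv_rhs => rw [eq_monicOf a ha.monic]
    congr 1
    funext j
    simp [z]
  have hρg : ∀ t, (ρg t).map (ev π z) = ρ t := by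
    intro t
    rw [map_polyOf]
    conv_rhs => rw [eq_polyOf (ρ t) (hρdeg t)]
    congr 1
    funext j
    simp [z]
  obtain ⟨z', hz1, hz2⟩ := hTR _ z (max M (r + 1))
  choose q' hq' using fun t => exists_psmap_eq π hs (q t)
  -- lift
  let y0 : τ → MvPowerSeries (Fin (d + 1)) (∀ i, κ i) := fun t =>
    (finSuccEquiv (∀ i, κ i) d).symm
      (((ag.map (ev (RingHom.id _) z') : Polynomial _) : PowerSeries _) * q' t +
        (((ρg t).map (ev (RingHom.id _) z') : Polynomial _) : PowerSeries _))
  -- formula for images of y0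
  have key : ∀ (F : Type) [CommRing F] (χ : (∀ i, κ i) →+* F) (t : τ),
      finSuccEquiv F d (map χ (y0 t)) =
        ((ag.map (ev χ (fun u => map χ (z' u))) : Polynomial _) : PowerSeries _) *
          PowerSeries.map (map χ) (q' t) +
        (((ρg t).map (ev χ (fun u => map χ (z' u))) : Polynomial _) : PowerSeries _) := by
    intro F _ χ t
    have h1 : (map χ).comp (ev (RingHom.id _) z') = ev χ (fun u => map χ (z' u)) := by
      refine RingHom.ext fun f => ?_
      rw [RingHom.comp_apply, map_ev, RingHom.comp_id]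
    rw [finSuccEquiv_map]
    simp only [y0]
    rw [AlgEquiv.apply_symm_apply, map_add, map_mul, ← Polynomial.polynomial_map_coe,
      ← Polynomial.polynomial_map_coe, Polynomial.map_map, Polynomial.map_map, h1]
  -- relations at level d
  have hrelK : ∀ f : MvPolynomial (Fin (d + 1) ⊕ τ) (∀ i, κ i),
      ((a : PowerSeries _) ∣ finSuccEquiv K d (ev π y f)) →
      ∀ l, ev π z ((Gam ρg f %ₘ ag).coeff l) = 0 := by
    intro f hf l
    have h1 : (a : PowerSeries (MvPowerSeries (Fin d) K)) ∣ finSuccEquiv K d (ev π y f) -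
        (((Gam ρg f).map (ev π z) : Polynomial (MvPowerSeries (Fin d) K)) : PowerSeries _) := by
      apply dvd_ev_sub
      intro t
      rw [hρg, hq]
      exact ⟨q t, by ring⟩
    have h2 : (a : PowerSeries (MvPowerSeries (Fin d) K)) ∣
        (((Gam ρg f).map (ev π z) : Polynomial (MvPowerSeries (Fin d) K)) : PowerSeries _) := by
      have := dvd_sub hf h1
      simpa using this
    have h3 := modByMonic_eq_zero_of_dvd a ha _ h2
    rw [← Polynomial.coeff_map, Polynomial.map_modByMonic _ hagm, hag, h3, Polynomial.coeff_zero]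
  have hrel : ∀ f : MvPolynomial (Fin (d + 1) ⊕ τ) (∀ i, κ i),
      ((a : PowerSeries _) ∣ finSuccEquiv K d (ev π y f)) →
      ∀ᶠ i in (U : Filter ι),
        ((ag.map (ev (Pi.evalRingHom κ i) (fun u => map (Pi.evalRingHom κ i) (z' u))) :
          Polynomial _) : PowerSeries _) ∣
        finSuccEquiv (κ i) d (map (Pi.evalRingHom κ i) (ev (RingHom.id _) y0 f)) := by
    intro f hf
    have h1 := hrelK f hf
    have h2 : ∀ᶠ i in (U : Filter ι), (Gam ρg f %ₘ ag).map
        (ev (Pi.evalRingHom κ i) (fun u => map (Pi.evalRingHom κ i) (z' u))) = 0 := by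
      apply eventually_map_eq_zero (U : Filter ι)
        (fun i => ev (Pi.evalRingHom κ i) (fun u => map (Pi.evalRingHom κ i) (z' u)))
      intro l
      filter_upwards [hz1 _ (h1 l)] with i hi
      rw [map_ev, RingHom.comp_id] at hi
      exact hi
    filter_upwards [h2] with i hi
    rw [Polynomial.map_modByMonic _ hagm, Polynomial.modByMonic_eq_zero_iff_dvd (hagm.map _)] at hi
    obtain ⟨w, hw⟩ := hi
    rw [map_ev, RingHom.comp_id]
    have h3 := dvd_ev_sub (Pi.evalRingHom κ i) ρg (fun u => map (Pi.evalRingHom κ i) (z' u))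
      ((ag.map (ev (Pi.evalRingHom κ i) (fun u => map (Pi.evalRingHom κ i) (z' u))) :
          Polynomial _) : PowerSeries _) (fun t => map (Pi.evalRingHom κ i) (y0 t))
      (by
        intro t
        rw [key (κ i) (Pi.evalRingHom κ i) t]
        exact ⟨PowerSeries.map (map (Pi.evalRingHom κ i)) (q' t), by ring⟩) f
    have h4 : ((ag.map (ev (Pi.evalRingHom κ i) (fun u => map (Pi.evalRingHom κ i) (z' u))) :
          Polynomial _) : PowerSeries _) ∣
        (((Gam ρg f).map (ev (Pi.evalRingHom κ i) (fun u => map (Pi.evalRingHom κ i) (z' u))) :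
          Polynomial (MvPowerSeries (Fin d) (κ i))) : PowerSeries (MvPowerSeries (Fin d) (κ i))) := by
      rw [hw, Polynomial.coe_mul]
      exact dvd_mul_right _ _
    have := dvd_add h3 h4
    simpa using this
  -- closeness
  have hclose : ∀ t, map π (y0 t) - y t ∈ Jd (d + 1) K (max M (r + 1)) := by
    intro t
    have h1 : map π (y0 t) - y t = (finSuccEquiv K d).symm
        ((((ag.map (ev π (fun u => map π (z' u))) - a : Polynomial _)) : PowerSeries _)) *
          (finSuccEquiv K d).symm (q t) +
        (finSuccEquiv K d).symm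
        (((((ρg t).map (ev π (fun u => map π (z' u))) - ρ t : Polynomial _)) :
          PowerSeries _)) := by
      apply (finSuccEquiv K d).injective
      rw [map_sub, key K π t, hq t, hq' t, map_add, map_mul, AlgEquiv.apply_symm_apply,
        AlgEquiv.apply_symm_apply, AlgEquiv.apply_symm_apply, Polynomial.coe_sub,
        Polynomial.coe_sub]
      ring
    rw [h1]
    refine Ideal.add_mem _ (Ideal.mul_mem_right _ _ (symm_mem_Jd _ ?_)) (symm_mem_Jd _ ?_)
    · intro l
      rw [Polynomial.coeff_coe, Polynomial.coeff_sub, ← hag, map_monicOf, map_monicOf,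
        coeff_monicOf, coeff_monicOf]
      split_ifs with h2 h3
      · have := hz2 (Sum.inl ⟨l, h2⟩)
        simpa using this
      · simp
      · simp
    · intro l
      rw [Polynomial.coeff_coe, Polynomial.coeff_sub, ← hρg, map_polyOf, map_polyOf,
        coeff_polyOf, coeff_polyOf]
      split_ifs with h2
      · have := hz2 (Sum.inr (t, ⟨l, h2⟩))
        simpa using this
      · simp
  refine ⟨y0, ?_, fun t => Jd_mono (le_max_left _ _) (hclose t)⟩
  -- unit part
  have hunit : ∀ᶠ i in (U : Filter ι),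
      coeff (Finsupp.single 0 r) (map (Pi.evalRingHom κ i) (ev (RingHom.id _) y0 D)) ≠ 0 := by
    have h1 : coeff (Finsupp.single 0 r) (ev π y D) ≠ 0 := by
      rw [coeff_single_eq, hav', eq_monicOf a ha.monic]
      rw [cc_coeff_mul]
      · exact fun h => by
          have h2 := (PowerSeries.isUnit_iff_constantCoeff.mp hvu)
          rw [isUnit_iff_constantCoeff, h] at h2
          exact not_isUnit_zero h2
      · intro j
        have := ha.toIsWeaklyEisensteinAt.mem j.2
        exact (mem_maximalIdeal_iff _).mp this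
    have h2 : coeff (Finsupp.single 0 r) (map π (ev (RingHom.id _) y0 D)) ≠ 0 := by
      have h3 := ev_sub_mem_Jd (M := max M (r + 1)) π (fun t => map π (y0 t)) y
        hclose D
      have h4 := h3 (Finsupp.single 0 r) (by
        rw [Finsupp.degree_single]
        exact lt_of_lt_of_le (Nat.lt_succ_self r) (le_max_right _ _))
      rw [map_sub, sub_eq_zero] at h4
      rw [map_ev, RingHom.comp_id, h4]
      exact h1
    rw [coeff_map] at h2
    have h3 : ¬ ∀ᶠ i in (U : Filter ι), (coeff (Finsupp.single 0 r)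
        (ev (RingHom.id _) y0 D)) i = 0 := fun h => h2 ((hπ _).mpr h)
    have h4 := Ultrafilter.eventually_not.mpr h3
    filter_upwards [h4] with i hi
    rw [coeff_map]
    exact hi
  have hsmall : ∀ᶠ i in (U : Filter ι), ∀ j : Fin r,
      constantCoeff (map (Pi.evalRingHom κ i) (z' (Sum.inl j))) = 0 := by
    rw [Filter.eventually_all]
    intro j
    have h1 : constantCoeff (map π (z' (Sum.inl j))) = 0 := by
      have h2 := hz2 (Sum.inl j) 0 (by
        rw [map_zero]
        exact lt_of_lt_of_le (Nat.succ_pos r) (le_max_right _ _))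
      rw [coeff_zero_eq_constantCoeff_apply, map_sub, sub_eq_zero] at h2
      rw [h2]
      exact (mem_maximalIdeal_iff _).mp (ha.toIsWeaklyEisensteinAt.mem j.2)
    rw [← coeff_zero_eq_constantCoeff_apply, coeff_map] at h1
    filter_upwards [(hπ _).mp h1] with i hi
    rw [← coeff_zero_eq_constantCoeff_apply, coeff_map]
    exact hi
  have hD' := hrel D (by rw [hav']; exact dvd_mul_right _ _)
  have hH' : ∀ᶠ i in (U : Filter ι), ∀ k,
        ((ag.map (ev (Pi.evalRingHom κ i) (fun u => map (Pi.evalRingHom κ i) (z' u))) :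
          Polynomial _) : PowerSeries _) ∣
        finSuccEquiv (κ i) d (map (Pi.evalRingHom κ i) (ev (RingHom.id _) y0 (H k))) := by
    rw [Filter.eventually_all]
    intro k
    exact hrel (H k) (by rw [hH, map_zero]; exact dvd_zero _)
  filter_upwards [hunit, hsmall, hD', hH'] with i h1 h2 h3 h4 k
  obtain ⟨w, hw⟩ := h3
  have hwu : IsUnit w := by
    rw [PowerSeries.isUnit_iff_constantCoeff, isUnit_iff_constantCoeff, isUnit_iff_ne_zero]
    intro h0
    apply h1
    rw [coeff_single_eq, hw, map_monicOf, cc_coeff_mul, h0]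
    intro j
    simpa using h2 j
  rw [← map_dvd_iff (finSuccEquiv (κ i) d), hw]
  exact (hwu.mul_right_dvd).mpr (h4 k)

end Crest.Agent.R183.TA
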