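import Mathlib
import Crest.Agent.R183.TA4
import Crest.Agent.R183.EZ1
import Crest.Agent.R183.EZ2
import Crest.Agent.R183.T0_Coord

/-!
Transfer theorem, part 5: coordinate change and the induction step.
-/

set_option autoImplicit false

namespace Crest.Agent.R183.TA

open MvPowerSeries

section Shear

variable {L R : Type} [CommRing L] [CommRing R]

/-- the shear on polynomials -/
noncomputable def Sh {d : ℕ} {τ : Type} (c : Fin d → ℤ) :
    MvPolynomial (Fin (d + 1) ⊕ τ) L →+* MvPolynomial (Fin (d + 1) ⊕ τ) L :=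
  MvPolynomial.eval₂Hom MvPolynomial.C
    (Sum.elim (Fin.cons (MvPolynomial.X (Sum.inl 0))
      (fun j => MvPolynomial.X (Sum.inl j.succ) + (c j) • MvPolynomial.X (Sum.inl 0)))
      (fun t => MvPolynomial.X (Sum.inr t)))

lemma ev_Sh {d : ℕ} {τ : Type} (θ : L →+* R) (c : Fin d → ℤ)
    (z : τ → MvPowerSeries (Fin (d + 1)) R) (f : MvPolynomial (Fin (d + 1) ⊕ τ) L) :
    ev θ (fun t => T0.shear R c (z t)) (Sh c f) = T0.shear R c (ev θ z f) := by
  have h : (ev θ (fun t => T0.shear R c (z t))).comp (Sh c) = (T0.shear R c).comp (ev θ z) := by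
    apply MvPolynomial.ringHom_ext
    · intro r
      simp [Sh, T0.shear_C]
    · rintro (j | t)
      · refine Fin.cases ?_ (fun j => ?_) j
        · simp [Sh, T0.shear_X_zero]
        · simp [Sh, T0.shear_X_succ]
      · simp [Sh]
  exact congrArg (fun g => g f) h

end Shear

variable {ι : Type} (U : Ultrafilter ι) (κ : ι → Type) [∀ i, Field (κ i)] {K : Type} [Field K]
  (π : (∀ i, κ i) →+* K)
  (hπ : ∀ a : (∀ i, κ i), π a = 0 ↔ ∀ᶠ i in (U : Filter ι), a i = 0)
  (hs : Function.Surjective π)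

include hπ hs in
theorem weier' [CharZero K] {d : ℕ} (hTR : TR U κ π d) {τ : Type} [Finite τ]
    (y : τ → MvPowerSeries (Fin (d + 1)) K) {s : Type} [Finite s]
    (H : s → MvPolynomial (Fin (d + 1) ⊕ τ) (∀ i, κ i)) (hH : ∀ k, ev π y (H k) = 0)
    (D : MvPolynomial (Fin (d + 1) ⊕ τ) (∀ i, κ i)) (hD : ev π y D ≠ 0) (M : ℕ) :
    ∃ y0 : τ → MvPowerSeries (Fin (d + 1)) (∀ i, κ i),
      (∀ᶠ i in (U : Filter ι), ∀ k, map (Pi.evalRingHom κ i) (ev (RingHom.id _) y0 D) ∣
        map (Pi.evalRingHom κ i) (ev (RingHom.id _) y0 (H k))) ∧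
      ∀ t, map π (y0 t) - y t ∈ Jd (d + 1) K M := by
  obtain ⟨c, r, hr⟩ := T0.exists_shear_regular (ev π y D) hD
  obtain ⟨y1, h1, h2⟩ := weier U κ π hπ hs hTR (fun t => T0.shear K c (y t))
    (fun k => Sh c (H k)) (by intro k; rw [ev_Sh, hH, map_zero]) (Sh c D)
    ⟨r, by rw [ev_Sh]; exact hr⟩ M
  refine ⟨fun t => T0.shear _ (-c) (y1 t), ?_, ?_⟩
  · have h3 : y1 = fun t => T0.shear (∀ i, κ i) c (T0.shear _ (-c) (y1 t)) := by
      funext t
      rw [T0.shear_shear_neg]
    filter_upwards [h1] with i hi k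
    have h4 := hi k
    rw [h3, ev_Sh, ev_Sh, T0.map_shear, T0.map_shear] at h4
    have h5 := map_dvd (T0.shear (κ i) (-c)) h4
    rw [T0.shear_neg_shear, T0.shear_neg_shear] at h5
    exact h5
  · intro t
    have h3 : map π (T0.shear _ (-c) (y1 t)) - y t =
        T0.shear K (-c) (map π (y1 t) - T0.shear K c (y t)) := by
      rw [map_sub, T0.shear_neg_shear, T0.map_shear]
    rw [h3, mem_Jd_iff_order]
    exact le_trans (mem_Jd_iff_order.mp (h2 t)) (T0.order_le_shear _ _)

section Base

variable {L R : Type} [CommRing L] [CommRing R]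

noncomputable def base (d : ℕ) (θ : L →+* R) : MvPolynomial (Fin d) L →+* MvPowerSeries (Fin d) R :=
  MvPolynomial.eval₂Hom ((C (σ := Fin d) (R := R)).comp θ) X

noncomputable def Psi {d : ℕ} {τ : Type} :
    MvPolynomial τ (MvPolynomial (Fin d) L) →+* MvPolynomial (Fin d ⊕ τ) L :=
  MvPolynomial.eval₂Hom (MvPolynomial.eval₂Hom MvPolynomial.C
    (fun j => MvPolynomial.X (Sum.inl j))) (fun t => MvPolynomial.X (Sum.inr t))

noncomputable def Phi {d : ℕ} {τ : Type} :
    MvPolynomial (Fin d ⊕ τ) L →+* MvPolynomial τ (MvPolynomial (Fin d) L) :=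
  MvPolynomial.eval₂Hom (MvPolynomial.C.comp MvPolynomial.C)
    (Sum.elim (fun j => MvPolynomial.C (MvPolynomial.X j)) MvPolynomial.X)

lemma ev_Psi {d : ℕ} {τ : Type} (θ : L →+* R) (y : τ → MvPowerSeries (Fin d) R)
    (g : MvPolynomial τ (MvPolynomial (Fin d) L)) :
    ev θ y (Psi g) = MvPolynomial.eval₂ (base d θ) y g := by
  have h : (ev θ y).comp Psi = MvPolynomial.eval₂Hom (base d θ) y := by
    apply MvPolynomial.ringHom_ext
    · intro p
      have h2 : ((ev θ y).comp Psi).comp MvPolynomial.C = base d θ := by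
        apply MvPolynomial.ringHom_ext
        · intro c
          simp [Psi, base]
        · intro j
          simp [Psi, base]
      have h3 := congrArg (fun g => g p) h2
      simpa using h3
    · intro t
      simp [Psi]
  exact congrArg (fun φ => φ g) h

lemma eval_Phi {d : ℕ} {τ : Type} (θ : L →+* R) (y : τ → MvPowerSeries (Fin d) R)
    (f : MvPolynomial (Fin d ⊕ τ) L) :
    MvPolynomial.eval₂ (base d θ) y (Phi f) = ev θ y f := by
  have h : (MvPolynomial.eval₂Hom (base d θ) y).comp Phi = ev θ y := by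
    apply MvPolynomial.ringHom_ext
    · intro c
      simp [Phi, base]
    · rintro (j | t)
      · simp [Phi, base]
      · simp [Phi]
  exact congrArg (fun φ => φ f) h

lemma ev_map {L' : Type} [CommRing L'] {d : ℕ} {τ : Type} (χ : L →+* L') (θ : L' →+* R)
    (y : τ → MvPowerSeries (Fin d) R) (f : MvPolynomial (Fin d ⊕ τ) L) :
    ev θ y (MvPolynomial.map χ f) = ev (θ.comp χ) y f := by
  have h : (ev θ y).comp (MvPolynomial.map χ) = ev (θ.comp χ) y := by
    apply MvPolynomial.ringHom_ext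
    · intro c
      simp
    · rintro (j | t) <;> simp
  exact congrArg (fun φ => φ f) h

lemma base_eq_map {d : ℕ} (θ : L →+* R) (p : MvPolynomial (Fin d) L) :
    base d θ p = ((MvPolynomial.map θ p : MvPolynomial (Fin d) R) : MvPowerSeries (Fin d) R) := by
  have h : base d θ = (MvPolynomial.coeToMvPowerSeries.ringHom).comp (MvPolynomial.map θ) := by
    apply MvPolynomial.ringHom_ext
    · intro c
      simp [base]
    · intro j
      simp [base]
  exact congrArg (fun φ => φ p) h

end Base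

include hπ in
lemma eventually_mvmap_eq_zero {σ : Type} (p : MvPolynomial σ (∀ i, κ i))
    (h : MvPolynomial.map π p = 0) :
    ∀ᶠ i in (U : Filter ι), MvPolynomial.map (Pi.evalRingHom κ i) p = 0 := by
  have h1 : ∀ᶠ i in (U : Filter ι), ∀ m ∈ p.support, (MvPolynomial.coeff m p) i = 0 := by
    refine (Filter.eventually_all_finset p.support).mpr (fun m _ => ?_)
    apply (hπ _).mp
    rw [← MvPolynomial.coeff_map, h, MvPolynomial.coeff_zero]
  filter_upwards [h1] with i hi
  ext m
  rw [MvPolynomial.coeff_map, MvPolynomial.coeff_zero]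
  by_cases hm : m ∈ p.support
  · exact hi m hm
  · rw [MvPolynomial.notMem_support_iff.mp hm, map_zero]

include hπ hs in
theorem TR_succ [CharZero K] {d : ℕ} (hTR : TR U κ π d) : TR U κ π (d + 1) := by
  classical
  intro τ _ y M
  have : CharZero (MvPowerSeries (Fin (d + 1)) K) :=
    charZero_of_injective_ringHom (f := (C : K →+* MvPowerSeries (Fin (d + 1)) K))
      (MvPowerSeries.C_injective)
  have : IsDomain (MvPowerSeries (Fin (d + 1)) K) := NoZeroDivisors.to_isDomain _
  obtain ⟨r, H, δ, e, h1, h2, h3, h4⟩ := EZ.triangular_finite.{0, 0, 0} (base (d + 1) π) τ y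
  -- finitely many relations over `K`
  obtain ⟨S, hS⟩ : (RingHom.ker (ev (RingHom.id K) y)).FG := IsNoetherian.noetherian _
  have hsurj : Function.Surjective
      (MvPolynomial.map (σ := Fin (d + 1) ⊕ τ) π) := MvPolynomial.map_surjective π hs
  choose lift hlift using hsurj
  have hSker : ∀ f ∈ S, ev π y (lift f) = 0 := by
    intro f hf
    have h5 : f ∈ RingHom.ker (ev (RingHom.id K) y) := by
      rw [← hS]
      exact Ideal.subset_span hf
    rw [RingHom.mem_ker] at h5
    rw [← hlift f, ev_map, RingHom.id_comp] at h5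
    exact h5
  have hmult : ∀ f : S, ∃ a : MvPolynomial τ (MvPolynomial (Fin (d + 1)) (∀ i, κ i)),
      MvPolynomial.eval₂ (base (d + 1) π) y a ≠ 0 ∧
      a * Phi (lift f.1) ∈ Ideal.span (Set.range H) ⊔
        (RingHom.ker (base (d + 1) π)).map MvPolynomial.C := by
    intro f
    exact h3 _ (by rw [eval_Phi]; exact hSker f.1 f.2)
  choose a ha1 ha2 using hmult
  have hcoef : ∀ f : S, ∃ α : Fin (d + 1) →₀ ℕ,
      coeff α (MvPolynomial.eval₂ (base (d + 1) π) y (a f)) ≠ 0 := by
    intro f
    by_contra hcon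
    push Not at hcon
    apply ha1 f
    ext α
    rw [hcon α, map_zero]
  choose α hα using hcoef
  obtain ⟨M1, hM1, hM1'⟩ : ∃ M1 : ℕ, M + 1 ≤ M1 ∧ ∀ f : S, (α f).degree < M1 := by
    refine ⟨max (M + 1) (Finset.univ.sup (fun f : S => (α f).degree + 1)), le_max_left _ _, ?_⟩
    intro f
    refine lt_of_lt_of_le (Nat.lt_succ_self _) (le_trans ?_ (le_max_right _ _))
    exact Finset.le_sup (f := fun f : S => (α f).degree + 1) (Finset.mem_univ f)
  -- the Weierstrass step
  have hDne : ev π y (Psi δ ^ e * (MvPolynomial.X (Sum.inl 0)) ^ M1) ≠ 0 := by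
    rw [map_mul, map_pow, map_pow, ev_Psi, ev_X_inl]
    refine mul_ne_zero (pow_ne_zero _ h2) (pow_ne_zero _ ?_)
    intro h0
    have h00 := congrArg (coeff (Finsupp.single (0 : Fin (d + 1)) 1)) h0
    rw [coeff_X, if_pos rfl, map_zero] at h00
    exact one_ne_zero h00
  obtain ⟨y0, hy0, hy0c⟩ := weier' U κ π hπ hs hTR y (fun k : Fin r => Psi (H k))
    (fun k => by rw [ev_Psi]; exact h1 k) _ hDne M1
  -- Hensel
  let P : ∀ i, (τ → MvPowerSeries (Fin (d + 1)) (κ i)) → Prop := fun i yb =>
    (∀ t, (X 0 : MvPowerSeries (Fin (d + 1)) (κ i)) ^ M1 ∣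
      yb t - map (Pi.evalRingHom κ i) (y0 t)) ∧
    ∀ k, MvPolynomial.eval₂ (base (d + 1) (Pi.evalRingHom κ i)) yb (H k) = 0
  have hex : ∀ᶠ i in (U : Filter ι), ∃ yb, P i yb := by
    filter_upwards [hy0] with i hi
    apply h4 (MvPowerSeries (Fin (d + 1)) (κ i)) (base (d + 1) (Pi.evalRingHom κ i))
      (fun t => map (Pi.evalRingHom κ i) (y0 t)) (X 0 ^ M1)
    · rw [mem_maximalIdeal_iff]
      rw [map_pow, constantCoeff_X, zero_pow (by omega)]
    · intro k
      have h5 := hi k
      rw [map_ev, map_ev, RingHom.comp_id, ev_Psi, map_mul, map_pow, map_pow, ev_Psi,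
        ev_X_inl] at h5
      exact h5
  let yb : ∀ i, τ → MvPowerSeries (Fin (d + 1)) (κ i) := fun i =>
    if h : ∃ yb, P i yb then h.choose else 0
  have hyb : ∀ᶠ i in (U : Filter ι), P i (yb i) := by
    filter_upwards [hex] with i hi
    simp only [yb, dif_pos hi]
    exact hi.choose_spec
  let y' : τ → MvPowerSeries (Fin (d + 1)) (∀ i, κ i) := fun t β i => coeff β (yb i t)
  have hy' : ∀ i t, map (Pi.evalRingHom κ i) (y' t) = yb i t := by
    intro i t
    ext β
    rw [coeff_map]
    rfl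
  have hyc : ∀ t, map π (y' t) - y t ∈ Jd (d + 1) K M1 := by
    intro t β hβ
    have h5 := hy0c t β hβ
    rw [map_sub, sub_eq_zero] at h5 ⊢
    rw [← h5, coeff_map, coeff_map, ← sub_eq_zero, ← map_sub, hπ]
    filter_upwards [hyb] with i hi
    obtain ⟨w, hw⟩ := hi.1 t
    have h6 : (X 0 : MvPowerSeries (Fin (d + 1)) (κ i)) ^ M1 * w ∈ Jd (d + 1) (κ i) M1 := by
      apply Ideal.mul_mem_right
      intro γ hγ
      rw [coeff_X_pow, if_neg]
      intro h7
      rw [h7, Finsupp.degree_single] at hγ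
      exact lt_irrefl _ hγ
    rw [← hw] at h6
    have h7 := h6 β hβ
    rw [map_sub, coeff_map] at h7
    exact h7
  refine ⟨y', ?_, fun t => Jd_mono (by omega) (hyc t)⟩
  -- relations
  have hev : ∀ (i : ι) (f : MvPolynomial (Fin (d + 1) ⊕ τ) (∀ i, κ i)),
      map (Pi.evalRingHom κ i) (ev (RingHom.id _) y' f) = ev (Pi.evalRingHom κ i) (yb i) f := by
    intro i f
    rw [map_ev, RingHom.comp_id]
    simp_rw [hy']
  -- the ideal of eventually vanishing polynomials
  let N : Ideal (MvPolynomial τ (MvPolynomial (Fin (d + 1)) (∀ i, κ i))) :=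
    { carrier := {g | ∀ᶠ i in (U : Filter ι),
        MvPolynomial.eval₂ (base (d + 1) (Pi.evalRingHom κ i)) (yb i) g = 0}
      add_mem' := by
        intro g g' hg hg'
        filter_upwards [hg, hg'] with i h5 h6
        rw [MvPolynomial.eval₂_add, h5, h6, add_zero]
      zero_mem' := by
        filter_upwards with i
        exact MvPolynomial.eval₂_zero _ _
      smul_mem' := by
        intro c g hg
        filter_upwards [hg] with i h5
        rw [smul_eq_mul, MvPolynomial.eval₂_mul, h5, mul_zero] }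
  have hN : Ideal.span (Set.range H) ⊔ (RingHom.ker (base (d + 1) π)).map MvPolynomial.C ≤ N := by
    refine sup_le ?_ ?_
    · rw [Ideal.span_le]
      rintro _ ⟨k, rfl⟩
      change ∀ᶠ i in (U : Filter ι), _
      filter_upwards [hyb] with i hi
      exact hi.2 k
    · rw [Ideal.map_le_iff_le_comap]
      intro p hp
      rw [RingHom.mem_ker, base_eq_map] at hp
      have hp' : MvPolynomial.map π p = 0 := by
        apply MvPolynomial.coe_injective
        rw [hp]
        simp
      change ∀ᶠ i in (U : Filter ι), _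
      filter_upwards [eventually_mvmap_eq_zero U κ π hπ p hp'] with i hi
      rw [MvPolynomial.eval₂_C, base_eq_map, hi]
      simp
  have hSv : ∀ᶠ i in (U : Filter ι), ∀ f : S,
      ev (Pi.evalRingHom κ i) (yb i) (lift f.1) = 0 := by
    rw [Filter.eventually_all]
    intro f
    have h5 : ∀ᶠ i in (U : Filter ι),
        MvPolynomial.eval₂ (base (d + 1) (Pi.evalRingHom κ i)) (yb i)
          (a f * Phi (lift f.1)) = 0 := hN (ha2 f)
    have h6 : ∀ᶠ i in (U : Filter ι),
        MvPolynomial.eval₂ (base (d + 1) (Pi.evalRingHom κ i)) (yb i) (a f) ≠ 0 := by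
      have h7 := ev_sub_mem_Jd (M := M1) π (fun t => map π (y' t)) y hyc (Psi (a f)) (α f)
        (hM1' f)
      rw [map_sub, sub_eq_zero] at h7
      have h8 : π (coeff (α f) (ev (RingHom.id _) y' (Psi (a f)))) ≠ 0 := by
        rw [← coeff_map, map_ev, RingHom.comp_id, h7, ev_Psi]
        exact hα f
      have h9 : ¬ ∀ᶠ i in (U : Filter ι), (coeff (α f)
          (ev (RingHom.id _) y' (Psi (a f)))) i = 0 := fun h => h8 ((hπ _).mpr h)
      filter_upwards [Ultrafilter.eventually_not.mpr h9] with i hi h0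
      apply hi
      have h10 := hev i (Psi (a f))
      have h12 := ev_Psi (Pi.evalRingHom κ i) (yb i) (a f)
      rw [h12, h0] at h10
      have h11 := congrArg (coeff (α f)) h10
      rw [coeff_map, map_zero] at h11
      exact h11
    filter_upwards [h5, h6] with i h7 h8
    have : IsDomain (MvPowerSeries (Fin (d + 1)) (κ i)) := NoZeroDivisors.to_isDomain _
    rw [MvPolynomial.eval₂_mul, mul_eq_zero] at h7
    rcases h7 with h7 | h7
    · exact absurd h7 h8
    · rw [eval_Phi] at h7
      exact h7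
  -- conclusion
  intro f hf
  have hfK : MvPolynomial.map π f ∈ Ideal.span (S : Set _) := by
    rw [hS, RingHom.mem_ker, ev_map, RingHom.id_comp]
    exact hf
  -- every element of the span is a combination
  have hcomb : ∀ g ∈ Ideal.span (S : Set (MvPolynomial (Fin (d + 1) ⊕ τ) K)),
      ∃ g' : MvPolynomial (Fin (d + 1) ⊕ τ) (∀ i, κ i), MvPolynomial.map π g' = g ∧
        ∀ᶠ i in (U : Filter ι), ev (Pi.evalRingHom κ i) (yb i) g' = 0 := by
    intro g hg
    refine Submodule.span_induction (p := fun g _ => ∃ g' : MvPolynomial (Fin (d + 1) ⊕ τ)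
      (∀ i, κ i), MvPolynomial.map π g' = g ∧
        ∀ᶠ i in (U : Filter ι), ev (Pi.evalRingHom κ i) (yb i) g' = 0) ?_ ?_ ?_ ?_ hg
    · intro g hg
      refine ⟨lift g, hlift g, ?_⟩
      filter_upwards [hSv] with i hi
      exact hi ⟨g, hg⟩
    · exact ⟨0, map_zero _, by filter_upwards with i; exact map_zero _⟩
    · rintro g1 g2 _ _ ⟨g1', h5, h6⟩ ⟨g2', h7, h8⟩
      refine ⟨g1' + g2', by rw [map_add, h5, h7], ?_⟩
      filter_upwards [h6, h8] with i h9 h10
      rw [map_add, h9, h10, add_zero]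
    · rintro c g _ ⟨g', h5, h6⟩
      refine ⟨lift c * g', by rw [map_mul, h5, hlift, smul_eq_mul], ?_⟩
      filter_upwards [h6] with i h9
      rw [map_mul, h9, mul_zero]
  obtain ⟨g', hg1, hg2⟩ := hcomb _ hfK
  have hdiff : MvPolynomial.map π (f - g') = 0 := by
    rw [map_sub, hg1, sub_self]
  filter_upwards [eventually_mvmap_eq_zero U κ π hπ _ hdiff, hg2] with i h5 h6
  rw [hev]
  have h7 : ev (Pi.evalRingHom κ i) (yb i) (f - g') = 0 := by
    have h8 := ev_map (Pi.evalRingHom κ i) (RingHom.id (κ i)) (yb i) (f - g')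
    rw [RingHom.id_comp, h5, map_zero] at h8
    exact h8.symm
  rw [map_sub, h6, sub_zero] at h7
  exact h7

include hπ hs in
theorem TR_all [CharZero K] (d : ℕ) : TR U κ π d := by
  induction d with
  | zero => exact TR_zero U κ π hπ hs
  | succ d ih => exact TR_succ U κ π hπ hs ih

end Crest.Agent.R183.TA
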