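import Crest.Agent.R183.TA5
import Crest.Agent.R183.EZ5

/-!
Transfer from a power series ring over a field of characteristic zero to power series rings over
fields of prime characteristic: any finite set of power series generates (together with the
variables) a subring that maps to a power series ring over a field of prime characteristic.
-/

set_option autoImplicit false

namespace Crest.Agent.R183.TA

open MvPowerSeries

/-- **Transfer theorem**, with control of the coefficients of degree `< M`. -/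
theorem transfer' {K : Type} [Field K] [CharZero K] (d : ℕ)
    (T : Finset (MvPowerSeries (Fin d) K)) (M : ℕ) :
    ∃ (p : ℕ) (_ : p.Prime) (F : Type) (_ : Field F) (_ : CharP F p)
      (A : Subring (MvPowerSeries (Fin d) K)) (ψ : A →+* MvPowerSeries (Fin d) F),
      (∀ t ∈ T, t ∈ A) ∧
      (∀ i : Fin d, ∃ h : (X i : MvPowerSeries (Fin d) K) ∈ A, ψ ⟨X i, h⟩ = X i) ∧
      (∀ b : K, C b ∈ T →
        ∃ (h : (C b : MvPowerSeries (Fin d) K) ∈ A) (b' : F), ψ ⟨C b, h⟩ = C b') ∧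
      (∀ (t : MvPowerSeries (Fin d) K) (_ : t ∈ T) (h : t ∈ A) (α : Fin d →₀ ℕ),
        α.degree < M → (coeff α (ψ ⟨t, h⟩) = 0 ↔ coeff α t = 0)) := by
  classical
  obtain ⟨ι, U, κ, hκ, K', hK', hK'c, π, j, hchar, hsurj, hπ⟩ := EZ.exists_ultra K
  let τ : Type := {t // t ∈ T}
  let y : τ → MvPowerSeries (Fin d) K' := fun t => map j t.1
  obtain ⟨y', hrel, hclose⟩ := TR_all U κ π hπ hsurj d τ y M
  -- relations over `ℤ`
  let c : ℤ →+* (∀ i, κ i) := Int.castRingHom _
  let e : MvPolynomial (Fin d ⊕ τ) ℤ →+* MvPowerSeries (Fin d) K :=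
    ev (Int.castRingHom K) (fun t => t.1)
  let e' : ∀ i, MvPolynomial (Fin d ⊕ τ) ℤ →+* MvPowerSeries (Fin d) (κ i) := fun i =>
    ev (Int.castRingHom (κ i)) (fun t => map (Pi.evalRingHom κ i) (y' t))
  have hmap : ∀ {L L' : Type} [CommRing L] [CommRing L'] (θ : L' →+* L)
      (z : τ → MvPowerSeries (Fin d) L) (ϕ : ℤ →+* L') (f : MvPolynomial (Fin d ⊕ τ) ℤ),
      ev θ z (MvPolynomial.map ϕ f) = ev (Int.castRingHom L) z f := by
    intro L L' _ _ θ z ϕ f
    rw [ev_map]
    congr 2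
    exact Subsingleton.elim _ _
  have hker : ∀ f : MvPolynomial (Fin d ⊕ τ) ℤ, e f = 0 →
      ∀ᶠ i in (U : Filter ι), e' i f = 0 := by
    intro f hf
    have h1 : ev π y (MvPolynomial.map c f) = 0 := by
      rw [hmap]
      have h2 := congrArg (map j) hf
      rw [map_zero] at h2
      rw [← h2]
      simp only [e]
      rw [map_ev]
      congr 2
      exact Subsingleton.elim _ _
    filter_upwards [hrel _ h1] with i hi
    rw [map_ev, RingHom.comp_id, hmap] at hi
    exact hi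
  have hker' : ∀ᶠ i in (U : Filter ι), RingHom.ker e ≤ RingHom.ker (e' i) := by
    obtain ⟨S, hS⟩ := (isNoetherianRing_iff_ideal_fg _).mp
      (inferInstance : IsNoetherianRing (MvPolynomial (Fin d ⊕ τ) ℤ)) (RingHom.ker e)
    have h1 : ∀ᶠ i in (U : Filter ι), ∀ f : S, e' i f.1 = 0 := by
      rw [Filter.eventually_all]
      intro f
      apply hker
      rw [← RingHom.mem_ker, ← hS]
      exact Ideal.subset_span f.2
    filter_upwards [h1] with i hi
    rw [← hS, Ideal.span_le]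
    intro f hf
    exact hi ⟨f, hf⟩
  -- constants
  have hconst : ∀ᶠ i in (U : Filter ι), ∀ t : τ, (∃ b : K, t.1 = C b) →
      ∃ b' : κ i, map (Pi.evalRingHom κ i) (y' t) = C b' := by
    rw [Filter.eventually_all]
    intro t
    by_cases hb : ∃ b : K, t.1 = C b
    · obtain ⟨b, hb⟩ := hb
      obtain ⟨bt, hbt⟩ := hsurj (j b)
      have h1 : ev π y (MvPolynomial.X (Sum.inr t) - MvPolynomial.C bt) = 0 := by
        rw [map_sub, ev_X_inr, ev_C, hbt]
        simp only [y]
        rw [hb, map_C, sub_self]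
      filter_upwards [hrel _ h1] with i hi _
      refine ⟨bt i, ?_⟩
      rw [map_sub, map_sub, ev_X_inr, ev_C, sub_eq_zero] at hi
      rw [hi, map_C]
      rfl
    · filter_upwards with i h
      exact absurd h hb
  -- coefficients of low degree
  have hcoef : ∀ᶠ i in (U : Filter ι), ∀ t : τ, ∀ α ∈ {α : Fin d →₀ ℕ | α.degree < M},
      (coeff α (map (Pi.evalRingHom κ i) (y' t)) = 0 ↔ coeff α t.1 = 0) := by
    rw [Filter.eventually_all]
    intro t
    rw [Filter.eventually_all_finite (Finsupp.finite_of_degree_lt M)]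
    intro α hα
    have h1 : π (coeff α (y' t)) = j (coeff α t.1) := by
      have h2 := hclose t α hα
      rw [map_sub, sub_eq_zero, coeff_map] at h2
      rw [h2]
      simp only [y]
      rw [coeff_map]
    by_cases h0 : coeff α t.1 = 0
    · rw [h0, map_zero, hπ] at h1
      filter_upwards [h1] with i hi
      rw [coeff_map]
      exact ⟨fun _ => h0, fun _ => hi⟩
    · have h2 : ¬ ∀ᶠ i in (U : Filter ι), (coeff α (y' t)) i = 0 := by
        rw [← hπ, h1]
        simpa using h0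
      filter_upwards [Ultrafilter.eventually_not.mpr h2] with i hi
      rw [coeff_map]
      exact ⟨fun h => absurd h hi, fun h => absurd h h0⟩
  obtain ⟨i, hi1, hi2, hi3⟩ := (hker'.and (hconst.and hcoef)).exists
  obtain ⟨p, hp, hcp⟩ := hchar i
  have hrange : Function.Surjective e.rangeRestrict := RingHom.rangeRestrict_surjective e
  have hle : RingHom.ker e.rangeRestrict ≤ RingHom.ker (e' i) := by
    rw [RingHom.ker_rangeRestrict]
    exact hi1
  let ψ : e.range →+* MvPowerSeries (Fin d) (κ i) :=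
    e.rangeRestrict.liftOfSurjective hrange ⟨e' i, hle⟩
  have hψ : ∀ f : MvPolynomial (Fin d ⊕ τ) ℤ, ψ (e.rangeRestrict f) = e' i f := fun f =>
    RingHom.liftOfRightInverse_comp_apply _ _ _ ⟨e' i, hle⟩ f
  have hψX : ∀ k : Fin d, e (MvPolynomial.X (Sum.inl k)) = X k := fun k => ev_X_inl _ _ _
  have hψT : ∀ t : τ, e (MvPolynomial.X (Sum.inr t)) = t.1 := fun t => ev_X_inr _ _ _
  have hT : ∀ (t : τ) (h : t.1 ∈ e.range),
      ψ ⟨t.1, h⟩ = map (Pi.evalRingHom κ i) (y' t) := by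
    intro t h
    have h1 : (⟨t.1, h⟩ : e.range) = e.rangeRestrict (MvPolynomial.X (Sum.inr t)) :=
      Subtype.ext (hψT t).symm
    rw [h1, hψ]
    exact ev_X_inr _ _ _
  refine ⟨p, hp, κ i, hκ i, hcp, e.range, ψ, ?_, ?_, ?_, ?_⟩
  · intro t ht
    exact ⟨_, hψT ⟨t, ht⟩⟩
  · intro k
    refine ⟨⟨_, hψX k⟩, ?_⟩
    have h1 : (⟨X k, ⟨_, hψX k⟩⟩ : e.range) = e.rangeRestrict (MvPolynomial.X (Sum.inl k)) :=
      Subtype.ext (hψX k).symm
    rw [h1, hψ]
    exact ev_X_inl _ _ _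
  · intro b hb
    refine ⟨⟨_, hψT ⟨_, hb⟩⟩, ?_⟩
    obtain ⟨b', hb'⟩ := hi2 ⟨_, hb⟩ ⟨b, rfl⟩
    exact ⟨b', (hT ⟨_, hb⟩ _).trans hb'⟩
  · intro t ht h α hα
    rw [hT ⟨t, ht⟩ h]
    exact hi3 ⟨t, ht⟩ α hα

/-- **Transfer theorem**. -/
theorem transfer {K : Type} [Field K] [CharZero K] (d : ℕ)
    (T : Finset (MvPowerSeries (Fin d) K)) :
    ∃ (p : ℕ) (_ : p.Prime) (F : Type) (_ : Field F) (_ : CharP F p)
      (A : Subring (MvPowerSeries (Fin d) K)) (ψ : A →+* MvPowerSeries (Fin d) F),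
      (∀ t ∈ T, t ∈ A) ∧
      (∀ i : Fin d, ∃ h : (X i : MvPowerSeries (Fin d) K) ∈ A, ψ ⟨X i, h⟩ = X i) ∧
      (∀ b : K, C b ∈ T →
        ∃ (h : (C b : MvPowerSeries (Fin d) K) ∈ A) (b' : F), ψ ⟨C b, h⟩ = C b') := by
  obtain ⟨p, hp, F, hF, hc, A, ψ, h1, h2, h3, _⟩ := transfer' d T 0
  exact ⟨p, hp, F, hF, hc, A, ψ, h1, h2, h3⟩

end Crest.Agent.R183.TA
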