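import Crest.Agent.R183.Z16
import Crest.Agent.R183.TA6
import Crest.Agent.R183.CohenNoether

set_option autoImplicit false

/-! # R183 block [8b]: equal characteristic zero -/

namespace Crest.Agent.R183.Z

open IsLocalRing MvPowerSeries Crest.Agent.R183.M Crest.Agent.R183.HS Filter TensorProduct
open Crest.Agent.R183.Cohen
open scoped Nat Topology

/-- [8a] in the form used here. -/
theorem transfer_holds (d : ℕ) (K : Type) [Field K] [CharZero K] : Transfer d K := by
  intro T
  obtain ⟨p, hp, F, hF, hc, A, ψ, h1, h2, h3⟩ := TA.transfer d T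
  refine ⟨p, F, hF, hc, A, ψ, hp, h1, h2, fun b hb => ?_⟩
  obtain ⟨h, b', hb'⟩ := h3 b hb
  exact ⟨h, b', hb'⟩

theorem pow_le_map_of_dim_eq (R S : Type) [CommRing R] [CommRing S] [IsLocalRing R]
    [IsNoetherianRing R] [IsLocalRing S] [IsNoetherianRing S] [Algebra R S]
    [IsLocalHom (algebraMap R S)] [Module.Flat R S] (hd : ringKrullDim R = ringKrullDim S) :
    ∃ c : ℕ, maximalIdeal S ^ c ≤ (maximalIdeal R).map (algebraMap R S) := by
  have key : ∀ P : Ideal S, P.IsPrime → (maximalIdeal R).map (algebraMap R S) ≤ P →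
      P = maximalIdeal S := by
    intro P hP hle
    have hcomap : P.comap (algebraMap R S) = maximalIdeal R := by
      have h1 : maximalIdeal R ≤ P.comap (algebraMap R S) := Ideal.map_le_iff_le_comap.1 hle
      have h2 : P.comap (algebraMap R S) ≠ ⊤ := (hP.comap _).ne_top
      exact ((maximalIdeal.isMaximal R).eq_of_le h2 h1).symm
    have hlo : P.LiesOver (maximalIdeal R) := ⟨hcomap.symm⟩
    have h3 := Ideal.height_eq_height_add_of_liesOver_of_hasGoingDown (maximalIdeal R) P
    have h4 : (maximalIdeal R).height ≤ P.height := by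
      rw [h3]; exact le_self_add
    have h5 : (P.height : WithBot ℕ∞) = ringKrullDim S := by
      apply le_antisymm
      · exact Ideal.height_le_ringKrullDim_of_isPrime
      · rw [← hd, ← IsLocalRing.maximalIdeal_height_eq_ringKrullDim]
        exact WithBot.coe_le_coe.2 h4
    have h6 := Ideal.isMaximal_of_height_eq_ringKrullDim h5
    exact IsLocalRing.eq_maximalIdeal h6
  have hrad : maximalIdeal S ≤ ((maximalIdeal R).map (algebraMap R S)).radical := by
    rw [Ideal.radical_eq_sInf]
    refine le_sInf ?_
    rintro P ⟨hP1, hP2⟩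
    exact (key P hP2 hP1).ge
  exact Ideal.exists_pow_le_of_le_radical_of_fg hrad (IsNoetherian.noetherian _)

theorem eqchar0 (d : ℕ) (hp : ∀ p, p.Prime → MAINp p d) (R S : Type) [CommRing R] [CommRing S]
    [IsNoetherianRing R] [IsNoetherianRing S] [IsLocalRing R] [IsLocalRing S]
    [IsAdicComplete (maximalIdeal R) R] [IsAdicComplete (maximalIdeal S) S] [Algebra R S]
    [IsLocalHom (algebraMap R S)] [Module.Flat R S] (h0 : CharZero (ResidueField R))
    (hdR : ringKrullDim R = d) (hdS : ringKrullDim S = d) :
    ∃ c : ℝ, UBf (hs R R) d c ∧ LBf (hs S S) d c := by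
  classical
  obtain ⟨σR, hσR⟩ := exists_coefficientField_charZero' R h0
  let _ : Algebra (ResidueField R) S := ((algebraMap R S).comp σR).toAlgebra
  obtain ⟨σS, hσS, hσSk⟩ := exists_coefficientField_charZero (k := ResidueField R) S
  let ι : ResidueField R →+* ResidueField S := (residue S).comp (algebraMap (ResidueField R) S)
  have hι : ∀ a, σS (ι a) = algebraMap R S (σR a) := fun a => hσSk a
  have hK0 : CharZero (ResidueField S) := charZero_of_injective_ringHom ι.injective
  have hInfR : Infinite (ResidueField R) := CharZero.infinite _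
  have hInfS : Infinite (ResidueField S) := CharZero.infinite _
  obtain ⟨x, hx, t, ht⟩ := exists_minimal_reduction hdR (le_refl (maximalIdeal R))
    (t := 1) (by rw [pow_one])
  obtain ⟨y, hy, c2, hc2⟩ := exists_minimal_reduction hdS (le_refl (maximalIdeal S))
    (t := 1) (by rw [pow_one])
  obtain ⟨c, hc⟩ := pow_le_map_of_dim_eq R S (hdR.trans hdS.symm)
  have hx' : maximalIdeal R ^ (t + 1) ≤ Ideal.span (Set.range x) := by
    rw [ht]; exact Ideal.mul_le_left
  let xS : Fin d → S := fun i => algebraMap R S (x i)
  have hmle : (maximalIdeal R).map (algebraMap R S) ≤ maximalIdeal S :=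
    ((local_hom_TFAE (algebraMap R S)).out 0 2).1 ‹_›
  have hxS : ∀ i, xS i ∈ maximalIdeal S := fun i => hmle (Ideal.mem_map_of_mem _ (hx i))
  have hcS : maximalIdeal S ^ (c * (t + 1)) ≤ Ideal.span (Set.range xS) := by
    rw [pow_mul]
    refine (Ideal.pow_right_mono hc (t + 1)).trans ?_
    rw [← Ideal.map_pow]
    refine (Ideal.map_mono hx').trans ?_
    rw [Ideal.map_span, ← Set.range_comp]
    rfl
  have hresfin : ((residue R).comp σR).Finite := by
    have : (residue R).comp σR = RingHom.id _ := RingHom.ext hσR
    rw [this]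
    exact RingHom.Finite.id _
  have hresfinS : ((residue S).comp σS).Finite := by
    have : (residue S).comp σS = RingHom.id _ := RingHom.ext hσS
    rw [this]
    exact RingHom.Finite.id _
  obtain ⟨hinjR, hfinR⟩ := noether_equal σR hresfin hdR x hx hx'
  obtain ⟨hinjS, hfinS⟩ := noether_equal σS hresfinS hdS xS hxS hcS
  let _ : Algebra (PS d (ResidueField R)) (PS d (ResidueField S)) :=
    (MvPowerSeries.map ι).toAlgebra
  let _ : Algebra (PS d (ResidueField R)) R := (psEval (maximalIdeal R) σR x hx).toAlgebra
  let _ : Algebra (PS d (ResidueField S)) S := (psEval (maximalIdeal S) σS xS hxS).toAlgebra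
  have hfinR' : Module.Finite (PS d (ResidueField R)) R := hfinR
  have hfinS' : Module.Finite (PS d (ResidueField S)) S := hfinS
  have hmapalg : ∀ f, algebraMap (PS d (ResidueField R)) (PS d (ResidueField S)) f =
      MvPowerSeries.map ι f := fun f => rfl
  have halgR : ∀ f, algebraMap (PS d (ResidueField R)) R f =
      psEval (maximalIdeal R) σR x hx f := fun f => rfl
  have halgS : ∀ f, algebraMap (PS d (ResidueField S)) S f =
      psEval (maximalIdeal S) σS xS hxS f := fun f => rfl
  refine eq0_abs (transfer_holds d (ResidueField S)) hp (k := ResidueField R) ?_ ?_ ?_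
    (R := R) (S := S) hinjR ?_ ?_ ?_ t ?_ ?_ ?_ (c * (t + 1)) ?_ y hy c2 hc2
  · intro f g hfg
    apply MvPowerSeries.ext
    intro α
    have h1 : coeff α (MvPowerSeries.map ι f) = coeff α (MvPowerSeries.map ι g) := by
      rw [← hmapalg, ← hmapalg, hfg]
    rw [coeff_map, coeff_map] at h1
    exact ι.injective h1
  · intro i
    rw [hmapalg, map_X]
  · intro a
    exact ⟨ι a, by rw [hmapalg, map_C]⟩
  · -- compatibility
    intro f
    have h1 : (algebraMap R S).comp (psEval (maximalIdeal R) σR x hx) =
        psEval (maximalIdeal S) (algebraMap (ResidueField R) S) xS hxS := by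
      apply eq_psEval
      · intro a
        rw [RingHom.comp_apply, psEval_C]
        rfl
      · intro i
        rw [RingHom.comp_apply, psEval_X]
    have h2 : (psEval (maximalIdeal S) σS xS hxS).comp (MvPowerSeries.map ι) =
        psEval (maximalIdeal S) (algebraMap (ResidueField R) S) xS hxS := by
      apply eq_psEval
      · intro a
        rw [RingHom.comp_apply, map_C, psEval_C, hι]
        rfl
      · intro i
        rw [RingHom.comp_apply, map_X, psEval_X]
    have h3 := RingHom.congr_fun (h1.trans h2.symm) f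
    exact h3
  · intro r
    refine ⟨residue R r, ?_⟩
    rw [halgR, psEval_C, ← residue_eq_zero_iff, map_sub, hσR, sub_self]
  · intro i
    rw [halgR, psEval_X]
    exact hx i
  · rw [ht]
    apply Ideal.mul_mono_left
    rw [Ideal.span_le]
    rintro _ ⟨i, rfl⟩
    refine Ideal.subset_span ⟨i, ?_⟩
    simp only [halgR, psEval_X]
  · intro r
    refine ⟨residue S r, ?_⟩
    rw [halgS, psEval_C, ← residue_eq_zero_iff, map_sub, hσS, sub_self]
  · intro i
    rw [halgS, psEval_X]
    exact hxS i
  · refine hcS.trans ?_
    rw [Ideal.span_le]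
    rintro _ ⟨i, rfl⟩
    refine Ideal.subset_span ⟨i, ?_⟩
    simp only [halgS, psEval_X]

end Crest.Agent.R183.Z
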