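import Crest.Agent.R183.Top
import Crest.Agent.R183.Z17

/-!
# R183 (Lech's conjecture, S0273): the top of the assembly, with residue characteristic zero
reduced to equal characteristic `p` (helper911's `Z17.eqchar0`).
-/

set_option autoImplicit false

namespace Crest.Agent.R183.Top

open IsLocalRing Crest.Agent.R183.M

/-- Residue characteristic zero follows from equal characteristic `p`, all primes `p`. -/
theorem coreZero_of_coreEqual (H : ∀ p : ℕ, p.Prime → CoreEqual.{0, 0} p) : CoreZero.{0, 0} := by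
  intro d R S _ _ _ _ _ _ _ _ _ _ _ _ _ _ _ hR0 hd hd'
  refine Z.eqchar0 (d + 1) (fun p hp => ?_) R S hR0 hd hd'
  intro R' S' _ _ _ _ _ _ _ _ _ _ hR' hS'
  exact lechC_of_coreEqual p hp (H p hp) R' S' (CharP.cast_eq_zero R' p) _ _ hR' hS'

/-- The statement of S0273 from the two cores (equal characteristic `p` and mixed
characteristic `(0, p)`). -/
theorem result_of_two (h1 : ∀ p : ℕ, p.Prime → CoreEqual.{0, 0} p)
    (h2 : ∀ p : ℕ, p.Prime → CoreMixed.{0, 0} p) (R S : Type) [CommRing R]
    [CommRing S] [IsNoetherianRing R] [IsNoetherianRing S] [IsLocalRing R] [IsLocalRing S]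
    (f : R →+* S) (hf : IsLocalHom f) (hflat : f.Flat) (d d' : ℕ) (hd : ringKrullDim R = d)
    (hd' : ringKrullDim S = d') (e e' : ℝ)
    (he : Filter.Tendsto (fun N : ℕ => (Nat.factorial d : ℝ) *
        ((Module.length R (R ⧸ IsLocalRing.maximalIdeal R ^ N)).toNat : ℝ) / (N : ℝ) ^ d)
      Filter.atTop (nhds e))
    (he' : Filter.Tendsto (fun N : ℕ => (Nat.factorial d' : ℝ) *
        ((Module.length S (S ⧸ IsLocalRing.maximalIdeal S ^ N)).toNat : ℝ) / (N : ℝ) ^ d')
      Filter.atTop (nhds e')) :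
    e ≤ e' :=
  result_of_cases (coreZero_of_coreEqual h1) h1 h2 R S f hf hflat d d' hd hd' e e' he he'

end Crest.Agent.R183.Top
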