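import Mathlib.RingTheory.Length
import Mathlib.RingTheory.MvPowerSeries.NoZeroDivisors
import Mathlib.RingTheory.MvPowerSeries.Inverse
import Mathlib.RingTheory.MvPowerSeries.Order
import Mathlib.RingTheory.MvPowerSeries.Equiv
import Mathlib.Algebra.Order.Antidiag.FinsuppEquiv
import Mathlib.Data.Nat.Choose.Sum

set_option autoImplicit false

/-! # R183 block [8b] (equal characteristic zero): counting, power series, lengths -/

namespace Crest.Agent.R183.Z

open scoped Nat
open Finset

/-- number of multi-exponents in `d` variables of degree `< N`. -/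
def hcount (d N : ℕ) : ℕ := ∑ j ∈ range N, d.multichoose j

theorem hcount_succ (d N : ℕ) : hcount d (N + 1) = (N + d).choose d := by
  unfold hcount
  exact Nat.sum_range_multichoose N d

theorem pow_le_factorial_mul_hcount (d N : ℕ) (hN : 1 ≤ N) : N ^ d ≤ d ! * hcount d N := by
  obtain ⟨N, rfl⟩ : ∃ M, N = M + 1 := ⟨N - 1, by omega⟩
  rw [hcount_succ, ← Nat.ascFactorial_eq_factorial_mul_choose]
  exact Nat.pow_succ_le_ascFactorial (N + 1) d

theorem factorial_mul_hcount_le (d N : ℕ) : d ! * hcount d N ≤ (N + d) ^ d := by
  rcases N with _ | N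
  · simp [hcount]
  · rw [hcount_succ, ← Nat.ascFactorial_eq_factorial_mul_choose]
    refine (Nat.ascFactorial_le_pow_add N d).trans ?_
    exact Nat.pow_le_pow_left (by omega) d

/-! ### The ideal of the variables -/

section XI

open MvPowerSeries

variable {σ : Type*} (K : Type*) [CommRing K]

variable (σ) in
/-- ideal generated by the variables -/
noncomputable def XI : Ideal (MvPowerSeries σ K) := Ideal.span (Set.range (fun i => (X i : MvPowerSeries σ K)))

variable {K}

theorem X_mem_XI (i : σ) : (X i : MvPowerSeries σ K) ∈ XI σ K :=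
  Ideal.subset_span ⟨i, rfl⟩

/-- series of order at least `N`. -/
noncomputable def ordIdeal (N : ℕ) : Ideal (MvPowerSeries σ K) where
  carrier := {f | (N : ℕ∞) ≤ f.order}
  add_mem' := fun {a b} ha hb => le_trans (le_min ha hb) (min_order_le_add ..)
  zero_mem' := by simp [order_zero]
  smul_mem' := fun c x hx => by
    refine le_trans hx (le_trans ?_ le_order_mul)
    exact le_add_self

theorem mem_ordIdeal {N : ℕ} {f : MvPowerSeries σ K} :
    f ∈ ordIdeal (σ := σ) (K := K) N ↔ (N : ℕ∞) ≤ f.order := Iff.rfl

theorem mem_ordIdeal' {N : ℕ} {f : MvPowerSeries σ K} :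
    f ∈ ordIdeal (σ := σ) (K := K) N ↔ ∀ α : σ →₀ ℕ, α.degree < N → coeff α f = 0 := by
  rw [mem_ordIdeal]
  constructor
  · intro h α hα
    exact coeff_of_lt_order (lt_of_lt_of_le (by exact_mod_cast hα) h)
  · intro h
    exact nat_le_order h

theorem XI_pow_le_ordIdeal (N : ℕ) : XI σ K ^ N ≤ ordIdeal N := by
  induction N with
  | zero =>
    intro f _
    simp [mem_ordIdeal]
  | succ N ih =>
    rw [pow_succ, Ideal.mul_le]
    intro r hr s hs
    have h1 := ih hr
    have h2 : s ∈ ordIdeal (σ := σ) (K := K) 1 := by
      have : XI σ K ≤ ordIdeal 1 := by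
        rw [XI, Ideal.span_le]
        rintro _ ⟨i, rfl⟩
        rw [SetLike.mem_coe, mem_ordIdeal']
        intro α hα
        have : α = 0 := by
          have : α.degree = 0 := by omega
          exact (Finsupp.degree_eq_zero_iff α).1 this
        subst this
        exact coeff_zero_X i
      exact this hs
    rw [mem_ordIdeal] at *
    refine le_trans ?_ le_order_mul
    push_cast
    exact add_le_add h1 h2

variable [Fintype σ]

theorem ordIdeal_succ_le (N : ℕ) : ordIdeal (σ := σ) (K := K) (N + 1) ≤ XI σ K * ordIdeal N := by
  classical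
  intro f hf
  rw [mem_ordIdeal'] at hf
  -- pick an element of the support
  let pick : (σ →₀ ℕ) → Option σ := fun α =>
    if h : α.support.Nonempty then some h.choose else none
  have hpick : ∀ α i, pick α = some i → α i ≠ 0 := by
    intro α i h
    by_cases h' : α.support.Nonempty
    · simp only [pick, h', dif_pos, Option.some.injEq] at h
      have := h'.choose_spec
      rw [h] at this
      simpa using this
    · simp only [pick, dif_neg h'] at h
      exact absurd h (by simp)
  have hpick0 : ∀ α : σ →₀ ℕ, α ≠ 0 → ∃ i, pick α = some i := by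
    intro α hα
    have h' : α.support.Nonempty := by
      rwa [Finset.nonempty_iff_ne_empty, Ne, Finsupp.support_eq_empty]
    exact ⟨h'.choose, by simp only [pick, dif_pos h']⟩
  let g : σ → MvPowerSeries σ K := fun i γ =>
    if pick (γ + Finsupp.single i 1) = some i then coeff (γ + Finsupp.single i 1) f else 0
  have hg : ∀ i, g i ∈ ordIdeal (σ := σ) (K := K) N := by
    intro i
    rw [mem_ordIdeal']
    intro α hα
    change (if pick (α + Finsupp.single i 1) = some i then coeff (α + Finsupp.single i 1) f else 0) = 0
    split_ifs with h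
    · apply hf
      rw [map_add, Finsupp.degree_single]
      omega
    · rfl
  have hsum : f = ∑ i, X i * g i := by
    ext α
    rw [map_sum]
    have hterm : ∀ i, coeff α (X i * g i) = if pick α = some i then coeff α f else 0 := by
      intro i
      have hX : (X i : MvPowerSeries σ K) = monomial (Finsupp.single i 1) 1 := rfl
      rw [hX, coeff_monomial_mul]
      by_cases hle : Finsupp.single i 1 ≤ α
      · rw [if_pos hle, one_mul]
        change (if pick (α - Finsupp.single i 1 + Finsupp.single i 1) = some i then
          coeff (α - Finsupp.single i 1 + Finsupp.single i 1) f else 0) = _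
        rw [tsub_add_cancel_of_le hle]
      · rw [if_neg hle, if_neg]
        intro h
        apply hle
        have := hpick α i h
        rw [Finsupp.single_le_iff]
        omega
    rw [Finset.sum_congr rfl (fun i _ => hterm i)]
    by_cases h0 : α = 0
    · have : coeff α f = 0 := hf α (by rw [h0]; simp)
      rw [this]
      simp
    · obtain ⟨i, hi⟩ := hpick0 α h0
      rw [Finset.sum_eq_single i]
      · rw [if_pos hi]
      · intro j _ hj
        rw [if_neg]
        intro h
        rw [hi] at h
        exact hj (Option.some.inj h).symm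
      · intro h
        exact absurd (Finset.mem_univ i) h
  rw [hsum]
  exact Ideal.sum_mem _ fun i _ => Ideal.mul_mem_mul (X_mem_XI i) (hg i)

theorem XI_pow_eq (N : ℕ) : XI σ K ^ N = ordIdeal N := by
  apply le_antisymm (XI_pow_le_ordIdeal N)
  induction N with
  | zero => simp
  | succ N ih =>
    rw [pow_succ']
    exact (ordIdeal_succ_le N).trans (Ideal.mul_mono_right ih)

theorem mem_XI_pow_iff {N : ℕ} {f : MvPowerSeries σ K} :
    f ∈ XI σ K ^ N ↔ ∀ α : σ →₀ ℕ, α.degree < N → coeff α f = 0 := by
  rw [XI_pow_eq, mem_ordIdeal']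

theorem mem_XI_pow_iff_order {N : ℕ} {f : MvPowerSeries σ K} :
    f ∈ XI σ K ^ N ↔ (N : ℕ∞) ≤ f.order := by
  rw [XI_pow_eq, mem_ordIdeal]

end XI

end Crest.Agent.R183.Z
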