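import Crest.Agent.R183.Z9

set_option autoImplicit false

/-! # R183 block [8b]: descent of finitely many identities -/

namespace Crest.Agent.R183.Z

open IsLocalRing MvPowerSeries
open scoped Pointwise

/-- descent of ideal membership -/
theorem desc {R : Type} [CommRing R] {τ υ : Type} [Fintype τ] [Fintype υ] (P : τ → R) (Q : υ → R)
    (h : ∀ i, P i ∈ Ideal.span (Set.range Q)) :
    ∃ E : Finset R, ∀ (R' : Type) [CommRing R'] (f : R' →+* R), Function.Injective f →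
      (∀ e ∈ E, ∃ e', f e' = e) → ∀ (P' : τ → R') (Q' : υ → R'), (∀ i, f (P' i) = P i) →
      (∀ i, f (Q' i) = Q i) → ∀ i, P' i ∈ Ideal.span (Set.range Q') := by
  classical
  simp only [Ideal.mem_span_range_iff_exists_fun] at h
  choose c hc using h
  refine ⟨Finset.univ.image fun tu : τ × υ => c tu.1 tu.2, ?_⟩
  intro R' _ f hf hE P' Q' hP' hQ' i
  have h1 : ∀ t u, ∃ e', f e' = c t u := fun t u =>
    hE _ (Finset.mem_image_of_mem (fun tu : τ × υ => c tu.1 tu.2) (Finset.mem_univ (t, u)))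
  choose c' hc' using h1
  rw [Ideal.mem_span_range_iff_exists_fun]
  refine ⟨c' i, hf ?_⟩
  rw [map_sum, hP', ← hc i]
  refine Finset.sum_congr rfl fun u _ => ?_
  rw [map_mul, hc', hQ']

/-- powers of a finitely generated ideal -/
theorem span_pow_range {R ι : Type*} [CommRing R] (G : ι → R) (k : ℕ) :
    Ideal.span (Set.range G) ^ k = Ideal.span (Set.range fun s : Fin k → ι => ∏ j, G (s j)) := by
  induction k with
  | zero =>
    rw [pow_zero, Ideal.one_eq_top, eq_comm, Ideal.eq_top_iff_one]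
    refine Ideal.subset_span ⟨Fin.elim0, ?_⟩
    simp
  | succ k ih =>
    rw [pow_succ, ih, Ideal.span_mul_span']
    congr 1
    ext z
    rw [Set.mem_mul]
    constructor
    · rintro ⟨_, ⟨s, rfl⟩, _, ⟨i, rfl⟩, rfl⟩
      refine ⟨Fin.snoc s i, ?_⟩
      simp only
      rw [Fin.prod_univ_castSucc]
      simp
    · rintro ⟨s, rfl⟩
      refine ⟨_, ⟨fun j => s j.castSucc, rfl⟩, _, ⟨s (Fin.last k), rfl⟩, ?_⟩
      simp only
      rw [Fin.prod_univ_castSucc]

theorem span_mul_range {R ι ι' : Type*} [CommRing R] (G : ι → R) (G' : ι' → R) :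
    Ideal.span (Set.range G) * Ideal.span (Set.range G') =
      Ideal.span (Set.range fun s : ι × ι' => G s.1 * G' s.2) := by
  rw [Ideal.span_mul_span']
  congr 1
  ext z
  rw [Set.mem_mul]
  constructor
  · rintro ⟨_, ⟨s, rfl⟩, _, ⟨i, rfl⟩, rfl⟩
    exact ⟨(s, i), rfl⟩
  · rintro ⟨s, rfl⟩
    exact ⟨_, ⟨s.1, rfl⟩, _, ⟨s.2, rfl⟩, rfl⟩

/-- **The transfer property** (Artin approximation + specialisation), block [8a]. -/
def Transfer (d : ℕ) (K : Type) [Field K] : Prop :=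
  ∀ T : Finset (MvPowerSeries (Fin d) K), ∃ (p : ℕ) (F : Type) (_ : Field F) (_ : CharP F p)
    (A : Subring (MvPowerSeries (Fin d) K)) (ψ : A →+* MvPowerSeries (Fin d) F),
    p.Prime ∧ (∀ b ∈ T, b ∈ A) ∧ (∀ i, ∃ h : X i ∈ A, ψ ⟨X i, h⟩ = X i) ∧
    ∀ b : K, C b ∈ T → ∃ h : C b ∈ A, ∃ b' : F, ψ ⟨C b, h⟩ = C b'

/-- transfer of coefficients -/
theorem coeff_transfer {d : ℕ} {K : Type} [Field K] (f : MvPowerSeries (Fin d) K)
    (α : Fin d →₀ ℕ) :
    ∃ T : Finset (MvPowerSeries (Fin d) K), C (coeff α f) ∈ T ∧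
      ∀ (F : Type) [Field F]
      (A : Subring (MvPowerSeries (Fin d) K)) (ψ : A →+* MvPowerSeries (Fin d) F),
      (∀ b ∈ T, b ∈ A) → (∀ i, ∃ h : X i ∈ A, ψ ⟨X i, h⟩ = X i) →
      (∀ b : K, C b ∈ T → ∃ h : C b ∈ A, ∃ b' : F, ψ ⟨C b, h⟩ = C b') →
      ∀ (hf : f ∈ A) (h : C (coeff α f) ∈ A),
        C (coeff α (ψ ⟨f, hf⟩)) = ψ ⟨C (coeff α f), h⟩ := by
  classical
  set N := α.degree + 1 with hN
  -- truncation
  have h1 : ∀ u : Unit, (fun _ : Unit => f - ∑ β ∈ expo d N, coeff β f • xmon K β) u ∈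
      Ideal.span (Set.range fun s : Fin N → Fin d => ∏ j, (X (s j) : MvPowerSeries (Fin d) K)) := by
    intro _
    rw [← span_pow_range]
    exact sub_trunc_mem f N
  obtain ⟨E, hE⟩ := desc _ _ h1
  refine ⟨insert (C (coeff α f)) (E ∪ (expo d N).image fun β => C (coeff β f)),
    Finset.mem_insert_self _ _, ?_⟩
  intro F _ A ψ hT hX hC hf h
  have hCin : ∀ β ∈ expo d N, C (coeff β f) ∈ A := by
    intro β hβ
    exact hT _ (Finset.mem_insert_of_mem (Finset.mem_union_right _ (Finset.mem_image_of_mem _ hβ)))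
  have hC' : ∀ β ∈ expo d N, ∃ b' : F, ∀ h : C (coeff β f) ∈ A, ψ ⟨C (coeff β f), h⟩ = C b' := by
    intro β hβ
    obtain ⟨h, b', hb'⟩ := hC (coeff β f)
      (Finset.mem_insert_of_mem (Finset.mem_union_right _ (Finset.mem_image_of_mem _ hβ)))
    exact ⟨b', fun _ => hb'⟩
  choose! b' hb' using hC'
  choose hXA hXψ using hX
  -- the element of `A`
  have hmem := hE A A.subtype Subtype.val_injective
    (fun e he => ⟨⟨e, hT e (Finset.mem_insert_of_mem (Finset.mem_union_left _ he))⟩, rfl⟩)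
    (fun _ => ⟨f, hf⟩ - ∑ β ∈ (expo d N).attach, (⟨C (coeff β.1 f), hCin β.1 β.2⟩ : A) *
      ∏ i, (⟨X i, hXA i⟩ : A) ^ (β.1 i))
    (fun s => ∏ j, (⟨X (s j), hXA (s j)⟩ : A)) ?_ ?_ ()
  · have h2 := Ideal.mem_map_of_mem ψ hmem
    rw [Ideal.map_span, ← Set.range_comp] at h2
    have e1 : (ψ ∘ fun s : Fin N → Fin d => ∏ j, (⟨X (s j), hXA (s j)⟩ : A)) =
        fun s : Fin N → Fin d => ∏ j, (X (s j) : MvPowerSeries (Fin d) F) := by
      funext s
      simp only [Function.comp_apply, map_prod, hXψ]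
    rw [e1, ← span_pow_range, map_sub, map_sum] at h2
    have h3 := (mem_XI_pow_iff.1 h2) α (by omega)
    rw [map_sub, sub_eq_zero] at h3
    rw [h3, map_sum]
    have hα : α ∈ expo d N := mem_expo.2 (by omega)
    have e2 : ∀ β ∈ (expo d N).attach, coeff α (ψ ((⟨C (coeff β.1 f), hCin β.1 β.2⟩ : A) *
        ∏ i, (⟨X i, hXA i⟩ : A) ^ (β.1 i))) = if β.1 = α then b' α else 0 := by
      rintro ⟨β, hβ⟩ _
      rw [map_mul, map_prod, hb' β hβ]
      simp only [map_pow, hXψ]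
      rw [← xmon_eq, MvPowerSeries.coeff_C_mul, xmon]
      split_ifs with h4
      · rw [h4, coeff_monomial_same, mul_one]
      · rw [coeff_monomial_ne (Ne.symm h4), mul_zero]
    rw [Finset.sum_congr rfl e2, Finset.sum_eq_single ⟨α, hα⟩]
    · rw [if_pos rfl, hb' α hα]
    · rintro ⟨β, hβ⟩ _ hne
      rw [if_neg]
      intro h4
      exact hne (Subtype.ext h4)
    · intro h4
      exact absurd (Finset.mem_attach _ _) h4
  · intro _
    simp only [map_sub, map_sum, map_mul, map_prod, map_pow, Subring.subtype_apply]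
    congr 1
    rw [← Finset.sum_attach (expo d N)]
    refine Finset.sum_congr rfl fun β _ => ?_
    rw [MvPowerSeries.smul_eq_C_mul, xmon_eq]
  · intro s
    simp only [map_prod, Subring.subtype_apply]

/-- transfer of non-vanishing -/
theorem nonvanishing_transfer {d : ℕ} {K : Type} [Field K] (D : MvPowerSeries (Fin d) K)
    (hD : D ≠ 0) :
    ∃ T : Finset (MvPowerSeries (Fin d) K),
      ∀ (F : Type) [Field F]
      (A : Subring (MvPowerSeries (Fin d) K)) (ψ : A →+* MvPowerSeries (Fin d) F),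
      (∀ b ∈ T, b ∈ A) → (∀ i, ∃ h : X i ∈ A, ψ ⟨X i, h⟩ = X i) →
      (∀ b : K, C b ∈ T → ∃ h : C b ∈ A, ∃ b' : F, ψ ⟨C b, h⟩ = C b') →
      ∀ (hf : D ∈ A), ψ ⟨D, hf⟩ ≠ 0 := by
  classical
  obtain ⟨α, hα⟩ : ∃ α, coeff α D ≠ 0 := by
    by_contra h
    push Not at h
    exact hD (MvPowerSeries.ext h)
  obtain ⟨T, hT0, hT⟩ := coeff_transfer D α
  refine ⟨insert (C (coeff α D)⁻¹) T, ?_⟩
  intro F _ A ψ hA hX hC hf h0
  have h1 : C (coeff α D) ∈ A := hA _ (Finset.mem_insert_of_mem hT0)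
  have h2 : C (coeff α D)⁻¹ ∈ A := hA _ (Finset.mem_insert_self _ _)
  have h3 := hT F A ψ (fun b hb => hA b (Finset.mem_insert_of_mem hb)) hX
    (fun b hb => hC b (Finset.mem_insert_of_mem hb)) hf h1
  rw [h0, map_zero, map_zero] at h3
  have h4 : (⟨C (coeff α D), h1⟩ : A) * ⟨C (coeff α D)⁻¹, h2⟩ = 1 := by
    apply Subtype.ext
    change C (coeff α D) * C (coeff α D)⁻¹ = 1
    rw [← map_mul, mul_inv_cancel₀ hα, map_one]
  have h5 := congrArg ψ h4
  rw [map_mul, ← h3, zero_mul, map_one] at h5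
  exact zero_ne_one h5

end Crest.Agent.R183.Z
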