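import Crest.Agent.R183.Z10

set_option autoImplicit false

/-! # R183 block [8b]: subalgebras generated by finite families -/

namespace Crest.Agent.R183.Z

theorem exists_subalgebra {A R κ : Type*} [CommRing A] [CommRing R] [Algebra A R] (v : κ → R)
    (h1 : (1 : R) ∈ Submodule.span A (Set.range v))
    (hmul : ∀ i j, v i * v j ∈ Submodule.span A (Set.range v)) :
    ∃ RA : Subalgebra A R, Subalgebra.toSubmodule RA = Submodule.span A (Set.range v) := by
  refine ⟨(Submodule.span A (Set.range v)).toSubalgebra h1 ?_, ?_⟩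
  · intro x y hx hy
    have h2 : Submodule.span A (Set.range v) * Submodule.span A (Set.range v) ≤
        Submodule.span A (Set.range v) := by
      rw [Submodule.span_mul_span, Submodule.span_le]
      rintro _ ⟨_, ⟨i, rfl⟩, _, ⟨j, rfl⟩, rfl⟩
      exact hmul i j
    exact h2 (Submodule.mul_mem_mul hx hy)
  · exact Submodule.toSubalgebra_toSubmodule _ _ _

theorem mem_span_of_coord {B R κ : Type*} [CommRing B] [CommRing R] [Algebra B R] [Fintype κ]
    (A : Subring B) (v : κ → R) (c : κ → B) (hc : ∀ k, c k ∈ A) (r : R) (hr : ∑ k, c k • v k = r) :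
    r ∈ Submodule.span A (Set.range v) := by
  rw [← hr]
  refine Submodule.sum_mem _ fun k _ => ?_
  have : c k • v k = (⟨c k, hc k⟩ : A) • v k := rfl
  rw [this]
  exact Submodule.smul_mem _ _ (Submodule.subset_span (Set.mem_range_self k))

theorem mem_span_of_coord' {A R S J : Type*} [CommRing A] [CommRing R] [CommRing S] [Algebra A R]
    [Algebra R S] [Fintype J] (RA : Subalgebra A R) (b : J → S) (c : J → R) (hc : ∀ k, c k ∈ RA)
    (s : S) (hs : ∑ k, c k • b k = s) :
    s ∈ Submodule.span RA (Set.range b) := by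
  rw [← hs]
  refine Submodule.sum_mem _ fun k _ => ?_
  have : c k • b k = (⟨c k, hc k⟩ : RA) • b k := rfl
  rw [this]
  exact Submodule.smul_mem _ _ (Submodule.subset_span (Set.mem_range_self k))

theorem exists_basis {A R S J : Type*} [CommRing A] [CommRing R] [CommRing S] [Algebra A R]
    [Algebra R S] [Fintype J] (RA : Subalgebra A R) (b : Module.Basis J R S) (SA : Subalgebra RA S)
    (hSA : Subalgebra.toSubmodule SA = Submodule.span RA (Set.range b)) :
    ∃ bA : Module.Basis J RA SA, ∀ j, (bA j : S) = b j := by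
  have hmem : ∀ j, b j ∈ SA := by
    intro j
    rw [← Subalgebra.mem_toSubmodule, hSA]
    exact Submodule.subset_span (Set.mem_range_self j)
  let v : J → SA := fun j => ⟨b j, hmem j⟩
  have hli : LinearIndependent RA v := by
    rw [Fintype.linearIndependent_iff]
    intro g hg j
    have h1 := congrArg (Subtype.val : SA → S) hg
    have h2 : ∑ i, (g i : R) • b i = 0 := by
      have h3 : ((∑ i, g i • v i : SA) : S) = ∑ i, (g i : R) • b i := by
        rw [AddSubmonoidClass.coe_finsetSum]
        rfl
      rw [← h3, h1]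
      rfl
    have h4 := (Fintype.linearIndependent_iff.1 b.linearIndependent) (fun i => (g i : R)) h2 j
    exact Subtype.ext h4
  have hsp : ⊤ ≤ Submodule.span RA (Set.range v) := by
    rintro ⟨s, hs⟩ -
    rw [← Subalgebra.mem_toSubmodule, hSA, Submodule.mem_span_range_iff_exists_fun] at hs
    obtain ⟨c, hc⟩ := hs
    rw [Submodule.mem_span_range_iff_exists_fun]
    refine ⟨c, Subtype.ext ?_⟩
    rw [AddSubmonoidClass.coe_finsetSum]
    exact hc
  refine ⟨Module.Basis.mk hli hsp, fun j => ?_⟩
  rw [Module.Basis.mk_apply]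

end Crest.Agent.R183.Z
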