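import Crest.Agent.R183.Z11

set_option autoImplicit false

/-! # R183 block [8b]: from characteristic zero to positive characteristic -/

namespace Crest.Agent.R183.Z

open IsLocalRing MvPowerSeries Crest.Agent.R183.M Crest.Agent.R183.HS Filter
open scoped Nat Topology

variable {K : Type} [Field K] {d : ℕ}

/-- generators of the maximal ideal of `R` -/
noncomputable def genR (d : ℕ) {R : Type} [CommRing R] [Algebra (PS d K) R] {κ : Type} (v : κ → R)
    (a : κ → K) : κ ⊕ Fin d → R :=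
  Sum.elim (fun k => v k - algebraMap (PS d K) R (C (a k))) (fun i => algebraMap (PS d K) R (X i))

/-- generators of the maximal ideal of `S` -/
noncomputable def genS (d : ℕ) {R S : Type} [CommRing R] [Algebra (PS d K) R] [CommRing S] [Algebra R S]
    {κ J : Type} (v : κ → R) (b : J → S) (a' : κ → J → K) : (κ × J) ⊕ Fin d → S :=
  Sum.elim (fun k => v k.1 • b k.2 - algebraMap R S (algebraMap (PS d K) R (C (a' k.1 k.2))))
    (fun i => algebraMap R S (algebraMap (PS d K) R (X i)))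

set_option maxHeartbeats 1000000 in
theorem Kstep (htr : Transfer d K) (hp : ∀ p, p.Prime → MAINp p d)
    {R S : Type} [CommRing R] [CommRing S] [Algebra (PS d K) R] [Algebra R S]
    {κ J : Type} [Fintype κ] [Fintype J] [Nonempty J] (v : κ → R)
    (hv : Submodule.span (PS d K) (Set.range v) = ⊤) (b : Module.Basis J R S)
    (a : κ → K) (t : ℕ)
    (hm : Ideal.span (Set.range (genR d v a)) ^ (t + 1) ≤
      Ideal.span (Set.range fun i => algebraMap (PS d K) R (X i)) *
        Ideal.span (Set.range (genR d v a)) ^ t)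
    {ρ : ℕ} (hρ : 0 < ρ) (lam : R →ₗ[PS d K] (Fin ρ → PS d K)) (D : PS d K) (hD : D ≠ 0)
    (u : Fin ρ → R) (hu : ∀ i, lam (u i) = Pi.single i D)
    (a' : κ → J → K) (c : ℕ)
    (hn : Ideal.span (Set.range (genS d v b a')) ^ c ≤
      Ideal.span (Set.range fun i => algebraMap R S (algebraMap (PS d K) R (X i))))
    (y : Fin d → S) (hy : ∀ i, y i ∈ Ideal.span (Set.range (genS d v b a')))
    (q : ℕ) (hq : 0 < q) (c' : ℕ)
    (hc' : Ideal.span (Set.range fun i => algebraMap R S (algebraMap (PS d K) R (X i))) ^ c' ≤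
      Ideal.span (Set.range fun i => y i ^ q))
    {L : ℕ} (σ : Fin L → S) (e : (Fin d →₀ ℕ) → κ → J → Fin L → K)
    (hcert : ∀ α ∈ expo d c', ∀ k j,
      algebraMap R S (algebraMap (PS d K) R (∏ i, X i ^ α i)) * (v k • b j) -
        ∑ l, algebraMap (PS d K) R (C (e α k j l)) • σ l ∈ Ideal.span (Set.range fun i => y i ^ q)) :
    (ρ : ℝ) ≤ (L : ℝ) / (q : ℝ) ^ d := by
  classical
  -- coordinates
  have hcoord : ∀ r : R, ∃ z : κ → PS d K, ∑ k, z k • v k = r := by
    intro r
    have hr : r ∈ Submodule.span (PS d K) (Set.range v) := by rw [hv]; trivial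
    rwa [Submodule.mem_span_range_iff_exists_fun] at hr
  choose cR hcR using hcoord
  -- certificates
  obtain ⟨E1, hE1⟩ := desc (fun s : Fin (t + 1) → κ ⊕ Fin d => ∏ j, genR d v a (s j))
    (fun s : Fin d × (Fin t → κ ⊕ Fin d) =>
      algebraMap (PS d K) R (X s.1) * ∏ j, genR d v a (s.2 j)) (by
      intro s
      rw [← span_mul_range (fun i => algebraMap (PS d K) R (X i))
        (fun s : Fin t → κ ⊕ Fin d => ∏ j, genR d v a (s j)), ← span_pow_range]
      apply hm
      rw [span_pow_range]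
      exact Ideal.subset_span ⟨s, rfl⟩)
  obtain ⟨E2, hE2⟩ := desc (fun s : Fin c → (κ × J) ⊕ Fin d => ∏ j, genS d v b a' (s j))
    (fun i : Fin d => algebraMap R S (algebraMap (PS d K) R (X i))) (by
      intro s
      apply hn
      rw [span_pow_range]
      exact Ideal.subset_span ⟨s, rfl⟩)
  obtain ⟨E3, hE3⟩ := desc y (genS d v b a') hy
  obtain ⟨E4, hE4⟩ := desc (fun s : Fin c' → Fin d => ∏ j, algebraMap R S
      (algebraMap (PS d K) R (X (s j)))) (fun i : Fin d => y i ^ q) (by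
      intro s
      apply hc'
      rw [span_pow_range]
      exact Ideal.subset_span ⟨s, rfl⟩)
  obtain ⟨E5, hE5⟩ := desc (fun s : (expo d c') × κ × J =>
      algebraMap R S (algebraMap (PS d K) R (∏ i, X i ^ s.1.1 i)) * (v s.2.1 • b s.2.2) -
        ∑ l, algebraMap (PS d K) R (C (e s.1.1 s.2.1 s.2.2 l)) • σ l)
      (fun i : Fin d => y i ^ q) (by
      intro s
      exact hcert s.1.1 s.1.2 s.2.1 s.2.2)
  -- the finite sets
  let ES : Finset S := E2 ∪ E3 ∪ E4 ∪ E5 ∪ Finset.univ.image y ∪ Finset.univ.image σ ∪ {1} ∪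
    Finset.univ.image (fun jj : J × J => b jj.1 * b jj.2)
  let ER : Finset R := E1 ∪ (ES ×ˢ Finset.univ).image (fun sj : S × J => b.repr sj.1 sj.2) ∪ {1} ∪
    Finset.univ.image (fun kk : κ × κ => v kk.1 * v kk.2) ∪ Finset.univ.image u
  obtain ⟨TD, hTD⟩ := nonvanishing_transfer D hD
  let T : Finset (PS d K) := (ER ×ˢ Finset.univ).image (fun rk : R × κ => cR rk.1 rk.2) ∪
    Finset.univ.image (fun ki : κ × Fin ρ => lam (v ki.1) ki.2) ∪ {D} ∪ TD ∪
    Finset.univ.image (fun k => C (a k)) ∪ Finset.univ.image (fun kj : κ × J => C (a' kj.1 kj.2)) ∪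
    ((expo d c') ×ˢ (Finset.univ : Finset (κ × J × Fin L))).image
      (fun z => C (e z.1 z.2.1 z.2.2.1 z.2.2.2))
  obtain ⟨p, F, _, _, A, ψ, hpp, hTA, hX, hC⟩ := htr T
  -- membership in `A`
  have hT1 : ∀ r ∈ ER, ∀ k, cR r k ∈ A := by
    intro r hr k
    apply hTA
    simp only [T, Finset.mem_union]
    exact Or.inl (Or.inl (Or.inl (Or.inl (Or.inl (Or.inl
      (Finset.mem_image.2 ⟨(r, k), Finset.mem_product.2 ⟨hr, Finset.mem_univ _⟩, rfl⟩))))))
  have hT2 : ∀ k i, lam (v k) i ∈ A := by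
    intro k i
    apply hTA
    simp only [T, Finset.mem_union]
    exact Or.inl (Or.inl (Or.inl (Or.inl (Or.inl (Or.inr
      (Finset.mem_image.2 ⟨(k, i), Finset.mem_univ _, rfl⟩))))))
  have hDA : D ∈ A := by
    apply hTA
    simp only [T, Finset.mem_union]
    exact Or.inl (Or.inl (Or.inl (Or.inl (Or.inr (Finset.mem_singleton_self D)))))
  have hTDT : ∀ b ∈ TD, b ∈ T := by
    intro b hb
    simp only [T, Finset.mem_union]
    exact Or.inl (Or.inl (Or.inl (Or.inr hb)))
  have ha0 : ∀ k, ∃ h : C (a k) ∈ A, ∃ b' : F, ψ ⟨C (a k), h⟩ = C b' := by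
    intro k
    apply hC
    simp only [T, Finset.mem_union]
    exact Or.inl (Or.inl (Or.inr (Finset.mem_image.2 ⟨k, Finset.mem_univ _, rfl⟩)))
  have ha'0 : ∀ k j, ∃ h : C (a' k j) ∈ A, ∃ b' : F, ψ ⟨C (a' k j), h⟩ = C b' := by
    intro k j
    apply hC
    simp only [T, Finset.mem_union]
    exact Or.inl (Or.inr (Finset.mem_image.2 ⟨(k, j), Finset.mem_univ _, rfl⟩))
  have he0 : ∀ α : expo d c', ∀ k j l, ∃ h : C (e α.1 k j l) ∈ A, ∃ b' : F,
      ψ ⟨C (e α.1 k j l), h⟩ = C b' := by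
    intro α k j l
    apply hC
    simp only [T, Finset.mem_union]
    exact Or.inr (Finset.mem_image.2 ⟨(α.1, k, j, l),
      Finset.mem_product.2 ⟨α.2, Finset.mem_univ _⟩, rfl⟩)
  have hDψ : ψ ⟨D, hDA⟩ ≠ 0 :=
    hTD F A ψ (fun b hb => hTA b (hTDT b hb)) hX (fun b hb => hC b (hTDT _ hb)) hDA
  choose hXA hXψ using hX
  choose haA haψ using ha0
  choose ha'A ha'ψ using ha'0
  choose heA heψ using he0
  -- the subalgebra `RA`
  have hER : ∀ r ∈ ER, r ∈ Submodule.span A (Set.range v) := fun r hr =>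
    mem_span_of_coord A v (cR r) (hT1 r hr) r (hcR r)
  have h1ER : (1 : R) ∈ ER := by
    simp only [ER, Finset.mem_union]
    exact Or.inl (Or.inl (Or.inr (Finset.mem_singleton_self _)))
  have hvvER : ∀ i j, v i * v j ∈ ER := by
    intro i j
    simp only [ER, Finset.mem_union]
    exact Or.inl (Or.inr (Finset.mem_image.2 ⟨(i, j), Finset.mem_univ _, rfl⟩))
  obtain ⟨RA, hRA⟩ := exists_subalgebra (A := A) v (hER 1 h1ER) (fun i j => hER _ (hvvER i j))
  have memRA : ∀ r ∈ ER, r ∈ RA := fun r hr => by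
    rw [← Subalgebra.mem_toSubmodule, hRA]; exact hER r hr
  have hvRA : ∀ k, v k ∈ RA := fun k => by
    rw [← Subalgebra.mem_toSubmodule, hRA]
    exact Submodule.subset_span (Set.mem_range_self k)
  have hE1RA : ∀ r ∈ E1, ∃ r' : RA, (RA.val : RA →+* R) r' = r := by
    intro r hr
    refine ⟨⟨r, memRA r ?_⟩, rfl⟩
    simp only [ER, Finset.mem_union]
    exact Or.inl (Or.inl (Or.inl (Or.inl hr)))
  have huRA : ∀ i, u i ∈ RA := by
    intro i
    apply memRA
    simp only [ER, Finset.mem_union]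
    exact Or.inr (Finset.mem_image.2 ⟨i, Finset.mem_univ _, rfl⟩)
  -- the subalgebra `SA`
  have hreprRA : ∀ s ∈ ES, ∀ j, b.repr s j ∈ RA := by
    intro s hs j
    apply memRA
    simp only [ER, Finset.mem_union]
    exact Or.inl (Or.inl (Or.inl (Or.inr (Finset.mem_image.2
      ⟨(s, j), Finset.mem_product.2 ⟨hs, Finset.mem_univ _⟩, rfl⟩))))
  have hES : ∀ s ∈ ES, s ∈ Submodule.span RA (Set.range b) := fun s hs =>
    mem_span_of_coord' RA b (b.repr s) (hreprRA s hs) s (b.sum_repr s)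
  have h1ES : (1 : S) ∈ ES := by
    simp only [ES, Finset.mem_union]
    exact Or.inl (Or.inr (Finset.mem_singleton_self _))
  have hbbES : ∀ i j, b i * b j ∈ ES := by
    intro i j
    simp only [ES, Finset.mem_union]
    exact Or.inr (Finset.mem_image.2 ⟨(i, j), Finset.mem_univ _, rfl⟩)
  obtain ⟨SA, hSA⟩ := exists_subalgebra (A := RA) (fun j => b j) (hES 1 h1ES)
    (fun i j => hES _ (hbbES i j))
  have memSA : ∀ s ∈ ES, s ∈ SA := fun s hs => by
    rw [← Subalgebra.mem_toSubmodule, hSA]; exact hES s hs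
  have hE2SA : ∀ s ∈ E2, ∃ s' : SA, (SA.val : SA →+* S) s' = s := by
    intro s hs
    refine ⟨⟨s, memSA s ?_⟩, rfl⟩
    simp only [ES, Finset.mem_union]
    exact Or.inl (Or.inl (Or.inl (Or.inl (Or.inl (Or.inl (Or.inl hs))))))
  have hE3SA : ∀ s ∈ E3, ∃ s' : SA, (SA.val : SA →+* S) s' = s := by
    intro s hs
    refine ⟨⟨s, memSA s ?_⟩, rfl⟩
    simp only [ES, Finset.mem_union]
    exact Or.inl (Or.inl (Or.inl (Or.inl (Or.inl (Or.inl (Or.inr hs))))))
  have hE4SA : ∀ s ∈ E4, ∃ s' : SA, (SA.val : SA →+* S) s' = s := by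
    intro s hs
    refine ⟨⟨s, memSA s ?_⟩, rfl⟩
    simp only [ES, Finset.mem_union]
    exact Or.inl (Or.inl (Or.inl (Or.inl (Or.inl (Or.inr hs)))))
  have hE5SA : ∀ s ∈ E5, ∃ s' : SA, (SA.val : SA →+* S) s' = s := by
    intro s hs
    refine ⟨⟨s, memSA s ?_⟩, rfl⟩
    simp only [ES, Finset.mem_union]
    exact Or.inl (Or.inl (Or.inl (Or.inl (Or.inr hs))))
  have hySA : ∀ i, y i ∈ SA := by
    intro i
    apply memSA
    simp only [ES, Finset.mem_union]
    exact Or.inl (Or.inl (Or.inl (Or.inr (Finset.mem_image.2 ⟨i, Finset.mem_univ _, rfl⟩))))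
  have hσSA : ∀ l, σ l ∈ SA := by
    intro i
    apply memSA
    simp only [ES, Finset.mem_union]
    exact Or.inl (Or.inl (Or.inr (Finset.mem_image.2 ⟨i, Finset.mem_univ _, rfl⟩)))
  obtain ⟨bA, hbA⟩ := exists_basis RA b SA hSA
  -- the linear map
  have hlamA : ∀ r ∈ RA, ∀ i, lam r i ∈ A := by
    intro r hr i
    rw [← Subalgebra.mem_toSubmodule, hRA, Submodule.mem_span_range_iff_exists_fun] at hr
    obtain ⟨z, rfl⟩ := hr
    rw [map_sum, Finset.sum_apply]
    refine A.sum_mem fun k _ => ?_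
    have : lam (z k • v k) i = (z k : PS d K) * lam (v k) i := by
      have h1 : z k • v k = (z k : PS d K) • v k := rfl
      rw [h1, map_smul]
      rfl
    rw [this]
    exact A.mul_mem (z k).2 (hT2 k i)
  let lamA : RA →ₗ[A] (Fin ρ → A) :=
    { toFun := fun r i => ⟨lam r.1 i, hlamA r.1 r.2 i⟩
      map_add' := fun r r' => by
        funext i
        apply Subtype.ext
        change lam (r.1 + r'.1) i = lam r.1 i + lam r'.1 i
        rw [map_add]
        rfl
      map_smul' := fun z r => by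
        funext i
        apply Subtype.ext
        change lam (z.1 • r.1) i = z.1 * lam r.1 i
        rw [map_smul]
        rfl }
  let _ : Algebra A (PS d F) := ψ.toAlgebra
  let xA : Fin d → A := fun i => ⟨X i, hXA i⟩
  let vA : κ → RA := fun k => ⟨v k, hvRA k⟩
  let aA : κ → A := fun k => ⟨C (a k), haA k⟩
  let a'A : κ → J → A := fun k j => ⟨C (a' k j), ha'A k j⟩
  let GA : κ ⊕ Fin d → RA := Sum.elim (fun k => vA k - algebraMap A RA (aA k))
    (fun i => algebraMap A RA (xA i))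
  let GSA : (κ × J) ⊕ Fin d → SA :=
    Sum.elim (fun k => vA k.1 • bA k.2 - algebraMap RA SA (algebraMap A RA (a'A k.1 k.2)))
      (fun i => algebraMap RA SA (algebraMap A RA (xA i)))
  have hGA : ∀ s, (RA.val : RA →+* R) (GA s) = genR d v a s := by
    rintro (k | i)
    · rfl
    · rfl
  have hGSA : ∀ s, (SA.val : SA →+* S) (GSA s) = genS d v b a' s := by
    rintro (k | i)
    · change (v k.1 : R) • (bA k.2 : S) - algebraMap R S (algebraMap (PS d K) R (C (a' k.1 k.2))) = _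
      rw [hbA]
      rfl
    · rfl
  have hxS : ∀ i, (SA.val : SA →+* S) (algebraMap RA SA (algebraMap A RA (xA i))) =
      algebraMap R S (algebraMap (PS d K) R (X i)) := fun i => rfl
  refine Astep (F := F) (hp p hpp) (A := A) (RA := RA) (SA := SA) xA hXψ vA ?_ aA
    (fun k => haψ k) (Ideal.span (Set.range GA)) ?_ ?_ t ?_ hρ lamA ⟨D, hDA⟩ hDψ ?_ bA a'A
    (fun k j => ha'ψ k j) (Ideal.span (Set.range GSA)) ?_ ?_ c ?_ (fun i => ⟨y i, hySA i⟩) ?_ q hq
    c' ?_ (fun l => ⟨σ l, hσSA l⟩) ?_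
  · -- generation of `RA`
    rw [eq_top_iff]
    rintro ⟨r, hr⟩ -
    rw [← Subalgebra.mem_toSubmodule, hRA, Submodule.mem_span_range_iff_exists_fun] at hr
    obtain ⟨z, hz⟩ := hr
    rw [Submodule.mem_span_range_iff_exists_fun]
    refine ⟨z, Subtype.ext ?_⟩
    rw [AddSubmonoidClass.coe_finsetSum]
    exact hz
  · intro k
    exact Ideal.subset_span ⟨Sum.inl k, rfl⟩
  · intro i
    exact Ideal.subset_span ⟨Sum.inr i, rfl⟩
  · rw [span_pow_range, Ideal.span_le, span_pow_range, span_mul_range]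
    rintro _ ⟨s, rfl⟩
    refine hE1 RA (RA.val : RA →+* R) Subtype.val_injective hE1RA
      (fun s => ∏ j, GA (s j)) _ ?_ ?_ s
    · intro s
      simp only [map_prod, hGA]
    · intro s
      simp only [map_mul, map_prod, hGA]
      rfl
  · intro i
    refine ⟨⟨u i, huRA i⟩, ?_⟩
    funext i'
    apply Subtype.ext
    change lam (u i) i' = ((Pi.single i (⟨D, hDA⟩ : A) : Fin ρ → A) i' : PS d K)
    rw [hu]
    by_cases h : i' = i
    · subst h; simp
    · simp [Pi.single_eq_of_ne h]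
  · intro k j
    exact Ideal.subset_span ⟨Sum.inl (k, j), rfl⟩
  · intro i
    exact Ideal.subset_span ⟨Sum.inr i, rfl⟩
  · rw [span_pow_range, Ideal.span_le]
    rintro _ ⟨s, rfl⟩
    refine hE2 SA (SA.val : SA →+* S) Subtype.val_injective hE2SA
      (fun s => ∏ j, GSA (s j)) _ ?_ ?_ s
    · intro s
      simp only [map_prod, hGSA]
    · intro s
      rfl
  · intro i
    refine hE3 SA (SA.val : SA →+* S) Subtype.val_injective hE3SA
      (fun i => ⟨y i, hySA i⟩) _ ?_ ?_ i
    · intro s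
      rfl
    · exact hGSA
  · rw [span_pow_range, Ideal.span_le]
    rintro _ ⟨s, rfl⟩
    refine hE4 SA (SA.val : SA →+* S) Subtype.val_injective hE4SA
      (fun s : Fin c' → Fin d => ∏ j, algebraMap RA SA (algebraMap A RA (xA (s j)))) _ ?_ ?_ s
    · intro s
      simp only [map_prod, hxS]
    · intro s
      simp only [map_pow]
      rfl
  · intro α hα k j
    refine ⟨fun l => ⟨C (e α k j l), heA ⟨α, hα⟩ k j l⟩, fun l => heψ ⟨α, hα⟩ k j l, ?_⟩
    refine hE5 SA (SA.val : SA →+* S) Subtype.val_injective hE5SA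
      (fun s : (expo d c') × κ × J => algebraMap RA SA (algebraMap A RA (∏ i, xA i ^ s.1.1 i)) *
        (vA s.2.1 • bA s.2.2) - ∑ l, algebraMap A RA ⟨C (e s.1.1 s.2.1 s.2.2 l),
          heA s.1 s.2.1 s.2.2 l⟩ • (⟨σ l, hσSA l⟩ : SA)) _ ?_ ?_ (⟨α, hα⟩, k, j)
    · intro s
      have e1 : (SA.val : SA →+* S) (algebraMap RA SA (algebraMap A RA (∏ i, xA i ^ s.1.1 i))) =
          algebraMap R S (algebraMap (PS d K) R (∏ i, X i ^ s.1.1 i)) := by
        simp only [map_prod, map_pow, hxS]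
      have e2 : (SA.val : SA →+* S) (vA s.2.1 • bA s.2.2) = v s.2.1 • b s.2.2 := by
        rw [← hbA]
        rfl
      have e3 : (SA.val : SA →+* S) (∑ l, algebraMap A RA ⟨C (e s.1.1 s.2.1 s.2.2 l),
          heA s.1 s.2.1 s.2.2 l⟩ • (⟨σ l, hσSA l⟩ : SA)) =
          ∑ l, algebraMap (PS d K) R (C (e s.1.1 s.2.1 s.2.2 l)) • σ l := by
        rw [map_sum]
        rfl
      exact congrArg₂ (· - ·) (congrArg₂ (· * ·) e1 e2) e3
    · intro s
      simp only [map_pow]
      rfl

end Crest.Agent.R183.Z
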