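import Crest.Agent.R183.Z12

set_option autoImplicit false

/-! # R183 block [8b]: generic rank data -/

namespace Crest.Agent.R183.Z

open IsLocalRing

theorem rankdata {B R κ : Type} [CommRing B] [IsDomain B] [CommRing R] [Algebra B R] [Fintype κ]
    (v : κ → R) (hv : Submodule.span B (Set.range v) = ⊤)
    (hinj : Function.Injective (algebraMap B R)) :
    ∃ (ρ : ℕ) (_ : 0 < ρ) (D : B) (_ : D ≠ 0) (e : Fin ρ → R) (lam : R →ₗ[B] (Fin ρ → B))
      (phi : (Fin ρ → B) →ₗ[B] R),
      (∀ i, lam (e i) = Pi.single i D) ∧ ∀ r, D • r ∈ LinearMap.range phi := by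
  classical
  obtain ⟨s, hs, hmax⟩ := exists_maximal_linearIndepOn B v
  have hfin : Fintype s := Fintype.ofFinite s
  choose! a ha using hmax
  let a' : κ → B := fun k => if k ∈ s then 1 else a k
  have ha'0 : ∀ k, a' k ≠ 0 := by
    intro k
    by_cases hk : k ∈ s
    · simp only [a', if_pos hk]; exact one_ne_zero
    · simp only [a', if_neg hk]; exact (ha k hk).1
  have ha's : ∀ k, a' k • v k ∈ Submodule.span B (v '' s) := by
    intro k
    by_cases hk : k ∈ s
    · simp only [a', if_pos hk, one_smul]
      exact Submodule.subset_span ⟨k, hk, rfl⟩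
    · simp only [a', if_neg hk]; exact (ha k hk).2
  let D : B := ∏ k, a' k
  have hD : D ≠ 0 := Finset.prod_ne_zero_iff.2 fun k _ => ha'0 k
  have hDv : ∀ k, D • v k ∈ Submodule.span B (v '' s) := by
    intro k
    have : D = (∏ j ∈ Finset.univ.erase k, a' j) * a' k :=
      (Finset.prod_erase_mul _ _ (Finset.mem_univ k)).symm
    rw [this, mul_smul]
    exact Submodule.smul_mem _ _ (ha's k)
  have hDr : ∀ r : R, D • r ∈ Submodule.span B (v '' s) := by
    intro r
    have hr : r ∈ Submodule.span B (Set.range v) := by rw [hv]; trivial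
    rw [Submodule.mem_span_range_iff_exists_fun] at hr
    obtain ⟨c, rfl⟩ := hr
    rw [Finset.smul_sum]
    refine Submodule.sum_mem _ fun k _ => ?_
    rw [smul_comm]
    exact Submodule.smul_mem _ _ (hDv k)
  let ρ := Fintype.card s
  let eqv : Fin ρ ≃ s := (Fintype.equivFin s).symm
  let e : Fin ρ → R := fun i => v (eqv i)
  have hli : LinearIndependent B e := by
    have h1 : LinearIndependent B (fun x : s => v x) := hs
    exact h1.comp eqv eqv.injective
  have hrange : Set.range e = v '' s := by
    ext z
    constructor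
    · rintro ⟨i, rfl⟩
      exact ⟨eqv i, (eqv i).2, rfl⟩
    · rintro ⟨k, hk, rfl⟩
      refine ⟨eqv.symm ⟨k, hk⟩, ?_⟩
      simp [e]
  let phi : (Fin ρ → B) →ₗ[B] R := Fintype.linearCombination B e
  have hphi : Function.Injective phi := hli.fintypeLinearCombination_injective
  have hphir : LinearMap.range phi = Submodule.span B (v '' s) := by
    rw [← hrange]
    exact Fintype.range_linearCombination B e
  have hρ : 0 < ρ := by
    rw [Nat.pos_iff_ne_zero]
    intro h0
    have h1 : Subsingleton (Fin ρ → B) := by
      have : IsEmpty (Fin ρ) := by rw [h0]; infer_instance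
      infer_instance
    have h2 := hDr 1
    rw [← hphir] at h2
    obtain ⟨x, hx⟩ := h2
    have hx0 : x = 0 := Subsingleton.elim _ _
    rw [hx0, map_zero, Algebra.smul_def, mul_one] at hx
    exact hD (hinj (by rw [← hx, map_zero]))
  let lam : R →ₗ[B] (Fin ρ → B) := (LinearEquiv.ofInjective phi hphi).symm.toLinearMap.comp
    (LinearMap.codRestrict (LinearMap.range phi) (LinearMap.lsmul B R D)
      (fun r => by rw [hphir]; exact hDr r))
  refine ⟨ρ, hρ, D, hD, e, lam, phi, ?_, fun r => by rw [hphir]; exact hDr r⟩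
  intro i
  change (LinearEquiv.ofInjective phi hphi).symm _ = _
  rw [LinearEquiv.symm_apply_eq]
  apply Subtype.ext
  rw [LinearEquiv.ofInjective_apply]
  change D • e i = Fintype.linearCombination B e (Pi.single i D)
  rw [Fintype.linearCombination_apply_single]

end Crest.Agent.R183.Z
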