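import Crest.Agent.R183.Z13

set_option autoImplicit false

/-! # R183 block [8b]: the data of `S` -/

namespace Crest.Agent.R183.Z

open IsLocalRing MvPowerSeries Crest.Agent.R183.M Crest.Agent.R183.HS Filter
open scoped Nat Topology

variable {K : Type} [Field K] {d : ℕ}

theorem Sdata (htr : Transfer d K) (hp : ∀ p, p.Prime → MAINp p d)
    {R S : Type} [CommRing R] [CommRing S] [Algebra (PS d K) R] [Algebra R S]
    [IsLocalRing S] [IsNoetherianRing S] [Module.Free R S] [Module.Finite R S]
    {κ : Type} [Fintype κ] (v : κ → R)
    (hv : Submodule.span (PS d K) (Set.range v) = ⊤)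
    (a : κ → K) (t : ℕ)
    (hm : Ideal.span (Set.range (genR d v a)) ^ (t + 1) ≤
      Ideal.span (Set.range fun i => algebraMap (PS d K) R (X i)) *
        Ideal.span (Set.range (genR d v a)) ^ t)
    {ρ : ℕ} (hρ : 0 < ρ) (lam : R →ₗ[PS d K] (Fin ρ → PS d K)) (D : PS d K) (hD : D ≠ 0)
    (u : Fin ρ → R) (hu : ∀ i, lam (u i) = Pi.single i D)
    (hres : ∀ s : S, ∃ z : K, s - algebraMap R S (algebraMap (PS d K) R (C z)) ∈ maximalIdeal S)
    (hx : ∀ i, algebraMap R S (algebraMap (PS d K) R (X i)) ∈ maximalIdeal S) (c : ℕ)
    (hn : maximalIdeal S ^ c ≤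
      Ideal.span (Set.range fun i => algebraMap R S (algebraMap (PS d K) R (X i))))
    (y : Fin d → S) (hy : ∀ i, y i ∈ maximalIdeal S) (c2 : ℕ)
    (hy2 : maximalIdeal S ^ c2 ≤ Ideal.span (Set.range y)) (q : ℕ) (hq : 0 < q) :
    (ρ : ℝ) ≤ ((Module.length S (S ⧸ Ideal.span (Set.range fun i => y i ^ q))).toNat : ℝ) /
      (q : ℝ) ^ d := by
  classical
  let b := Module.Free.chooseBasis R S
  have hJ : Nonempty (Module.Free.ChooseBasisIndex R S) := by
    by_contra h
    rw [not_nonempty_iff] at h
    have h1 : (1 : S) = 0 := by
      rw [← b.sum_repr (1 : S)]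
      simp
    exact one_ne_zero h1
  choose res hres' using hres
  let a' : κ → Module.Free.ChooseBasisIndex R S → K := fun k j => res (v k • b j)
  have hCunit : ∀ z : K, algebraMap R S (algebraMap (PS d K) R (C z)) ∈ maximalIdeal S → z = 0 := by
    intro z hz
    by_contra h0
    have h1 : IsUnit (algebraMap R S (algebraMap (PS d K) R (C z))) :=
      (((isUnit_iff_ne_zero.2 h0).map (C (σ := Fin d) (R := K))).map
        (algebraMap (PS d K) R)).map (algebraMap R S)
    exact ((mem_maximalIdeal _).1 hz) h1
  -- the maximal ideal
  have hgen : Ideal.span (Set.range (genS d v b a')) = maximalIdeal S := by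
    apply le_antisymm
    · rw [Ideal.span_le]
      rintro _ ⟨(k | i), rfl⟩
      · exact hres' _
      · exact hx i
    · have hxg : ∀ i, algebraMap R S (algebraMap (PS d K) R (X i)) ∈
          Ideal.span (Set.range (genS d v b a')) := fun i => Ideal.subset_span ⟨Sum.inr i, rfl⟩
      have hB : ∀ f : PS d K, algebraMap R S (algebraMap (PS d K) R f) -
          algebraMap R S (algebraMap (PS d K) R (C (constantCoeff f))) ∈
          Ideal.span (Set.range (genS d v b a')) := by
        intro f
        have h1 : f - C (constantCoeff f) ∈ XI (Fin d) K := by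
          have := (mem_XI_pow_iff (σ := Fin d) (N := 1) (f := f - C (constantCoeff f))).2 ?_
          · rwa [pow_one] at this
          · intro α hα
            have : α = 0 := by
              have : α.degree = 0 := by omega
              exact (Finsupp.degree_eq_zero_iff α).1 this
            subst this
            simp
        have h2 := Ideal.mem_map_of_mem ((algebraMap R S).comp (algebraMap (PS d K) R)) h1
        rw [XI, Ideal.map_span, ← Set.range_comp] at h2
        have h3 : Ideal.span (Set.range ((algebraMap R S).comp (algebraMap (PS d K) R) ∘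
            fun i => (X i : PS d K))) ≤ Ideal.span (Set.range (genS d v b a')) := by
          rw [Ideal.span_le]
          rintro _ ⟨i, rfl⟩
          exact hxg i
        have h4 := h3 h2
        rw [map_sub] at h4
        exact h4
      have hconst : ∀ s : S, ∃ z : K, s - algebraMap R S (algebraMap (PS d K) R (C z)) ∈
          Ideal.span (Set.range (genS d v b a')) := by
        have hadd : ∀ s s' : S, (∃ z : K, s - algebraMap R S (algebraMap (PS d K) R (C z)) ∈
            Ideal.span (Set.range (genS d v b a'))) →
            (∃ z : K, s' - algebraMap R S (algebraMap (PS d K) R (C z)) ∈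
            Ideal.span (Set.range (genS d v b a'))) →
            ∃ z : K, s + s' - algebraMap R S (algebraMap (PS d K) R (C z)) ∈
            Ideal.span (Set.range (genS d v b a')) := by
          rintro s s' ⟨z, hz⟩ ⟨z', hz'⟩
          refine ⟨z + z', ?_⟩
          have := Ideal.add_mem _ hz hz'
          rw [map_add, map_add, map_add]
          convert this using 1
          ring
        have hmul : ∀ s s' : S, (∃ z : K, s - algebraMap R S (algebraMap (PS d K) R (C z)) ∈
            Ideal.span (Set.range (genS d v b a'))) →
            (∃ z : K, s' - algebraMap R S (algebraMap (PS d K) R (C z)) ∈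
            Ideal.span (Set.range (genS d v b a'))) →
            ∃ z : K, s * s' - algebraMap R S (algebraMap (PS d K) R (C z)) ∈
            Ideal.span (Set.range (genS d v b a')) := by
          rintro s s' ⟨z, hz⟩ ⟨z', hz'⟩
          refine ⟨z * z', ?_⟩
          have h1 := Ideal.mul_mem_right s' _ hz
          have h2 := Ideal.mul_mem_left _ (algebraMap R S (algebraMap (PS d K) R (C z))) hz'
          have := Ideal.add_mem _ h1 h2
          rw [map_mul, map_mul, map_mul]
          convert this using 1
          ring
        have hsum : ∀ {τ : Type} (T : Finset τ) (f : τ → S), (∀ i ∈ T, ∃ z : K,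
            f i - algebraMap R S (algebraMap (PS d K) R (C z)) ∈
            Ideal.span (Set.range (genS d v b a'))) →
            ∃ z : K, (∑ i ∈ T, f i) - algebraMap R S (algebraMap (PS d K) R (C z)) ∈
            Ideal.span (Set.range (genS d v b a')) := by
          intro τ T f hf
          exact Finset.sum_induction f (fun s => ∃ z : K,
            s - algebraMap R S (algebraMap (PS d K) R (C z)) ∈
            Ideal.span (Set.range (genS d v b a'))) hadd ⟨0, by simp⟩ hf
        intro s
        rw [← b.sum_repr s]
        refine hsum _ _ fun j _ => ?_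
        have h1 : (b.repr s j) ∈ Submodule.span (PS d K) (Set.range v) := by rw [hv]; trivial
        rw [Submodule.mem_span_range_iff_exists_fun] at h1
        obtain ⟨e, he⟩ := h1
        rw [← he, Finset.sum_smul]
        refine hsum _ _ fun k _ => ?_
        have h2 : (e k • v k) • b j = algebraMap R S (algebraMap (PS d K) R (e k)) * (v k • b j) := by
          rw [Algebra.smul_def (e k), mul_smul, Algebra.smul_def (algebraMap (PS d K) R (e k))]
        rw [h2]
        refine hmul _ _ ⟨_, hB (e k)⟩ ⟨a' k j, Ideal.subset_span ⟨Sum.inl (k, j), rfl⟩⟩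
      have hle : Ideal.span (Set.range (genS d v b a')) ≤ maximalIdeal S := by
        rw [Ideal.span_le]
        rintro _ ⟨(k | i), rfl⟩
        · exact hres' _
        · exact hx i
      intro s hs
      obtain ⟨z, hz⟩ := hconst s
      have h1 : algebraMap R S (algebraMap (PS d K) R (C z)) ∈ maximalIdeal S := by
        have := Ideal.sub_mem _ hs (hle hz)
        rwa [sub_sub_cancel] at this
      have h2 := hCunit z h1
      rw [h2] at hz
      simpa using hz
  -- parameters
  obtain ⟨c', hc'⟩ := pow_le_span_pow y (maximalIdeal S) hy2 q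
  have hxle : Ideal.span (Set.range fun i => algebraMap R S (algebraMap (PS d K) R (X i))) ≤
      maximalIdeal S := by
    rw [Ideal.span_le]
    rintro _ ⟨i, rfl⟩
    exact hx i
  set Q : Ideal S := Ideal.span (Set.range fun i => y i ^ q) with hQ
  -- vector space structure
  let _ : Algebra K S :=
    ((algebraMap R S).comp ((algebraMap (PS d K) R).comp (C (σ := Fin d) (R := K)))).toAlgebra
  have halg : ∀ z : K, algebraMap K S z = algebraMap R S (algebraMap (PS d K) R (C z)) :=
    fun z => rfl
  have hsurj : Function.Surjective (fun z : K => residue S (algebraMap K S z)) := by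
    intro w
    obtain ⟨s, rfl⟩ := residue_surjective w
    refine ⟨res s, ?_⟩
    change residue S _ = residue S s
    rw [eq_comm, ← sub_eq_zero, ← map_sub, residue_eq_zero_iff]
    exact hres' s
  have hlen : Module.length K (S ⧸ Q) = Module.length S (S ⧸ Q) := length_restrict_eq K hsurj
  have hfin : Module.length S (S ⧸ Q) ≠ ⊤ := length_quot_pow_ne_top y hy2 q
  have hfinK : Module.Finite K (S ⧸ Q) := by
    have h1 : Module.length K (S ⧸ Q) ≠ ⊤ := by rw [hlen]; exact hfin
    rw [Module.length_ne_top_iff] at h1
    have h2 := isFiniteLength_iff_isNoetherian_isArtinian.1 h1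
    exact @Module.IsNoetherian.finite K (S ⧸ Q) _ _ _ h2.1
  set L := Module.finrank K (S ⧸ Q) with hL
  have hLlen : (Module.length S (S ⧸ Q)).toNat = L := by
    rw [← hlen, Module.length_eq_finrank]
    rfl
  rw [hLlen]
  let bb : Module.Basis (Fin L) K (S ⧸ Q) := Module.finBasis K (S ⧸ Q)
  have hlift : ∀ l, ∃ s : S, Ideal.Quotient.mk Q s = bb l := fun l => Ideal.Quotient.mk_surjective _
  choose σ hσ using hlift
  refine Kstep htr hp v hv b a t hm hρ lam D hD u hu a' c (by rw [hgen]; exact hn) y
    (by rw [hgen]; exact hy) q hq c' ((Ideal.pow_right_mono hxle c').trans hc') σ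
    (fun α k j l => bb.repr (Ideal.Quotient.mk Q
      (algebraMap R S (algebraMap (PS d K) R (∏ i, X i ^ α i)) * (v k • b j))) l) ?_
  intro α _ k j
  rw [← Ideal.Quotient.eq_zero_iff_mem, map_sub, sub_eq_zero, map_sum]
  conv_lhs => rw [← bb.sum_repr (Ideal.Quotient.mk Q
      (algebraMap R S (algebraMap (PS d K) R (∏ i, X i ^ α i)) * (v k • b j)))]
  refine Finset.sum_congr rfl fun l _ => ?_
  rw [← hσ l, Algebra.smul_def (algebraMap (PS d K) R _) (σ l), map_mul]
  rw [Algebra.smul_def]
  rfl

end Crest.Agent.R183.Z
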