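import Mathlib.RingTheory.LocalRing.Module
import Mathlib.RingTheory.Flat.Basic
import Mathlib.RingTheory.Noetherian.Basic

set_option autoImplicit false

/-! # R183 block [8b]: flatness over an extension with the same closed fibre -/

namespace Crest.Agent.R183.Z

open IsLocalRing TensorProduct

theorem free_of_residue_ext {R R' S : Type} [CommRing R] [CommRing R'] [CommRing S] [IsLocalRing R]
    [IsLocalRing R'] [IsNoetherianRing R'] [Algebra R R'] [Algebra R' S] [Algebra R S]
    [IsScalarTower R R' S] [Module.Flat R S] [Module.Finite R' S]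
    (hmap : (maximalIdeal R).map (algebraMap R R') = maximalIdeal R') : Module.Free R' S := by
  have hfp : Module.FinitePresentation R' S := Module.finitePresentation_of_finite R' S
  have hmem : ∀ i : maximalIdeal R, algebraMap R R' i.1 ∈ maximalIdeal R' := fun i => by
    rw [← hmap]; exact Ideal.mem_map_of_mem _ i.2
  let g : (maximalIdeal R) ⊗[R] S →ₗ[R] (maximalIdeal R') ⊗[R'] S :=
    TensorProduct.lift (LinearMap.mk₂ R
      (fun (i : maximalIdeal R) (s : S) => ((⟨algebraMap R R' i.1, hmem i⟩ : maximalIdeal R') ⊗ₜ[R'] s))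
      (fun i j s => by
        rw [← TensorProduct.add_tmul]
        congr 1
        apply Subtype.ext
        exact map_add _ _ _)
      (fun r i s => by
        rw [TensorProduct.smul_tmul']
        congr 1
        apply Subtype.ext
        change algebraMap R R' (r * i.1) = r • algebraMap R R' i.1
        rw [map_mul, Algebra.smul_def])
      (fun i s s' => TensorProduct.tmul_add _ _ _)
      (fun r i s => by
        rw [← algebraMap_smul R' r s, TensorProduct.tmul_smul, TensorProduct.smul_tmul',
          TensorProduct.smul_tmul']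
        congr 1
        apply Subtype.ext
        change algebraMap R R' r • algebraMap R R' i.1 = r • algebraMap R R' i.1
        rw [algebraMap_smul]))
  have hg : ∀ (i : maximalIdeal R) (s : S), g (i ⊗ₜ s) =
      ((⟨algebraMap R R' i.1, hmem i⟩ : maximalIdeal R') ⊗ₜ[R'] s) := fun i s => rfl
  have hsurj : Function.Surjective g := by
    have key : ∀ i' ∈ maximalIdeal R', ∃ h : i' ∈ maximalIdeal R', ∀ s : S,
        ((⟨i', h⟩ : maximalIdeal R') ⊗ₜ[R'] s) ∈ LinearMap.range g := by
      intro i' hi'
      rw [← hmap, Ideal.map] at hi'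
      induction hi' using Submodule.span_induction with
      | mem x hx =>
        obtain ⟨i, hi, rfl⟩ := hx
        exact ⟨hmem ⟨i, hi⟩, fun s => ⟨(⟨i, hi⟩ : maximalIdeal R) ⊗ₜ s, rfl⟩⟩
      | zero =>
        refine ⟨Submodule.zero_mem _, fun s => ?_⟩
        have : (⟨0, Submodule.zero_mem _⟩ : maximalIdeal R') = 0 := rfl
        rw [this, TensorProduct.zero_tmul]
        exact Submodule.zero_mem _
      | add x y _ _ hx hy =>
        obtain ⟨h1, h2⟩ := hx
        obtain ⟨h3, h4⟩ := hy
        refine ⟨Submodule.add_mem _ h1 h3, fun s => ?_⟩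
        have : (⟨x + y, Submodule.add_mem _ h1 h3⟩ : maximalIdeal R') =
          ⟨x, h1⟩ + ⟨y, h3⟩ := rfl
        rw [this, TensorProduct.add_tmul]
        exact Submodule.add_mem _ (h2 s) (h4 s)
      | smul r x _ hx =>
        obtain ⟨h1, h2⟩ := hx
        refine ⟨Submodule.smul_mem _ _ h1, fun s => ?_⟩
        have : (⟨r • x, Submodule.smul_mem _ _ h1⟩ : maximalIdeal R') = r • ⟨x, h1⟩ := rfl
        rw [this, TensorProduct.smul_tmul]
        exact h2 (r • s)
    intro z
    induction z using TensorProduct.induction_on with
    | zero => exact ⟨0, map_zero _⟩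
    | add z1 z2 h1 h2 =>
      obtain ⟨w1, rfl⟩ := h1
      obtain ⟨w2, rfl⟩ := h2
      exact ⟨w1 + w2, map_add _ _ _⟩
    | tmul i' s =>
      obtain ⟨h, h'⟩ := key i'.1 i'.2
      exact h' s
  have hcomp : ∀ w, TensorProduct.lid R' S ((maximalIdeal R').subtype.rTensor S (g w)) =
      TensorProduct.lid R S ((maximalIdeal R).subtype.rTensor S w) := by
    intro w
    induction w using TensorProduct.induction_on with
    | zero => simp
    | add z1 z2 h1 h2 => rw [map_add, map_add, map_add, h1, h2, map_add, map_add]
    | tmul i s =>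
      rw [hg, LinearMap.rTensor_tmul, LinearMap.rTensor_tmul, TensorProduct.lid_tmul,
        TensorProduct.lid_tmul]
      exact algebraMap_smul R' i.1 s
  have hflat : Function.Injective ((maximalIdeal R).subtype.rTensor S) :=
    Module.Flat.rTensor_preserves_injective_linearMap (M := S) _ (Submodule.subtype_injective _)
  apply Module.free_of_maximalIdeal_rTensor_injective
  rw [injective_iff_map_eq_zero]
  intro z hz
  obtain ⟨w, rfl⟩ := hsurj z
  have h1 := hcomp w
  rw [hz, map_zero] at h1
  have h2 : (maximalIdeal R).subtype.rTensor S w = 0 :=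
    (TensorProduct.lid R S).injective (by rw [← h1, map_zero])
  have h3 : w = 0 := hflat (by rw [h2, map_zero])
  rw [h3, map_zero]

end Crest.Agent.R183.Z
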