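import Crest.Agent.R183.Z14
import Crest.Agent.R183.Z15
import Crest.Agent.R183.HSRank

set_option autoImplicit false

/-! # R183 block [8b]: equal characteristic zero, abstract form -/

namespace Crest.Agent.R183.Z

open IsLocalRing MvPowerSeries Crest.Agent.R183.M Crest.Agent.R183.HS Filter TensorProduct
open scoped Nat Topology

variable {K : Type} [Field K] {d : ℕ}

theorem genR_span_eq {R κ : Type} [CommRing R] [IsLocalRing R] [Algebra (PS d K) R] [Fintype κ]
    (v : κ → R) (hv : Submodule.span (PS d K) (Set.range v) = ⊤) (a : κ → K)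
    (ha : ∀ k, v k - algebraMap (PS d K) R (C (a k)) ∈ maximalIdeal R)
    (hx : ∀ i, algebraMap (PS d K) R (X i) ∈ maximalIdeal R) :
    Ideal.span (Set.range (genR d v a)) = maximalIdeal R := by
  classical
  have hle : Ideal.span (Set.range (genR d v a)) ≤ maximalIdeal R := by
    rw [Ideal.span_le]
    rintro _ ⟨(k | i), rfl⟩
    · exact ha k
    · exact hx i
  apply le_antisymm hle
  have hxg : ∀ i, algebraMap (PS d K) R (X i) ∈
      Ideal.span (Set.range (genR d v a)) := fun i => Ideal.subset_span ⟨Sum.inr i, rfl⟩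
  have hB : ∀ f : PS d K, algebraMap (PS d K) R f -
      algebraMap (PS d K) R (C (constantCoeff f)) ∈ Ideal.span (Set.range (genR d v a)) := by
    intro f
    have h1 : f - C (constantCoeff f) ∈ XI (Fin d) K := by
      have := (mem_XI_pow_iff (σ := Fin d) (N := 1) (f := f - C (constantCoeff f))).2 ?_
      · rwa [pow_one] at this
      · intro α hα
        have : α = 0 := by
          have : α.degree = 0 := by omega
          exact (Finsupp.degree_eq_zero_iff α).1 this
        subst this
        simp
    have h2 := Ideal.mem_map_of_mem (algebraMap (PS d K) R) h1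
    rw [XI, Ideal.map_span, ← Set.range_comp] at h2
    have h3 : Ideal.span (Set.range (algebraMap (PS d K) R ∘
        fun i => (X i : PS d K))) ≤ Ideal.span (Set.range (genR d v a)) := by
      rw [Ideal.span_le]
      rintro _ ⟨i, rfl⟩
      exact hxg i
    have h4 := h3 h2
    rw [map_sub] at h4
    exact h4
  intro s hs
  have h1 : s ∈ Submodule.span (PS d K) (Set.range v) := by rw [hv]; trivial
  rw [Submodule.mem_span_range_iff_exists_fun] at h1
  obtain ⟨e, he⟩ := h1
  set z : K := ∑ k, constantCoeff (e k) * a k with hz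
  have h2 : s - algebraMap (PS d K) R (C z) ∈ Ideal.span (Set.range (genR d v a)) := by
    have h3 : s - algebraMap (PS d K) R (C z) = ∑ k, ((algebraMap (PS d K) R (e k) -
        algebraMap (PS d K) R (C (constantCoeff (e k)))) * v k +
        algebraMap (PS d K) R (C (constantCoeff (e k))) *
          (v k - algebraMap (PS d K) R (C (a k)))) := by
      rw [hz, map_sum, map_sum, ← he, ← Finset.sum_sub_distrib]
      refine Finset.sum_congr rfl fun k _ => ?_
      rw [Algebra.smul_def, map_mul, map_mul]
      ring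
    rw [h3]
    refine Ideal.sum_mem _ fun k _ => Ideal.add_mem _ (Ideal.mul_mem_right _ _ (hB _))
      (Ideal.mul_mem_left _ _ (Ideal.subset_span ⟨Sum.inl k, rfl⟩))
  have h4 : algebraMap (PS d K) R (C z) ∈ maximalIdeal R := by
    have := Ideal.sub_mem _ hs (hle h2)
    rwa [sub_sub_cancel] at this
  have h5 : z = 0 := by
    by_contra h0
    have h6 : IsUnit (algebraMap (PS d K) R (C z)) :=
      ((isUnit_iff_ne_zero.2 h0).map (C (σ := Fin d) (R := K))).map (algebraMap (PS d K) R)
    exact ((mem_maximalIdeal _).1 h4) h6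
  rw [h5] at h2
  simpa using h2

set_option maxHeartbeats 1000000 in
theorem eq0_abs (htr : Transfer d K) (hp : ∀ p, p.Prime → MAINp p d) {k : Type} [Field k]
    [Algebra (PS d k) (PS d K)] (hinjk : Function.Injective (algebraMap (PS d k) (PS d K)))
    (hX : ∀ i, algebraMap (PS d k) (PS d K) (X i) = X i)
    (hC : ∀ a : k, ∃ z : K, algebraMap (PS d k) (PS d K) (C a) = C z)
    {R S : Type} [CommRing R] [CommRing S] [IsLocalRing R] [IsNoetherianRing R] [IsLocalRing S]
    [IsNoetherianRing S] [Algebra (PS d k) R] [Module.Finite (PS d k) R]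
    (hinj : Function.Injective (algebraMap (PS d k) R))
    [Algebra R S] [Module.Flat R S] [Algebra (PS d K) S] [Module.Finite (PS d K) S]
    (hcompat : ∀ f, algebraMap R S (algebraMap (PS d k) R f) =
      algebraMap (PS d K) S (algebraMap (PS d k) (PS d K) f))
    (hresR : ∀ r : R, ∃ a : k, r - algebraMap (PS d k) R (C a) ∈ maximalIdeal R)
    (hxR : ∀ i, algebraMap (PS d k) R (X i) ∈ maximalIdeal R) (t : ℕ)
    (hm : maximalIdeal R ^ (t + 1) ≤
      Ideal.span (Set.range fun i => algebraMap (PS d k) R (X i)) * maximalIdeal R ^ t)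
    (hresS : ∀ s : S, ∃ z : K, s - algebraMap (PS d K) S (C z) ∈ maximalIdeal S)
    (hxS : ∀ i, algebraMap (PS d K) S (X i) ∈ maximalIdeal S) (c : ℕ)
    (hn : maximalIdeal S ^ c ≤ Ideal.span (Set.range fun i => algebraMap (PS d K) S (X i)))
    (y : Fin d → S) (hy : ∀ i, y i ∈ maximalIdeal S) (c2 : ℕ)
    (hy2 : maximalIdeal S ^ (c2 + 1) = Ideal.span (Set.range y) * maximalIdeal S ^ c2) :
    ∃ c : ℝ, UBf (hs R R) d c ∧ LBf (hs S S) d c := by
  classical
  -- rank data of `R`
  obtain ⟨nv, v, hv⟩ := Module.Finite.exists_fin (R := PS d k) (M := R)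
  obtain ⟨ρ, hρ, D, hD, e, lam, phi, hlam, hphi⟩ := rankdata v hv hinj
  choose resR hresR' using hresR
  have hspanR := genR_span_eq v hv (fun j => resR (v j)) (fun j => hresR' _) hxR
  -- upper bound for `R`
  have hUB : UBf (hs R R) d ρ := by
    have h1 : UBf (hs (PS d k) R) d ρ := by
      have := UBf_of_map (ringKrullDim_PS_le d k) (UBf_PS d k) phi D hD hphi
      rwa [mul_one] at this
    refine h1.mono_left fun N => ?_
    refine hs_le_of_finite ?_ N
    rw [map_XI_eq, Ideal.span_le]
    rintro _ ⟨i, rfl⟩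
    exact hxR i
  refine ⟨ρ, hUB, ?_⟩
  -- base change
  let _ : Algebra R (PS d K ⊗[PS d k] R) := Algebra.TensorProduct.rightAlgebra
  have hright : ∀ r : R, algebraMap R (PS d K ⊗[PS d k] R) r = 1 ⊗ₜ r := fun r => rfl
  have hkey : ∀ r : PS d k, algebraMap R (PS d K ⊗[PS d k] R) (algebraMap (PS d k) R r) =
      algebraMap (PS d K) (PS d K ⊗[PS d k] R) (algebraMap (PS d k) (PS d K) r) := by
    intro r
    have h1 : algebraMap R (PS d K ⊗[PS d k] R) (algebraMap (PS d k) R r) =
        algebraMap (PS d k) (PS d K ⊗[PS d k] R) r :=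
      (Algebra.TensorProduct.includeRight : R →ₐ[PS d k] PS d K ⊗[PS d k] R).commutes r
    rw [h1]
    exact IsScalarTower.algebraMap_apply (PS d k) (PS d K) (PS d K ⊗[PS d k] R) r
  choose zk hzk using hC
  -- the map to `S`
  let _ : Algebra (PS d k) S := ((algebraMap R S).comp (algebraMap (PS d k) R)).toAlgebra
  have htow1 : IsScalarTower (PS d k) R S := IsScalarTower.of_algebraMap_eq' rfl
  have htow2 : IsScalarTower (PS d k) (PS d K) S := IsScalarTower.of_algebraMap_eq' (by
    ext f
    exact hcompat f)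
  let θ : (PS d K ⊗[PS d k] R) →ₐ[PS d k] S := Algebra.TensorProduct.productMap
    (IsScalarTower.toAlgHom (PS d k) (PS d K) S) (IsScalarTower.toAlgHom (PS d k) R S)
  let _ : Algebra (PS d K ⊗[PS d k] R) S := θ.toRingHom.toAlgebra
  have hθ1 : ∀ f : PS d K, algebraMap (PS d K ⊗[PS d k] R) S
      (algebraMap (PS d K) (PS d K ⊗[PS d k] R) f) = algebraMap (PS d K) S f := by
    intro f
    change θ (f ⊗ₜ 1) = _
    rw [Algebra.TensorProduct.productMap_left_apply]
    rfl
  have hθ2 : ∀ r : R, algebraMap (PS d K ⊗[PS d k] R) S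
      (algebraMap R (PS d K ⊗[PS d k] R) r) = algebraMap R S r := by
    intro r
    change θ (1 ⊗ₜ r) = _
    rw [Algebra.TensorProduct.productMap_right_apply]
    rfl
  have htow3 : IsScalarTower (PS d K) (PS d K ⊗[PS d k] R) S :=
    IsScalarTower.of_algebraMap_eq fun f => (hθ1 f).symm
  have htow4 : IsScalarTower R (PS d K ⊗[PS d k] R) S :=
    IsScalarTower.of_algebraMap_eq fun f => (hθ2 f).symm
  have hnt : Nontrivial (PS d K ⊗[PS d k] R) :=
    RingHom.domain_nontrivial (algebraMap (PS d K ⊗[PS d k] R) S)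
  have hfinR' : Module.Finite (PS d K) (PS d K ⊗[PS d k] R) := inferInstance
  have hNR' : IsNoetherianRing (PS d K ⊗[PS d k] R) := IsNoetherianRing.of_finite (PS d K) _
  have hfinS : Module.Finite (PS d K ⊗[PS d k] R) S :=
    Module.Finite.of_restrictScalars_finite (PS d K) (PS d K ⊗[PS d k] R) S
  -- generators of `R'`
  let v' : Fin nv → PS d K ⊗[PS d k] R := fun j => algebraMap R _ (v j)
  have hv' : Submodule.span (PS d K) (Set.range v') = ⊤ := by
    rw [eq_top_iff]
    rintro s -
    induction s using TensorProduct.induction_on with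
    | zero => exact Submodule.zero_mem _
    | add s1 s2 h1 h2 => exact Submodule.add_mem _ h1 h2
    | tmul f r =>
      have h1 : r ∈ Submodule.span (PS d k) (Set.range v) := by rw [hv]; trivial
      rw [Submodule.mem_span_range_iff_exists_fun] at h1
      obtain ⟨e, rfl⟩ := h1
      rw [TensorProduct.tmul_sum]
      refine Submodule.sum_mem _ fun j _ => ?_
      have h2 : f ⊗ₜ[PS d k] (e j • v j) = (f * algebraMap (PS d k) (PS d K) (e j)) •
          algebraMap R (PS d K ⊗[PS d k] R) (v j) := by
        rw [hright, TensorProduct.smul_tmul', TensorProduct.tmul_smul, TensorProduct.smul_tmul']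
        congr 1
        rw [Algebra.smul_def, smul_eq_mul, mul_one, mul_comm]
      rw [h2]
      exact Submodule.smul_mem _ _ (Submodule.subset_span ⟨j, rfl⟩)
  let a' : Fin nv → K := fun j => zk (resR (v j))
  have hgen' : ∀ s, genR d v' a' s = algebraMap R (PS d K ⊗[PS d k] R)
      (genR d v (fun j => resR (v j)) s) := by
    rintro (j | i)
    · change algebraMap R _ (v j) - algebraMap (PS d K) _ (C (zk (resR (v j)))) =
        algebraMap R _ (v j - algebraMap (PS d k) R (C (resR (v j))))
      rw [map_sub, hkey, hzk]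
    · change algebraMap (PS d K) _ (X i) = algebraMap R _ (algebraMap (PS d k) R (X i))
      rw [hkey, hX]
  have hspan' : Ideal.span (Set.range (genR d v' a')) =
      (maximalIdeal R).map (algebraMap R (PS d K ⊗[PS d k] R)) := by
    rw [← hspanR, Ideal.map_span, ← Set.range_comp]
    congr 2
    funext s
    exact hgen' s
  have hxspan : (Ideal.span (Set.range fun i => algebraMap (PS d k) R (X i))).map
      (algebraMap R (PS d K ⊗[PS d k] R)) =
      Ideal.span (Set.range fun i => algebraMap (PS d K) (PS d K ⊗[PS d k] R) (X i)) := by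
    rw [Ideal.map_span, ← Set.range_comp]
    congr 2
    funext i
    change algebraMap R _ (algebraMap (PS d k) R (X i)) = _
    rw [hkey, hX]
  have hm' : Ideal.span (Set.range (genR d v' a')) ^ (t + 1) ≤
      Ideal.span (Set.range fun i => algebraMap (PS d K) (PS d K ⊗[PS d k] R) (X i)) *
        Ideal.span (Set.range (genR d v' a')) ^ t := by
    have := Ideal.map_mono (f := algebraMap R (PS d K ⊗[PS d k] R)) hm
    rw [Ideal.map_pow, Ideal.map_mul, Ideal.map_pow, hxspan, ← hspan'] at this
    exact this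
  -- `R'` is local
  obtain ⟨hloc', hmax', -⟩ := local_of_cert v' hv' a' (Ideal.span (Set.range (genR d v' a')))
    (fun j => Ideal.subset_span ⟨Sum.inl j, rfl⟩) (fun i => Ideal.subset_span ⟨Sum.inr i, rfl⟩)
    (t + 1) (hm'.trans Ideal.mul_le_left)
  have hfree : Module.Free (PS d K ⊗[PS d k] R) S :=
    free_of_residue_ext (R := R) (R' := PS d K ⊗[PS d k] R) (S := S) (by rw [hmax', hspan'])
  -- the linear map
  let l1 : R →ₗ[PS d k] (Fin ρ → PS d K) :=
    LinearMap.pi fun i => (Algebra.linearMap (PS d k) (PS d K)).comp ((LinearMap.proj i).comp lam)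
  have hl1 : ∀ r i, l1 r i = algebraMap (PS d k) (PS d K) (lam r i) := fun r i => rfl
  let lam' : (PS d K ⊗[PS d k] R) →ₗ[PS d K] (Fin ρ → PS d K) := LinearMap.liftBaseChange (PS d K) l1
  have hlam' : ∀ i, lam' (algebraMap R _ (e i)) =
      Pi.single i (algebraMap (PS d k) (PS d K) D) := by
    intro i
    rw [hright]
    change LinearMap.liftBaseChange (PS d K) l1 (1 ⊗ₜ e i) = _
    rw [LinearMap.liftBaseChange_tmul, one_smul]
    funext j
    rw [hl1, hlam]
    by_cases hij : j = i
    · subst hij
      simp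
    · simp [Pi.single_eq_of_ne hij]
  have hD' : algebraMap (PS d k) (PS d K) D ≠ 0 := fun h => hD (hinjk (by rw [h, map_zero]))
  -- parameters
  have hy3 : maximalIdeal S ^ (c2 + 1) ≤ Ideal.span (Set.range y) := by
    rw [hy2]; exact Ideal.mul_le_left
  have key : ∀ q : ℕ, 0 < q → (ρ : ℝ) ≤
      ((Module.length S (S ⧸ Ideal.span (Set.range fun i => y i ^ q))).toNat : ℝ) /
      (q : ℝ) ^ d := by
    intro q hq
    refine Sdata htr hp v' hv' a' t hm' hρ lam' _ hD' _ hlam' ?_ ?_ c ?_ y hy (c2 + 1) hy3 q hq
    · intro s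
      obtain ⟨z, hz⟩ := hresS s
      exact ⟨z, by rw [hθ1]; exact hz⟩
    · intro i
      rw [hθ1]
      exact hxS i
    · refine hn.trans (le_of_eq ?_)
      congr 2
      funext i
      rw [hθ1]
  rcases Nat.eq_zero_or_pos d with hd0 | hd0
  · -- dimension zero
    subst hd0
    have h1 := key 1 one_pos
    rw [pow_zero, div_one] at h1
    have hbot : ∀ z : Fin 0 → S, Ideal.span (Set.range z) = ⊥ := by
      intro z
      rw [Set.range_eq_empty, Ideal.span_empty]
    rw [hbot] at hy3
    intro ε hε
    filter_upwards [eventually_ge_atTop (c2 + 1)] with N hN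
    have h2 : maximalIdeal S ^ N = ⊥ := by
      rw [eq_bot_iff]
      exact (Ideal.pow_le_pow_right hN).trans hy3
    rw [M.hs_self, h2]
    rw [hbot] at h1
    simp only [pow_zero, mul_one, Nat.factorial_zero, Nat.cast_one, one_mul]
    linarith
  · obtain ⟨r, C', hUBS, hLBS, hlen, -⟩ := rank_theorem y hy c2 hy2
    have h2 : (ρ : ℝ) ≤ r := by
      have h3 : ∀ q : ℕ, 0 < q → (ρ : ℝ) ≤ r + (C' : ℝ) / q := by
        intro q hq
        refine (key q hq).trans ?_
        have h4 : (Module.length S (S ⧸ Ideal.span (Set.range fun i => y i ^ q))).toNat ≤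
            r * q ^ d + C' * q ^ (d - 1) := by
          have := ENat.toNat_le_toNat (hlen q) (ENat.natCast_ne_top _)
          rwa [ENat.toNat_natCast] at this
        have h5 : ((Module.length S (S ⧸ Ideal.span (Set.range fun i => y i ^ q))).toNat : ℝ) ≤
            r * (q : ℝ) ^ d + C' * (q : ℝ) ^ (d - 1) := by exact_mod_cast h4
        have hq' : (0 : ℝ) < q := by exact_mod_cast hq
        rw [div_le_iff₀ (by positivity)]
        refine h5.trans (le_of_eq ?_)
        have h6 : (q : ℝ) ^ d = q * (q : ℝ) ^ (d - 1) := by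
          rw [← pow_succ']
          congr 1
          omega
        rw [add_mul]
        congr 1
        rw [h6]
        field_simp
      have h4 : Tendsto (fun q : ℕ => (r : ℝ) + (C' : ℝ) / (q : ℝ)) atTop (𝓝 ((r : ℝ) + 0)) :=
        tendsto_const_nhds.add (tendsto_const_div_atTop_nhds_zero_nat (C' : ℝ))
      rw [add_zero] at h4
      exact ge_of_tendsto h4 (by
        filter_upwards [eventually_gt_atTop 0] with q hq
        exact h3 q hq)
    exact hLBS.mono h2

end Crest.Agent.R183.Z
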