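import Crest.Agent.R183.Z17
import Crest.Agent.R183.Top

set_option autoImplicit false

/-! # R183 block [8b]: the core in residue characteristic zero follows from characteristic `p` -/

namespace Crest.Agent.R183.Z

open IsLocalRing Crest.Agent.R183.M Crest.Agent.R183.Top

theorem mainp_of_coreEqual {p : ℕ} (hp : p.Prime) (H : CoreEqual.{0, 0} p) (d : ℕ) :
    MAINp p d := by
  intro R S _ _ _ _ _ _ _ _ _ _ hd hd'
  exact lechC_of_coreEqual p hp H R S (CharP.cast_eq_zero R p) d d hd hd'

/-- **(Z)**: the case of residue characteristic zero. -/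
theorem coreZero_of_coreEqual (H : ∀ p : ℕ, p.Prime → CoreEqual.{0, 0} p) : CoreZero.{0, 0} := by
  intro d R S
  intros
  rename_i hdR hdS
  exact eqchar0 (d + 1) (fun p hp => mainp_of_coreEqual hp (H p hp) (d + 1)) R S inferInstance
    hdR hdS

end Crest.Agent.R183.Z
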