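import Mathlib.RingTheory.LocalRing.ResidueField.Basic
import Mathlib.RingTheory.SimpleModule.Basic
import Mathlib.RingTheory.FiniteLength
import Mathlib.RingTheory.Length
import Mathlib.LinearAlgebra.Dimension.Constructions
import Mathlib.RingTheory.Jacobson.Ideal

set_option autoImplicit false

/-! # R183 block [8b]: lengths over a subring with the same residue field -/

namespace Crest.Agent.R183.Z

open IsLocalRing

theorem length_le_length_restrict (A : Type*) {R M : Type*} [CommRing A] [CommRing R] [Algebra A R]
    [AddCommGroup M] [Module R M] [Module A M] [IsScalarTower A R M] :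
    Module.length R M ≤ Module.length A M := by
  rw [← WithBot.coe_le_coe, Module.coe_length, Module.coe_length]
  exact Order.krullDim_le_of_orderEmbedding (Submodule.restrictScalarsEmbedding A R M)

theorem isSimpleModule_restrict (A : Type*) {R M : Type*} [CommRing A] [CommRing R] [IsLocalRing R]
    [Algebra A R] (hres : Function.Surjective (fun a : A => residue R (algebraMap A R a)))
    [AddCommGroup M] [Module R M] [Module A M] [IsScalarTower A R M] [IsSimpleModule R M] :
    IsSimpleModule A M := by
  have hkill : ∀ r ∈ maximalIdeal R, ∀ x : M, r • x = 0 := by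
    intro r hr x
    have h1 : Module.annihilator R M = maximalIdeal R := by
      have := IsSimpleModule.annihilator_isMaximal (R := R) (M := M)
      exact IsLocalRing.eq_maximalIdeal this
    rw [← h1, Module.mem_annihilator] at hr
    exact hr x
  rw [isSimpleModule_iff_toSpanSingleton_surjective]
  have hs := (isSimpleModule_iff_toSpanSingleton_surjective (R := R) (M := M)).1 inferInstance
  refine ⟨hs.1, fun x hx y => ?_⟩
  obtain ⟨r, hr⟩ := hs.2 x hx y
  obtain ⟨a, ha⟩ := hres (residue R r)
  refine ⟨a, ?_⟩
  have hmem : r - algebraMap A R a ∈ maximalIdeal R := by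
    rw [← residue_eq_zero_iff, map_sub, sub_eq_zero]
    exact ha.symm
  have := hkill _ hmem x
  rw [sub_smul, sub_eq_zero] at this
  simp only [LinearMap.toSpanSingleton_apply] at hr ⊢
  rw [← algebraMap_smul R a x, ← this, hr]

theorem length_restrict_aux (A : Type*) {R : Type*} [CommRing A] [CommRing R] [IsLocalRing R]
    [Algebra A R] (hres : Function.Surjective (fun a : A => residue R (algebraMap A R a))) (n : ℕ) :
    ∀ (M : Type*) [AddCommGroup M] [Module R M] [Module A M] [IsScalarTower A R M],
      Module.length R M = n → Module.length A M = n := by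
  induction n using Nat.strong_induction_on with
  | _ n ih =>
  intro M _ _ _ _ hM
  have hfin : IsFiniteLength R M := by
    rw [← Module.length_ne_top_iff, hM]
    exact ENat.natCast_ne_top n
  cases hfin with
  | of_subsingleton =>
    rw [Module.length_eq_zero] at hM ⊢
    exact hM
  | @of_simple_quotient _ _ _ N _ hN =>
    have h1 := Module.length_eq_add_of_exact (R := R) N.subtype N.mkQ
      (Submodule.subtype_injective _) (Submodule.mkQ_surjective _)
      (LinearMap.exact_subtype_mkQ N)
    have e1 : Function.Injective (N.subtype.restrictScalars A) := fun a b h => Subtype.ext h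
    have e2 : Function.Surjective (N.mkQ.restrictScalars A) := fun x => N.mkQ_surjective x
    have e3 : Function.Exact (N.subtype.restrictScalars A) (N.mkQ.restrictScalars A) :=
      fun x => LinearMap.exact_subtype_mkQ N x
    have h2 := Module.length_eq_add_of_exact (R := A) (N.subtype.restrictScalars A)
      (N.mkQ.restrictScalars A) e1 e2 e3
    have h3 : IsSimpleModule A (M ⧸ N) := isSimpleModule_restrict A hres
    rw [hM, Module.length_eq_one (R := R) (M := M ⧸ N)] at h1
    rw [Module.length_eq_one (R := A) (M := M ⧸ N)] at h2
    have h4 : Module.length R N ≠ ⊤ := Module.length_ne_top_iff.2 hN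
    obtain ⟨k, hk⟩ := ENat.ne_top_iff_exists.1 h4
    rw [← hk] at h1
    have h5 : n = k + 1 := by exact_mod_cast h1
    have h6 := ih k (by omega) N hk.symm
    rw [h2, h6, h5]
    push_cast
    rfl

theorem length_restrict_eq (A : Type*) {R M : Type*} [CommRing A] [CommRing R] [IsLocalRing R]
    [Algebra A R] (hres : Function.Surjective (fun a : A => residue R (algebraMap A R a)))
    [AddCommGroup M] [Module R M] [Module A M] [IsScalarTower A R M] :
    Module.length A M = Module.length R M := by
  by_cases hM : Module.length R M = ⊤
  · rw [hM]
    exact top_le_iff.1 (hM ▸ length_le_length_restrict A)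
  · obtain ⟨k, hk⟩ := ENat.ne_top_iff_exists.1 hM
    rw [← hk]
    exact length_restrict_aux A hres k M hk.symm

end Crest.Agent.R183.Z
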