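import Crest.Agent.R183.M2
import Crest.Agent.R183.Z1
import Crest.Agent.R183.Z2

set_option autoImplicit false

/-! # R183 block [8b]: the Hilbert-Samuel function of `K[[x_1..x_d]]` and of finite modules -/

namespace Crest.Agent.R183.Z

open IsLocalRing MvPowerSeries Crest.Agent.R183.M
open scoped Nat

/-- the set of exponents of degree `< N` -/
noncomputable def expo (d N : ℕ) : Finset (Fin d →₀ ℕ) :=
  (Finset.range N).biUnion fun j => Finset.univ.finsuppAntidiag j

theorem mem_expo {d N : ℕ} {α : Fin d →₀ ℕ} : α ∈ expo d N ↔ α.degree < N := by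
  unfold expo
  rw [Finset.mem_biUnion]
  constructor
  · rintro ⟨j, hj, hα⟩
    rw [Finset.mem_finsuppAntidiag] at hα
    rw [Finsupp.degree_eq_sum, hα.1]
    exact Finset.mem_range.1 hj
  · intro h
    refine ⟨α.degree, Finset.mem_range.2 h, ?_⟩
    rw [Finset.mem_finsuppAntidiag, Finsupp.degree_eq_sum]
    exact ⟨rfl, Finset.subset_univ _⟩

theorem card_expo (d N : ℕ) : (expo d N).card = hcount d N := by
  unfold expo hcount
  rw [Finset.card_biUnion]
  · refine Finset.sum_congr rfl fun j _ => ?_
    rw [Finset.card_finsuppAntidiag_nat_eq_multichoose, Finset.card_univ, Fintype.card_fin]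
  · intro i _ j _ hij
    rw [Function.onFun, Finset.disjoint_left]
    intro α h1 h2
    rw [Finset.mem_finsuppAntidiag] at h1 h2
    exact hij (h1.1.symm.trans h2.1)

section

variable {d : ℕ} {F : Type*} [Field F]

theorem maximalIdeal_eq_XI : maximalIdeal (MvPowerSeries (Fin d) F) = XI (Fin d) F := by
  ext f
  rw [IsLocalRing.mem_maximalIdeal, mem_nonunits_iff, MvPowerSeries.isUnit_iff_constantCoeff,
    isUnit_iff_ne_zero, not_not]
  have h := mem_XI_pow_iff (σ := Fin d) (N := 1) (f := f)
  rw [pow_one] at h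
  rw [h]
  constructor
  · intro h0 α hα
    have : α = 0 := by
      have : α.degree = 0 := by omega
      exact (Finsupp.degree_eq_zero_iff α).1 this
    rw [this]
    exact h0
  · intro h0
    exact h0 0 (by simp)

/-- restriction of the coefficients to the exponents of degree `< N` -/
noncomputable def coeffMap (d : ℕ) (F : Type*) [Field F] (N : ℕ) :
    MvPowerSeries (Fin d) F →ₗ[F] (expo d N → F) :=
  LinearMap.pi fun α => coeff α.1

theorem coeffMap_surjective (N : ℕ) : Function.Surjective (coeffMap d F N) := by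
  classical
  intro g
  refine ⟨fun α => if h : α ∈ expo d N then g ⟨α, h⟩ else 0, ?_⟩
  funext α
  change (if h : α.1 ∈ expo d N then g ⟨α.1, h⟩ else 0) = g α
  rw [dif_pos α.2]

theorem coeffMap_ker (N : ℕ) :
    LinearMap.ker (coeffMap d F N) = (XI (Fin d) F ^ N).restrictScalars F := by
  ext f
  rw [LinearMap.mem_ker, Submodule.restrictScalars_mem, mem_XI_pow_iff]
  constructor
  · intro h α hα
    exact congrFun h ⟨α, mem_expo.2 hα⟩
  · intro h
    funext α
    exact h α.1 (mem_expo.1 α.2)

/-- `K[[x]]/(x)^N` as a vector space -/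
noncomputable def quotEquiv (N : ℕ) :
    (MvPowerSeries (Fin d) F ⧸ (XI (Fin d) F ^ N)) ≃ₗ[F] (expo d N → F) :=
  (Submodule.Quotient.restrictScalarsEquiv F (XI (Fin d) F ^ N)).symm.trans
    ((Submodule.quotEquivOfEq _ _ (coeffMap_ker N).symm).trans
      ((coeffMap d F N).quotKerEquivOfSurjective (coeffMap_surjective N)))

theorem length_quot_XI_pow (N : ℕ) :
    Module.length F (MvPowerSeries (Fin d) F ⧸ (XI (Fin d) F ^ N)) = hcount d N := by
  rw [(quotEquiv N).length_eq, Module.length_eq_finrank, Module.finrank_fintype_fun_eq_card,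
    Fintype.card_coe, card_expo]

theorem residue_C_surjective :
    Function.Surjective (fun a : F => residue (MvPowerSeries (Fin d) F)
      (algebraMap F (MvPowerSeries (Fin d) F) a)) := by
  intro y
  obtain ⟨f, rfl⟩ := residue_surjective y
  refine ⟨constantCoeff f, ?_⟩
  change residue _ _ = residue _ _
  rw [← sub_eq_zero, ← map_sub, residue_eq_zero_iff, mem_maximalIdeal, mem_nonunits_iff,
    MvPowerSeries.isUnit_iff_constantCoeff, isUnit_iff_ne_zero, not_not, map_sub]
  simp [MvPowerSeries.algebraMap_apply]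

theorem hs_PS (N : ℕ) : hs (MvPowerSeries (Fin d) F) (MvPowerSeries (Fin d) F) N = hcount d N := by
  rw [hs_self, maximalIdeal_eq_XI, ← length_restrict_eq F residue_C_surjective,
    length_quot_XI_pow]
  rfl

end

end Crest.Agent.R183.Z
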