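import Crest.Agent.R183.Z3

set_option autoImplicit false

/-! # R183 block [8b]: the Hilbert-Samuel function of finite modules over `K[[x_1..x_d]]` -/

namespace Crest.Agent.R183.Z

open IsLocalRing MvPowerSeries Crest.Agent.R183.M Filter
open scoped Nat Topology

section general

variable {R : Type*} [CommRing R] [IsLocalRing R] [IsNoetherianRing R]

theorem exact_pi (R : Type*) [CommRing R] (ρ : ℕ) :
    ∃ (f : (Fin ρ → R) →ₗ[R] (Fin (ρ + 1) → R)) (g : (Fin (ρ + 1) → R) →ₗ[R] R),
      Function.Injective f ∧ Function.Exact f g ∧ Function.Surjective g := by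
  let f : (Fin ρ → R) →ₗ[R] (Fin (ρ + 1) → R) :=
    LinearMap.pi (Fin.cases 0 (fun i => LinearMap.proj i))
  have f0 : ∀ x, f x 0 = 0 := fun x => rfl
  have fs : ∀ x i, f x (Fin.succ i) = x i := fun x i => rfl
  refine ⟨f, LinearMap.proj 0, ?_, ?_, ?_⟩
  · intro x y h
    funext i
    rw [← fs x i, h, fs]
  · intro y
    constructor
    · intro h
      refine ⟨fun i => y i.succ, ?_⟩
      funext i
      refine Fin.cases ?_ ?_ i
      · rw [f0]
        exact h.symm
      · intro j
        rw [fs]
    · rintro ⟨x, rfl⟩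
      exact f0 x
  · intro y
    exact ⟨fun _ => y, rfl⟩

theorem UBf_pi {D : ℕ} {c : ℝ} (h : UBf (hs R R) D c) (ρ : ℕ) :
    UBf (hs R (Fin ρ → R)) D (ρ * c) := by
  induction ρ with
  | zero =>
    have : hs R (Fin 0 → R) = fun _ => 0 := by
      funext N
      unfold hs lenQ
      rw [Module.length_eq_zero]
      rfl
    rw [this]
    simpa using UBf.zero D
  | succ ρ ih =>
    obtain ⟨f, g, hf, hfg, hg⟩ := exact_pi R ρ
    have := UB_of_exact f g hfg hg ih h
    convert this using 1
    push_cast
    ring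

theorem LBf_pi {D : ℕ} {c : ℝ} (h : LBf (hs R R) D c) (ρ : ℕ) :
    LBf (hs R (Fin ρ → R)) D (ρ * c) := by
  induction ρ with
  | zero =>
    simpa using LBf.zero _ D
  | succ ρ ih =>
    obtain ⟨f, g, hf, hfg, hg⟩ := exact_pi R ρ
    have := LB_of_exact f g hf hfg hg ih h
    convert this using 1
    push_cast
    ring

/-- A finite module mapping to `R^ρ` with image containing `D e_i` has multiplicity `≥ ρ e(R)`. -/
theorem LBf_of_map [IsDomain R] {M : Type*} [AddCommGroup M] [Module R M] [Module.Finite R M]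
    {ρ d : ℕ} {c : ℝ} (h : LBf (hs R R) d c) (ph : M →ₗ[R] (Fin ρ → R)) (D : R) (hD : D ≠ 0)
    (hph : ∀ i, ∃ m, ph m = Pi.single i D) : LBf (hs R M) d (ρ * c) := by
  classical
  have hmem : ∀ x : Fin ρ → R, D • x ∈ LinearMap.range ph := by
    intro x
    choose m hm using hph
    refine ⟨∑ i, x i • m i, ?_⟩
    rw [map_sum]
    funext j
    rw [Finset.sum_apply, Finset.sum_eq_single j]
    · rw [map_smul, hm]
      simp [mul_comm]
    · intro i _ hij
      rw [map_smul, hm]
      simp [Pi.single_apply, hij.symm]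
    · intro hj
      exact absurd (Finset.mem_univ j) hj
  let f : (Fin ρ → R) →ₗ[R] LinearMap.range ph :=
    LinearMap.codRestrict (LinearMap.range ph) (LinearMap.lsmul R (Fin ρ → R) D) hmem
  have hf : Function.Injective f := by
    intro x y hxy
    have h1 : D • x = D • y := congrArg Subtype.val hxy
    funext i
    have h2 : D * x i = D * y i := congrFun h1 i
    exact mul_left_cancel₀ hD h2
  have hr : LBf (hs R (LinearMap.range ph)) d (ρ * c) := by
    have := LB_of_exact f (LinearMap.range f).mkQ hf (LinearMap.exact_map_mkQ_range f)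
      (Submodule.mkQ_surjective _) (LBf_pi h ρ) (LBf.zero _ d)
    simpa using this
  refine hr.mono_left fun N => ?_
  have h1 := lenQ_of_surjective ph.rangeRestrict ph.surjective_rangeRestrict (maximalIdeal R ^ N)
  rw [← coe_hs, ← coe_hs] at h1
  exact_mod_cast h1

/-- A finite module with a map from `R^ρ` whose cokernel is killed by a nonzero `D` has
multiplicity `≤ ρ e(R)`. -/
theorem UBf_of_map [IsDomain R] {M : Type*} [AddCommGroup M] [Module R M] [Module.Finite R M]
    {ρ d : ℕ} {c : ℝ} (hdim : ringKrullDim R ≤ d) (h : UBf (hs R R) d c)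
    (ph : (Fin ρ → R) →ₗ[R] M) (D : R) (hD : D ≠ 0)
    (hph : ∀ m, D • m ∈ LinearMap.range ph) : UBf (hs R M) d (ρ * c) := by
  have h0 : UBf (hs R (M ⧸ LinearMap.range ph)) d 0 := by
    apply UB_of_supportDim_lt
    rcases subsingleton_or_nontrivial (M ⧸ LinearMap.range ph) with h1 | h1
    · rw [Module.supportDim_eq_bot_of_subsingleton]
      exact WithBot.bot_lt_coe _
    · rw [Module.supportDim_eq_ringKrullDim_quotient_annihilator]
      have h2 : Ideal.span {D} ≤ Module.annihilator R (M ⧸ LinearMap.range ph) := by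
        rw [Ideal.span_le, Set.singleton_subset_iff, SetLike.mem_coe, Module.mem_annihilator]
        intro m
        obtain ⟨m, rfl⟩ := Submodule.mkQ_surjective _ m
        rw [← map_smul]
        exact (Submodule.Quotient.mk_eq_zero _).2 (hph m)
      have h3 : ringKrullDim (R ⧸ Module.annihilator R (M ⧸ LinearMap.range ph)) ≤
          ringKrullDim (R ⧸ Ideal.span {D}) :=
        ringKrullDim_le_of_surjective (Ideal.Quotient.factor h2) (Ideal.Quotient.factor_surjective h2)
      have h4 := ringKrullDim_quotient_succ_le_of_nonZeroDivisor (mem_nonZeroDivisors_of_ne_zero hD)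
      refine lt_of_le_of_lt h3 ?_
      rcases h5 : ringKrullDim (R ⧸ Ideal.span {D}) with _ | a
      · exact WithBot.bot_lt_coe _
      · rw [h5] at h4
        have h6 : ((a + 1 : ℕ∞) : WithBot ℕ∞) ≤ ((d : ℕ∞) : WithBot ℕ∞) := h4.trans hdim
        have h7 : a + 1 ≤ (d : ℕ∞) := by exact_mod_cast h6
        have h8 : a < (d : ℕ∞) := by
          have h9 : a ≠ ⊤ := by
            rintro rfl
            simp at h7
          exact lt_of_lt_of_le (ENat.lt_add_one_iff h9 |>.2 le_rfl) h7
        have : ((a : ℕ∞) : WithBot ℕ∞) < ((d : ℕ∞) : WithBot ℕ∞) := by exact_mod_cast h8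
        exact this
  have := UB_of_exact ph (LinearMap.range ph).mkQ (LinearMap.exact_map_mkQ_range ph)
      (Submodule.mkQ_surjective _) (UBf_pi h ρ) h0
  simpa using this

end general

section PS

variable (d : ℕ) (F : Type*) [Field F]

theorem LBf_PS : LBf (hs (MvPowerSeries (Fin d) F) (MvPowerSeries (Fin d) F)) d 1 := by
  intro ε hε
  filter_upwards [eventually_ge_atTop 1] with N hN
  rw [hs_PS]
  have h1 := pow_le_factorial_mul_hcount d N hN
  have h2 : ((N : ℝ)) ^ d ≤ (d ! : ℝ) * (hcount d N : ℝ) := by exact_mod_cast h1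
  refine le_trans ?_ h2
  have h3 : 0 ≤ ε * (N : ℝ) ^ d := by positivity
  nlinarith

theorem UBf_PS : UBf (hs (MvPowerSeries (Fin d) F) (MvPowerSeries (Fin d) F)) d 1 := by
  intro ε hε
  have h3 := tendsto_shift_ratio d d
  filter_upwards [(tendsto_order.1 h3).2 (1 + ε) (by linarith), eventually_ge_atTop 1] with N h4 hN
  rw [hs_PS]
  have h1 := factorial_mul_hcount_le d N
  have h2 : (d ! : ℝ) * (hcount d N : ℝ) ≤ (((N + d : ℕ) : ℝ)) ^ d := by exact_mod_cast h1
  refine le_trans h2 ?_
  have hN0 : (0 : ℝ) < (N : ℝ) ^ d := by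
    have : (0 : ℝ) < N := by exact_mod_cast hN
    positivity
  rw [div_lt_iff₀ hN0] at h4
  exact h4.le

theorem ringKrullDim_PS_le : ringKrullDim (MvPowerSeries (Fin d) F) ≤ d := by
  refine (ringKrullDim_le_spanFinrank_maximalIdeal _).trans ?_
  rw [maximalIdeal_eq_XI]
  have : (XI (Fin d) F).spanFinrank ≤ d := by
    unfold XI
    refine (Submodule.spanFinrank_span_le_ncard_of_finite (Set.finite_range _)).trans ?_
    rw [← Set.image_univ]
    refine (Set.ncard_image_le Set.finite_univ).trans ?_
    simp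
  exact_mod_cast this

end PS

end Crest.Agent.R183.Z
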