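import Crest.Agent.R183.Z5
import Crest.Agent.R183.HSLech

set_option autoImplicit false

/-! # R183 block [8b]: the positive characteristic side -/

namespace Crest.Agent.R183.Z

open IsLocalRing MvPowerSeries Crest.Agent.R183.M Filter
open scoped Nat Topology

/-- The inequality of multiplicities for all flat local pairs of dimensions `(d, d)` in
characteristic `p`. -/
def MAINp (p d : ℕ) : Prop :=
  ∀ (R S : Type) [CommRing R] [CommRing S] [IsNoetherianRing R] [IsNoetherianRing S]
    [IsLocalRing R] [IsLocalRing S] [CharP R p] [Algebra R S] [IsLocalHom (algebraMap R S)]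
    [Module.Flat R S], ringKrullDim R = d → ringKrullDim S = d →
    ∃ c : ℝ, UBf (hs R R) d c ∧ LBf (hs S S) d c

section

variable {F : Type} [Field F] {d : ℕ}

/-- power series ring in `d` variables -/
abbrev PS (d : ℕ) (F : Type) [Field F] : Type := MvPowerSeries (Fin d) F

/-- monomials -/
noncomputable def xmon (F : Type) [Field F] {d : ℕ} (α : Fin d →₀ ℕ) : MvPowerSeries (Fin d) F :=
  MvPowerSeries.monomial α 1

/-- truncation: every series is a finite linear combination of monomials of degree `< c` modulo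
`(x)^c` -/
theorem sub_trunc_mem (b : (PS d F)) (c : ℕ) :
    b - ∑ α ∈ expo d c, coeff α b • xmon F α ∈ XI (Fin d) F ^ c := by
  classical
  rw [mem_XI_pow_iff]
  intro β hβ
  rw [map_sub, map_sum, Finset.sum_eq_single β]
  · rw [map_smul, xmon, coeff_monomial_same]
    simp
  · intro α _ hα
    rw [map_smul, xmon, coeff_monomial_ne hα.symm]
    simp
  · intro h
    exact absurd (mem_expo.2 hβ) h

theorem mem_XI_pow_of_mem {b : (PS d F)} {c : ℕ} (h : ∀ α : Fin d →₀ ℕ, α.degree < c → coeff α b = 0) :
    b ∈ XI (Fin d) F ^ c := mem_XI_pow_iff.2 h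

variable {S : Type} [CommRing S] [Algebra (PS d F) S]

/-- `S = V + Q` from the certificates -/
theorem mem_span_add {κ : Type} {ι : Type*} [Fintype κ] (g : κ → S)
    (hg : Submodule.span (PS d F) (Set.range g) = ⊤)
    (σ : ι → S) (Q : Ideal S) (c : ℕ)
    (hc : (XI (Fin d) F ^ c).map (algebraMap (PS d F) S) ≤ Q)
    (hcert : ∀ α ∈ expo d c, ∀ k, ∃ e : ι →₀ F,
      algebraMap (PS d F) S (xmon F α) * g k - e.sum (fun j a => algebraMap (PS d F) S (C a) * σ j) ∈ Q)
    (s : S) : ∃ e : ι →₀ F, s - e.sum (fun j a => algebraMap (PS d F) S (C a) * σ j) ∈ Q := by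
  classical
  have hadd : ∀ s t : S, (∃ e : ι →₀ F, s - e.sum (fun j a => algebraMap (PS d F) S (C a) * σ j) ∈ Q) →
      (∃ e : ι →₀ F, t - e.sum (fun j a => algebraMap (PS d F) S (C a) * σ j) ∈ Q) →
      (∃ e : ι →₀ F, s + t - e.sum (fun j a => algebraMap (PS d F) S (C a) * σ j) ∈ Q) := by
    rintro s t ⟨e, he⟩ ⟨e', he'⟩
    refine ⟨e + e', ?_⟩
    rw [Finsupp.sum_add_index' (by simp) (by intro a b1 b2; rw [map_add, map_add, add_mul])]
    have := Q.add_mem he he'
    convert this using 1
    ring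
  have hzero : ∀ s ∈ Q, (∃ e : ι →₀ F, s - e.sum (fun j a => algebraMap (PS d F) S (C a) * σ j) ∈ Q) := by
    intro s hs
    exact ⟨0, by simpa using hs⟩
  have hsmul : ∀ (a : F) (s : S),
      (∃ e : ι →₀ F, s - e.sum (fun j a => algebraMap (PS d F) S (C a) * σ j) ∈ Q) →
      (∃ e : ι →₀ F, algebraMap (PS d F) S (C a) * s -
        e.sum (fun j a => algebraMap (PS d F) S (C a) * σ j) ∈ Q) := by
    rintro a s ⟨e, he⟩
    refine ⟨a • e, ?_⟩
    rw [Finsupp.sum_smul_index (by simp)]
    have h1 : (e.sum fun j b => algebraMap (PS d F) S (C (a * b)) * σ j) =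
        algebraMap (PS d F) S (C a) * e.sum (fun j a => algebraMap (PS d F) S (C a) * σ j) := by
      rw [Finsupp.mul_sum]
      refine Finsupp.sum_congr fun j _ => ?_
      rw [map_mul, map_mul, mul_assoc]
    rw [h1, ← mul_sub]
    exact Q.mul_mem_left _ he
  have hsum : ∀ {τ : Type} (t : Finset τ) (f : τ → S),
      (∀ i ∈ t, ∃ e : ι →₀ F, f i - e.sum (fun j a => algebraMap (PS d F) S (C a) * σ j) ∈ Q) →
      (∃ e : ι →₀ F, (∑ i ∈ t, f i) - e.sum (fun j a => algebraMap (PS d F) S (C a) * σ j) ∈ Q) := by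
    intro τ t f h
    refine Finset.sum_induction f
      (fun s => ∃ e : ι →₀ F, s - e.sum (fun j a => algebraMap (PS d F) S (C a) * σ j) ∈ Q)
      hadd (hzero 0 Q.zero_mem) h
  have hmem : s ∈ Submodule.span (PS d F) (Set.range g) := by rw [hg]; trivial
  rw [Submodule.mem_span_range_iff_exists_fun] at hmem
  obtain ⟨b, rfl⟩ := hmem
  refine hsum _ _ fun k _ => ?_
  have h1 : b k • g k = (∑ α ∈ expo d c, algebraMap (PS d F) S (C (coeff α (b k))) *
      (algebraMap (PS d F) S (xmon F α) * g k)) +
      algebraMap (PS d F) S (b k - ∑ α ∈ expo d c, coeff α (b k) • xmon F α) * g k := by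
    rw [map_sub, map_sum, sub_mul, Finset.sum_mul, Algebra.smul_def]
    have h2 : ∀ α ∈ expo d c, algebraMap (PS d F) S (coeff α (b k) • xmon F α) * g k =
        algebraMap (PS d F) S (C (coeff α (b k))) * (algebraMap (PS d F) S (xmon F α) * g k) := by
      intro α _
      rw [← mul_assoc, ← map_mul]
      congr 2
      rw [MvPowerSeries.smul_eq_C_mul]
    rw [Finset.sum_congr rfl h2]
    ring
  rw [h1]
  refine hadd _ _ (hsum _ _ fun α hα => hsmul _ _ (hcert α hα k)) (hzero _ ?_)
  exact Q.mul_mem_right _ (hc (Ideal.mem_map_of_mem _ (sub_trunc_mem (b k) c)))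


/-- the length of `S/Q` is at most the number of generators of `S` modulo `Q` over `F` -/
theorem length_le_of_span {L : ℕ} (σ : Fin L → S) (Q : Ideal S)
    (h : ∀ s : S, ∃ e : Fin L →₀ F, s - e.sum (fun j a => algebraMap (PS d F) S (C a) * σ j) ∈ Q) :
    Module.length S (S ⧸ Q) ≤ L := by
  classical
  let _ : Algebra F S := ((algebraMap (PS d F) S).comp (C (σ := Fin d) (R := F))).toAlgebra
  have hsm : ∀ (a : F) (x : S), a • x = algebraMap (PS d F) S (C a) * x := fun a x => by
    rw [Algebra.smul_def]; rfl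
  let ev : (Fin L →₀ F) →ₗ[F] (S ⧸ Q) :=
    ((Q.restrictScalars F).mkQ.comp (Finsupp.linearCombination F σ) :)
  have hev : Function.Surjective ev := by
    intro y
    obtain ⟨s, rfl⟩ := Submodule.mkQ_surjective _ y
    obtain ⟨e, he⟩ := h s
    refine ⟨e, ?_⟩
    have h1 : Finsupp.linearCombination F σ e =
        e.sum (fun j a => algebraMap (PS d F) S (C a) * σ j) := by
      rw [Finsupp.linearCombination_apply]
      exact Finsupp.sum_congr fun j _ => hsm _ _
    rw [← h1] at he
    have h2 : s - Finsupp.linearCombination F σ e ∈ Q.restrictScalars F := he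
    have h3 := (Submodule.Quotient.mk_eq_zero (Q.restrictScalars F)).2 h2
    rw [Submodule.Quotient.mk_sub, sub_eq_zero] at h3
    exact h3.symm
  calc Module.length S (S ⧸ Q) ≤ Module.length F (S ⧸ Q) := length_le_length_restrict F
    _ ≤ Module.length F (Fin L →₀ F) := Module.length_le_of_surjective ev hev
    _ = L := by
        rw [(Finsupp.linearEquivFunOnFinite F F (Fin L)).length_eq, Module.length_eq_finrank,
          Module.finrank_fintype_fun_eq_card, Fintype.card_fin]

end

end Crest.Agent.R183.Z
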