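import Crest.Agent.R183.Z6

set_option autoImplicit false

/-! # R183 block [8b]: the positive characteristic side, assembled -/

namespace Crest.Agent.R183.Z

open IsLocalRing MvPowerSeries Crest.Agent.R183.M Crest.Agent.R183.HS Filter
open scoped Nat Topology

variable {F : Type} [Field F] {d : ℕ}

instance isDomain_PS (d : ℕ) (F : Type*) [Field F] : IsDomain (MvPowerSeries (Fin d) F) :=
  NoZeroDivisors.to_isDomain _

theorem map_XI_eq {S : Type} [CommRing S] [Algebra (PS d F) S] :
    (maximalIdeal (PS d F)).map (algebraMap (PS d F) S) =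
      Ideal.span (Set.range fun i => algebraMap (PS d F) S (X i)) := by
  rw [maximalIdeal_eq_XI, XI, Ideal.map_span, ← Set.range_comp]
  rfl

/-- local structure from a finite family of generators -/
theorem local_of_cert {S : Type} [CommRing S] [Nontrivial S] [Algebra (PS d F) S]
    [Module.Finite (PS d F) S] {κ : Type} [Fintype κ] (g : κ → S)
    (hg : Submodule.span (PS d F) (Set.range g) = ⊤) (a : κ → F) (n : Ideal S)
    (hgn : ∀ k, g k - algebraMap (PS d F) S (C (a k)) ∈ n)
    (hxn : ∀ i, algebraMap (PS d F) S (X i) ∈ n) (c : ℕ)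
    (hn : n ^ c ≤ Ideal.span (Set.range fun i => algebraMap (PS d F) S (X i))) :
    ∃ _ : IsLocalRing S, maximalIdeal S = n ∧
      Function.Surjective (fun b : PS d F => residue S (algebraMap (PS d F) S b)) := by
  have h1 : ∀ r : S, ∃ b : PS d F, r - algebraMap (PS d F) S b ∈ n := by
    intro r
    have hmem : r ∈ Submodule.span (PS d F) (Set.range g) := by rw [hg]; trivial
    rw [Submodule.mem_span_range_iff_exists_fun] at hmem
    obtain ⟨b, rfl⟩ := hmem
    refine ⟨∑ k, b k * C (a k), ?_⟩
    rw [map_sum, ← Finset.sum_sub_distrib]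
    refine Ideal.sum_mem _ fun k _ => ?_
    rw [Algebra.smul_def, map_mul, ← mul_sub]
    exact n.mul_mem_left _ (hgn k)
  have h3 : (maximalIdeal (PS d F)).map (algebraMap (PS d F) S) ≤ n := by
    rw [map_XI_eq, Ideal.span_le]
    rintro _ ⟨i, rfl⟩
    exact hxn i
  obtain ⟨hloc, hmax⟩ := isLocalRing_of_gen n h1 c (by rw [map_XI_eq]; exact hn) h3
  refine ⟨hloc, hmax, fun y => ?_⟩
  obtain ⟨r, rfl⟩ := residue_surjective y
  obtain ⟨b, hb⟩ := h1 r
  refine ⟨b, ?_⟩
  change residue S _ = residue S r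
  rw [← hmax] at hb
  rw [eq_comm, ← sub_eq_zero, ← map_sub, residue_eq_zero_iff]
  exact hb

theorem Fside {p : ℕ} [CharP F p] (hp : MAINp p d) {R S : Type} [CommRing R] [CommRing S]
    [Algebra (PS d F) R] [Algebra (PS d F) S] [Algebra R S] [IsScalarTower (PS d F) R S]
    [Module.Free R S] [Module.Finite R S] [Nontrivial S]
    {κ κ' : Type} [Fintype κ] [Fintype κ'] (v : κ → R)
    (hv : Submodule.span (PS d F) (Set.range v) = ⊤) (a : κ → F) (m : Ideal R)
    (hvm : ∀ k, v k - algebraMap (PS d F) R (C (a k)) ∈ m)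
    (hxm : ∀ i, algebraMap (PS d F) R (X i) ∈ m) (t : ℕ)
    (hm : m ^ (t + 1) ≤ Ideal.span (Set.range fun i => algebraMap (PS d F) R (X i)) * m ^ t)
    {ρ : ℕ} (hρ : 0 < ρ) (ph : R →ₗ[PS d F] (Fin ρ → PS d F)) (D : PS d F) (hD : D ≠ 0)
    (hph : ∀ i, ∃ r, ph r = Pi.single i D)
    (g : κ' → S) (hg : Submodule.span (PS d F) (Set.range g) = ⊤) (a' : κ' → F) (n : Ideal S)
    (hgn : ∀ k, g k - algebraMap (PS d F) S (C (a' k)) ∈ n)
    (hxn : ∀ i, algebraMap (PS d F) S (X i) ∈ n) (c : ℕ)
    (hn : n ^ c ≤ Ideal.span (Set.range fun i => algebraMap (PS d F) S (X i)))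
    (y : Fin d → S) (hy : ∀ i, y i ∈ n) (q : ℕ) (hq : 0 < q) (c' : ℕ)
    (hc' : (XI (Fin d) F ^ c').map (algebraMap (PS d F) S) ≤
      Ideal.span (Set.range fun i => y i ^ q))
    {L : ℕ} (σ : Fin L → S)
    (hcert : ∀ α ∈ expo d c', ∀ k, ∃ e : Fin L →₀ F,
      algebraMap (PS d F) S (xmon F α) * g k -
        e.sum (fun j a => algebraMap (PS d F) S (C a) * σ j) ∈
        Ideal.span (Set.range fun i => y i ^ q)) :
    (ρ : ℝ) ≤ (L : ℝ) / (q : ℝ) ^ d := by
  classical
  -- finiteness and nontriviality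
  have hfinR : Module.Finite (PS d F) R := by
    refine ⟨⟨Finset.univ.image v, ?_⟩⟩
    rw [Finset.coe_image, Finset.coe_univ, Set.image_univ]
    exact hv
  have hfinS : Module.Finite (PS d F) S := by
    refine ⟨⟨Finset.univ.image g, ?_⟩⟩
    rw [Finset.coe_image, Finset.coe_univ, Set.image_univ]
    exact hg
  have hnR : Nontrivial R := by
    obtain ⟨r, hr⟩ := hph ⟨0, hρ⟩
    refine ⟨⟨r, 0, ?_⟩⟩
    rintro rfl
    rw [map_zero] at hr
    have := congrFun hr ⟨0, hρ⟩
    simp at this
    exact hD this.symm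
  have hNR : IsNoetherianRing R := IsNoetherianRing.of_finite (PS d F) R
  have hNS : IsNoetherianRing S := IsNoetherianRing.of_finite (PS d F) S
  have hcR : CharP R p :=
    charP_of_injective_ringHom (((algebraMap (PS d F) R).comp (C (σ := Fin d) (R := F))).injective) p
  -- local structure
  have hm' : m ^ (t + 1) ≤ Ideal.span (Set.range fun i => algebraMap (PS d F) R (X i)) :=
    hm.trans Ideal.mul_le_left
  obtain ⟨hlR, hmR, hresR⟩ := local_of_cert v hv a m hvm hxm (t + 1) hm'
  obtain ⟨hlS, hmS, hresS⟩ := local_of_cert g hg a' n hgn hxn c hn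
  have hlh : IsLocalHom (algebraMap R S) := by
    have h1 := Ideal.isMaximal_comap_of_isIntegral_of_isMaximal (R := R) (maximalIdeal S)
    exact ((local_hom_TFAE (algebraMap R S)).out 4 0).1 (IsLocalRing.eq_maximalIdeal h1)
  -- lower bound for R
  have hmap := map_XI_eq (F := F) (d := d) (S := R)
  have hLB : LBf (hs R R) d ρ := by
    have h1 : LBf (hs (PS d F) R) d ρ := by
      have := LBf_of_map (LBf_PS d F) ph D hD hph
      rwa [mul_one] at this
    refine h1.of_shift t (Eventually.of_forall fun N => ?_)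
    refine hs_le_shift hresR ?_ N
    rw [hmap, hmR]
    exact hm
  have hdimR : ringKrullDim R = d := by
    apply le_antisymm
    · refine ringKrullDim_le_of_minred (fun i => algebraMap (PS d F) R (X i)) (t + 1) ?_ ?_
      · rw [hmR]; exact hm'
      · intro i; rw [hmR]; exact hxm i
    · exact le_ringKrullDim_of_LBf (by exact_mod_cast hρ) hLB
  have hdimS : ringKrullDim S = d := by
    apply le_antisymm
    · refine ringKrullDim_le_of_minred (fun i => algebraMap (PS d F) S (X i)) c ?_ ?_
      · rw [hmS]; exact hn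
      · intro i; rw [hmS]; exact hxn i
    · rw [← hdimR, ← IsLocalRing.maximalIdeal_height_eq_ringKrullDim,
        ← IsLocalRing.maximalIdeal_height_eq_ringKrullDim]
      have hcomap : (maximalIdeal S).comap (algebraMap R S) = maximalIdeal R :=
        ((local_hom_TFAE (algebraMap R S)).out 0 4).1 hlh
      have hlo : (maximalIdeal S).LiesOver (maximalIdeal R) := ⟨hcomap.symm⟩
      have := Ideal.height_eq_height_add_of_liesOver_of_hasGoingDown (maximalIdeal R)
        (maximalIdeal S)
      rw [this]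
      exact WithBot.coe_le_coe.2 le_self_add
  obtain ⟨e, heR, heS⟩ := hp R S hdimR hdimS
  have h1 : (ρ : ℝ) ≤ e := hLB.le_of_UBf heR
  -- upper bound for S
  set Q : Ideal S := Ideal.span (Set.range fun i => y i ^ q) with hQ
  have hlen : Module.length S (S ⧸ Q) ≤ L :=
    length_le_of_span σ Q (mem_span_add g hg σ Q c' hc' hcert)
  have hQy : Q ≤ Ideal.span (Set.range y) := by
    rw [hQ, Ideal.span_le]
    rintro _ ⟨i, rfl⟩
    exact Ideal.pow_mem_of_mem _ (Ideal.subset_span (Set.mem_range_self i)) q hq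
  have hny : maximalIdeal S ^ (c * c') ≤ Ideal.span (Set.range y) := by
    rw [hmS, pow_mul]
    refine le_trans (Ideal.pow_right_mono hn c') ?_
    rw [← map_XI_eq (F := F) (d := d), maximalIdeal_eq_XI, ← Ideal.map_pow]
    exact hc'.trans hQy
  have hub := UB_quot_pow y (fun i => by rw [hmS]; exact hy i) hny hq
  have h2 := heS.le_of_UBf hub
  refine h1.trans (h2.trans ?_)
  have h3 : ((Module.length S (S ⧸ Q)).toNat : ℝ) ≤ L := by
    have : (Module.length S (S ⧸ Q)).toNat ≤ L := by
      have := ENat.toNat_le_toNat hlen (ENat.natCast_ne_top L)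
      simpa using this
    exact_mod_cast this
  gcongr

end Crest.Agent.R183.Z
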