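import Crest.Agent.R183.Z7
import Mathlib.LinearAlgebra.TensorProduct.Basis

set_option autoImplicit false

/-! # R183 block [8b]: from the certificates over `A` to the positive characteristic side -/

namespace Crest.Agent.R183.Z

open IsLocalRing MvPowerSeries Crest.Agent.R183.M Crest.Agent.R183.HS Filter TensorProduct
open scoped Nat Topology

variable {F : Type} [Field F] {d : ℕ}

theorem xmon_eq (α : Fin d →₀ ℕ) : xmon F α = ∏ i, (X i : PS d F) ^ α i := by
  rw [xmon, MvPowerSeries.monomial_one_eq, Finsupp.prod_fintype]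
  intro i
  exact pow_zero _

theorem Sstep {p : ℕ} [CharP F p] (hp : MAINp p d) {RA SA RF : Type} [CommRing RA] [CommRing SA]
    [CommRing RF] [Algebra RA SA] [Algebra RA RF] [Algebra (PS d F) RF]
    {κ J : Type} [Fintype κ] [Fintype J] [Nonempty J] (v0 : κ → RA)
    (hv : Submodule.span (PS d F) (Set.range fun k => algebraMap RA RF (v0 k)) = ⊤)
    (a : κ → F) (m : Ideal RF)
    (hvm : ∀ k, algebraMap RA RF (v0 k) - algebraMap (PS d F) RF (C (a k)) ∈ m)
    (hxm : ∀ i, algebraMap (PS d F) RF (X i) ∈ m) (t : ℕ)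
    (hm : m ^ (t + 1) ≤ Ideal.span (Set.range fun i => algebraMap (PS d F) RF (X i)) * m ^ t)
    {ρ : ℕ} (hρ : 0 < ρ) (ph : RF →ₗ[PS d F] (Fin ρ → PS d F)) (D : PS d F) (hD : D ≠ 0)
    (hph : ∀ i, ∃ r, ph r = Pi.single i D)
    (x0 : Fin d → RA) (hx0 : ∀ i, algebraMap RA RF (x0 i) = algebraMap (PS d F) RF (X i))
    (b : Module.Basis J RA SA) (a' : κ → J → RA)
    (ha' : ∀ k j, ∃ z : F, algebraMap RA RF (a' k j) = algebraMap (PS d F) RF (C z))
    (n : Ideal SA) (hgn : ∀ k j, v0 k • b j - algebraMap RA SA (a' k j) ∈ n)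
    (hxn : ∀ i, algebraMap RA SA (x0 i) ∈ n) (c : ℕ)
    (hn : n ^ c ≤ Ideal.span (Set.range fun i => algebraMap RA SA (x0 i)))
    (y : Fin d → SA) (hy : ∀ i, y i ∈ n) (q : ℕ) (hq : 0 < q) (c' : ℕ)
    (hc' : (Ideal.span (Set.range fun i => algebraMap RA SA (x0 i))) ^ c' ≤
      Ideal.span (Set.range fun i => y i ^ q))
    {L : ℕ} (σ : Fin L → SA)
    (hcert : ∀ α ∈ expo d c', ∀ k j, ∃ e : Fin L → RA,
      (∀ l, ∃ z : F, algebraMap RA RF (e l) = algebraMap (PS d F) RF (C z)) ∧
      algebraMap RA SA (∏ i, x0 i ^ α i) * (v0 k • b j) - ∑ l, e l • σ l ∈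
        Ideal.span (Set.range fun i => y i ^ q)) :
    (ρ : ℝ) ≤ (L : ℝ) / (q : ℝ) ^ d := by
  classical
  have hnR : Nontrivial RF := by
    obtain ⟨r, hr⟩ := hph ⟨0, hρ⟩
    refine ⟨⟨r, 0, ?_⟩⟩
    rintro rfl
    rw [map_zero] at hr
    have := congrFun hr ⟨0, hρ⟩
    simp at this
    exact hD this.symm
  let bF : Module.Basis J RF (RF ⊗[RA] SA) := b.baseChange RF
  have hbF : ∀ j, bF j = 1 ⊗ₜ b j := fun j => Module.Basis.baseChange_apply RF b j
  have hfree : Module.Free RF (RF ⊗[RA] SA) := Module.Free.of_basis bF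
  have hfin : Module.Finite RF (RF ⊗[RA] SA) := Module.Finite.of_basis bF
  have hnt : Nontrivial (RF ⊗[RA] SA) := by
    obtain ⟨j⟩ := ‹Nonempty J›
    exact ⟨⟨bF j, 0, bF.ne_zero j⟩⟩
  have htow : IsScalarTower (PS d F) RF (RF ⊗[RA] SA) := inferInstance
  have hmapP : ∀ z : PS d F, algebraMap (PS d F) (RF ⊗[RA] SA) z =
      algebraMap RF (RF ⊗[RA] SA) (algebraMap (PS d F) RF z) := fun z => rfl
  let jS : SA →+* RF ⊗[RA] SA := (Algebra.TensorProduct.includeRight : SA →ₐ[RA] RF ⊗[RA] SA)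
  have hjS : ∀ s, jS s = 1 ⊗ₜ s := fun s => rfl
  have hkey : ∀ r : RA, jS (algebraMap RA SA r) =
      algebraMap RF (RF ⊗[RA] SA) (algebraMap RA RF r) := by
    intro r
    have h1 : jS (algebraMap RA SA r) = algebraMap RA (RF ⊗[RA] SA) r :=
      (Algebra.TensorProduct.includeRight : SA →ₐ[RA] RF ⊗[RA] SA).commutes r
    rw [h1]
    exact IsScalarTower.algebraMap_apply RA RF (RF ⊗[RA] SA) r
  have hkx : ∀ i, jS (algebraMap RA SA (x0 i)) = algebraMap (PS d F) (RF ⊗[RA] SA) (X i) := by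
    intro i
    rw [hkey, hx0, hmapP]
  choose z hz using ha'
  refine Fside hp (fun k => algebraMap RA RF (v0 k)) hv a m hvm hxm t hm hρ ph D hD hph
    (fun kj : κ × J => jS (v0 kj.1 • b kj.2)) ?_ (fun kj => z kj.1 kj.2) (n.map jS) ?_ ?_ c ?_
    (fun i => jS (y i)) ?_ q hq c' ?_ (fun l => jS (σ l)) ?_
  · -- generation
    rw [eq_top_iff]
    rintro s -
    rw [← bF.sum_repr s]
    refine Submodule.sum_mem _ fun j _ => ?_
    have h1 : (bF.repr s j) ∈ Submodule.span (PS d F) (Set.range fun k => algebraMap RA RF (v0 k)) := by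
      rw [hv]; trivial
    rw [Submodule.mem_span_range_iff_exists_fun] at h1
    obtain ⟨e, he⟩ := h1
    rw [← he, Finset.sum_smul]
    refine Submodule.sum_mem _ fun k _ => ?_
    have h2 : (e k • algebraMap RA RF (v0 k)) • bF j = e k • jS (v0 k • b j) := by
      rw [Algebra.smul_def (v0 k) (b j), map_mul, hkey, hjS, hbF]
      rw [smul_assoc, Algebra.smul_def (algebraMap RA RF (v0 k))]
    rw [h2]
    exact Submodule.smul_mem _ _ (Submodule.subset_span ⟨(k, j), rfl⟩)
  · -- constants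
    rintro ⟨k, j⟩
    have := Ideal.mem_map_of_mem jS (hgn k j)
    rw [map_sub, hkey, hz] at this
    exact this
  · intro i
    have := Ideal.mem_map_of_mem jS (hxn i)
    rwa [hkx] at this
  · have := Ideal.map_mono (f := jS) hn
    rw [Ideal.map_pow, Ideal.map_span, ← Set.range_comp] at this
    refine this.trans (le_of_eq ?_)
    congr 2
    funext i
    exact hkx i
  · intro i
    exact Ideal.mem_map_of_mem jS (hy i)
  · have := Ideal.map_mono (f := jS) hc'
    rw [Ideal.map_pow, Ideal.map_span, Ideal.map_span, ← Set.range_comp, ← Set.range_comp] at this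
    rw [Ideal.map_pow, ← maximalIdeal_eq_XI, map_XI_eq]
    have e1 : (jS ∘ fun i => algebraMap RA SA (x0 i)) =
        fun i => algebraMap (PS d F) (RF ⊗[RA] SA) (X i) := funext hkx
    have e2 : (jS ∘ fun i => y i ^ q) = fun i => jS (y i) ^ q := funext fun i => map_pow jS _ _
    rw [e1, e2] at this
    exact this
  · rintro α hα ⟨k, j⟩
    obtain ⟨e, he, he'⟩ := hcert α hα k j
    choose w hw using he
    refine ⟨Finsupp.equivFunOnFinite.symm w, ?_⟩
    have h1 := Ideal.mem_map_of_mem jS he'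
    rw [Ideal.map_span, ← Set.range_comp] at h1
    have e2 : (jS ∘ fun i => y i ^ q) = fun i => jS (y i) ^ q := funext fun i => map_pow jS _ _
    rw [e2, map_sub, map_mul, hkey, map_sum, map_prod, map_prod] at h1
    rw [Finsupp.sum_fintype _ _ (by simp)]
    convert h1 using 2
    · congr 1
      rw [xmon_eq, map_prod]
      refine Finset.prod_congr rfl fun i _ => ?_
      rw [map_pow, map_pow, map_pow, hx0, hmapP]
    · refine Finset.sum_congr rfl fun l _ => ?_
      rw [Algebra.smul_def, map_mul, hkey, hw, hmapP]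
      rfl

end Crest.Agent.R183.Z
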