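import Crest.Agent.R183.Z8

set_option autoImplicit false

/-! # R183 block [8b]: from the certificates over `A` to the positive characteristic side, II -/

namespace Crest.Agent.R183.Z

open IsLocalRing MvPowerSeries Crest.Agent.R183.M Crest.Agent.R183.HS Filter TensorProduct
open scoped Nat Topology

variable {F : Type} [Field F] {d : ℕ}

theorem Astep {p : ℕ} [CharP F p] (hp : MAINp p d) {A RA SA : Type} [CommRing A] [CommRing RA]
    [CommRing SA] [Algebra A (PS d F)] [Algebra A RA] [Algebra RA SA]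
    {κ J : Type} [Fintype κ] [Fintype J] [Nonempty J]
    (x : Fin d → A) (hx : ∀ i, algebraMap A (PS d F) (x i) = X i)
    (v0 : κ → RA) (hv : Submodule.span A (Set.range v0) = ⊤)
    (a : κ → A) (ha : ∀ k, ∃ z : F, algebraMap A (PS d F) (a k) = C z) (m : Ideal RA)
    (hvm : ∀ k, v0 k - algebraMap A RA (a k) ∈ m)
    (hxm : ∀ i, algebraMap A RA (x i) ∈ m) (t : ℕ)
    (hm : m ^ (t + 1) ≤ Ideal.span (Set.range fun i => algebraMap A RA (x i)) * m ^ t)
    {ρ : ℕ} (hρ : 0 < ρ) (lam : RA →ₗ[A] (Fin ρ → A)) (D : A) (hD : algebraMap A (PS d F) D ≠ 0)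
    (hlam : ∀ i, ∃ r, lam r = Pi.single i D)
    (b : Module.Basis J RA SA) (a' : κ → J → A)
    (ha' : ∀ k j, ∃ z : F, algebraMap A (PS d F) (a' k j) = C z)
    (n : Ideal SA) (hgn : ∀ k j, v0 k • b j - algebraMap RA SA (algebraMap A RA (a' k j)) ∈ n)
    (hxn : ∀ i, algebraMap RA SA (algebraMap A RA (x i)) ∈ n) (c : ℕ)
    (hn : n ^ c ≤ Ideal.span (Set.range fun i => algebraMap RA SA (algebraMap A RA (x i))))
    (y : Fin d → SA) (hy : ∀ i, y i ∈ n) (q : ℕ) (hq : 0 < q) (c' : ℕ)
    (hc' : (Ideal.span (Set.range fun i => algebraMap RA SA (algebraMap A RA (x i)))) ^ c' ≤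
      Ideal.span (Set.range fun i => y i ^ q))
    {L : ℕ} (σ : Fin L → SA)
    (hcert : ∀ α ∈ expo d c', ∀ k j, ∃ e : Fin L → A,
      (∀ l, ∃ z : F, algebraMap A (PS d F) (e l) = C z) ∧
      algebraMap RA SA (algebraMap A RA (∏ i, x i ^ α i)) * (v0 k • b j) -
        ∑ l, algebraMap A RA (e l) • σ l ∈ Ideal.span (Set.range fun i => y i ^ q)) :
    (ρ : ℝ) ≤ (L : ℝ) / (q : ℝ) ^ d := by
  classical
  let _ : Algebra RA (PS d F ⊗[A] RA) := Algebra.TensorProduct.rightAlgebra
  have hright : ∀ r : RA, algebraMap RA (PS d F ⊗[A] RA) r = 1 ⊗ₜ r := fun r => rfl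
  have hkey : ∀ r : A, algebraMap RA (PS d F ⊗[A] RA) (algebraMap A RA r) =
      algebraMap (PS d F) (PS d F ⊗[A] RA) (algebraMap A (PS d F) r) := by
    intro r
    have h1 : algebraMap RA (PS d F ⊗[A] RA) (algebraMap A RA r) =
        algebraMap A (PS d F ⊗[A] RA) r :=
      (Algebra.TensorProduct.includeRight : RA →ₐ[A] PS d F ⊗[A] RA).commutes r
    rw [h1]
    exact IsScalarTower.algebraMap_apply A (PS d F) (PS d F ⊗[A] RA) r
  choose z hz using ha
  choose z' hz' using ha'
  -- the linear map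
  let l1 : RA →ₗ[A] (Fin ρ → PS d F) :=
    LinearMap.pi fun i => (Algebra.linearMap A (PS d F)).comp ((LinearMap.proj i).comp lam)
  have hl1 : ∀ r i, l1 r i = algebraMap A (PS d F) (lam r i) := fun r i => rfl
  let ph : (PS d F ⊗[A] RA) →ₗ[PS d F] (Fin ρ → PS d F) := LinearMap.liftBaseChange (PS d F) l1
  refine Sstep hp v0 ?_ z (m.map (algebraMap RA (PS d F ⊗[A] RA))) ?_ ?_ t ?_ hρ ph
    (algebraMap A (PS d F) D) hD ?_ (fun i => algebraMap A RA (x i)) ?_ b
    (fun k j => algebraMap A RA (a' k j)) ?_ n hgn hxn c hn y hy q hq c' hc' σ ?_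
  · -- generation
    rw [eq_top_iff]
    rintro s -
    induction s using TensorProduct.induction_on with
    | zero => exact Submodule.zero_mem _
    | add s1 s2 h1 h2 => exact Submodule.add_mem _ h1 h2
    | tmul f r =>
      have h1 : r ∈ Submodule.span A (Set.range v0) := by rw [hv]; trivial
      rw [Submodule.mem_span_range_iff_exists_fun] at h1
      obtain ⟨e, rfl⟩ := h1
      rw [TensorProduct.tmul_sum]
      refine Submodule.sum_mem _ fun k _ => ?_
      have h2 : f ⊗ₜ[A] (e k • v0 k) = (f * algebraMap A (PS d F) (e k)) •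
          algebraMap RA (PS d F ⊗[A] RA) (v0 k) := by
        rw [hright, TensorProduct.smul_tmul', TensorProduct.tmul_smul, TensorProduct.smul_tmul']
        congr 1
        rw [Algebra.smul_def, smul_eq_mul, mul_one, mul_comm]
      rw [h2]
      exact Submodule.smul_mem _ _ (Submodule.subset_span ⟨k, rfl⟩)
  · intro k
    have := Ideal.mem_map_of_mem (algebraMap RA (PS d F ⊗[A] RA)) (hvm k)
    rwa [map_sub, hkey, hz] at this
  · intro i
    have := Ideal.mem_map_of_mem (algebraMap RA (PS d F ⊗[A] RA)) (hxm i)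
    rwa [hkey, hx] at this
  · have := Ideal.map_mono (f := algebraMap RA (PS d F ⊗[A] RA)) hm
    rw [Ideal.map_pow, Ideal.map_mul, Ideal.map_span, ← Set.range_comp, Ideal.map_pow] at this
    have e1 : (algebraMap RA (PS d F ⊗[A] RA) ∘ fun i => algebraMap A RA (x i)) =
        fun i => algebraMap (PS d F) (PS d F ⊗[A] RA) (X i) := by
      funext i
      change algebraMap RA (PS d F ⊗[A] RA) (algebraMap A RA (x i)) = _
      rw [hkey, hx]
    rwa [e1] at this
  · intro i
    obtain ⟨r, hr⟩ := hlam i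
    refine ⟨1 ⊗ₜ r, ?_⟩
    rw [LinearMap.liftBaseChange_tmul, one_smul]
    funext j
    rw [hl1, hr]
    by_cases hij : j = i
    · subst hij
      simp
    · simp [Pi.single_eq_of_ne hij]
  · intro i
    rw [hkey, hx]
  · intro k j
    exact ⟨z' k j, by rw [hkey, hz']⟩
  · intro α hα k j
    obtain ⟨e, he, he'⟩ := hcert α hα k j
    refine ⟨fun l => algebraMap A RA (e l), fun l => ?_, ?_⟩
    · obtain ⟨w, hw⟩ := he l
      exact ⟨w, by rw [hkey, hw]⟩
    · rw [map_prod] at he'
      simp only [map_pow] at he'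
      exact he'

end Crest.Agent.R183.Z
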